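import Vale.Agent.P161.Symm
import Vale.Agent.P161.Swap

/-!
# From approximating equivariant magnetisations to a factor of IID

A family of bounded equivariant functions of independent noises on the ordered edges, precompact in
`L¹` and with the right limiting joint moments, gives the free Ising measure as a factor of IID.
-/

namespace Vale.Agent.P161

open SimpleGraph MeasureTheory ProbabilityTheory Filter
open scoped Classical Topology ENNReal

/-- The type of labels. -/
abbrev UI : Type := unitInterval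

/-- Noises on ordered pairs of vertices. -/
abbrev ENoise (V : Type*) := V × V → NIdx → ℝ

/-- The law of independent noises. -/
noncomputable def eLaw (V : Type*) : Measure (ENoise V) :=
  Measure.infinitePi fun _ : V × V => stdNoise

instance {V : Type*} : IsProbabilityMeasure (eLaw V) := by unfold eLaw; infer_instance

variable {V : Type*} {G : SimpleGraph V} {d : ℕ}

/-- The action of an automorphism on noises. -/
def moveE (g : G ≃g G) (ω : ENoise V) : ENoise V := fun a => ω (g.symm a.1, g.symm a.2)

/-! ## Precompactness in `L¹` -/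

/-- Lipschitz functions with a common bound fall into finitely many classes of small diameter. -/
theorem exists_lip_code {m : ℕ} (ν : Measure (Fin m → ℝ)) [IsProbabilityMeasure ν] (L : ℝ)
    {ε : ℝ} (hε : 0 < ε) :
    ∃ (N : ℕ) (t : Finset (Fin m → ℝ)) (c : ((Fin m → ℝ) → ℝ) → t → Fin (N + 1)),
      ∀ F F' : (Fin m → ℝ) → ℝ, Measurable F → Measurable F' → (∀ y, |F y| ≤ 1) →
        (∀ y, |F' y| ≤ 1) → (∀ y y', |F y - F y'| ≤ L * ∑ i, |y i - y' i|) →
        (∀ y y', |F' y - F' y'| ≤ L * ∑ i, |y i - y' i|) → c F = c F' →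
        ∫ y, |F y - F' y| ∂ν ≤ ε := by
  obtain ⟨K, -, hK, hKν⟩ := MeasurableSet.exists_isCompact_sdiff_lt
    (μ := ν) MeasurableSet.univ (measure_ne_top _ _)
    (ε := ENNReal.ofReal (ε / 8)) (by simpa using hε)
  have hKc : ν.real Kᶜ ≤ ε / 8 := by
    refine ENNReal.toReal_le_of_le_ofReal (by linarith) ?_
    rw [Set.compl_eq_univ_sdiff]
    exact hKν.le
  set a := ε / 8 with ha
  set ρ := a / (|L| * m + 1) with hρdef
  have hρ : 0 < ρ := by positivity
  obtain ⟨t, -, htf, htc⟩ := finite_cover_balls_of_compact hK hρ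
  set N := ⌈2 / a⌉₊ with hN
  refine ⟨N, htf.toFinset, fun F p => ⟨min ⌊(F p + 1) / a⌋₊ N, by omega⟩, ?_⟩
  intro F F' hFm hFm' hF hF' hL hL' hc
  have hnear : ∀ y ∈ K, |F y - F' y| ≤ ε / 8 * 3 := by
    intro y hy
    obtain ⟨p, hp, hyp⟩ := Set.mem_iUnion₂.mp (htc hy)
    have hsum : ∀ H : (Fin m → ℝ) → ℝ, (∀ y y', |H y - H y'| ≤ L * ∑ i, |y i - y' i|) →
        |H y - H p| ≤ a := by
      intro H hH
      have h1 : ∑ i, |y i - p i| ≤ m * ρ := by
        calc ∑ i, |y i - p i| ≤ ∑ _i : Fin m, ρ := Finset.sum_le_sum fun i _ => by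
              have := (dist_le_pi_dist y p i).trans (Metric.mem_ball.mp hyp).le
              rwa [Real.dist_eq] at this
          _ = m * ρ := by simp
      have h2 : (|L| * m + 1) * ρ = a := by rw [hρdef]; field_simp
      have h0 : 0 ≤ ∑ i, |y i - p i| := Finset.sum_nonneg fun _ _ => abs_nonneg _
      nlinarith [hH y p, le_abs_self L, abs_nonneg L]
    have hfl : ⌊(F p + 1) / a⌋₊ = ⌊(F' p + 1) / a⌋₊ := by
      have hb : ∀ H : (Fin m → ℝ) → ℝ, (∀ y, |H y| ≤ 1) → ⌊(H p + 1) / a⌋₊ ≤ N := by
        intro H hH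
        refine (Nat.floor_le_floor ?_).trans (Nat.floor_le_ceil _)
        exact div_le_div_of_nonneg_right (by linarith [(abs_le.mp (hH p)).2]) (by positivity)
      have := congrArg Fin.val (congrFun hc ⟨p, htf.mem_toFinset.mpr hp⟩)
      simpa [min_eq_left (hb F hF), min_eq_left (hb F' hF')] using this
    have hpp : |F p - F' p| ≤ a := by
      have e1 := Nat.floor_le (show 0 ≤ (F p + 1) / a from
        div_nonneg (by linarith [(abs_le.mp (hF p)).1]) (by positivity))
      have e2 := Nat.lt_floor_add_one ((F p + 1) / a)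
      have e3 := Nat.floor_le (show 0 ≤ (F' p + 1) / a from
        div_nonneg (by linarith [(abs_le.mp (hF' p)).1]) (by positivity))
      have e4 := Nat.lt_floor_add_one ((F' p + 1) / a)
      rw [hfl] at e1 e2
      have ha0 : 0 < a := by positivity
      rw [abs_le]
      rw [le_div_iff₀ ha0] at e1 e3
      rw [div_lt_iff₀ ha0] at e2 e4
      constructor <;> nlinarith
    calc |F y - F' y| ≤ |F y - F p| + |F p - F' y| := abs_sub_le _ _ _
      _ ≤ |F y - F p| + (|F p - F' p| + |F' p - F' y|) := by gcongr; exact abs_sub_le _ _ _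
      _ ≤ a + (a + a) := by
          gcongr
          · exact hsum F hL
          · rw [abs_sub_comm]; exact hsum F' hL'
      _ = _ := by rw [ha]; ring
  have hKm := hK.measurableSet
  have hI : Integrable (fun y => |F y - F' y|) ν :=
    Integrable.of_bound ((hFm.sub hFm').abs).aestronglyMeasurable 2 (ae_of_all _ fun y => by
      rw [Real.norm_eq_abs, abs_abs]
      exact (abs_sub _ _).trans (by linarith [hF y, hF' y]))
  rw [← integral_add_compl hKm hI]
  have i1 : ∫ y in K, |F y - F' y| ∂ν ≤ ε / 8 * 3 := by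
    refine (setIntegral_mono_on hI.integrableOn (integrable_const _).integrableOn hKm hnear).trans ?_
    rw [setIntegral_const, smul_eq_mul]
    exact mul_le_of_le_one_left (by positivity) measureReal_le_one
  have i2 : ∫ y in Kᶜ, |F y - F' y| ∂ν ≤ ε / 8 * 2 := by
    refine (setIntegral_mono_on hI.integrableOn (integrable_const _).integrableOn hKm.compl
      fun y _ => (abs_sub _ _).trans (by linarith [hF y, hF' y] : |F y| + |F' y| ≤ 2)).trans ?_
    rw [setIntegral_const, smul_eq_mul]
    exact mul_le_mul_of_nonneg_right hKc (by norm_num)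
  linarith

/-- A bounded family close to Lipschitz functions of finitely many variables has a Cauchy
subsequence in `L¹`. -/
theorem exists_cauchy_subseq {Ω : Type*} [MeasurableSpace Ω] (P : Measure Ω)
    [IsProbabilityMeasure P] (T : ℕ → Ω → ℝ) (hm : ∀ k, Measurable (T k))
    (hb : ∀ k ω, |T k ω| ≤ 1)
    (happ : ∀ ε > (0 : ℝ), ∃ (m : ℕ) (X : Ω → Fin m → ℝ), Measurable X ∧ ∃ L : ℝ,
      ∀ᶠ k in atTop, ∃ F : (Fin m → ℝ) → ℝ, (∀ y, |F y| ≤ 1) ∧
        (∀ y y', |F y - F y'| ≤ L * ∑ i, |y i - y' i|) ∧ ∫ ω, |T k ω - F (X ω)| ∂P ≤ ε) :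
    ∃ φ : ℕ → ℕ, StrictMono φ ∧ ∀ ε > (0 : ℝ), ∃ N, ∀ n, N ≤ n →
      ∫ ω, |T (φ n) ω - T (φ N) ω| ∂P ≤ ε := by
  have hTI : ∀ k, Integrable (T k) P := fun k =>
    Integrable.of_bound (hm k).aestronglyMeasurable 1 (ae_of_all _ (hb k))
  set F : ℕ → Lp ℝ 1 P := fun n => (hTI n).toL1 (T n) with hF
  have hd : ∀ n k, dist (F n) (F k) = ∫ ω, |T n ω - T k ω| ∂P := by
    intro n k
    rw [dist_eq_norm, hF, ← Integrable.toL1_sub _ _ (hTI n) (hTI k), L1.norm_eq_integral_norm]
    refine integral_congr_ae ?_
    filter_upwards [Integrable.coeFn_toL1 ((hTI n).sub (hTI k))] with ω hω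
    rw [hω]; simp [Real.norm_eq_abs]
  have htb : TotallyBounded (Set.range F) := by
    refine Metric.totallyBounded_iff.mpr fun ε hε => ?_
    obtain ⟨m, X, hX, L, hev⟩ := happ (ε / 4) (by linarith)
    obtain ⟨K, hK⟩ := eventually_atTop.mp hev
    choose A hA1 hA2 hA3 using hK
    have : IsProbabilityMeasure (P.map X) := Measure.isProbabilityMeasure_map hX.aemeasurable
    obtain ⟨N, t, c, hc⟩ := exists_lip_code (P.map X) L (show 0 < ε / 4 by linarith)
    have hAm : ∀ k (hk : k ≥ K), Measurable (A k hk) := fun k hk =>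
      (LipschitzWith.of_dist_le_mul (K := (|L| * m).toNNReal) fun y y' => by
        rw [Real.dist_eq, Real.coe_toNNReal _ (by positivity)]
        refine (hA2 k hk y y').trans ?_
        calc L * ∑ i, |y i - y' i| ≤ |L| * ∑ i, |y i - y' i| :=
              mul_le_mul_of_nonneg_right (le_abs_self L)
                (Finset.sum_nonneg fun _ _ => abs_nonneg _)
          _ ≤ |L| * ∑ _i : Fin m, dist y y' := by
              gcongr with i
              rw [← Real.dist_eq]
              exact dist_le_pi_dist y y' i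
          _ = |L| * m * dist y y' := by simp; ring).continuous.measurable
    let code : ℕ → Fin K ⊕ (t → Fin (N + 1)) := fun k =>
      if hk : k ≥ K then Sum.inr (c (A k hk)) else Sum.inl ⟨k, not_le.mp hk⟩
    refine ⟨F '' Set.range (Function.invFun code), (Set.finite_range _).image F, ?_⟩
    rintro _ ⟨k, rfl⟩
    set r := Function.invFun code (code k) with hr
    have hcr : code r = code k := Function.invFun_eq ⟨k, rfl⟩
    refine Set.mem_iUnion₂.mpr ⟨F r, ⟨r, ⟨code k, rfl⟩, rfl⟩, Metric.mem_ball.mpr ?_⟩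
    rw [hd]
    by_cases hk : k ≥ K
    · by_cases hr' : r ≥ K
      · simp only [code, dif_pos hk, dif_pos hr', Sum.inr.injEq] at hcr
        have hFF := hc _ _ (hAm k hk) (hAm r hr') (hA1 k hk) (hA1 r hr') (hA2 k hk) (hA2 r hr')
          hcr.symm
        rw [integral_map hX.aemeasurable (f := fun y => |A k hk y - A r hr' y|)
          ((hAm k hk).sub (hAm r hr')).abs.aestronglyMeasurable] at hFF
        have iA : ∀ j (hj : j ≥ K), Integrable (fun ω => A j hj (X ω)) P := fun j hj =>
          Integrable.of_bound ((hAm j hj).comp hX).aestronglyMeasurable 1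
            (ae_of_all _ fun ω => hA1 j hj (X ω))
        have t1 := integral_abs_triangle (hTI k) (iA k hk) (hTI r)
        have t2 := integral_abs_triangle (iA k hk) (iA r hr') (hTI r)
        have t3 : ∫ ω, |A r hr' (X ω) - T r ω| ∂P ≤ ε / 4 := by
          simp_rw [abs_sub_comm (A r hr' (X _))]
          exact hA3 r hr'
        linarith [hA3 k hk]
      · simp [code, dif_pos hk, dif_neg hr'] at hcr
    · by_cases hr' : r ≥ K
      · simp [code, dif_neg hk, dif_pos hr'] at hcr
      · simp only [code, dif_neg hk, dif_neg hr', Sum.inl.injEq, Fin.mk.injEq] at hcr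
        simp [hcr, hε]
  obtain ⟨x, -, φ, hφ, hlim⟩ :=
    (htb.closure.isCompact_of_isClosed isClosed_closure).tendsto_subseq
      (fun n => subset_closure (Set.mem_range_self n) : ∀ n, F n ∈ closure (Set.range F))
  refine ⟨φ, hφ, fun ε hε => ?_⟩
  obtain ⟨N, hN⟩ := Metric.cauchySeq_iff'.mp hlim.cauchySeq ε hε
  exact ⟨N, fun n hn => by rw [← hd]; exact (hN n hn).le⟩

/-! ## Edge noises from vertex labels -/

/-- Independent pairs and pairs of independent families. -/
theorem zip_law {ι α β : Type*} [MeasurableSpace α] [MeasurableSpace β] (μ : Measure α)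
    (ν : Measure β) [IsProbabilityMeasure μ] [IsProbabilityMeasure ν] :
    ((Measure.infinitePi fun _ : ι => μ).prod (Measure.infinitePi fun _ : ι => ν)).map
        (fun p i => (p.1 i, p.2 i)) = Measure.infinitePi fun _ : ι => μ.prod ν := by
  refine IsProjectiveLimit.unique (P := fun I : Finset ι => Measure.pi fun _ : I => μ.prod ν)
    (fun I => ?_) (Measure.isProjectiveLimit_infinitePi _)
  have hrα : Measurable (I.restrict : (ι → α) → I → α) :=
    measurable_pi_lambda _ fun _ => measurable_pi_apply _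
  have hrβ : Measurable (I.restrict : (ι → β) → I → β) :=
    measurable_pi_lambda _ fun _ => measurable_pi_apply _
  rw [Measure.map_map (Finset.measurable_restrict I) (by fun_prop)]
  have e : (I.restrict : (ι → α × β) → I → α × β) ∘
      (fun (p : (ι → α) × (ι → β)) i => (p.1 i, p.2 i)) =
      (MeasurableEquiv.arrowProdEquivProdArrow α β I).symm ∘ Prod.map I.restrict I.restrict := rfl
  rw [e, ← Measure.map_map (MeasurableEquiv.measurable _) (by fun_prop),
    ← Measure.map_prod_map _ _ hrα hrβ, Measure.infinitePi_map_restrict,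
    Measure.infinitePi_map_restrict]
  exact ((measurePreserving_arrowProdEquivProdArrow α β I (fun _ => μ) (fun _ => ν)).symm _).map_eq

theorem unzip_law {ι α β : Type*} [MeasurableSpace α] [MeasurableSpace β] (μ : Measure α)
    (ν : Measure β) [IsProbabilityMeasure μ] [IsProbabilityMeasure ν] :
    (Measure.infinitePi fun _ : ι => μ.prod ν).map (fun q => (fun i => (q i).1, fun i => (q i).2)) =
      (Measure.infinitePi fun _ : ι => μ).prod (Measure.infinitePi fun _ : ι => ν) := by
  rw [← zip_law μ ν, Measure.map_map (by fun_prop) (by fun_prop)]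
  exact Measure.map_id

/-- The law of the slots of one vertex. -/
noncomputable def slotLaw : Measure (ℕ → NIdx → ℝ) := Measure.infinitePi fun _ : ℕ => stdNoise

instance : IsProbabilityMeasure slotLaw := by unfold slotLaw; infer_instance

/-- Ranks and slots. -/
abbrev RSpace (V : Type*) := (V → UI) × (V → ℕ → NIdx → ℝ)

/-- The law of ranks and slots. -/
noncomputable def rsLaw (V : Type*) : Measure (RSpace V) :=
  (iidLabels V).prod (Measure.infinitePi fun _ : V => slotLaw)

instance {V : Type*} : IsProbabilityMeasure (iidLabels V) := by unfold iidLabels; infer_instance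

instance {V : Type*} : IsProbabilityMeasure (rsLaw V) := by unfold rsLaw; infer_instance

/-- The action of an automorphism on ranks and slots. -/
def moveRS (g : G ≃g G) (p : RSpace V) : RSpace V := (moveCfg g p.1, moveCfg g p.2)

theorem measurable_moveRS (g : G ≃g G) : Measurable (moveRS g) :=
  ((measurable_moveCfg g).comp measurable_fst).prodMk ((measurable_moveCfg g).comp measurable_snd)

theorem map_moveRS (g : G ≃g G) : (rsLaw V).map (moveRS g) = rsLaw V := by
  rw [rsLaw, show moveRS g = Prod.map (moveCfg g) (moveCfg g) from rfl,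
    ← Measure.map_prod_map _ _ (measurable_moveCfg g) (measurable_moveCfg g), iidLabels,
    infinitePi_move, infinitePi_move]

section Rank

variable (hd : 3 ≤ d) (hreg : ∀ v, (G.neighborSet v).ncard = d)

/-- The neighbours of a vertex. -/
noncomputable def nbrs (v : V) : Finset V := (nbr_finite hd hreg v).toFinset

theorem mem_nbrs {v u : V} : u ∈ nbrs hd hreg v ↔ G.Adj v u := by simp [nbrs]

/-- The rank of `w` among the neighbours of `v`. -/
noncomputable def rk (r : V → UI) (v w : V) : ℕ :=
  ((nbrs hd hreg v).filter fun u => r u < r w).card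

/-- The noises on the edges read from ranks and slots. -/
noncomputable def edgeNoise (p : RSpace V) : ENoise V := fun a =>
  if G.Adj a.1 a.2 then p.2 a.1 (rk hd hreg p.1 a.1 a.2) else 0

theorem measurable_rk (v w : V) : Measurable fun r : V → UI => rk hd hreg r v w := by
  simp only [rk, Finset.card_filter]
  exact Finset.measurable_sum _ fun u _ => Measurable.ite
    (measurableSet_lt (measurable_pi_apply u) (measurable_pi_apply w)) measurable_const
    measurable_const

theorem measurable_edgeNoise : Measurable (edgeNoise hd hreg) := by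
  refine measurable_pi_lambda _ fun a => ?_
  by_cases h : G.Adj a.1 a.2
  · simp only [edgeNoise, if_pos h]
    have hev : Measurable fun q : (ℕ → NIdx → ℝ) × ℕ => q.1 q.2 :=
      measurable_from_prod_countable_left fun n => measurable_pi_apply n
    have hpr : Measurable fun p : RSpace V => (p.2 a.1, rk hd hreg p.1 a.1 a.2) :=
      ((measurable_pi_apply a.1).comp measurable_snd).prodMk
        ((measurable_rk hd hreg a.1 a.2).comp measurable_fst)
    exact hev.comp hpr
  · simp only [edgeNoise, if_neg h]; exact measurable_const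

theorem rk_move (g : G ≃g G) (r : V → UI) (v w : V) :
    rk hd hreg (moveCfg g r) v w = rk hd hreg r (g.symm v) (g.symm w) := by
  refine Finset.card_equiv g.symm.toEquiv fun u => ?_
  rw [Finset.mem_filter, Finset.mem_filter, mem_nbrs, mem_nbrs]
  exact and_congr g.symm.map_rel_iff'.symm Iff.rfl

theorem edgeNoise_move (g : G ≃g G) (p : RSpace V) :
    edgeNoise hd hreg (moveRS g p) = moveE g (edgeNoise hd hreg p) := by
  funext a
  have h : G.Adj (g.symm a.1) (g.symm a.2) ↔ G.Adj a.1 a.2 := g.symm.map_rel_iff'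
  simp only [edgeNoise, moveRS, moveE, rk_move, h]
  rfl

theorem rk_inj {r : V → UI} (hr : Function.Injective r) {v w w' : V} (hw : G.Adj v w)
    (hw' : G.Adj v w') (h : rk hd hreg r v w = rk hd hreg r v w') : w = w' := by
  by_contra hne
  have key : ∀ x y, G.Adj v x → r x < r y → rk hd hreg r v x < rk hd hreg r v y := by
    intro x y hx hxy
    refine Finset.card_lt_card (Finset.ssubset_iff_of_subset (fun u hu => ?_) |>.mpr
      ⟨x, ?_, ?_⟩)
    · simp only [Finset.mem_filter] at hu ⊢
      exact ⟨hu.1, hu.2.trans hxy⟩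
    · simp [mem_nbrs, hx, hxy]
    · simp
  rcases lt_trichotomy (r w) (r w') with h' | h' | h'
  · exact (key w w' hw h').ne h
  · exact hne (hr h')
  · exact (key w' w hw' h').ne' h

end Rank

theorem ae_injective [Countable V] : ∀ᵐ r ∂iidLabels V, Function.Injective r := by
  have h : ∀ᵐ r ∂iidLabels V, ∀ u w : V, u ≠ w → r u ≠ r w := by
    refine ae_all_iff.mpr fun u => ae_all_iff.mpr fun w => ?_
    by_cases huw : u = w
    · exact ae_of_all _ fun r h => absurd huw h
    refine Filter.Eventually.mono ?_ fun r hr _ => hr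
    rw [ae_iff]
    simp only [ne_eq, not_not]
    have hdg : MeasurableSet {q : UI × UI | q.1 = q.2} := measurableSet_diagonal
    have hm : Measurable fun r : V → UI => (r u, r w) :=
      (measurable_pi_apply u).prodMk (measurable_pi_apply w)
    rw [show {r : V → UI | r u = r w} = (fun r : V → UI => (r u, r w)) ⁻¹' {q | q.1 = q.2} from rfl,
      ← Measure.map_apply hm hdg, iidLabels, Measure.infinitePi_map_eval_prod huw,
      Measure.prod_apply hdg]
    have : ∀ x : UI, Prod.mk x ⁻¹' {q : UI × UI | q.1 = q.2} = {x} := fun x => by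
      ext y; simp [eq_comm]
    simp [this]
  filter_upwards [h] with r hr u w huw
  by_contra hne
  exact hr u w hne huw

/-- The edge noises read from ranks and slots are independent standard noises on the edges. -/
theorem edgeNoise_law [Countable V] (hd : 3 ≤ d) (hreg : ∀ v, (G.neighborSet v).ncard = d) :
    (rsLaw V).map (edgeNoise hd hreg) =
      (eLaw V).map (fun ω a => if G.Adj a.1 a.2 then ω a else 0) := by
  set J : Set (V × V) := {a | G.Adj a.1 a.2}
  set ext : (J → NIdx → ℝ) → ENoise V := fun η a => if h : a ∈ J then η ⟨a, h⟩ else 0 with hext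
  have hextm : Measurable ext := by
    refine measurable_pi_lambda _ fun a => ?_
    by_cases h : a ∈ J
    · simp only [hext, dif_pos h]; exact measurable_pi_apply _
    · simp only [hext, dif_neg h]; exact measurable_const
  have hrm : Measurable (fun ω : ENoise V => fun a : J => ω a) :=
    measurable_pi_lambda _ fun a => measurable_pi_apply _
  have hR : (eLaw V).map (fun ω a => if G.Adj a.1 a.2 then ω a else 0) =
      (Measure.infinitePi fun _ : J => stdNoise).map ext := by
    rw [show (fun ω a => if G.Adj a.1 a.2 then ω a else 0) =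
        ext ∘ (fun ω : ENoise V => fun a : J => ω a) by
      funext ω a
      by_cases h : G.Adj a.1 a.2
      · simp [hext, J, h]
      · simp [hext, J, h],
      ← Measure.map_map hextm hrm, eLaw]
    congr 1
    exact Measure.infinitePi_map_restrict' (fun _ : V × V => stdNoise)
  rw [hR]
  refine Measure.ext fun A hA => ?_
  rw [Measure.map_apply (measurable_edgeNoise hd hreg) hA, rsLaw,
    Measure.prod_apply (measurable_edgeNoise hd hreg hA)]
  have hgood : ∀ᵐ r ∂iidLabels V, (Measure.infinitePi fun _ : V => slotLaw)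
      (Prod.mk r ⁻¹' (edgeNoise hd hreg ⁻¹' A)) =
        ((Measure.infinitePi fun _ : J => stdNoise).map ext) A := by
    filter_upwards [ae_injective] with r hr
    have hf : Function.Injective
        (fun a : J => ((a.1.1, rk hd hreg r a.1.1 a.1.2) : V × ℕ)) := by
      rintro ⟨⟨v, w⟩, hw⟩ ⟨⟨v', w'⟩, hw'⟩ h
      simp only [Prod.mk.injEq] at h
      obtain ⟨rfl, h2⟩ := h
      exact Subtype.ext (Prod.ext rfl (rk_inj hd hreg hr hw hw' h2))
    have e1 := Measure.map_infinitePi_infinitePi_of_inj (P := fun _ : V × ℕ => stdNoise) hf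
    have e2 := Measure.infinitePi_map_curry_symm (fun (_ : V) (_ : ℕ) => stdNoise)
    rw [← e1, ← e2, Measure.map_map (measurable_pi_lambda _ fun a => measurable_pi_apply _)
      (MeasurableEquiv.measurable _), Measure.map_map hextm (by fun_prop),
      Measure.map_apply (by fun_prop) hA]
    congr 1
  rw [lintegral_congr_ae hgood, lintegral_const, measure_univ, mul_one]

/-- Clamping to the interval from `-1` to `1`. -/
noncomputable def clamp1 (x : ℝ) : ℝ := max (-1) (min 1 x)

theorem abs_clamp1_le (x : ℝ) : |clamp1 x| ≤ 1 :=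
  abs_le.mpr ⟨le_max_left _ _, max_le (by norm_num) (min_le_left _ _)⟩

theorem abs_sub_clamp1 {t : ℝ} (ht : |t| ≤ 1) (x : ℝ) : |t - clamp1 x| ≤ |t - x| := by
  obtain ⟨h1, h2⟩ := abs_le.mp ht
  have := abs_nonneg (t - x)
  rw [clamp1]
  rcases le_total x 1 with hx | hx
  · rw [min_eq_right hx]
    rcases le_total (-1) x with hy | hy
    · rw [max_eq_right hy]
    · rw [max_eq_left hy, abs_of_nonneg (by linarith), abs_of_nonneg (by linarith)]; linarith
  · rw [min_eq_left hx, max_eq_right (by norm_num), abs_of_nonpos (by linarith),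
      abs_of_nonpos (by linarith)]; linarith

theorem abs_prod_sub_prod_le {ι : Type*} (s : Finset ι) (a b : ι → ℝ)
    (ha : ∀ i ∈ s, a i ∈ Set.Icc (0 : ℝ) 1) (hb : ∀ i ∈ s, b i ∈ Set.Icc (0 : ℝ) 1) :
    |∏ i ∈ s, a i - ∏ i ∈ s, b i| ≤ ∑ i ∈ s, |a i - b i| := by
  induction s using Finset.induction_on with
  | empty => simp
  | insert j s hj ih =>
    rw [Finset.prod_insert hj, Finset.prod_insert hj, Finset.sum_insert hj]
    have hs := fun i (hi : i ∈ s) => Finset.mem_insert_of_mem hi (b := j)
    have ih' := ih (fun i hi => ha i (hs i hi)) (fun i hi => hb i (hs i hi))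
    have hpa : |∏ i ∈ s, a i| ≤ 1 := by
      rw [abs_of_nonneg (Finset.prod_nonneg fun i hi => (ha i (hs i hi)).1)]
      exact Finset.prod_le_one (fun i hi => (ha i (hs i hi)).1) (fun i hi => (ha i (hs i hi)).2)
    have hbj : |b j| ≤ 1 := by
      have := hb j (Finset.mem_insert_self j s)
      rw [abs_of_nonneg this.1]; exact this.2
    calc |a j * ∏ i ∈ s, a i - b j * ∏ i ∈ s, b i|
        = |(a j - b j) * ∏ i ∈ s, a i + b j * (∏ i ∈ s, a i - ∏ i ∈ s, b i)| := by
          congr 1; ring
      _ ≤ |a j - b j| * |∏ i ∈ s, a i| + |b j| * |∏ i ∈ s, a i - ∏ i ∈ s, b i| := by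
          refine (abs_add_le _ _).trans (le_of_eq ?_); rw [abs_mul, abs_mul]
      _ ≤ |a j - b j| * 1 + 1 * |∏ i ∈ s, a i - ∏ i ∈ s, b i| := by gcongr
      _ ≤ _ := by linarith

/-- Splitting the labels into coins, ranks and slots. -/
theorem split_law (f : UI → UI × UI × (ℕ → NIdx → ℝ)) (hfm : Measurable f)
    (hf : (volume : Measure UI).map f = (volume : Measure UI).prod (volume.prod slotLaw)) :
    (iidLabels V).map (fun x : V → UI =>
        (fun v => (f (x v)).1, fun v => (f (x v)).2.1, fun v => (f (x v)).2.2)) =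
      (iidLabels V).prod (rsLaw V) := by
  have e0 : (iidLabels V).map (fun (x : V → UI) v => f (x v)) =
      Measure.infinitePi fun _ : V => (volume : Measure UI).prod (volume.prod slotLaw) := by
    rw [← hf, iidLabels]
    exact Measure.infinitePi_map_pi (μ := fun _ : V => (volume : Measure UI)) (fun _ => hfm)
  have e1 := unzip_law (ι := V) (volume : Measure UI) slotLaw
  have e2 := unzip_law (ι := V) (volume : Measure UI) ((volume : Measure UI).prod slotLaw)
  have m1 : Measurable fun q : V → UI × UI × (ℕ → NIdx → ℝ) =>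
      ((fun v => (q v).1, fun v => (q v).2) : (V → UI) × (V → UI × (ℕ → NIdx → ℝ))) := by fun_prop
  have m2 : Measurable fun q : V → UI × (ℕ → NIdx → ℝ) =>
      ((fun v => (q v).1, fun v => (q v).2) : RSpace V) := by fun_prop
  have m0 : Measurable fun (x : V → UI) v => f (x v) :=
    measurable_pi_lambda _ fun v => hfm.comp (measurable_pi_apply v)
  have h := congrArg (fun μ' => (μ'.map
      (fun q : V → UI × UI × (ℕ → NIdx → ℝ) => (fun v => (q v).1, fun v => (q v).2))).map
    (Prod.map id fun q : V → UI × (ℕ → NIdx → ℝ) =>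
      ((fun v => (q v).1, fun v => (q v).2) : RSpace V))) e0
  rw [e2, ← Measure.map_prod_map _ _ measurable_id m2, Measure.map_id, e1,
    Measure.map_map m1 m0, Measure.map_map (measurable_id.prodMap m2) (m1.comp m0)] at h
  exact h

/-- The probability of a cylinder under thresholded coins. -/
theorem cylinder_law (Q : Measure (RSpace V)) [IsProbabilityMeasure Q]
    (U : V → RSpace V → ℝ) (hUm : ∀ v, Measurable (U v)) (hUb : ∀ v p, |U v p| ≤ 1)
    (Ψ : (V → UI) × RSpace V → V → Bool)
    (hΨ : ∀ z v, Ψ z v = decide ((z.1 v : ℝ) < (1 + U v z.2) / 2)) (hΨm : Measurable Ψ)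
    (D : Finset V) (η : V → Bool) :
    ((iidLabels V).prod Q).map Ψ {s | ∀ v ∈ D, s v = η v} =
      ENNReal.ofReal (∫ p, ∏ v ∈ D, (1 + spin (η v) * U v p) / 2 ∂Q) := by
  have hs : MeasurableSet {s : V → Bool | ∀ v ∈ D, s v = η v} := by
    have : {s : V → Bool | ∀ v ∈ D, s v = η v} = ⋂ v ∈ D, {s | s v = η v} := by ext; simp
    rw [this]
    exact Finset.measurableSet_biInter D fun v _ =>
      measurable_pi_apply v (measurableSet_singleton _)
  have hIcc : ∀ (v : V) p, (1 + spin (η v) * U v p) / 2 ∈ Set.Icc (0 : ℝ) 1 := by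
    intro v p
    obtain ⟨h, h'⟩ := abs_le.mp (hUb v p)
    cases η v <;> simp [spin] <;> constructor <;> linarith
  have hslice : ∀ p, iidLabels V ((fun c => (c, p)) ⁻¹' (Ψ ⁻¹' {s | ∀ v ∈ D, s v = η v})) =
      ENNReal.ofReal (∏ v ∈ D, (1 + spin (η v) * U v p) / 2) := by
    intro p
    have hmem : ∀ v, (1 + U v p) / 2 ∈ Set.Icc (0 : ℝ) 1 := fun v => by
      obtain ⟨h, h'⟩ := abs_le.mp (hUb v p); constructor <;> linarith
    set a : V → UI := fun v => ⟨(1 + U v p) / 2, hmem v⟩ with hadef
    have e : (fun c => (c, p)) ⁻¹' (Ψ ⁻¹' {s | ∀ v ∈ D, s v = η v}) =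
        (D : Set V).pi fun v => if η v then Set.Iio (a v) else Set.Ici (a v) := by
      ext c
      simp only [Set.mem_preimage, Set.mem_ofPred_eq, Set.mem_pi, Finset.mem_coe, hΨ]
      refine forall₂_congr fun v _ => ?_
      cases η v <;> simp [hadef, ← Subtype.coe_lt_coe, ← Subtype.coe_le_coe]
    rw [e, iidLabels, Measure.infinitePi_pi (fun _ : V => (volume : Measure UI)) (fun v _ => by
      split
      · exact measurableSet_Iio
      · exact measurableSet_Ici), ENNReal.ofReal_prod_of_nonneg fun v _ => (hIcc v p).1]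
    refine Finset.prod_congr rfl fun v _ => ?_
    cases η v
    · simp only [Bool.false_eq_true, if_false, unitInterval.volume_Ici, spin, hadef]
      congr 1; ring
    · simp only [if_true, unitInterval.volume_Iio, spin, hadef]
      congr 1; ring
  have hqm : Measurable fun p => ∏ v ∈ D, (1 + spin (η v) * U v p) / 2 :=
    Finset.measurable_prod D fun v _ => ((hUm v).const_mul _).const_add 1 |>.div_const 2
  have hqI : Integrable (fun p => ∏ v ∈ D, (1 + spin (η v) * U v p) / 2) Q :=
    Integrable.of_bound hqm.aestronglyMeasurable 1 (ae_of_all _ fun p => by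
      rw [Real.norm_eq_abs, abs_of_nonneg (Finset.prod_nonneg fun v _ => (hIcc v p).1)]
      exact Finset.prod_le_one (fun v _ => (hIcc v p).1) fun v _ => (hIcc v p).2)
  rw [Measure.map_apply hΨm hs, Measure.prod_apply_symm (hΨm hs), lintegral_congr hslice,
    ofReal_integral_eq_lintegral_ofReal hqI
      (ae_of_all _ fun p => Finset.prod_nonneg fun v _ => (hIcc v p).1)]

/-- Convergence in mean of the factors gives convergence of the moments. -/
theorem moments_tendsto {Ω : Type*} [MeasurableSpace Ω] (Q : Measure Ω) [IsProbabilityMeasure Q]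
    (Y : ℕ → V → Ω → ℝ) (U : V → Ω → ℝ) (hYm : ∀ n v, Measurable (Y n v))
    (hYb : ∀ n v p, |Y n v p| ≤ 1) (hUm : ∀ v, Measurable (U v)) (hUb : ∀ v p, |U v p| ≤ 1)
    (hlim : ∀ v, Tendsto (fun n => ∫ p, |Y n v p - U v p| ∂Q) atTop (𝓝 0))
    (D : Finset V) (η : V → Bool) :
    Tendsto (fun n => ∫ p, ∏ v ∈ D, (1 + spin (η v) * Y n v p) / 2 ∂Q) atTop
      (𝓝 (∫ p, ∏ v ∈ D, (1 + spin (η v) * U v p) / 2 ∂Q)) := by
  have hIcc : ∀ (v : V) (x : ℝ), |x| ≤ 1 → (1 + spin (η v) * x) / 2 ∈ Set.Icc (0 : ℝ) 1 := by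
    intro v x hx
    obtain ⟨h, h'⟩ := abs_le.mp hx
    cases η v <;> simp [spin] <;> constructor <;> linarith
  have hI : ∀ (Z : V → Ω → ℝ), (∀ v, Measurable (Z v)) → (∀ v p, |Z v p| ≤ 1) →
      Integrable (fun p => ∏ v ∈ D, (1 + spin (η v) * Z v p) / 2) Q := fun Z hm hb =>
    Integrable.of_bound (Finset.measurable_prod D fun v _ =>
      ((hm v).const_mul _).const_add 1 |>.div_const 2).aestronglyMeasurable 1
      (ae_of_all _ fun p => by
        rw [Real.norm_eq_abs, abs_of_nonneg
          (Finset.prod_nonneg fun v _ => (hIcc v _ (hb v p)).1)]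
        exact Finset.prod_le_one (fun v _ => (hIcc v _ (hb v p)).1)
          fun v _ => (hIcc v _ (hb v p)).2)
  have hdiff : ∀ n v, Integrable (fun p => |Y n v p - U v p|) Q := fun n v =>
    Integrable.of_bound ((hYm n v).sub (hUm v)).abs.aestronglyMeasurable 2 (ae_of_all _ fun p => by
      rw [Real.norm_eq_abs, abs_abs]
      exact (abs_sub _ _).trans (by linarith [hYb n v p, hUb v p]))
  have hbound : Tendsto (fun n => ∑ v ∈ D, ∫ p, |Y n v p - U v p| ∂Q) atTop (𝓝 0) := by
    simpa using tendsto_finsetSum D fun v _ => hlim v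
  refine tendsto_iff_norm_sub_tendsto_zero.mpr
    (squeeze_zero (fun n => norm_nonneg _) (fun n => ?_) hbound)
  rw [← integral_sub (hI _ (hYm n) (hYb n)) (hI U hUm hUb),
    ← integral_finsetSum D fun v _ => hdiff n v]
  refine (norm_integral_le_integral_norm _).trans (integral_mono
    ((hI _ (hYm n) (hYb n)).sub (hI U hUm hUb)).norm
    (integrable_finsetSum D fun v _ => hdiff n v) fun p => ?_)
  rw [Real.norm_eq_abs]
  refine (abs_prod_sub_prod_le D _ _ (fun v _ => hIcc v _ (hYb n v p))
    (fun v _ => hIcc v _ (hUb v p))).trans (Finset.sum_le_sum fun v _ => ?_)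
  rw [← sub_div, abs_div, add_sub_add_left_eq_sub, ← mul_sub, abs_mul, abs_spin, one_mul,
    abs_two]
  linarith [abs_nonneg (Y n v p - U v p)]

/-- The free Ising measure is determined by its restrictions to the balls around one vertex. -/
theorem eq_of_balls [Countable V] (hG : G.IsTree) (hd : 3 ≤ d)
    (hreg : ∀ v, (G.neighborSet v).ncard = d) {θ : ℝ} {μ μ' : Measure (V → Bool)}
    [IsProbabilityMeasure μ'] (hμ : IsFreeIsing G θ μ) (o : V)
    (h : ∀ (R : ℕ) (η : V → Bool), μ' {s | ∀ v ∈ ballSet hG hd hreg o R, s v = η v} =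
      ENNReal.ofReal ((1 / 2) *
        ∏ e ∈ edgesWithin G (ballSet hG hd hreg o R), pairFactor θ η e)) : μ' = μ := by
  haveI := hμ.1
  refine IsProjectiveLimit.unique (P := fun I : Finset V => μ.map I.restrict) (fun J => ?_)
    (fun J => rfl)
  set D := ballSet hG hd hreg o (J.sup fun v => G.dist o v) with hD
  have hJ : J ⊆ D := fun v hv => by
    rw [hD, mem_ballSet]; exact Finset.le_sup (f := fun v => G.dist o v) hv
  have hm : ∀ K : Finset V, Measurable (K.restrict : (V → Bool) → K → Bool) := fun K =>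
    measurable_pi_lambda _ fun _ => measurable_pi_apply _
  have hDeq : μ'.map D.restrict = μ.map D.restrict := by
    refine Measure.ext_of_singleton fun η => ?_
    rw [Measure.map_apply (hm D) (measurableSet_singleton _),
      Measure.map_apply (hm D) (measurableSet_singleton _)]
    have e : (D.restrict : (V → Bool) → D → Bool) ⁻¹' {η} =
        {s | ∀ v ∈ D, s v = extCfg η v} := by
      ext s
      simp only [Set.mem_preimage, Set.mem_singleton_iff, Set.mem_ofPred_eq, funext_iff,
        Finset.restrict]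
      constructor
      · intro hs v hv; rw [extCfg_of_mem _ hv]; exact hs ⟨v, hv⟩
      · rintro hs ⟨v, hv⟩; rw [← extCfg_of_mem η hv]; exact hs v hv
    rw [e, hμ.2 D (ballSet_connected hG hd hreg _ _)]
    exact h _ (extCfg η)
  have e2 : ∀ ν : Measure (V → Bool), ν.map J.restrict =
      (ν.map D.restrict).map (fun x : D → Bool => Finset.restrict₂ (π := fun _ => Bool) hJ x) := by
    intro ν
    have hr : Measurable (fun x : D → Bool => Finset.restrict₂ (π := fun _ => Bool) hJ x) :=
      measurable_pi_lambda _ fun i => measurable_pi_apply (⟨i.1, hJ i.2⟩ : D)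
    rw [Measure.map_map hr (hm D)]
    rfl
  show μ'.map J.restrict = μ.map J.restrict
  rw [e2, e2, hDeq]

/-- Approximating equivariant magnetisations with the right limiting moments give the free Ising
measure as a factor of IID. -/
theorem isFactorOfIID_of_approx [Countable V] (hG : G.IsTree) (hd : 3 ≤ d)
    (hreg : ∀ v, (G.neighborSet v).ncard = d) {θ : ℝ} (h0 : 0 ≤ θ) (h1 : θ < 1)
    {μ : Measure (V → Bool)} (hμ : IsFreeIsing G θ μ)
    (T : ℕ → V → ENoise V → ℝ) (hm : ∀ k v, Measurable (T k v))
    (hb : ∀ k v ω, |T k v ω| ≤ 1)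
    (hlocal : ∀ k v, ∀ ω ω', (∀ a : V × V, G.Adj a.1 a.2 → ω a = ω' a) → T k v ω = T k v ω')
    (hequiv : ∀ k (g : G ≃g G) v ω, T k (g v) (moveE g ω) = T k v ω)
    (o : V)
    (happrox : ∀ ε > (0 : ℝ), ∃ (m : ℕ) (X : ENoise V → Fin m → ℝ), Measurable X ∧
      ∃ L : ℝ, ∀ᶠ k in atTop, ∃ F : (Fin m → ℝ) → ℝ, (∀ y, |F y| ≤ 1) ∧
        (∀ y y', |F y - F y'| ≤ L * ∑ i, |y i - y' i|) ∧
        ∫ ω, |T k o ω - F (X ω)| ∂eLaw V ≤ ε)
    (hlaw : ∀ (R : ℕ) (η : V → Bool),
      Tendsto (fun k => ∫ ω, ∏ v ∈ ballSet hG hd hreg o R,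
          (1 + spin (η v) * T k v ω) / 2 ∂eLaw V) atTop
        (𝓝 ((1 / 2) * ∏ e ∈ edgesWithin G (ballSet hG hd hreg o R), pairFactor θ η e))) :
    IsFactorOfIID G μ := by
  set Q := rsLaw V with hQ
  set W := edgeNoise hd hreg with hW
  have hWm : Measurable W := measurable_edgeNoise hd hreg
  set Z : ENoise V → ENoise V := fun ω a => if G.Adj a.1 a.2 then ω a else 0 with hZ
  have hZm : Measurable Z := measurable_pi_lambda _ fun a => by
    by_cases h : G.Adj a.1 a.2
    · simp only [hZ, if_pos h]; exact measurable_pi_apply _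
    · simp only [hZ, if_neg h]; exact measurable_const
  have hTZ : ∀ k v ω, T k v (Z ω) = T k v ω := fun k v ω =>
    hlocal k v _ _ fun a ha => by simp [hZ, ha]
  have transfer : ∀ f : ENoise V → ℝ, Measurable f →
      ∫ p, f (W p) ∂Q = ∫ ω, f (Z ω) ∂eLaw V := by
    intro f hf
    rw [← integral_map hWm.aemeasurable hf.aestronglyMeasurable, hW, hQ, edgeNoise_law hd hreg,
      integral_map hZm.aemeasurable hf.aestronglyMeasurable]
  -- the subsequence
  obtain ⟨φ, hφ, hcau⟩ := exists_cauchy_subseq (eLaw V) (fun k => T k o) (fun k => hm k o)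
    (fun k => hb k o) happrox
  set Y : ℕ → V → RSpace V → ℝ := fun n v p => T (φ n) v (W p) with hY
  have hYm : ∀ n v, Measurable (Y n v) := fun n v => (hm _ v).comp hWm
  have hYI : ∀ n v, Integrable (Y n v) Q := fun n v =>
    Integrable.of_bound (hYm n v).aestronglyMeasurable 1 (ae_of_all _ fun p => hb _ v _)
  have hYmove : ∀ (g : G ≃g G) n v p, Y n (g v) (moveRS g p) = Y n v p := by
    intro g n v p
    simp only [hY, hW, edgeNoise_move, hequiv]
  have hinv : ∀ (g : G ≃g G) (f : RSpace V → ℝ), Measurable f →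
      ∫ p, f (moveRS g p) ∂Q = ∫ p, f p ∂Q := fun g f hf => by
    rw [← integral_map (measurable_moveRS g).aemeasurable hf.aestronglyMeasurable, hQ, map_moveRS]
  have hYc : ∀ v, ∀ ε > (0 : ℝ), ∃ N, ∀ n, N ≤ n → ∫ p, |Y n v p - Y N v p| ∂Q ≤ ε := by
    intro v ε hε
    obtain ⟨g, hg, -⟩ := exists_swap hG hd hreg o v
    obtain ⟨N, hN⟩ := hcau ε hε
    refine ⟨N, fun n hn => le_trans (le_of_eq ?_) (hN n hn)⟩
    rw [← hinv g (fun p => |Y n v p - Y N v p|) ((hYm n v).sub (hYm N v)).abs, ← hg]
    simp only [hYmove]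
    refine (transfer (fun ω => |T (φ n) o ω - T (φ N) o ω|)
      ((hm _ o).sub (hm _ o)).abs).trans ?_
    simp only [hTZ]
  set U : V → RSpace V → ℝ := fun v p => clamp1 (l1Lim Q (fun n => Y n v) p) with hU
  have hUm : ∀ v, Measurable (U v) := fun v =>
    measurable_const.max (measurable_const.min (measurable_l1Lim Q _))
  have hUb : ∀ v p, |U v p| ≤ 1 := fun v p => abs_clamp1_le _
  have hUI : ∀ v, Integrable (U v) Q := fun v =>
    Integrable.of_bound (hUm v).aestronglyMeasurable 1 (ae_of_all _ fun p => hUb v p)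
  have hUlim : ∀ v, Tendsto (fun n => ∫ p, |Y n v p - U v p| ∂Q) atTop (𝓝 0) := fun v =>
    squeeze_zero (fun n => integral_nonneg fun _ => abs_nonneg _)
      (fun n => integral_mono ((hYI n v).sub (hUI v)).abs
        ((hYI n v).sub (integrable_l1Lim Q _)).abs fun p => abs_sub_clamp1 (hb _ v _) _)
      (l1Lim_spec (fun n => hYI n v) (hYc v))
  have hUmove : ∀ (g : G ≃g G) (v : V), ∀ᵐ p ∂Q, U (g v) (moveRS g p) = U v p := by
    intro g v
    have hmp : MeasurePreserving (moveRS g) Q Q := ⟨measurable_moveRS g, map_moveRS g⟩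
    refine ae_eq_of_l1_limits (X := fun n => Y n v) (fun n => hYI n v)
      (hmp.integrable_comp_of_integrable (hUI (g v))) (hUI v) ?_ (hUlim v)
    refine (hUlim (g v)).congr fun n => ?_
    rw [← hinv g (fun p => |Y n (g v) p - U (g v) p|) ((hYm n (g v)).sub (hUm (g v))).abs]
    simp only [hYmove]
  -- the factor
  obtain ⟨f, hfm, hf⟩ := Measure.exists_measurable_map_eq
    ((volume : Measure UI).prod ((volume : Measure UI).prod slotLaw))
  set split : (V → UI) → (V → UI) × RSpace V := fun x =>
    (fun v => (f (x v)).1, fun v => (f (x v)).2.1, fun v => (f (x v)).2.2) with hsplit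
  have hsm : Measurable split := by rw [hsplit]; fun_prop
  have hslaw : (iidLabels V).map split = (iidLabels V).prod Q := split_law f hfm hf
  set Ψ : (V → UI) × RSpace V → V → Bool := fun z v => decide ((z.1 v : ℝ) < (1 + U v z.2) / 2)
    with hΨ
  have hΨm : Measurable Ψ := measurable_pi_lambda _ fun v => by
    refine measurable_to_bool ?_
    have : (fun z : (V → UI) × RSpace V => decide ((z.1 v : ℝ) < (1 + U v z.2) / 2)) ⁻¹' {true} =
        {z | (z.1 v : ℝ) < (1 + U v z.2) / 2} := by ext z; simp
    rw [this]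
    exact measurableSet_lt (measurable_subtype_coe.comp ((measurable_pi_apply v).comp measurable_fst))
      ((((hUm v).comp measurable_snd).const_add 1).div_const 2)
  refine ⟨fun x => Ψ (split x), hΨm.comp hsm, fun g => ?_, ?_⟩
  · have hae : ∀ᵐ p ∂Q, ∀ v, U v (moveRS g p) = U (g.symm v) p := ae_all_iff.mpr fun v => by
      filter_upwards [hUmove g (g.symm v)] with p hp
      simpa using hp
    have hae' : ∀ᵐ z ∂(iidLabels V).map split, ∀ v, U v (moveRS g z.2) = U (g.symm v) z.2 := by
      rw [hslaw]; exact Measure.quasiMeasurePreserving_snd.ae hae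
    filter_upwards [ae_of_ae_map hsm.aemeasurable hae'] with x hx
    funext v
    show decide (_ < (1 + U v (moveRS g (split x).2)) / 2) = _
    rw [hx v]
  · haveI : IsProbabilityMeasure ((iidLabels V).map (fun x => Ψ (split x))) :=
      Measure.isProbabilityMeasure_map (hΨm.comp hsm).aemeasurable
    refine eq_of_balls hG hd hreg hμ o fun R η => ?_
    rw [show (fun x => Ψ (split x)) = Ψ ∘ split from rfl, ← Measure.map_map hΨm hsm, hslaw,
      cylinder_law Q U hUm hUb Ψ (fun z v => rfl) hΨm _ η]
    congr 1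
    refine tendsto_nhds_unique (moments_tendsto Q Y U hYm (fun n v p => hb _ v _) hUm hUb hUlim _ η)
      (((hlaw R η).comp hφ.tendsto_atTop).congr fun n => ?_)
    have := transfer (fun ω => ∏ v ∈ ballSet hG hd hreg o R, (1 + spin (η v) * T (φ n) v ω) / 2)
      (Finset.measurable_prod _ fun v _ => ((hm _ v).const_mul _).const_add 1 |>.div_const 2)
    simp only [hTZ] at this
    exact this.symm

end Vale.Agent.P161
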