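import Vale.Agent.P161.Crit.Growth

/-!
# Block variances under product Gaussians
-/

namespace Vale.Agent.P161

open MeasureTheory ProbabilityTheory
open scoped NNReal Classical

variable {ι : Type*} [Fintype ι]

/-- The average of `F` over the coordinates in `S`. -/
noncomputable def avgSet (v : ℝ≥0) (S : Finset ι) (F : (ι → ℝ) → ℝ) (x : ι → ℝ) : ℝ :=
  ∫ y, F (S.piecewise y x) ∂gaussPi ι v

/-- The mean square fluctuation of `F` in the coordinates in `S`. -/
noncomputable def blockVar (v : ℝ≥0) (S : Finset ι) (F : (ι → ℝ) → ℝ) : ℝ :=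
  ∫ x, (F x - avgSet v S F x) ^ 2 ∂gaussPi ι v

variable {v : ℝ≥0} {S T : Finset ι} {F G : (ι → ℝ) → ℝ}

theorem measurable_piecewise (S : Finset ι) :
    Measurable fun p : (ι → ℝ) × (ι → ℝ) => S.piecewise p.1 p.2 := by
  refine measurable_pi_lambda _ fun i => ?_
  by_cases h : i ∈ S <;> simp only [Finset.piecewise, h, if_true, if_false]
  · exact (measurable_pi_apply i).comp measurable_fst
  · exact (measurable_pi_apply i).comp measurable_snd

theorem map_piecewise (v : ℝ≥0) (S : Finset ι) :
    ((gaussPi ι v).prod (gaussPi ι v)).map (fun p => S.piecewise p.1 p.2) = gaussPi ι v := by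
  refine (Measure.pi_eq fun s hs => ?_).symm
  rw [Measure.map_apply (measurable_piecewise S) (.univ_pi hs)]
  have e : (fun p : (ι → ℝ) × (ι → ℝ) => S.piecewise p.1 p.2) ⁻¹' Set.univ.pi s =
      (Set.univ.pi fun i => if i ∈ S then s i else Set.univ) ×ˢ
        (Set.univ.pi fun i => if i ∈ S then Set.univ else s i) := by
    ext ⟨x, y⟩
    simp only [Set.mem_preimage, Set.mem_pi, Set.mem_univ, true_implies, Set.mem_prod,
      Finset.piecewise]
    constructor
    · intro h
      constructor <;> intro i <;> have := h i <;> by_cases hi : i ∈ S <;> simp_all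
    · rintro ⟨h1, h2⟩ i
      have a := h1 i
      have b := h2 i
      by_cases hi : i ∈ S <;> simp_all
  rw [e, Measure.prod_prod, gaussPi, Measure.pi_pi, Measure.pi_pi, ← Finset.prod_mul_distrib]
  refine Finset.prod_congr rfl fun i _ => ?_
  by_cases hi : i ∈ S <;> simp [hi]

theorem measurable_avgSet (hF : Measurable F) : Measurable (avgSet v S F) := by
  have hm : Measurable fun p : (ι → ℝ) × (ι → ℝ) => F (S.piecewise p.2 p.1) :=
    hF.comp ((measurable_piecewise S).comp (measurable_snd.prodMk measurable_fst))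
  exact (hm.stronglyMeasurable.integral_prod_right' (ν := gaussPi ι v)
    (f := fun p : (ι → ℝ) × (ι → ℝ) => F (S.piecewise p.2 p.1))).measurable

theorem abs_avgSet_le {B : ℝ} (hB : ∀ x, |F x| ≤ B) (x : ι → ℝ) : |avgSet v S F x| ≤ B := by
  rw [← Real.norm_eq_abs]
  refine (norm_integral_le_of_norm_le_const (C := B)
    (ae_of_all _ fun y => (Real.norm_eq_abs _).le.trans (hB _))).trans ?_
  rw [probReal_univ, mul_one]

theorem avgSet_congr {x x' : ι → ℝ} (h : ∀ i ∉ S, x i = x' i) :
    avgSet v S F x = avgSet v S F x' := by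
  refine integral_congr_ae (ae_of_all _ fun y => congrArg F (funext fun i => ?_))
  by_cases hi : i ∈ S <;> simp [hi, h]

theorem avgSet_eq_self (hF : ∀ x x' : ι → ℝ, (∀ i ∉ S, x i = x' i) → F x = F x') (x : ι → ℝ) :
    avgSet v S F x = F x := by
  rw [avgSet, integral_congr_ae (ae_of_all _ fun y => hF (S.piecewise y x) x fun i hi => by
    simp [hi]), integral_const, probReal_univ, one_smul]

theorem avgSet_mul_free (hG : ∀ x x' : ι → ℝ, (∀ i ∉ S, x i = x' i) → G x = G x') (x : ι → ℝ) :
    avgSet v S (fun z => F z * G z) x = avgSet v S F x * G x := by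
  rw [avgSet, avgSet, ← integral_mul_const]
  exact integral_congr_ae (ae_of_all _ fun y => by
    simp only [hG (S.piecewise y x) x fun i hi => by simp [hi]])

theorem integral_avgSet (hF : Measurable F) {B : ℝ} (hB : ∀ x, |F x| ≤ B) :
    ∫ x, avgSet v S F x ∂gaussPi ι v = ∫ x, F x ∂gaussPi ι v := by
  have hI : Integrable (fun p : (ι → ℝ) × (ι → ℝ) => F (S.piecewise p.2 p.1))
      ((gaussPi ι v).prod (gaussPi ι v)) :=
    Integrable.of_bound (hF.comp ((measurable_piecewise S).comp
      (measurable_snd.prodMk measurable_fst))).aestronglyMeasurable B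
      (ae_of_all _ fun p => (Real.norm_eq_abs _).le.trans (hB _))
  conv_rhs => rw [← map_piecewise v S]
  rw [integral_map (measurable_piecewise S).aemeasurable hF.aestronglyMeasurable]
  unfold avgSet
  rw [← integral_prod _ hI, ← integral_prod_swap]
  rfl

theorem integrable_of_abs_le (hF : Measurable F) {B : ℝ} (hB : ∀ x, |F x| ≤ B) :
    Integrable F (gaussPi ι v) :=
  Integrable.of_bound hF.aestronglyMeasurable B
    (ae_of_all _ fun x => (Real.norm_eq_abs _).le.trans (hB x))

theorem integral_sub_avgSet_mul (hF : Measurable F) (hG : Measurable G) {B C : ℝ}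
    (hB : ∀ x, |F x| ≤ B) (hC : ∀ x, |G x| ≤ C)
    (hfree : ∀ x x' : ι → ℝ, (∀ i ∉ S, x i = x' i) → G x = G x') :
    ∫ x, (F x - avgSet v S F x) * G x ∂gaussPi ι v = 0 := by
  have hFG : ∀ (H : (ι → ℝ) → ℝ), (∀ x, |H x| ≤ B) → ∀ x, |H x * G x| ≤ B * C := fun H hH x => by
    rw [abs_mul]; exact mul_le_mul (hH x) (hC x) (abs_nonneg _) ((abs_nonneg _).trans (hH x))
  simp only [sub_mul]
  rw [integral_sub (integrable_of_abs_le (F := fun x => F x * G x) (hF.mul hG) (hFG F hB))
    (integrable_of_abs_le (F := fun x => avgSet v S F x * G x) ((measurable_avgSet hF).mul hG)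
      (hFG _ (abs_avgSet_le hB))), sub_eq_zero,
    ← integral_avgSet (S := S) (F := fun x => F x * G x) (hF.mul hG) (hFG F hB)]
  exact integral_congr_ae (ae_of_all _ fun x => avgSet_mul_free hfree x)

/-- The average is the best approximation by functions free of `S`. -/
theorem blockVar_le (hF : Measurable F) (hG : Measurable G) {B C : ℝ}
    (hB : ∀ x, |F x| ≤ B) (hC : ∀ x, |G x| ≤ C)
    (hfree : ∀ x x' : ι → ℝ, (∀ i ∉ S, x i = x' i) → G x = G x') :
    blockVar v S F ≤ ∫ x, (F x - G x) ^ 2 ∂gaussPi ι v := by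
  set A := avgSet v S F with hA
  have hAm : Measurable A := measurable_avgSet hF
  have hAb : ∀ x, |A x| ≤ B := abs_avgSet_le hB
  have h0 := integral_sub_avgSet_mul (v := v) (S := S) (G := fun x => A x - G x) hF (hAm.sub hG) hB
    (C := B + C) (fun x => (abs_sub _ _).trans (add_le_add (hAb x) (hC x)))
    fun x x' h => by simp only [hA, avgSet_congr h, hfree x x' h]
  have hb1 : ∀ x, |(F x - A x) ^ 2| ≤ (B + B) ^ 2 := fun x => by
    rw [abs_pow]; exact pow_le_pow_left₀ (abs_nonneg _)
      ((abs_sub _ _).trans (add_le_add (hB x) (hAb x))) 2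
  have hb2 : ∀ x, |(F x - A x) * (A x - G x)| ≤ (B + B) * (B + C) := fun x => by
    rw [abs_mul]
    exact mul_le_mul ((abs_sub _ _).trans (add_le_add (hB x) (hAb x)))
      ((abs_sub _ _).trans (add_le_add (hAb x) (hC x))) (abs_nonneg _)
      (by linarith [(abs_nonneg (F x)).trans (hB x)])
  have i1 := integrable_of_abs_le (v := v) (F := fun x => (F x - A x) ^ 2)
    ((hF.sub hAm).pow_const 2) hb1
  have i2 := (integrable_of_abs_le (v := v) (F := fun x => (F x - A x) * (A x - G x))
    ((hF.sub hAm).mul (hAm.sub hG)) hb2).const_mul 2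
  have i3 : Integrable (fun x => (F x - G x) ^ 2) (gaussPi ι v) :=
    integrable_of_abs_le ((hF.sub hG).pow_const 2) (B := (B + C) ^ 2) fun x => by
      rw [abs_pow]; exact pow_le_pow_left₀ (abs_nonneg _)
        ((abs_sub _ _).trans (add_le_add (hB x) (hC x))) 2
  have hle : ∀ x, (F x - A x) ^ 2 + 2 * ((F x - A x) * (A x - G x)) ≤ (F x - G x) ^ 2 := fun x => by
    nlinarith [sq_nonneg (A x - G x)]
  have hmono : ∫ x, ((F x - A x) ^ 2 + 2 * ((F x - A x) * (A x - G x))) ∂gaussPi ι v ≤
      ∫ x, (F x - G x) ^ 2 ∂gaussPi ι v := integral_mono (i1.add i2) i3 hle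
  rw [integral_add i1 i2, integral_const_mul, h0, mul_zero, add_zero] at hmono
  exact hmono

theorem avgSet_sub (hF : Measurable F) (hG : Measurable G) {B C : ℝ}
    (hB : ∀ x, |F x| ≤ B) (hC : ∀ x, |G x| ≤ C) (x : ι → ℝ) :
    avgSet v S (fun z => F z - G z) x = avgSet v S F x - avgSet v S G x := by
  have hm : Measurable fun y : ι → ℝ => S.piecewise y x :=
    (measurable_piecewise S).comp (measurable_id.prodMk measurable_const)
  exact integral_sub (integrable_of_abs_le (hF.comp hm) fun y => hB _)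
    (integrable_of_abs_le (hG.comp hm) fun y => hC _)

theorem avgSet_avgSet (hF : Measurable F) {B : ℝ} (hB : ∀ x, |F x| ≤ B) (hST : Disjoint S T)
    (x : ι → ℝ) : avgSet v S (avgSet v T F) x = avgSet v (S ∪ T) F x := by
  have hm : Measurable fun p : (ι → ℝ) × (ι → ℝ) => F (T.piecewise p.1 (S.piecewise p.2 x)) :=
    hF.comp ((measurable_piecewise T).comp (measurable_fst.prodMk
      ((measurable_piecewise S).comp (measurable_snd.prodMk measurable_const))))
  have hI : Integrable (fun p : (ι → ℝ) × (ι → ℝ) => F (T.piecewise p.1 (S.piecewise p.2 x)))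
      ((gaussPi ι v).prod (gaussPi ι v)) :=
    Integrable.of_bound hm.aestronglyMeasurable B
      (ae_of_all _ fun p => (Real.norm_eq_abs _).le.trans (hB _))
  have hm' : Measurable fun w : ι → ℝ => F ((S ∪ T).piecewise w x) :=
    hF.comp ((measurable_piecewise _).comp (measurable_id.prodMk measurable_const))
  have e : ∀ p : (ι → ℝ) × (ι → ℝ), F (T.piecewise p.1 (S.piecewise p.2 x)) =
      F ((S ∪ T).piecewise (T.piecewise p.1 p.2) x) := by
    intro p
    refine congrArg F (funext fun i => ?_)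
    by_cases hi : i ∈ T
    · simp [hi]
    · by_cases hs : i ∈ S <;> simp [hi, hs]
  unfold avgSet
  conv_rhs => rw [← map_piecewise v T]
  rw [integral_map (measurable_piecewise T).aemeasurable hm'.aestronglyMeasurable]
  simp only [← e]
  rw [integral_prod_symm _ hI]

/-- Subadditivity of the block variances. -/
theorem blockVar_union_le (hF : Measurable F) {B : ℝ} (hB : ∀ x, |F x| ≤ B)
    (hST : Disjoint S T) : blockVar v (S ∪ T) F ≤ blockVar v S F + blockVar v T F := by
  set AT := avgSet v T F with hAT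
  set AS := avgSet v S F with hAS
  have hATm : Measurable AT := measurable_avgSet hF
  have hASm : Measurable AS := measurable_avgSet hF
  have hATb : ∀ x, |AT x| ≤ B := abs_avgSet_le hB
  have hASb : ∀ x, |AS x| ≤ B := abs_avgSet_le hB
  set D := fun x => F x - AS x with hD
  set W := avgSet v T D with hW
  have hDm : Measurable D := hF.sub hASm
  have hDb : ∀ x, |D x| ≤ B + B := fun x => (abs_sub _ _).trans (add_le_add (hB x) (hASb x))
  have hWm : Measurable W := measurable_avgSet hDm
  have hWb : ∀ x, |W x| ≤ B + B := abs_avgSet_le hDb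
  have e : ∀ x, F x - avgSet v (S ∪ T) F x = (F x - AT x) + W x := by
    intro x
    rw [hW, hD, avgSet_sub hF hASm hB hASb, ← hAT, hAS,
      avgSet_avgSet hF hB hST.symm, Finset.union_comm T S]
    ring
  have h0 := integral_sub_avgSet_mul (v := v) (S := T) hF hWm hB hWb
    fun x x' h => avgSet_congr h
  have hb1 : ∀ x, |(F x - AT x) ^ 2| ≤ (B + B) ^ 2 := fun x => by
    rw [abs_pow]; exact pow_le_pow_left₀ (abs_nonneg _)
      ((abs_sub _ _).trans (add_le_add (hB x) (hATb x))) 2
  have hb2 : ∀ x, |(F x - AT x) * W x| ≤ (B + B) * (B + B) := fun x => by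
    rw [abs_mul]
    exact mul_le_mul ((abs_sub _ _).trans (add_le_add (hB x) (hATb x))) (hWb x) (abs_nonneg _)
      (by linarith [(abs_nonneg (F x)).trans (hB x)])
  have hb3 : ∀ x, |W x ^ 2| ≤ (B + B) ^ 2 := fun x => by
    rw [abs_pow]; exact pow_le_pow_left₀ (abs_nonneg _) (hWb x) 2
  have i1 := integrable_of_abs_le (v := v) (F := fun x => (F x - AT x) ^ 2)
    ((hF.sub hATm).pow_const 2) hb1
  have i2 := (integrable_of_abs_le (v := v) (F := fun x => (F x - AT x) * W x)
    ((hF.sub hATm).mul hWm) hb2).const_mul 2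
  have i3 := integrable_of_abs_le (v := v) (F := fun x => W x ^ 2) (hWm.pow_const 2) hb3
  have i4 := integrable_of_abs_le (v := v) (F := fun x => D x ^ 2) (hDm.pow_const 2)
    (B := (B + B) ^ 2) fun x => by
    rw [abs_pow]; exact pow_le_pow_left₀ (abs_nonneg _) (hDb x) 2
  have hW2 : ∫ x, W x ^ 2 ∂gaussPi ι v ≤ ∫ x, D x ^ 2 ∂gaussPi ι v := by
    have hDW := integral_sub_avgSet_mul (v := v) (S := T) hDm hWm hDb hWb
      fun x x' h => avgSet_congr h
    have j1 := integrable_of_abs_le (v := v) (F := fun x => (D x - W x) * W x)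
      ((hDm.sub hWm).mul hWm)
      (B := ((B + B) + (B + B)) * (B + B)) fun x => by
        rw [abs_mul]
        exact mul_le_mul ((abs_sub _ _).trans (add_le_add (hDb x) (hWb x))) (hWb x) (abs_nonneg _)
          (by linarith [(abs_nonneg (F x)).trans (hB x)])
    have hmono : ∫ x, (W x ^ 2 + 2 * ((D x - W x) * W x)) ∂gaussPi ι v ≤
        ∫ x, D x ^ 2 ∂gaussPi ι v :=
      integral_mono (i3.add (j1.const_mul 2)) i4 fun x => by
        simp only [Pi.add_apply]; nlinarith [sq_nonneg (D x - W x)]
    rw [integral_add i3 (j1.const_mul 2), integral_const_mul, hDW, mul_zero, add_zero] at hmono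
    exact hmono
  unfold blockVar
  have e2 : ∀ x, (F x - AT x + W x) ^ 2 =
      (F x - AT x) ^ 2 + 2 * ((F x - AT x) * W x) + W x ^ 2 := fun x => by ring
  simp only [e, e2]
  have i12 : Integrable (fun x => (F x - AT x) ^ 2 + 2 * ((F x - AT x) * W x)) (gaussPi ι v) :=
    i1.add i2
  rw [integral_add i12 i3, integral_add i1 i2, integral_const_mul, h0, mul_zero, add_zero,
    add_comm]
  exact add_le_add hW2 le_rfl

theorem blockVar_empty (F : (ι → ℝ) → ℝ) : blockVar v (∅ : Finset ι) F = 0 := by
  have e : ∀ x, avgSet v (∅ : Finset ι) F x = F x := fun x => by simp [avgSet]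
  simp [blockVar, e]

theorem blockVar_biUnion_le {κ : Type*} (hF : Measurable F) {B : ℝ} (hB : ∀ x, |F x| ≤ B)
    (s : Finset κ) (P : κ → Finset ι) (hP : (s : Set κ).PairwiseDisjoint P) :
    blockVar v (s.biUnion P) F ≤ ∑ k ∈ s, blockVar v (P k) F := by
  induction s using Finset.induction_on with
  | empty => simp [blockVar_empty]
  | @insert k s hk ih =>
    rw [Finset.biUnion_insert, Finset.sum_insert hk]
    refine (blockVar_union_le hF hB ?_).trans (add_le_add le_rfl (ih (hP.subset (by simp))))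
    rw [Finset.disjoint_biUnion_right]
    exact fun j hj => hP (Finset.mem_insert_self k s) (Finset.mem_insert_of_mem hj)
      (fun h => hk (h ▸ hj))

theorem blockVar_le_sum (hF : Measurable F) {B : ℝ} (hB : ∀ x, |F x| ≤ B) (S : Finset ι) :
    blockVar v S F ≤ ∑ i ∈ S, blockVar v {i} F := by
  have h := blockVar_biUnion_le (v := v) hF hB S (fun i => {i}) fun i _ j _ hij =>
    Finset.disjoint_singleton.mpr hij
  rwa [Finset.biUnion_singleton_eq_self] at h

/-- Subadditivity, for any decidable equality of the coordinates. -/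
theorem blockVar_union_le' [DecidableEq ι] (hF : Measurable F) {B : ℝ} (hB : ∀ x, |F x| ≤ B)
    (hST : Disjoint S T) : blockVar v (S ∪ T) F ≤ blockVar v S F + blockVar v T F := by
  refine le_of_eq_of_le (congrArg (fun U => blockVar v U F) ?_) (blockVar_union_le hF hB hST)
  ext i
  simp

/-- Subadditivity over a family, for any decidable equality of the coordinates. -/
theorem blockVar_biUnion_le' [DecidableEq ι] {κ : Type*} (hF : Measurable F) {B : ℝ}
    (hB : ∀ x, |F x| ≤ B) (s : Finset κ) (P : κ → Finset ι)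
    (hP : (s : Set κ).PairwiseDisjoint P) :
    blockVar v (s.biUnion P) F ≤ ∑ k ∈ s, blockVar v (P k) F := by
  refine le_of_eq_of_le (congrArg (fun U => blockVar v U F) ?_)
    (blockVar_biUnion_le hF hB s P hP)
  ext i
  simp

/-- Stability of the block variances in `L²`. -/
theorem blockVar_le_of_close (hF : Measurable F) (hG : Measurable G) {B C : ℝ}
    (hB : ∀ x, |F x| ≤ B) (hC : ∀ x, |G x| ≤ C) :
    blockVar v S F ≤ 2 * ∫ x, (F x - G x) ^ 2 ∂gaussPi ι v + 2 * blockVar v S G := by
  have hA : ∀ x, |avgSet v S G x| ≤ C := abs_avgSet_le hC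
  refine (blockVar_le hF (measurable_avgSet hG) hB hA fun x x' h => avgSet_congr h).trans ?_
  have i1 : Integrable (fun x => (F x - G x) ^ 2) (gaussPi ι v) :=
    integrable_of_abs_le ((hF.sub hG).pow_const 2) (B := (B + C) ^ 2) fun x => by
      rw [abs_pow]; exact pow_le_pow_left₀ (abs_nonneg _)
        ((abs_sub _ _).trans (add_le_add (hB x) (hC x))) 2
  have i2 : Integrable (fun x => (G x - avgSet v S G x) ^ 2) (gaussPi ι v) :=
    integrable_of_abs_le ((hG.sub (measurable_avgSet hG)).pow_const 2) (B := (C + C) ^ 2) fun x => by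
      rw [abs_pow]; exact pow_le_pow_left₀ (abs_nonneg _)
        ((abs_sub _ _).trans (add_le_add (hC x) (hA x))) 2
  unfold blockVar
  rw [← integral_const_mul, ← integral_const_mul, ← integral_add (i1.const_mul 2) (i2.const_mul 2)]
  refine integral_mono (integrable_of_abs_le ((hF.sub (measurable_avgSet hG)).pow_const 2)
    (B := (B + C) ^ 2) fun x => ?_) ((i1.const_mul 2).add (i2.const_mul 2)) fun x => ?_
  · rw [abs_pow]
    exact pow_le_pow_left₀ (abs_nonneg _) ((abs_sub _ _).trans (add_le_add (hB x) (hA x))) 2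
  · simp only [Pi.add_apply]
    nlinarith [sq_nonneg ((F x - G x) - (G x - avgSet v S G x))]

theorem blockVar_coord_le [DecidableEq ι] (hF : Measurable F) {B : ℝ} (hB : ∀ x, |F x| ≤ B) (i : ι) :
    blockVar v {i} F ≤ ∫ x, (F x - F (Function.update x i 0)) ^ 2 ∂gaussPi ι v := by
  refine blockVar_le hF (hF.comp (measurable_update_left (a := i))) hB (fun x => hB _)
    fun x x' h => congrArg F (funext fun j => ?_)
  by_cases hj : j = i
  · subst hj; simp
  · simp [hj, h j (by simpa using hj)]

theorem integral_coord_pow_four (i : ι) :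
    ∃ C : ℝ, 0 ≤ C ∧ ∀ v : ℝ≥0, ∫ x : ι → ℝ, x i ^ 4 ∂gaussPi ι v ≤ C * (v : ℝ) ^ 2 := by
  refine ⟨|∫ y : ℝ, y ^ 4 ∂gaussianReal 0 1|, abs_nonneg _, fun v => ?_⟩
  have h1 : ∫ x : ι → ℝ, x i ^ 4 ∂gaussPi ι v = ∫ y : ℝ, y ^ 4 ∂gaussianReal 0 v := by
    conv_rhs => rw [← (measurePreserving_eval (fun _ : ι => gaussianReal 0 v) i).map_eq]
    rw [integral_map (measurable_pi_apply i).aemeasurable (by fun_prop)]
    rfl
  have h2 : gaussianReal 0 v = (gaussianReal 0 1).map (fun y => Real.sqrt v * y) := by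
    rw [gaussianReal_map_const_mul, mul_zero]
    congr 1
    ext
    simp [Real.sq_sqrt]
  rw [h1, h2, integral_map (by fun_prop) (by fun_prop)]
  simp only [mul_pow]
  rw [integral_const_mul, mul_comm, show Real.sqrt v ^ 4 = (Real.sqrt v ^ 2) ^ 2 by ring,
    Real.sq_sqrt (NNReal.coe_nonneg v)]
  exact mul_le_mul_of_nonneg_right (le_abs_self _) (sq_nonneg _)

end Vale.Agent.P161
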