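import Mathlib

/-!
# Gibbs averages on a finite space and their expansion under a small tilt
-/

namespace Vale.Agent.P161

open scoped Classical

variable {Ω : Type*} [Fintype Ω]

/-- The average of `f` under the weights `w`. -/
noncomputable def avg (w : Ω → ℝ) (f : Ω → ℝ) : ℝ := (∑ x, w x * f x) / ∑ x, w x

/-- The covariance of `f` and `g` under the weights `w`. -/
noncomputable def cov (w : Ω → ℝ) (f g : Ω → ℝ) : ℝ :=
  avg w (fun x => f x * g x) - avg w f * avg w g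

/-- The third joint cumulant under the weights `w`. -/
noncomputable def cum3 (w : Ω → ℝ) (f g k : Ω → ℝ) : ℝ :=
  cov w (fun x => f x * g x) k - avg w f * cov w g k - avg w g * cov w f k

variable [Nonempty Ω] {w : Ω → ℝ}

theorem sum_weight_pos (hw : ∀ x, 0 < w x) : 0 < ∑ x, w x :=
  Finset.sum_pos (fun x _ => hw x) Finset.univ_nonempty

omit [Nonempty Ω] in
theorem avg_add (w : Ω → ℝ) (f g : Ω → ℝ) :
    avg w (fun x => f x + g x) = avg w f + avg w g := by
  simp [avg, mul_add, Finset.sum_add_distrib, add_div]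

omit [Nonempty Ω] in
theorem avg_sub (w : Ω → ℝ) (f g : Ω → ℝ) :
    avg w (fun x => f x - g x) = avg w f - avg w g := by
  simp [avg, mul_sub, Finset.sum_sub_distrib, sub_div]

omit [Nonempty Ω] in
theorem avg_mul_const (w : Ω → ℝ) (c : ℝ) (f : Ω → ℝ) :
    avg w (fun x => c * f x) = c * avg w f := by
  simp only [avg, mul_left_comm _ c, ← Finset.mul_sum, mul_div_assoc]

omit [Nonempty Ω] in
theorem avg_finset_sum {ι : Type*} (w : Ω → ℝ) (s : Finset ι) (f : ι → Ω → ℝ) :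
    avg w (fun x => ∑ i ∈ s, f i x) = ∑ i ∈ s, avg w (f i) := by
  simp only [avg, Finset.mul_sum, ← Finset.sum_div]
  rw [Finset.sum_comm]

theorem avg_const (hw : ∀ x, 0 < w x) (c : ℝ) : avg w (fun _ => c) = c := by
  rw [avg, ← Finset.sum_mul, mul_div_assoc]
  field_simp [ne_of_gt (sum_weight_pos hw)]

theorem avg_mono (hw : ∀ x, 0 < w x) {f g : Ω → ℝ} (h : ∀ x, f x ≤ g x) :
    avg w f ≤ avg w g :=
  div_le_div_of_nonneg_right
    (Finset.sum_le_sum fun x _ => mul_le_mul_of_nonneg_left (h x) (hw x).le)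
    (sum_weight_pos hw).le

theorem abs_avg_le (hw : ∀ x, 0 < w x) {f : Ω → ℝ} {B : ℝ} (h : ∀ x, |f x| ≤ B) :
    |avg w f| ≤ B := by
  rw [abs_le]
  constructor
  · rw [← avg_const hw (-B)]; exact avg_mono hw fun x => (abs_le.mp (h x)).1
  · rw [← avg_const hw B]; exact avg_mono hw fun x => (abs_le.mp (h x)).2

omit [Nonempty Ω] in
theorem cov_comm (w : Ω → ℝ) (f g : Ω → ℝ) : cov w f g = cov w g f := by
  unfold cov
  rw [mul_comm (avg w f)]
  simp only [mul_comm]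

omit [Nonempty Ω] in
theorem cov_add_left (w : Ω → ℝ) (f g k : Ω → ℝ) :
    cov w (fun x => f x + g x) k = cov w f k + cov w g k := by
  simp only [cov, add_mul, avg_add]; ring

omit [Nonempty Ω] in
theorem cov_mul_left (w : Ω → ℝ) (c : ℝ) (f k : Ω → ℝ) :
    cov w (fun x => c * f x) k = c * cov w f k := by
  simp only [cov, mul_assoc, avg_mul_const]; ring

omit [Nonempty Ω] in
theorem cov_sum_left {ι : Type*} (w : Ω → ℝ) (s : Finset ι) (f : ι → Ω → ℝ) (k : Ω → ℝ) :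
    cov w (fun x => ∑ i ∈ s, f i x) k = ∑ i ∈ s, cov w (f i) k := by
  simp only [cov, Finset.sum_mul, avg_finset_sum, Finset.sum_sub_distrib]

omit [Nonempty Ω] in
theorem cov_add_right (w : Ω → ℝ) (f g k : Ω → ℝ) :
    cov w k (fun x => f x + g x) = cov w k f + cov w k g := by
  rw [cov_comm w k, cov_add_left, cov_comm w f, cov_comm w g]

omit [Nonempty Ω] in
theorem cov_mul_right (w : Ω → ℝ) (c : ℝ) (f k : Ω → ℝ) :
    cov w k (fun x => c * f x) = c * cov w k f := by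
  rw [cov_comm w k, cov_mul_left, cov_comm w f]

omit [Nonempty Ω] in
theorem cov_sum_right {ι : Type*} (w : Ω → ℝ) (s : Finset ι) (f : ι → Ω → ℝ) (k : Ω → ℝ) :
    cov w k (fun x => ∑ i ∈ s, f i x) = ∑ i ∈ s, cov w k (f i) := by
  rw [cov_comm w k, cov_sum_left]
  exact Finset.sum_congr rfl fun i _ => cov_comm w _ _

theorem abs_cov_le (hw : ∀ x, 0 < w x) {f g : Ω → ℝ} {B C : ℝ}
    (hf : ∀ x, |f x| ≤ B) (hg : ∀ x, |g x| ≤ C) : |cov w f g| ≤ 2 * (B * C) := by
  obtain ⟨x⟩ := ‹Nonempty Ω›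
  have hB : 0 ≤ B := le_trans (abs_nonneg _) (hf x)
  have h1 : |avg w (fun x => f x * g x)| ≤ B * C := abs_avg_le hw fun x => by
    rw [abs_mul]; exact mul_le_mul (hf x) (hg x) (abs_nonneg _) hB
  have h2 : |avg w f * avg w g| ≤ B * C := by
    rw [abs_mul]; exact mul_le_mul (abs_avg_le hw hf) (abs_avg_le hw hg) (abs_nonneg _) hB
  unfold cov
  linarith [abs_sub (avg w fun x => f x * g x) (avg w f * avg w g)]

theorem cov_const_left (hw : ∀ x, 0 < w x) (c : ℝ) (g : Ω → ℝ) :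
    cov w (fun _ => c) g = 0 := by
  rw [cov, avg_mul_const, avg_const hw, sub_self]

theorem cov_self_eq (hw : ∀ x, 0 < w x) (f : Ω → ℝ) :
    cov w f f = avg w (fun x => (f x - avg w f) ^ 2) := by
  set c := avg w f with hc
  have e : ∀ x, (f x - c) ^ 2 = f x * f x + ((-2 * c) * f x + c * c) := fun x => by ring
  simp only [e, avg_add, avg_mul_const, avg_const hw, cov, ← hc]
  ring

theorem cov_self_nonneg (hw : ∀ x, 0 < w x) (f : Ω → ℝ) : 0 ≤ cov w f f := by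
  rw [cov_self_eq hw, ← avg_const hw (0 : ℝ)]
  exact avg_mono hw fun x => sq_nonneg _

omit [Nonempty Ω] in
theorem cum3_self_right (w : Ω → ℝ) (f k : Ω → ℝ) :
    cum3 w f k k = cov w f (fun x => k x * k x) - 2 * avg w k * cov w f k := by
  simp only [cum3, cov, mul_assoc]
  ring

/-- The tilted weights. -/
noncomputable def tilt (w ξ : Ω → ℝ) (u : ℝ) : Ω → ℝ := fun x => w x * Real.exp (u * ξ x)

omit [Fintype Ω] [Nonempty Ω] in
theorem tilt_pos (hw : ∀ x, 0 < w x) (ξ : Ω → ℝ) (u : ℝ) (x : Ω) : 0 < tilt w ξ u x :=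
  mul_pos (hw x) (Real.exp_pos _)

omit [Fintype Ω] [Nonempty Ω] in
theorem tilt_zero (w ξ : Ω → ℝ) : tilt w ξ 0 = w := by funext x; simp [tilt]

theorem hasDerivAt_avg_tilt (hw : ∀ x, 0 < w x) (ξ f : Ω → ℝ) (u : ℝ) :
    HasDerivAt (fun u => avg (tilt w ξ u) f) (cov (tilt w ξ u) f ξ) u := by
  have hd : ∀ g : Ω → ℝ, HasDerivAt (fun u => ∑ x, tilt w ξ u x * g x)
      (∑ x, tilt w ξ u x * (g x * ξ x)) u := by
    intro g
    refine HasDerivAt.fun_sum fun x _ => ?_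
    have h1 : HasDerivAt (fun u => u * ξ x) (ξ x) u := by
      simpa using (hasDerivAt_id u).mul_const (ξ x)
    refine ((h1.exp.const_mul (w x)).mul_const (g x)).congr_deriv ?_
    simp only [tilt]; ring
  have hd1 : HasDerivAt (fun u => ∑ x, tilt w ξ u x) (∑ x, tilt w ξ u x * ξ x) u := by
    simpa using hd (fun _ => (1 : ℝ))
  have hne : (∑ x, tilt w ξ u x) ≠ 0 := ne_of_gt (sum_weight_pos (tilt_pos hw ξ u))
  refine ((hd f).div hd1 hne).congr_deriv ?_
  simp only [cov, avg]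
  field_simp

theorem hasDerivAt_cov_tilt (hw : ∀ x, 0 < w x) (ξ f g : Ω → ℝ) (u : ℝ) :
    HasDerivAt (fun u => cov (tilt w ξ u) f g) (cum3 (tilt w ξ u) f g ξ) u := by
  refine ((hasDerivAt_avg_tilt hw ξ (fun x => f x * g x) u).sub
    ((hasDerivAt_avg_tilt hw ξ f u).mul (hasDerivAt_avg_tilt hw ξ g u))).congr_deriv ?_
  simp only [cum3]; ring

/-- Second-order expansion of an average under a tilt. -/
theorem avg_tilt_taylor (hw : ∀ x, 0 < w x) {ξ f : Ω → ℝ} {B S : ℝ} (hf : ∀ x, |f x| ≤ B)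
    (hξ : ∀ x, |ξ x| ≤ S) :
    |avg (tilt w ξ 1) f - avg w f - cov w f ξ| ≤ 6 * (B * S ^ 2) ∧
    |avg (tilt w ξ 1) f - avg w f - cov w f ξ - cum3 w f ξ ξ / 2| ≤ 18 * (B * S ^ 3) := by
  obtain ⟨x0⟩ := ‹Nonempty Ω›
  have hB : 0 ≤ B := (abs_nonneg _).trans (hf x0)
  have hS : 0 ≤ S := (abs_nonneg _).trans (hξ x0)
  have hfξ : ∀ x, |f x * ξ x| ≤ B * S := fun x => by
    rw [abs_mul]; exact mul_le_mul (hf x) (hξ x) (abs_nonneg _) hB
  set φ := fun u => avg (tilt w ξ u) f with hφ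
  set φ' := fun u => cov (tilt w ξ u) f ξ with hφ'
  set φ'' := fun u => cum3 (tilt w ξ u) f ξ ξ with hφ''
  have b2 : ∀ u, |φ'' u| ≤ 6 * (B * S ^ 2) := by
    intro u
    have hp := tilt_pos hw ξ u
    have a1 := abs_cov_le hp hfξ hξ
    have a2 : |avg (tilt w ξ u) f * cov (tilt w ξ u) ξ ξ| ≤ B * (2 * (S * S)) := by
      rw [abs_mul]
      exact mul_le_mul (abs_avg_le hp hf) (abs_cov_le hp hξ hξ) (abs_nonneg _) hB
    have a3 : |avg (tilt w ξ u) ξ * cov (tilt w ξ u) f ξ| ≤ S * (2 * (B * S)) := by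
      rw [abs_mul]
      exact mul_le_mul (abs_avg_le hp hξ) (abs_cov_le hp hf hξ) (abs_nonneg _) hS
    simp only [hφ'', cum3]
    linarith [abs_sub (cov (tilt w ξ u) (fun x => f x * ξ x) ξ -
      avg (tilt w ξ u) f * cov (tilt w ξ u) ξ ξ) (avg (tilt w ξ u) ξ * cov (tilt w ξ u) f ξ),
      abs_sub (cov (tilt w ξ u) (fun x => f x * ξ x) ξ)
      (avg (tilt w ξ u) f * cov (tilt w ξ u) ξ ξ)]
  have d2 : ∀ u, HasDerivAt φ' (φ'' u) u := fun u => hasDerivAt_cov_tilt hw ξ f ξ u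
  have d1 : ∀ u, HasDerivAt φ (φ' u) u := fun u => hasDerivAt_avg_tilt hw ξ f u
  -- the derivative of the second derivative
  have d3 : ∀ u, ∃ c, HasDerivAt φ'' c u ∧ |c| ≤ 36 * (B * S ^ 3) := by
    intro u
    have hp := tilt_pos hw ξ u
    have hξξ : ∀ x, |ξ x * ξ x| ≤ S * S := fun x => by
      rw [abs_mul]; exact mul_le_mul (hξ x) (hξ x) (abs_nonneg _) hS
    have k : ∀ {p q : Ω → ℝ} {P Q : ℝ}, (∀ x, |p x| ≤ P) → (∀ x, |q x| ≤ Q) →
        |cum3 (tilt w ξ u) p q ξ| ≤ 6 * (P * Q * S) := by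
      intro p q P Q hp' hq
      have hP : 0 ≤ P := (abs_nonneg _).trans (hp' x0)
      have hQ : 0 ≤ Q := (abs_nonneg _).trans (hq x0)
      have a1 := abs_cov_le hp (fun x => show |p x * q x| ≤ P * Q by
        rw [abs_mul]; exact mul_le_mul (hp' x) (hq x) (abs_nonneg _) hP) hξ
      have a2 : |avg (tilt w ξ u) p * cov (tilt w ξ u) q ξ| ≤ P * (2 * (Q * S)) := by
        rw [abs_mul]
        exact mul_le_mul (abs_avg_le hp hp') (abs_cov_le hp hq hξ) (abs_nonneg _) hP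
      have a3 : |avg (tilt w ξ u) q * cov (tilt w ξ u) p ξ| ≤ Q * (2 * (P * S)) := by
        rw [abs_mul]
        exact mul_le_mul (abs_avg_le hp hq) (abs_cov_le hp hp' hξ) (abs_nonneg _) hQ
      simp only [cum3]
      linarith [abs_sub (cov (tilt w ξ u) (fun x => p x * q x) ξ -
        avg (tilt w ξ u) p * cov (tilt w ξ u) q ξ) (avg (tilt w ξ u) q * cov (tilt w ξ u) p ξ),
        abs_sub (cov (tilt w ξ u) (fun x => p x * q x) ξ)
        (avg (tilt w ξ u) p * cov (tilt w ξ u) q ξ)]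
    have k1 := k hfξ hξ
    have k2 := k hξ hξ
    have k3 := k hf hξ
    have c1 := abs_cov_le hp hξ hξ
    have c2 := abs_cov_le hp hf hξ
    refine ⟨_, ((hasDerivAt_cov_tilt hw ξ (fun x => f x * ξ x) ξ u).sub
      ((hasDerivAt_avg_tilt hw ξ f u).mul (hasDerivAt_cov_tilt hw ξ ξ ξ u))).sub
      ((hasDerivAt_avg_tilt hw ξ ξ u).mul (hasDerivAt_cov_tilt hw ξ f ξ u)), ?_⟩
    have m1 : |cov (tilt w ξ u) f ξ * cov (tilt w ξ u) ξ ξ| ≤ 4 * (B * S ^ 3) := by
      rw [abs_mul]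
      exact (mul_le_mul c2 c1 (abs_nonneg _) (by positivity)).trans (le_of_eq (by ring))
    have m2 : |avg (tilt w ξ u) f * cum3 (tilt w ξ u) ξ ξ ξ| ≤ 6 * (B * S ^ 3) := by
      rw [abs_mul]
      exact (mul_le_mul (abs_avg_le hp hf) k2 (abs_nonneg _) hB).trans (le_of_eq (by ring))
    have m3 : |cov (tilt w ξ u) ξ ξ * cov (tilt w ξ u) f ξ| ≤ 4 * (B * S ^ 3) := by
      rw [abs_mul]
      exact (mul_le_mul c1 c2 (abs_nonneg _) (by positivity)).trans (le_of_eq (by ring))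
    have m4 : |avg (tilt w ξ u) ξ * cum3 (tilt w ξ u) f ξ ξ| ≤ 6 * (B * S ^ 3) := by
      rw [abs_mul]
      exact (mul_le_mul (abs_avg_le hp hξ) k3 (abs_nonneg _) hS).trans (le_of_eq (by ring))
    have m0 : |cum3 (tilt w ξ u) (fun x => f x * ξ x) ξ ξ| ≤ 6 * (B * S ^ 3) :=
      k1.trans (le_of_eq (by ring))
    have hnn : 0 ≤ B * S ^ 3 := by positivity
    rw [abs_le] at m0 m1 m2 m3 m4 ⊢
    constructor <;> linarith
  have e1 : φ 1 - φ 0 - φ' 0 = avg (tilt w ξ 1) f - avg w f - cov w f ξ := by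
    simp [hφ, hφ', tilt_zero]
  have e2 : φ'' 0 = cum3 w f ξ ξ := by simp [hφ'', tilt_zero]
  have seg : ∀ {ψ ψ' : ℝ → ℝ} {C : ℝ}, (∀ u, HasDerivAt ψ (ψ' u) u) →
      (∀ u ∈ Set.Icc (0 : ℝ) 1, |ψ' u| ≤ C) →
      ∀ u ∈ Set.Icc (0 : ℝ) 1, |ψ u - ψ 0| ≤ C * u := by
    intro ψ ψ' C hd hb u hu
    have h := Convex.norm_image_sub_le_of_norm_hasDerivWithin_le
      (f := ψ) (f' := ψ') (s := Set.Icc (0 : ℝ) 1) (C := C)
      (fun x _ => (hd x).hasDerivWithinAt) (fun x hx => by simpa using hb x hx)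
      (convex_Icc _ _) (Set.left_mem_Icc.mpr zero_le_one) hu
    simpa [abs_of_nonneg hu.1] using h
  constructor
  · rw [← e1]
    have i1 : ∀ u ∈ Set.Icc (0 : ℝ) 1, |φ' u - φ' 0| ≤ 6 * (B * S ^ 2) := fun u hu => by
      refine (seg d2 (fun v _ => b2 v) u hu).trans (mul_le_of_le_one_right (by positivity) hu.2)
    have hψ : ∀ u, HasDerivAt (fun u => φ u - u * φ' 0) (φ' u - φ' 0) u := fun u => by
      simpa using (d1 u).fun_sub ((hasDerivAt_id u).mul_const (φ' 0))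
    have := seg hψ i1 1 (Set.right_mem_Icc.mpr zero_le_one)
    simp only [one_mul, zero_mul, sub_zero, mul_one] at this
    rwa [show φ 1 - φ 0 - φ' 0 = φ 1 - φ' 0 - φ 0 by ring]
  · rw [← e1, ← e2]
    choose φ3 hφ3 hb3 using d3
    have i2 : ∀ u ∈ Set.Icc (0 : ℝ) 1, |φ'' u - φ'' 0| ≤ 36 * (B * S ^ 3) * u :=
      seg hφ3 (fun v _ => hb3 v)
    have hψ1 : ∀ u, HasDerivAt (fun u => φ' u - u * φ'' 0) (φ'' u - φ'' 0) u := fun u => by
      simpa using (d2 u).fun_sub ((hasDerivAt_id u).mul_const (φ'' 0))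
    have i1 : ∀ u ∈ Set.Icc (0 : ℝ) 1, |φ' u - φ' 0 - u * φ'' 0| ≤ 36 * (B * S ^ 3) * u := by
      intro u hu
      have := seg (C := 36 * (B * S ^ 3)) hψ1
        (fun v hv => (i2 v hv).trans (mul_le_of_le_one_right (by positivity) hv.2)) u hu
      simp only [zero_mul, sub_zero] at this
      rwa [show φ' u - φ' 0 - u * φ'' 0 = φ' u - u * φ'' 0 - φ' 0 by ring]
    set K := 18 * (B * S ^ 3) with hK
    have hup : ∀ u, HasDerivAt (fun u => φ u - u * φ' 0 - u ^ 2 * (φ'' 0 / 2) - u ^ 2 * K)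
        (φ' u - φ' 0 - u * φ'' 0 - 2 * u * K) u := fun u => by
      refine ((((d1 u).fun_sub ((hasDerivAt_id u).mul_const (φ' 0))).fun_sub
        ((hasDerivAt_pow 2 u).mul_const (φ'' 0 / 2))).fun_sub
        ((hasDerivAt_pow 2 u).mul_const K)).congr_deriv ?_
      simp only [one_mul, Nat.cast_ofNat]; ring
    have hdn : ∀ u, HasDerivAt (fun u => φ u - u * φ' 0 - u ^ 2 * (φ'' 0 / 2) + u ^ 2 * K)
        (φ' u - φ' 0 - u * φ'' 0 + 2 * u * K) u := fun u => by
      refine ((((d1 u).fun_sub ((hasDerivAt_id u).mul_const (φ' 0))).fun_sub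
        ((hasDerivAt_pow 2 u).mul_const (φ'' 0 / 2))).fun_add
        ((hasDerivAt_pow 2 u).mul_const K)).congr_deriv ?_
      simp only [one_mul, Nat.cast_ofNat]; ring
    have m1 : AntitoneOn (fun u => φ u - u * φ' 0 - u ^ 2 * (φ'' 0 / 2) - u ^ 2 * K)
        (Set.Icc (0 : ℝ) 1) := by
      refine antitoneOn_of_hasDerivWithinAt_nonpos (convex_Icc _ _)
        (fun u _ => (hup u).continuousAt.continuousWithinAt)
        (fun u _ => (hup u).hasDerivWithinAt) fun u hu => ?_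
      have := (abs_le.mp (i1 u (interior_subset hu))).2
      linarith
    have m2 : MonotoneOn (fun u => φ u - u * φ' 0 - u ^ 2 * (φ'' 0 / 2) + u ^ 2 * K)
        (Set.Icc (0 : ℝ) 1) := by
      refine monotoneOn_of_hasDerivWithinAt_nonneg (convex_Icc _ _)
        (fun u _ => (hdn u).continuousAt.continuousWithinAt)
        (fun u _ => (hdn u).hasDerivWithinAt) fun u hu => ?_
      have := (abs_le.mp (i1 u (interior_subset hu))).1
      linarith
    have a1 := m1 (Set.left_mem_Icc.mpr zero_le_one) (Set.right_mem_Icc.mpr zero_le_one)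
      zero_le_one
    have a2 := m2 (Set.left_mem_Icc.mpr zero_le_one) (Set.right_mem_Icc.mpr zero_le_one)
      zero_le_one
    simp only [one_pow, one_mul, zero_mul, sub_zero, add_zero, ne_eq, OfNat.ofNat_ne_zero,
      not_false_eq_true, zero_pow] at a1 a2
    rw [abs_le]
    constructor <;> linarith

end Vale.Agent.P161
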