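import Vale.Agent.P161.Ising
import Vale.Agent.P161.Crit.Gibbs

/-!
# Covariances of the Ising model with fields on a finite subtree
-/

namespace Vale.Agent.P161

open SimpleGraph
open scoped Classical

variable {V : Type*}

/-- The spin at `v` as an observable. -/
def sp (v : V) (s : V → Bool) : ℝ := spin (s v)

/-- The expectation of an observable in the model on `D` with fields `h`. -/
noncomputable def mE (G : SimpleGraph V) (θ : ℝ) (D : Finset V) (h : V → ℝ)
    (f : (V → Bool) → ℝ) : ℝ :=
  avg (fieldWeight G θ D h) (fun η => f (extCfg η))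

/-- The covariance of two observables in the model on `D` with fields `h`. -/
noncomputable def mCov (G : SimpleGraph V) (θ : ℝ) (D : Finset V) (h : V → ℝ)
    (f g : (V → Bool) → ℝ) : ℝ :=
  cov (fieldWeight G θ D h) (fun η => f (extCfg η)) (fun η => g (extCfg η))

/-- The covariance of two spins. -/
noncomputable def sig (G : SimpleGraph V) (θ : ℝ) (D : Finset V) (h : V → ℝ) (v w : V) : ℝ :=
  mCov G θ D h (sp v) (sp w)

/-- The regression coefficient of the spin at `v` on the spin at `c`. -/
noncomputable def regr (G : SimpleGraph V) (θ : ℝ) (D : Finset V) (h : V → ℝ) (v c : V) : ℝ :=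
  sig G θ D h v c / sig G θ D h c c

/-- The part of `D` on the side of `w` of the edge `(p, w)`. -/
noncomputable def branch (G : SimpleGraph V) (D : Finset V) (p w : V) : Finset V :=
  D.filter fun x => x ∈ edgeSide G p w

/-- The magnetisation at `w` of the branch on the side of `w`. -/
noncomputable def cavity (G : SimpleGraph V) (θ : ℝ) (D : Finset V) (h : V → ℝ) (p w : V) : ℝ :=
  magn G θ (branch G D p w) w h

variable {G : SimpleGraph V} {θ : ℝ}

theorem mE_sp (D : Finset V) (h : V → ℝ) (v : V) :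
    mE G θ D h (sp v) = magn G θ D v h := rfl

theorem mE_one (h0 : 0 ≤ θ) (h1 : θ < 1) (D : Finset V) (h : V → ℝ) :
    mE G θ D h (fun _ => 1) = 1 :=
  avg_const (fieldWeight_pos h0 h1 D h) 1

theorem abs_magn_lt (h0 : 0 ≤ θ) (h1 : θ < 1) (D : Finset V) {v : V} (hv : v ∈ D) (h : V → ℝ) :
    |magn G θ D v h| < 1 := by
  have hp := fieldWeight_pos (G := G) h0 h1 D h
  rw [magn, abs_div, abs_of_pos (fieldSum_pos h0 h1 D h), div_lt_one (fieldSum_pos h0 h1 D h),
    abs_lt]
  constructor
  · rw [← Finset.sum_neg_distrib]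
    refine Finset.sum_lt_sum (fun η _ => ?_) ⟨fun _ => true, Finset.mem_univ _, ?_⟩
    · have := abs_le.mp (le_of_eq (abs_spin (extCfg η v)))
      nlinarith [hp η]
    · rw [extCfg_of_mem _ hv, spin_true]; linarith [hp fun _ => true]
  · refine Finset.sum_lt_sum (fun η _ => ?_) ⟨fun _ => false, Finset.mem_univ _, ?_⟩
    · have := abs_le.mp (le_of_eq (abs_spin (extCfg η v)))
      nlinarith [hp η]
    · rw [extCfg_of_mem _ hv, spin_false]; linarith [hp fun _ => false]

theorem sig_self (h0 : 0 ≤ θ) (h1 : θ < 1) (D : Finset V) (h : V → ℝ) (v : V) :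
    sig G θ D h v v = 1 - magn G θ D v h ^ 2 := by
  simp only [sig, mCov, cov, sp, spin_mul_self]
  rw [avg_const (fieldWeight_pos h0 h1 D h), sq]
  rfl

theorem sig_self_pos (h0 : 0 ≤ θ) (h1 : θ < 1) {D : Finset V} (h : V → ℝ) {v : V} (hv : v ∈ D) :
    0 < sig G θ D h v v := by
  rw [sig_self h0 h1, sub_pos]
  exact (sq_lt_one_iff_abs_lt_one _).mpr (abs_magn_lt h0 h1 D hv h)

theorem sig_self_le_one (h0 : 0 ≤ θ) (h1 : θ < 1) (D : Finset V) (h : V → ℝ) (v : V) :
    sig G θ D h v v ≤ 1 := by
  rw [sig_self h0 h1]; nlinarith [sq_nonneg (magn G θ D v h)]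

theorem sig_comm (D : Finset V) (h : V → ℝ) (v w : V) :
    sig G θ D h v w = sig G θ D h w v := cov_comm _ _ _

theorem regr_self (h0 : 0 ≤ θ) (h1 : θ < 1) {D : Finset V} (h : V → ℝ) {v : V} (hv : v ∈ D) :
    regr G θ D h v v = 1 := div_self (ne_of_gt (sig_self_pos h0 h1 h hv))

theorem sig_eq_regr (h0 : 0 ≤ θ) (h1 : θ < 1) {D : Finset V} (h : V → ℝ) (v : V) {c : V}
    (hc : c ∈ D) : sig G θ D h v c = regr G θ D h v c * sig G θ D h c c :=
  (div_mul_cancel₀ _ (ne_of_gt (sig_self_pos h0 h1 h hc))).symm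

theorem mem_branch {D : Finset V} {p w x : V} :
    x ∈ branch G D p w ↔ x ∈ D ∧ x ∈ edgeSide G p w := Finset.mem_filter

theorem edgeSide_swap (hG : G.IsTree) {p w : V} (h : G.Adj p w) (x : V) :
    x ∈ edgeSide G w p ↔ x ∉ edgeSide G p w := by
  simp only [mem_edgeSide]
  rcases dist_succ_or hG h x with e | e <;> omega

theorem mem_branch_self {D : Finset V} {p w : V} (h : G.Adj p w) (hw : w ∈ D) :
    w ∈ branch G D p w := mem_branch.mpr ⟨hw, edgeSide_self h⟩

/-- The configurations on `D` as pairs of configurations of the two branches. -/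
noncomputable def splitCfg (hG : G.IsTree) {p w : V} (h : G.Adj p w) (D : Finset V) :
    (D → Bool) ≃ (branch G D p w → Bool) × (branch G D w p → Bool) where
  toFun η := (fun x => η ⟨x, (mem_branch.mp x.2).1⟩, fun x => η ⟨x, (mem_branch.mp x.2).1⟩)
  invFun q x :=
    if hx : (x : V) ∈ edgeSide G p w then q.1 ⟨x, mem_branch.mpr ⟨x.2, hx⟩⟩
    else q.2 ⟨x, mem_branch.mpr ⟨x.2, (edgeSide_swap hG h x).mpr hx⟩⟩
  left_inv η := by funext x; simp only; split_ifs <;> rfl
  right_inv q := by
    refine Prod.ext (funext fun x => ?_) (funext fun x => ?_)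
    · simp [(mem_branch.mp x.2).2]
    · simp [(edgeSide_swap hG h x).mp (mem_branch.mp x.2).2]

theorem edgesWithin_split (hG : G.IsTree) {p w : V} (h : G.Adj p w) {D : Finset V}
    (hp : p ∈ D) (hw : w ∈ D) :
    edgesWithin G D = insert s(p, w)
      (edgesWithin G (branch G D p w) ∪ edgesWithin G (branch G D w p)) ∧
    s(p, w) ∉ edgesWithin G (branch G D p w) ∪ edgesWithin G (branch G D w p) ∧
    Disjoint (edgesWithin G (branch G D p w)) (edgesWithin G (branch G D w p)) := by
  refine ⟨?_, ?_, ?_⟩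
  · ext e
    induction e using Sym2.ind with
    | h a b =>
      simp only [edgesWithin, Finset.mem_insert, Finset.mem_union, Finset.mem_filter,
        Finset.mk_mem_sym2_iff, mem_edgeSet, mem_branch, edgeSide_swap hG h]
      constructor
      · rintro ⟨⟨ha, hb⟩, hab⟩
        by_cases sa : a ∈ edgeSide G p w <;> by_cases sb : b ∈ edgeSide G p w
        · exact Or.inr (Or.inl ⟨⟨⟨ha, sa⟩, hb, sb⟩, hab⟩)
        · obtain ⟨rfl, rfl⟩ := crossing_edge hG h hab sa sb
          exact Or.inl Sym2.eq_swap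
        · obtain ⟨rfl, rfl⟩ := crossing_edge hG h hab.symm sb sa
          exact Or.inl rfl
        · exact Or.inr (Or.inr ⟨⟨⟨ha, sa⟩, hb, sb⟩, hab⟩)
      · rintro (he | ⟨⟨⟨ha, -⟩, hb, -⟩, hab⟩ | ⟨⟨⟨ha, -⟩, hb, -⟩, hab⟩)
        · rcases Sym2.eq_iff.mp he with ⟨rfl, rfl⟩ | ⟨rfl, rfl⟩
          · exact ⟨⟨hp, hw⟩, h⟩
          · exact ⟨⟨hw, hp⟩, h.symm⟩
        · exact ⟨⟨ha, hb⟩, hab⟩
        · exact ⟨⟨ha, hb⟩, hab⟩
  · simp only [edgesWithin, Finset.mem_union, Finset.mem_filter, Finset.mk_mem_sym2_iff, mem_branch]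
    rintro (⟨⟨hp', -⟩, -⟩ | ⟨⟨-, hw'⟩, -⟩)
    · exact not_mem_edgeSide_left h hp'.2
    · exact not_mem_edgeSide_left h.symm hw'.2
  · rw [Finset.disjoint_left]
    intro e
    induction e using Sym2.ind with
    | h a b =>
      simp only [edgesWithin, Finset.mem_filter, Finset.mk_mem_sym2_iff, mem_branch,
        edgeSide_swap hG h]
      rintro ⟨⟨ha, -⟩, -⟩ ⟨⟨ha', -⟩, -⟩
      exact ha'.2 ha.2

theorem extCfg_splitCfg_left (hG : G.IsTree) {p w : V} (h : G.Adj p w) {D : Finset V}
    (η : D → Bool) {x : V} (hx : x ∈ branch G D p w) :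
    extCfg (splitCfg hG h D η).1 x = extCfg η x := by
  rw [extCfg_of_mem _ hx, extCfg_of_mem _ (mem_branch.mp hx).1]
  rfl

theorem extCfg_splitCfg_right (hG : G.IsTree) {p w : V} (h : G.Adj p w) {D : Finset V}
    (η : D → Bool) {x : V} (hx : x ∈ branch G D w p) :
    extCfg (splitCfg hG h D η).2 x = extCfg η x := by
  rw [extCfg_of_mem _ hx, extCfg_of_mem _ (mem_branch.mp hx).1]
  rfl

theorem fieldWeight_split (hG : G.IsTree) {p w : V} (h : G.Adj p w) {D : Finset V}
    (hp : p ∈ D) (hw : w ∈ D) (y : V → ℝ) (η : D → Bool) :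
    fieldWeight G θ D y η = (1 + θ * sp p (extCfg η) * sp w (extCfg η)) *
      (fieldWeight G θ (branch G D p w) y (splitCfg hG h D η).1 *
        fieldWeight G θ (branch G D w p) y (splitCfg hG h D η).2) := by
  obtain ⟨e1, e2, e3⟩ := edgesWithin_split hG h hp hw
  have cE : ∀ {a b : V}, (∀ x ∈ branch G D a b, x ∈ D) := fun x hx => (mem_branch.mp hx).1
  have hL : ∏ e ∈ edgesWithin G (branch G D p w), pairFactor θ (extCfg η) e =
      ∏ e ∈ edgesWithin G (branch G D p w), pairFactor θ (extCfg (splitCfg hG h D η).1) e := by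
    refine Finset.prod_congr rfl fun e he => ?_
    simp only [edgesWithin, Finset.mem_filter, Finset.mem_sym2_iff] at he
    induction e using Sym2.ind with
    | h a b =>
      rw [pairFactor_mk, pairFactor_mk,
        extCfg_splitCfg_left hG h η (he.1 a (Sym2.mem_mk_left a b)),
        extCfg_splitCfg_left hG h η (he.1 b (Sym2.mem_mk_right a b))]
  have hR : ∏ e ∈ edgesWithin G (branch G D w p), pairFactor θ (extCfg η) e =
      ∏ e ∈ edgesWithin G (branch G D w p), pairFactor θ (extCfg (splitCfg hG h D η).2) e := by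
    refine Finset.prod_congr rfl fun e he => ?_
    simp only [edgesWithin, Finset.mem_filter, Finset.mem_sym2_iff] at he
    induction e using Sym2.ind with
    | h a b =>
      rw [pairFactor_mk, pairFactor_mk,
        extCfg_splitCfg_right hG h η (he.1 a (Sym2.mem_mk_left a b)),
        extCfg_splitCfg_right hG h η (he.1 b (Sym2.mem_mk_right a b))]
  have hF : ∏ x : D, Real.exp (spin (η x) * y x) =
      (∏ x : branch G D p w, Real.exp (spin ((splitCfg hG h D η).1 x) * y x)) *
        ∏ x : branch G D w p, Real.exp (spin ((splitCfg hG h D η).2 x) * y x) := by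
    have conv1 : ∀ (E : Finset V) (ζ : E → Bool), ∏ x : E, Real.exp (spin (ζ x) * y x) =
        ∏ x ∈ E, Real.exp (spin (extCfg ζ x) * y x) := by
      intro E ζ
      rw [← Finset.prod_coe_sort E]
      exact Finset.prod_congr rfl fun x _ => by rw [extCfg_of_mem _ x.2]
    rw [conv1, conv1, conv1,
      ← Finset.prod_filter_mul_prod_filter_not D (fun x => x ∈ edgeSide G p w)]
    congr 1
    · refine Finset.prod_congr rfl fun x hx => ?_
      rw [extCfg_splitCfg_left hG h η hx]
    · refine Finset.prod_congr ?_ fun x hx => ?_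
      · ext x; simp [mem_branch, edgeSide_swap hG h]
      · rw [extCfg_splitCfg_right hG h η hx]
  simp only [fieldWeight, freeWeight]
  rw [e1, Finset.prod_insert e2, Finset.prod_union e3, hL, hR, hF, pairFactor_mk]
  simp only [sp]
  ring

/-- The expectation of a product of observables of the two branches. -/
theorem mE_split (hG : G.IsTree) (h0 : 0 ≤ θ) (h1 : θ < 1) {p w : V} (h : G.Adj p w)
    {D : Finset V} (hp : p ∈ D) (hw : w ∈ D) (y : V → ℝ) {F H : (V → Bool) → ℝ}
    (hF : DependsOn F (branch G D p w : Set V)) (hH : DependsOn H (branch G D w p : Set V)) :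
    mE G θ D y (fun s => F s * H s) * (1 + θ * cavity G θ D y p w * cavity G θ D y w p) =
      mE G θ (branch G D p w) y F * mE G θ (branch G D w p) y H +
        θ * (mE G θ (branch G D p w) y (fun s => F s * sp w s) *
          mE G θ (branch G D w p) y (fun s => H s * sp p s)) := by
  set P := branch G D p w with hP
  set R := branch G D w p with hR
  set wP := fieldWeight G θ P y with hwP
  set wR := fieldWeight G θ R y with hwR
  have key : ∀ (F H : (V → Bool) → ℝ), DependsOn F (P : Set V) → DependsOn H (R : Set V) →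
      ∑ η : D → Bool, fieldWeight G θ D y η * (F (extCfg η) * H (extCfg η)) =
      (∑ a, wP a * F (extCfg a)) * (∑ b, wR b * H (extCfg b)) +
        θ * ((∑ a, wP a * (F (extCfg a) * sp w (extCfg a))) *
          ∑ b, wR b * (H (extCfg b) * sp p (extCfg b))) := by
    intro F H hF hH
    rw [Finset.sum_mul_sum, Finset.sum_mul_sum, Finset.mul_sum, ← Finset.sum_add_distrib]
    simp only [Finset.mul_sum, ← Finset.sum_add_distrib]
    rw [← Fintype.sum_prod_type', ← (splitCfg hG h D).sum_comp]
    refine Finset.sum_congr rfl fun η _ => ?_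
    have eF : F (extCfg η) = F (extCfg (splitCfg hG h D η).1) :=
      hF fun x hx => (extCfg_splitCfg_left hG h η hx).symm
    have eH : H (extCfg η) = H (extCfg (splitCfg hG h D η).2) :=
      hH fun x hx => (extCfg_splitCfg_right hG h η hx).symm
    have ew : sp w (extCfg η) = sp w (extCfg (splitCfg hG h D η).1) := by
      simp only [sp, extCfg_splitCfg_left hG h η (mem_branch_self h hw)]
    have ep : sp p (extCfg η) = sp p (extCfg (splitCfg hG h D η).2) := by
      simp only [sp, extCfg_splitCfg_right hG h η (mem_branch_self h.symm hp)]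
    rw [fieldWeight_split hG h hp hw, eF, eH, ew, ep]
    ring
  have k1 := key F H hF hH
  have k0 := key (fun _ => 1) (fun _ => 1) (fun _ _ _ => rfl) (fun _ _ _ => rfl)
  simp only [one_mul, mul_one] at k0
  have hpP : (0 : ℝ) < ∑ a, wP a := fieldSum_pos h0 h1 P y
  have hpR : (0 : ℝ) < ∑ b, wR b := fieldSum_pos h0 h1 R y
  have hpD : (0 : ℝ) < ∑ η, fieldWeight G θ D y η := fieldSum_pos h0 h1 D y
  clear_value wP wR P R
  subst hwP hwR hP hR
  simp only [cavity, magn, mE, avg, sp] at k0 k1 hpP hpR ⊢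
  rw [k1]
  field_simp
  simp only [mul_assoc] at k0 ⊢
  linear_combination -((∑ a, fieldWeight G θ (branch G D p w) y a * F (extCfg a)) * (∑ b, fieldWeight G θ (branch G D w p) y b * H (extCfg b)) +
      θ * ((∑ a, fieldWeight G θ (branch G D p w) y a * (F (extCfg a) * spin (extCfg a w))) *
        ∑ b, fieldWeight G θ (branch G D w p) y b * (H (extCfg b) * spin (extCfg b p)))) * k0

theorem cavity_mul_pos (h0 : 0 ≤ θ) (h1 : θ < 1) (D : Finset V) (y : V → ℝ) (p w : V) :
    0 < 1 + θ * cavity G θ D y p w * cavity G θ D y w p := by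
  have ha : |cavity G θ D y p w| ≤ 1 := abs_magn_le h0 h1 _ _ _
  have hb : |cavity G θ D y w p| ≤ 1 := abs_magn_le h0 h1 _ _ _
  have : |θ * cavity G θ D y p w * cavity G θ D y w p| ≤ θ := by
    rw [mul_assoc, abs_mul, abs_of_nonneg h0, abs_mul]
    exact mul_le_of_le_one_right h0 (mul_le_one₀ ha (abs_nonneg _) hb)
  linarith [(abs_le.mp this).1]

theorem cavity_sq_lt (h0 : 0 ≤ θ) (h1 : θ < 1) (D : Finset V) (y : V → ℝ) (p w : V) :
    0 < 1 - θ ^ 2 * cavity G θ D y p w ^ 2 := by
  have ha : |cavity G θ D y p w| ≤ 1 := abs_magn_le h0 h1 _ _ _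
  have h2 : cavity G θ D y p w ^ 2 ≤ 1 := (sq_le_one_iff_abs_le_one _).mpr ha
  nlinarith [mul_le_mul_of_nonneg_left h2 (sq_nonneg θ), mul_le_mul_of_nonneg_left h1.le h0]

/-- Observables of a branch enter covariances with the outside through the boundary spin. -/
theorem mCov_side (hG : G.IsTree) (h0 : 0 ≤ θ) (h1 : θ < 1) {p w : V} (h : G.Adj p w)
    {D : Finset V} (hp : p ∈ D) (hw : w ∈ D) (y : V → ℝ) {F H : (V → Bool) → ℝ}
    (hF : DependsOn F (branch G D p w : Set V)) (hH : DependsOn H (branch G D w p : Set V)) :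
    mCov G θ D y F H =
      θ * mCov G θ (branch G D p w) y F (sp w) / (1 - θ ^ 2 * cavity G θ D y p w ^ 2) *
        mCov G θ D y (sp p) H := by
  set P := branch G D p w with hP
  set R := branch G D w p with hR
  have hone : ∀ s : Set V, DependsOn (fun _ : V → Bool => (1 : ℝ)) s := fun s _ _ _ => rfl
  have hpR : DependsOn (sp p) (R : Set V) := fun a b hab => by
    simp only [sp, hab p (mem_branch_self h.symm hp)]
  have hpH : DependsOn (fun s => sp p s * H s) (R : Set V) := fun a b hab => by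
    show sp p a * H a = sp p b * H b
    rw [hpR hab, hH hab]
  have S := fun {A B : (V → Bool) → ℝ} (hA : DependsOn A (P : Set V))
    (hB : DependsOn B (R : Set V)) => mE_split hG h0 h1 h hp hw y hA hB
  have e1 := S hF hH
  have e2 := S hF (hone _)
  have e3 := S (hone _) hH
  have e4 := S (hone _) hpH
  have e5 := S (hone _) hpR
  have hsq : ∀ s, sp p s * H s * sp p s = H s := fun s => by
    rw [mul_right_comm, show sp p s * sp p s = 1 from spin_mul_self _, one_mul]
  have hsq2 : ∀ s, sp p s * sp p s = (1 : ℝ) := fun s => spin_mul_self _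
  simp only [one_mul, mul_one, mE_one h0 h1, hsq, hsq2] at e1 e2 e3 e4 e5
  have hfl : (fun s => H s * sp p s) = fun s => sp p s * H s := funext fun s => mul_comm _ _
  simp only [hfl] at e1 e3
  simp only [mE_sp] at e1 e2 e3 e4 e5
  simp only [show magn G θ (branch G D p w) w y = cavity G θ D y p w from rfl,
    show magn G θ (branch G D w p) p y = cavity G θ D y w p from rfl] at e1 e2 e3 e4 e5
  set g := cavity G θ D y p w with hg
  set m := cavity G θ D y w p with hm
  have hZ : 1 + θ * g * m ≠ 0 := ne_of_gt (cavity_mul_pos h0 h1 D y p w)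
  have hN : 1 - θ ^ 2 * g ^ 2 ≠ 0 := ne_of_gt (cavity_sq_lt h0 h1 D y p w)
  set f := mE G θ P y F with hf
  set f' := mE G θ P y (fun s => F s * sp w s) with hf'
  set a := mE G θ R y H with ha
  set a' := mE G θ R y (fun s => sp p s * H s) with ha'
  show mE G θ D y (fun s => F s * H s) - mE G θ D y F * mE G θ D y H =
    θ * (f' - f * g) / (1 - θ ^ 2 * g ^ 2) *
      (mE G θ D y (fun s => sp p s * H s) - mE G θ D y (sp p) * mE G θ D y H)
  rw [← eq_div_iff hZ] at e1 e2 e3 e4 e5
  rw [e1, e2, e3, e4, show mE G θ D y (sp p) = magn G θ D p y from rfl, e5]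
  field_simp
  ring

theorem regr_adj (hG : G.IsTree) (h0 : 0 ≤ θ) (h1 : θ < 1) {p w : V} (h : G.Adj p w)
    {D : Finset V} (hp : p ∈ D) (hw : w ∈ D) (y : V → ℝ) :
    regr G θ D y w p = θ * (1 - cavity G θ D y p w ^ 2) / (1 - θ ^ 2 * cavity G θ D y p w ^ 2) := by
  have hF : DependsOn (sp w) (branch G D p w : Set V) := fun a b hab => by
    simp only [sp, hab w (mem_branch_self h hw)]
  have hH : DependsOn (sp p) (branch G D w p : Set V) := fun a b hab => by
    simp only [sp, hab p (mem_branch_self h.symm hp)]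
  have e := mCov_side hG h0 h1 h hp hw y hF hH
  rw [regr, show sig G θ D y w p = mCov G θ D y (sp w) (sp p) from rfl, e,
    show mCov G θ D y (sp p) (sp p) = sig G θ D y p p from rfl,
    mul_div_assoc _ (sig G θ D y p p), div_self (ne_of_gt (sig_self_pos h0 h1 y hp)), mul_one,
    show mCov G θ (branch G D p w) y (sp w) (sp w) = sig G θ (branch G D p w) y w w from rfl,
    sig_self h0 h1]
  rfl

theorem regr_adj_bounds (hG : G.IsTree) (h0 : 0 ≤ θ) (h1 : θ < 1) {p w : V} (h : G.Adj p w)
    {D : Finset V} (hp : p ∈ D) (hw : w ∈ D) (y : V → ℝ) :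
    0 ≤ regr G θ D y w p ∧ regr G θ D y w p ≤ θ := by
  have hN := cavity_sq_lt (G := G) h0 h1 D y p w
  have ha : |cavity G θ D y p w| ≤ 1 := abs_magn_le h0 h1 _ _ _
  have h2 : cavity G θ D y p w ^ 2 ≤ 1 := (sq_le_one_iff_abs_le_one _).mpr ha
  rw [regr_adj hG h0 h1 h hp hw]
  refine ⟨div_nonneg (mul_nonneg h0 (by linarith)) hN.le, ?_⟩
  rw [div_le_iff₀ hN]
  refine mul_le_mul_of_nonneg_left ?_ h0
  have ht : θ ^ 2 ≤ 1 := pow_le_one₀ h0 h1.le
  nlinarith [mul_le_mul_of_nonneg_right ht (sq_nonneg (cavity G θ D y p w))]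

theorem convex_branch (hG : G.IsTree) {D : Finset V} (hD : IsConvexSet G D) {p w : V}
    (h : G.Adj p w) : IsConvexSet G (branch G D p w) := by
  intro u hu v hv x hux hx
  rw [mem_branch] at hu hv ⊢
  refine ⟨hD u hu.1 v hv.1 x hux hx, ?_⟩
  by_contra hxs
  obtain ⟨rfl, rfl⟩ := crossing_edge hG h hux hu.2 hxs
  have := dist_of_mem_side hG h hv.2
  omega

theorem mem_of_between (hG : G.IsTree) {D : Finset V} (hD : IsConvexSet G D) {v : V}
    (hv : v ∈ D) {c : V} : ∀ {u : V}, u ∈ D →
      G.dist u v = G.dist u c + G.dist c v → c ∈ D := by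
  intro u
  induction hn : G.dist u c generalizing u with
  | zero => intro hu _; obtain rfl := hG.connected.dist_eq_zero_iff.mp hn; exact hu
  | succ n ih =>
    intro hu he
    have hne : u ≠ c := by rintro rfl; simp at hn
    obtain ⟨x, hx, hxd⟩ := exists_toward hG hne
    have t1 := hG.connected.dist_triangle (u := u) (v := x) (w := v)
    have t2 := hG.connected.dist_triangle (u := x) (v := c) (w := v)
    rw [dist_eq_one_iff_adj.mpr hx] at t1
    exact ih (by omega) (hD u hu v hv x hx (by omega)) (by omega)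

theorem mem_side_of_between (hG : G.IsTree) {u v c x : V} (hcx : G.Adj c x)
    (hxv : G.dist x v + 1 = G.dist c v) (he : G.dist v u = G.dist v c + G.dist c u) :
    v ∈ edgeSide G c x ∧ u ∉ edgeSide G c x := by
  refine ⟨by rw [mem_edgeSide]; omega, fun hu => ?_⟩
  have hu' := dist_of_mem_side hG hcx hu
  have := hG.connected.dist_triangle (u := v) (v := x) (w := u)
  rw [dist_comm (u := v) (v := x)] at this
  rw [dist_comm (u := v) (v := c)] at he
  omega

/-- The Markov property across a vertex. -/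
theorem mCov_between (hG : G.IsTree) (h0 : 0 ≤ θ) (h1 : θ < 1) {D : Finset V}
    (hD : IsConvexSet G D) (y : V → ℝ) {v c : V} (hv : v ∈ D) (hc : c ∈ D) {S : Set V}
    (hS : ∀ u ∈ S, u ∈ D ∧ G.dist v u = G.dist v c + G.dist c u) {H : (V → Bool) → ℝ}
    (hH : DependsOn H S) :
    mCov G θ D y (sp v) H = regr G θ D y v c * mCov G θ D y (sp c) H := by
  by_cases hvc : v = c
  · subst hvc; rw [regr_self h0 h1 y hv, one_mul]
  · obtain ⟨x, hcx, hxv⟩ := exists_toward hG (Ne.symm hvc)
    have hxD : x ∈ D := hD c hc v hv x hcx hxv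
    have hvs : v ∈ edgeSide G c x := by rw [mem_edgeSide]; omega
    have hF : DependsOn (sp v) (branch G D c x : Set V) := fun a b hab => by
      simp only [sp, hab v (mem_branch.mpr ⟨hv, hvs⟩)]
    have hHR : DependsOn H (branch G D x c : Set V) := fun a b hab => hH fun u hu => by
      obtain ⟨huD, he⟩ := hS u hu
      exact hab u (mem_branch.mpr
        ⟨huD, (edgeSide_swap hG hcx u).mpr (mem_side_of_between hG hcx hxv he).2⟩)
    have hcR : DependsOn (sp c) (branch G D x c : Set V) := fun a b hab => by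
      simp only [sp, hab c (mem_branch_self hcx.symm hc)]
    rw [mCov_side hG h0 h1 hcx hc hxD y hF hHR, regr,
      show sig G θ D y v c = mCov G θ D y (sp v) (sp c) from rfl,
      mCov_side hG h0 h1 hcx hc hxD y hF hcR,
      show mCov G θ D y (sp c) (sp c) = sig G θ D y c c from rfl,
      mul_div_assoc _ (sig G θ D y c c), div_self (ne_of_gt (sig_self_pos h0 h1 y hc)), mul_one]

theorem regr_mul (hG : G.IsTree) (h0 : 0 ≤ θ) (h1 : θ < 1) {D : Finset V}
    (hD : IsConvexSet G D) (y : V → ℝ) {v c u : V} (hv : v ∈ D) (hc : c ∈ D) (hu : u ∈ D)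
    (he : G.dist v u = G.dist v c + G.dist c u) :
    regr G θ D y v u = regr G θ D y v c * regr G θ D y c u := by
  have hH : DependsOn (sp u) ({u} : Set V) := fun a b hab => by simp only [sp, hab u rfl]
  have e := mCov_between hG h0 h1 hD y hv hc (S := {u})
    (fun x hx => by rw [Set.mem_singleton_iff] at hx; subst hx; exact ⟨hu, he⟩) hH
  simp only [regr] at e ⊢
  rw [show sig G θ D y v u = mCov G θ D y (sp v) (sp u) from rfl, e]
  simp only [sig]
  ring

theorem regr_bounds (hG : G.IsTree) (h0 : 0 ≤ θ) (h1 : θ < 1) {D : Finset V}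
    (hD : IsConvexSet G D) (y : V → ℝ) {c : V} (hc : c ∈ D) : ∀ {v : V}, v ∈ D →
      0 ≤ regr G θ D y v c ∧ regr G θ D y v c ≤ θ ^ G.dist v c := by
  intro v
  induction hn : G.dist v c generalizing v with
  | zero =>
    intro hv
    obtain rfl := hG.connected.dist_eq_zero_iff.mp hn
    rw [regr_self h0 h1 y hv, pow_zero]
    exact ⟨zero_le_one, le_rfl⟩
  | succ n ih =>
    intro hv
    have hne : v ≠ c := by rintro rfl; simp at hn
    obtain ⟨x, hvx, hxd⟩ := exists_toward hG hne
    have hx : x ∈ D := hD v hv c hc x hvx hxd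
    have hb := regr_adj_bounds hG h0 h1 hvx.symm hx hv y
    obtain ⟨i1, i2⟩ := ih (by omega) hx
    rw [regr_mul hG h0 h1 hD y hv hx hc (by rw [dist_eq_one_iff_adj.mpr hvx]; omega), pow_succ']
    exact ⟨mul_nonneg hb.1 i1, mul_le_mul hb.2 i2 i1 h0⟩

theorem sig_nonneg (hG : G.IsTree) (h0 : 0 ≤ θ) (h1 : θ < 1) {D : Finset V}
    (hD : IsConvexSet G D) (y : V → ℝ) {v w : V} (hv : v ∈ D) (hw : w ∈ D) :
    0 ≤ sig G θ D y v w := by
  rw [sig_eq_regr h0 h1 y v hw]
  exact mul_nonneg (regr_bounds hG h0 h1 hD y hw hv).1 (sig_self_pos h0 h1 y hw).le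

theorem sig_le (hG : G.IsTree) (h0 : 0 ≤ θ) (h1 : θ < 1) {D : Finset V}
    (hD : IsConvexSet G D) (y : V → ℝ) {v w : V} (hv : v ∈ D) (hw : w ∈ D) :
    sig G θ D y v w ≤ θ ^ G.dist v w := by
  rw [sig_eq_regr h0 h1 y v hw]
  exact (mul_le_of_le_one_right (regr_bounds hG h0 h1 hD y hw hv).1
    (sig_self_le_one h0 h1 D y w)).trans (regr_bounds hG h0 h1 hD y hw hv).2

/-- The cavity identity for the magnetisations of neighbours. -/
theorem magn_adj (hG : G.IsTree) (h0 : 0 ≤ θ) (h1 : θ < 1) {p w : V} (h : G.Adj p w)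
    {D : Finset V} (hp : p ∈ D) (hw : w ∈ D) (y : V → ℝ) :
    magn G θ D w y = cavity G θ D y p w * (1 - θ ^ 2) / (1 - θ ^ 2 * cavity G θ D y p w ^ 2) +
      regr G θ D y w p * magn G θ D p y := by
  have hone : ∀ s : Set V, DependsOn (fun _ : V → Bool => (1 : ℝ)) s := fun s _ _ _ => rfl
  have hwP : DependsOn (sp w) (branch G D p w : Set V) := fun a b hab => by
    simp only [sp, hab w (mem_branch_self h hw)]
  have hpR : DependsOn (sp p) (branch G D w p : Set V) := fun a b hab => by
    simp only [sp, hab p (mem_branch_self h.symm hp)]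
  have e1 := mE_split hG h0 h1 h hp hw y hwP (hone _)
  have e2 := mE_split hG h0 h1 h hp hw y (hone _) hpR
  have hsq : ∀ (x : V) (s : V → Bool), sp x s * sp x s = (1 : ℝ) := fun x s => spin_mul_self _
  simp only [mul_one, one_mul, hsq, mE_one h0 h1, mE_sp] at e1 e2
  rw [show magn G θ (branch G D p w) w y = cavity G θ D y p w from rfl] at e1 e2
  rw [show magn G θ (branch G D w p) p y = cavity G θ D y w p from rfl] at e1 e2
  rw [regr_adj hG h0 h1 h hp hw]
  set g := cavity G θ D y p w
  set m := cavity G θ D y w p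
  have hZ : 1 + θ * g * m ≠ 0 := ne_of_gt (cavity_mul_pos h0 h1 D y p w)
  have hN : 1 - θ ^ 2 * g ^ 2 ≠ 0 := ne_of_gt (cavity_sq_lt h0 h1 D y p w)
  rw [← eq_div_iff hZ] at e1 e2
  rw [e1, e2, div_mul_div_comm, div_add_div _ _ hN (mul_ne_zero hN hZ),
    div_eq_div_iff hZ (mul_ne_zero hN (mul_ne_zero hN hZ))]
  ring

/-- The median of three vertices of a tree. -/
theorem exists_median (hG : G.IsTree) {D : Finset V} (hD : IsConvexSet G D) {v w u : V}
    (hv : v ∈ D) (hw : w ∈ D) :
    ∃ c ∈ D, G.dist v w = G.dist v c + G.dist c w ∧ G.dist v u = G.dist v c + G.dist c u ∧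
      G.dist w u = G.dist w c + G.dist c u := by
  obtain ⟨c, hc, hmin⟩ := Finset.exists_min_image
    (D.filter fun c => G.dist v w = G.dist v c + G.dist c w) (fun c => G.dist c u)
    ⟨v, Finset.mem_filter.mpr ⟨hv, by simp⟩⟩
  obtain ⟨hcD, hcp⟩ := Finset.mem_filter.mp hc
  have key : ∀ a b, a ∈ D → b ∈ D → G.dist a b = G.dist a c + G.dist c b →
      (∀ x ∈ D, G.dist a b = G.dist a x + G.dist x b → G.dist c u ≤ G.dist x u) →
      G.dist a u = G.dist a c + G.dist c u := by
    intro a b ha hb hab hm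
    by_cases hac : a = c
    · subst hac; simp
    · obtain ⟨x, hcx, hxa⟩ := exists_toward hG (Ne.symm hac)
      have has : a ∈ edgeSide G c x := by rw [mem_edgeSide]; omega
      have hxp : G.dist a b = G.dist a x + G.dist x b := by
        have := hG.connected.dist_triangle (u := a) (v := x) (w := b)
        have h2 := hG.connected.dist_triangle (u := x) (v := c) (w := b)
        rw [dist_eq_one_iff_adj.mpr hcx.symm] at h2
        rw [dist_comm (u := a) (v := x)] at this ⊢
        rw [dist_comm (u := c) (v := a)] at hxa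
        omega
      have hus : u ∉ edgeSide G c x := fun hus => by
        have := dist_of_mem_side hG hcx hus
        have := hm x (hD c hcD a ha x hcx hxa) hxp
        omega
      have := dist_across hG hcx has u hus
      rw [dist_comm (u := u) (v := a), dist_comm (u := x) (v := a)] at this
      rw [dist_comm (u := c) (v := a), dist_comm (u := x) (v := a)] at hxa
      omega
  refine ⟨c, hcD, hcp, key v w hv hw hcp fun x hx he => hmin x (Finset.mem_filter.mpr ⟨hx, he⟩),
    key w v hw hv ?_ fun x hx he => hmin x (Finset.mem_filter.mpr ⟨hx, ?_⟩)⟩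
  · rw [dist_comm (u := w) (v := v), dist_comm (u := w) (v := c), dist_comm (u := c) (v := v)]
    omega
  · rw [dist_comm (u := w) (v := v), dist_comm (u := w) (v := x),
      dist_comm (u := x) (v := v)] at he
    omega

/-- The third cumulant of three spins. -/
theorem cum3_median (hG : G.IsTree) (h0 : 0 ≤ θ) (h1 : θ < 1) {D : Finset V}
    (hD : IsConvexSet G D) (y : V → ℝ) {v w u c : V} (hv : v ∈ D) (hw : w ∈ D) (hu : u ∈ D)
    (hc : c ∈ D) (evw : G.dist v w = G.dist v c + G.dist c w)
    (evu : G.dist v u = G.dist v c + G.dist c u) (ewu : G.dist w u = G.dist w c + G.dist c u) :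
    cum3 (fieldWeight G θ D y) (fun η => sp v (extCfg η)) (fun η => sp w (extCfg η))
      (fun η => sp u (extCfg η)) =
      -2 * magn G θ D c y *
        (regr G θ D y v c * (regr G θ D y w c * sig G θ D y u c)) := by
  set W := fieldWeight G θ D y with hW
  have hsym : ∀ f g k : (D → Bool) → ℝ, cum3 W f g k = cum3 W g f k := fun f g k => by
    simp only [cum3, mul_comm (g _)]; ring
  have hcov : ∀ (a : V) (H : (V → Bool) → ℝ),
      cov W (fun η => sp a (extCfg η)) (fun η => H (extCfg η)) = mCov G θ D y (sp a) H :=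
    fun a H => rfl
  have hself : ∀ a b : V, cum3 W (fun η => sp a (extCfg η)) (fun η => sp a (extCfg η))
      (fun η => sp b (extCfg η)) = -2 * magn G θ D a y * sig G θ D y a b := by
    intro a b
    have e : (fun η : D → Bool => sp a (extCfg η) * sp a (extCfg η)) = fun _ => (1 : ℝ) :=
      funext fun η => spin_mul_self _
    simp only [cum3, e, hW, cov_const_left (fieldWeight_pos h0 h1 D y)]
    simp only [sig, mCov]
    show 0 - avg _ _ * _ - avg _ _ * _ = -2 * avg _ _ * _
    simp only [sp]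
    ring
  have step : ∀ (a x b e : V), a ∈ D → e ∈ D → x ∈ D → b ∈ D →
      G.dist a x = G.dist a e + G.dist e x → G.dist a b = G.dist a e + G.dist e b →
      cum3 W (fun η => sp a (extCfg η)) (fun η => sp x (extCfg η)) (fun η => sp b (extCfg η)) =
        regr G θ D y a e * cum3 W (fun η => sp e (extCfg η)) (fun η => sp x (extCfg η))
          (fun η => sp b (extCfg η)) := by
    intro a x b e ha he hx hb d1 d2
    have hS : ∀ z ∈ ({x, b} : Set V), z ∈ D ∧ G.dist a z = G.dist a e + G.dist e z := by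
      intro z hz
      rcases hz with rfl | rfl
      · exact ⟨hx, d1⟩
      · exact ⟨hb, d2⟩
    have B1 := mCov_between hG h0 h1 hD y ha he hS (H := sp b)
      (fun p q hpq => by simp only [sp, hpq b (by simp)])
    have B2 := mCov_between hG h0 h1 hD y ha he hS (H := sp x)
      (fun p q hpq => by simp only [sp, hpq x (by simp)])
    have B3 := mCov_between hG h0 h1 hD y ha he hS (H := fun s => sp x s * sp b s)
      (fun p q hpq => by simp only [sp, hpq x (by simp), hpq b (by simp)])
    simp only [mCov] at B1 B2 B3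
    simp only [cum3, cov] at B1 B2 B3 ⊢
    simp only [mul_assoc] at B1 B2 B3 ⊢
    linear_combination B3 - avg W (fun η => sp b (extCfg η)) * B2 -
      avg W (fun η => sp x (extCfg η)) * B1
  have ewv : G.dist w v = G.dist w c + G.dist c v := by
    rw [dist_comm (u := w) (v := v), dist_comm (u := w) (v := c), dist_comm (u := c) (v := v)]
    omega
  rw [step v w u c hv hc hw hu evw evu, hsym,
    step w c u c hw hc hc hu (by simp) ewu, hself, sig_comm D y u c]
  ring

end Vale.Agent.P161
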