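import Vale.Agent.P161.Ising
import Vale.Agent.P161.Variance
import Vale.Agent.P161.Crit.TreeCov

/-!
# The edge channel on a finite subtree

Every ordered pair `a = (u, v)` of neighbours carries an observation of `σ u + σ v`. The posterior
at time `r` is the Ising model with inverse temperature `β (1 - r)` and one field per vertex.
-/

namespace Vale.Agent.P161

open SimpleGraph MeasureTheory ProbabilityTheory
open scoped Classical NNReal

variable {V : Type*}

/-- The signal strength on an ordered edge. -/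
noncomputable def chLam (β : ℝ) : ℝ := Real.sqrt (β / 2)

/-- The coupling of the posterior at time `r`. -/
noncomputable def chTh (β r : ℝ) : ℝ := Real.tanh (β * (1 - r))

/-- The ordered edges inside `D`. -/
noncomputable def dirE (G : SimpleGraph V) (D : Finset V) : Finset (V × V) :=
  (D ×ˢ D).filter fun a => G.Adj a.1 a.2

/-- The incidence of a vertex and an ordered edge. -/
noncomputable def chInc (v : V) (a : V × V) : ℝ :=
  (if v = a.1 then 1 else 0) + (if v = a.2 then 1 else 0)

/-- The sum of the spins at the two ends of an ordered edge. -/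
def edgeSpin (a : V × V) (s : V → Bool) : ℝ := sp a.1 s + sp a.2 s

/-- The vertex fields produced by values on the ordered edges. -/
noncomputable def fieldOf (G : SimpleGraph V) (β : ℝ) (D : Finset V) (y : V × V → ℝ) (v : V) : ℝ :=
  chLam β * ∑ a ∈ dirE G D, chInc v a * y a

/-- The fields after `i` steps of increments `b`. -/
noncomputable def obsH (G : SimpleGraph V) (β : ℝ) (D : Finset V) (b : ℕ → V × V → ℝ) (i : ℕ) :
    V → ℝ :=
  fieldOf G β D fun a => ∑ j ∈ Finset.range i, b j a

/-- The drift of the observation on `a` at step `i` given the fields `H`. -/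
noncomputable def chDrift (G : SimpleGraph V) (β h : ℝ) (D : Finset V) (i : ℕ) (H : V → ℝ)
    (a : V × V) : ℝ :=
  h * chLam β * (magn G (chTh β ((i : ℝ) * h)) D a.1 H + magn G (chTh β ((i : ℝ) * h)) D a.2 H)

/-- The innovation increments of an observation path. -/
noncomputable def chInnov (G : SimpleGraph V) (β h : ℝ) (D : Finset V) (b : ℕ → V × V → ℝ)
    (i : ℕ) (a : V × V) : ℝ :=
  b i a - chDrift G β h D i (obsH G β D b i) a

/-- The fields of the Euler scheme driven by `z`. -/
noncomputable def eulerH (G : SimpleGraph V) (β h : ℝ) (D : Finset V) (z : ℕ → V × V → ℝ) :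
    ℕ → V → ℝ
  | 0 => fun _ => 0
  | i + 1 => fun v => eulerH G β h D z i v +
      fieldOf G β D (fun a => z i a + chDrift G β h D i (eulerH G β h D z i) a) v

/-- The observation increments of the Euler scheme driven by `z`. -/
noncomputable def eulerInc (G : SimpleGraph V) (β h : ℝ) (D : Finset V) (z : ℕ → V × V → ℝ)
    (i : ℕ) (a : V × V) : ℝ :=
  z i a + chDrift G β h D i (eulerH G β h D z i) a

/-- The exponent of the likelihood of `i` steps of increments given the spins. -/
noncomputable def chExpo (G : SimpleGraph V) (β h : ℝ) (D : Finset V) (s : V → Bool)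
    (b : ℕ → V × V → ℝ) (i : ℕ) : ℝ :=
  ∑ j ∈ Finset.range i, ∑ a ∈ dirE G D,
    (chLam β * edgeSpin a s * b j a - h * chLam β ^ 2 * edgeSpin a s ^ 2 / 2)

variable {G : SimpleGraph V} {β h : ℝ}

theorem mem_dirE {D : Finset V} {a : V × V} :
    a ∈ dirE G D ↔ a.1 ∈ D ∧ a.2 ∈ D ∧ G.Adj a.1 a.2 := by
  simp [dirE, and_assoc]

theorem chLam_nonneg (β : ℝ) : 0 ≤ chLam β := Real.sqrt_nonneg _

theorem chLam_sq (hβ : 0 ≤ β) : chLam β ^ 2 = β / 2 := Real.sq_sqrt (by linarith)

theorem chTh_nonneg (hβ : 0 ≤ β) {r : ℝ} (hr : r ≤ 1) : 0 ≤ chTh β r :=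
  by
  rw [chTh, Real.tanh_eq_sinh_div_cosh]
  exact div_nonneg (Real.sinh_nonneg_iff.mpr (mul_nonneg hβ (by linarith))) (Real.cosh_pos _).le

theorem chTh_lt_one (β r : ℝ) : chTh β r < 1 := Real.tanh_lt_one _

theorem chTh_one (β : ℝ) : chTh β 1 = 0 := by simp [chTh]

theorem chInc_nonneg (v : V) (a : V × V) : 0 ≤ chInc v a := by
  unfold chInc; split_ifs <;> norm_num

theorem fieldOf_add (D : Finset V) (y y' : V × V → ℝ) (v : V) :
    fieldOf G β D (fun a => y a + y' a) v = fieldOf G β D y v + fieldOf G β D y' v := by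
  simp only [fieldOf, mul_add, Finset.sum_add_distrib]

theorem fieldOf_congr (D : Finset V) {y y' : V × V → ℝ} (h : ∀ a ∈ dirE G D, y a = y' a) :
    fieldOf G β D y = fieldOf G β D y' := by
  funext v
  exact congrArg _ (Finset.sum_congr rfl fun a ha => by rw [h a ha])

theorem fieldOf_zero (D : Finset V) : fieldOf G β D (fun _ => 0) = fun _ => 0 := by
  funext v; simp [fieldOf]

theorem obsH_zero (D : Finset V) (b : ℕ → V × V → ℝ) : obsH G β D b 0 = fun _ => 0 := by
  simp only [obsH, Finset.range_zero, Finset.sum_empty]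
  exact fieldOf_zero D

theorem obsH_succ (D : Finset V) (b : ℕ → V × V → ℝ) (i : ℕ) (v : V) :
    obsH G β D b (i + 1) v = obsH G β D b i v + fieldOf G β D (b i) v := by
  simp only [obsH, Finset.sum_range_succ]
  exact fieldOf_add D _ _ v

theorem obsH_congr (D : Finset V) {b b' : ℕ → V × V → ℝ} {i : ℕ}
    (h : ∀ j < i, ∀ a ∈ dirE G D, b j a = b' j a) : obsH G β D b i = obsH G β D b' i :=
  fieldOf_congr D fun a ha => Finset.sum_congr rfl fun j hj => h j (Finset.mem_range.mp hj) a ha

theorem obsH_eulerInc (D : Finset V) (z : ℕ → V × V → ℝ) :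
    ∀ i, obsH G β D (eulerInc G β h D z) i = eulerH G β h D z i
  | 0 => obsH_zero D _
  | i + 1 => by
    funext v
    rw [obsH_succ, obsH_eulerInc D z i]
    rfl

theorem chInnov_eulerInc (D : Finset V) (z : ℕ → V × V → ℝ) (i : ℕ) (a : V × V) :
    chInnov G β h D (eulerInc G β h D z) i a = z i a := by
  rw [chInnov, obsH_eulerInc, eulerInc, add_sub_cancel_right]

theorem eulerH_congr (D : Finset V) {z z' : ℕ → V × V → ℝ} : ∀ i,
    (∀ j < i, ∀ a ∈ dirE G D, z j a = z' j a) → eulerH G β h D z i = eulerH G β h D z' i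
  | 0 => fun _ => rfl
  | i + 1 => fun hz => by
    have ih := eulerH_congr D i fun j hj => hz j (hj.trans (Nat.lt_succ_self i))
    funext v
    show eulerH G β h D z i v + _ = eulerH G β h D z' i v + _
    rw [ih, fieldOf_congr D (y' := fun a => z' i a + chDrift G β h D i (eulerH G β h D z' i) a)
      fun a ha => by rw [hz i (Nat.lt_succ_self i) a ha]]

theorem eulerH_chInnov (D : Finset V) (b : ℕ → V × V → ℝ) :
    ∀ i, eulerH G β h D (chInnov G β h D b) i = obsH G β D b i
  | 0 => (obsH_zero D b).symm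
  | i + 1 => by
    funext v
    rw [obsH_succ]
    show eulerH G β h D _ i v + fieldOf G β D (fun a => chInnov G β h D b i a +
      chDrift G β h D i (eulerH G β h D (chInnov G β h D b) i) a) v = _
    rw [eulerH_chInnov D b i]
    simp only [chInnov, sub_add_cancel]

theorem sum_chInc_mul {D : Finset V} (f : V → ℝ) {a : V × V} (ha : a ∈ dirE G D) :
    ∑ v ∈ D, chInc v a * f v = f a.1 + f a.2 := by
  obtain ⟨h1, h2, -⟩ := mem_dirE.mp ha
  simp only [chInc, add_mul, Finset.sum_add_distrib, ite_mul, one_mul, zero_mul,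
    Finset.sum_ite_eq', h1, h2, if_true]

/-- The fields are the adjoint of the endpoint sums. -/
theorem sum_mul_fieldOf (D : Finset V) (y : V × V → ℝ) (f : V → ℝ) :
    ∑ v ∈ D, f v * fieldOf G β D y v = chLam β * ∑ a ∈ dirE G D, y a * (f a.1 + f a.2) := by
  simp only [fieldOf, Finset.mul_sum]
  rw [Finset.sum_comm]
  refine Finset.sum_congr rfl fun a ha => ?_
  rw [← sum_chInc_mul f ha, Finset.mul_sum, Finset.mul_sum]
  exact Finset.sum_congr rfl fun v _ => by ring

/-- A symmetric sum over ordered edges counts every edge twice. -/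
theorem sum_dirE (D : Finset V) (f : Sym2 V → ℝ) :
    ∑ a ∈ dirE G D, f s(a.1, a.2) = 2 * ∑ e ∈ edgesWithin G D, f e := by
  have hmaps : ∀ a ∈ dirE G D, s(a.1, a.2) ∈ edgesWithin G D := by
    intro a ha
    obtain ⟨h1, h2, h3⟩ := mem_dirE.mp ha
    rw [edgesWithin, Finset.mem_filter, Finset.mk_mem_sym2_iff]
    exact ⟨⟨h1, h2⟩, h3⟩
  rw [← Finset.sum_fiberwise_of_maps_to hmaps, Finset.mul_sum]
  refine Finset.sum_congr rfl fun e he => ?_
  induction e using Sym2.ind with
  | h u w =>
    obtain ⟨hm, hadj⟩ := Finset.mem_filter.mp he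
    rw [Finset.mk_mem_sym2_iff] at hm
    rw [mem_edgeSet] at hadj
    have hfib : (dirE G D).filter (fun a => s(a.1, a.2) = s(u, w)) = {(u, w), (w, u)} := by
      ext ⟨x, y⟩
      simp only [Finset.mem_filter, mem_dirE, Sym2.eq_iff, Finset.mem_insert,
        Finset.mem_singleton, Prod.mk.injEq]
      constructor
      · exact fun hh => hh.2
      · rintro (⟨rfl, rfl⟩ | ⟨rfl, rfl⟩)
        · exact ⟨⟨hm.1, hm.2, hadj⟩, Or.inl ⟨rfl, rfl⟩⟩
        · exact ⟨⟨hm.2, hm.1, hadj.symm⟩, Or.inr ⟨rfl, rfl⟩⟩
    have hne : (u, w) ≠ (w, u) := fun e => hadj.ne (congrArg Prod.fst e)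
    rw [hfib, Finset.sum_pair hne, Sym2.eq_swap (a := w) (b := u)]
    ring

theorem pairFactor_exp (β : ℝ) (η : V → Bool) (u w : V) :
    pairFactor (Real.tanh β) η s(u, w) =
      Real.exp (β * (spin (η u) * spin (η w))) / (2 * Real.cosh β) := by
  rw [pairFactor_mk, Real.tanh_eq_sinh_div_cosh]
  have hc := (Real.cosh_pos β).ne'
  cases η u <;> cases η w <;> simp [spin] <;> field_simp <;>
    simp [Real.cosh_eq, Real.sinh_eq] <;> ring

theorem prod_pairFactor_exp (β : ℝ) (D : Finset V) (η : V → Bool) :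
    ∏ e ∈ edgesWithin G D, pairFactor (Real.tanh β) η e =
      Real.exp (β / 2 * ∑ a ∈ dirE G D, sp a.1 η * sp a.2 η) /
        (2 * Real.cosh β) ^ (edgesWithin G D).card := by
  set f : Sym2 V → ℝ := Sym2.lift ⟨fun x y => sp x η * sp y η, fun x y => mul_comm _ _⟩ with hf
  have e1 : ∑ a ∈ dirE G D, sp a.1 η * sp a.2 η = ∑ a ∈ dirE G D, f s(a.1, a.2) := rfl
  rw [e1, sum_dirE, ← mul_assoc, div_mul_cancel₀ β (two_ne_zero), Finset.mul_sum, Real.exp_sum,
    ← Finset.prod_const, ← Finset.prod_div_distrib]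
  refine Finset.prod_congr rfl fun e _ => ?_
  induction e using Sym2.ind with
  | h u w => exact pairFactor_exp β η u w

/-- The normalisation relating the posterior to the field weights. -/
noncomputable def chNorm (G : SimpleGraph V) (β h : ℝ) (D : Finset V) (i : ℕ) : ℝ :=
  ((2 * Real.cosh (β * (1 - (i : ℝ) * h))) / (2 * Real.cosh β)) ^ (edgesWithin G D).card *
    Real.exp (-(β * ((i : ℝ) * h) / 2) * (dirE G D).card)

theorem chNorm_pos (D : Finset V) (i : ℕ) : 0 < chNorm G β h D i := by
  unfold chNorm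
  have := Real.cosh_pos (β * (1 - (i : ℝ) * h))
  have := Real.cosh_pos β
  positivity

/-- The posterior after `i` steps is the Ising model with coupling `chTh β (i h)` and fields
`obsH`. -/
theorem posterior_eq (hβ : 0 ≤ β) (D : Finset V) (b : ℕ → V × V → ℝ) (i : ℕ) (η : D → Bool) :
    freeWeight G (Real.tanh β) D η * Real.exp (chExpo G β h D (extCfg η) b i) =
      chNorm G β h D i * fieldWeight G (chTh β ((i : ℝ) * h)) D (obsH G β D b i) η := by
  set s := extCfg η with hs
  set r := (i : ℝ) * h with hr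
  set S := ∑ a ∈ dirE G D, sp a.1 s * sp a.2 s with hS
  set Y := fun a => ∑ j ∈ Finset.range i, b j a with hY
  have hfield : ∏ x : D, Real.exp (spin (η x) * obsH G β D b i x) =
      Real.exp (chLam β * ∑ a ∈ dirE G D, Y a * edgeSpin a s) := by
    rw [← Real.exp_sum]
    congr 1
    simp only [edgeSpin]
    rw [← sum_mul_fieldOf D Y (fun v => sp v s), ← Finset.sum_coe_sort D]
    refine Finset.sum_congr rfl fun x _ => ?_
    rw [sp, hs, extCfg_of_mem η x.2]
    rfl
  have hexpo : chExpo G β h D s b i =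
      chLam β * (∑ a ∈ dirE G D, Y a * edgeSpin a s) -
        β * r / 2 * ((dirE G D).card + S) := by
    have hsq : ∀ a : V × V, edgeSpin a s ^ 2 = 2 + 2 * (sp a.1 s * sp a.2 s) := by
      intro a
      simp only [edgeSpin, sp]
      cases s a.1 <;> cases s a.2 <;> norm_num [spin]
    simp only [chExpo, hsq, chLam_sq hβ]
    rw [Finset.sum_comm, hS, ← nsmul_one (dirE G D).card, ← Finset.sum_const,
      ← Finset.sum_add_distrib, Finset.mul_sum, Finset.mul_sum, ← Finset.sum_sub_distrib]
    refine Finset.sum_congr rfl fun a _ => ?_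
    rw [Finset.sum_sub_distrib, Finset.sum_const, Finset.card_range, nsmul_eq_mul, ← Finset.mul_sum]
    simp only [hY, hr]
    ring
  have key : Real.exp (β / 2 * S) * Real.exp (chExpo G β h D s b i) =
      Real.exp (-(β * r / 2) * (dirE G D).card) * (Real.exp (β * (1 - r) / 2 * S) *
        Real.exp (chLam β * ∑ a ∈ dirE G D, Y a * edgeSpin a s)) := by
    rw [← Real.exp_add, ← Real.exp_add, ← Real.exp_add, hexpo]
    congr 1; ring
  unfold fieldWeight freeWeight chNorm chTh
  rw [← hs, prod_pairFactor_exp, prod_pairFactor_exp, hfield, ← hS, ← hr, div_pow]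
  have c1 : (2 * Real.cosh β) ^ (edgesWithin G D).card ≠ 0 :=
    pow_ne_zero _ (by have := Real.cosh_pos β; linarith)
  have c2 : (2 * Real.cosh (β * (1 - r))) ^ (edgesWithin G D).card ≠ 0 :=
    pow_ne_zero _ (by have := Real.cosh_pos (β * (1 - r)); linarith)
  generalize Real.exp (chExpo G β h D s b i) = X at key ⊢
  generalize Real.exp (chLam β * ∑ a ∈ dirE G D, Y a * edgeSpin a s) = W at key ⊢
  generalize Real.exp (β / 2 * S) = P at key ⊢
  generalize Real.exp (β * (1 - r) / 2 * S) = Q at key ⊢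
  generalize Real.exp (-(β * r / 2) * ((dirE G D).card : ℝ)) = R at key ⊢
  field_simp
  linear_combination key

end Vale.Agent.P161
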