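import Vale.Agent.P161.Crit.ColQV

/-!
# The column bound
-/

namespace Vale.Agent.P161

open SimpleGraph MeasureTheory ProbabilityTheory
open scoped Classical NNReal

variable {V : Type*} {G : SimpleGraph V} {d : ℕ} {t β₀ β : ℝ} {hv : ℝ≥0} {D : Finset V}
  {K i i₀ : ℕ} {a : V × V}

theorem alphaPath_of_le (h : ℝ) (H : ℕ → V → ℝ) : ∀ j ≤ i₀,
    alphaPath G β h D H i₀ a j = fun _ => 0
  | 0 => fun _ => rfl
  | j + 1 => fun hj => by
    funext w
    simp only [alphaPath, alphaPath_of_le h H j (Nat.le_of_succ_le hj), stepA, chQ, sigMul,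
      zero_mul, Finset.sum_const_zero, add_zero, mul_zero, if_neg (show j ≠ i₀ by omega)]

theorem obsAlpha_start (ha : a ∈ dirE G D) (h : ℝ) (b : ℕ → V × V → ℝ) :
    obsAlpha G β h D i₀ a (i₀ + 1) b = fun v => chLam β * chInc v a := by
  funext v
  simp only [obsAlpha, alphaPath, alphaPath_of_le h _ i₀ le_rfl, stepA, chQ, sigMul, zero_mul,
    Finset.sum_const_zero, add_zero, mul_zero, zero_add, if_true, fieldOf, mul_ite, mul_one,
    Finset.sum_ite_eq', if_pos ha]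

theorem sum_sq_sig_le (hG : G.IsTree) {θ : ℝ} (h0 : 0 ≤ θ) (h1 : θ < 1) (hD : IsConvexSet G D)
    (H : V → ℝ) {c : V} (hc : c ∈ D) :
    ∑ v ∈ D, sig G θ D H v c ^ 2 ≤ regrSum G θ D H c := by
  refine Finset.sum_le_sum fun v hv' => ?_
  have hp := sig_self_pos (G := G) h0 h1 H hc
  have h2 := sig_self_le_one (G := G) h0 h1 D H c
  rw [regr, div_pow, le_div_iff₀ (pow_pos hp 2)]
  exact mul_le_of_le_one_right (sq_nonneg _) (pow_le_one₀ hp.le h2)

theorem obsU_start_le (hG : G.IsTree) (hD : IsConvexSet G D) (ok : ChOk β hv K) (hi : i₀ < K)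
    (ha : a ∈ dirE G D) (b : ℕ → V × V → ℝ) :
    obsU G β hv D i₀ a (i₀ + 1) b ≤ 2 * chLam β ^ 2 *
      (regrSum G (chTh β (((i₀ + 1 : ℕ) : ℝ) * hv)) D (obsH G β D b (i₀ + 1)) a.1 +
        regrSum G (chTh β (((i₀ + 1 : ℕ) : ℝ) * hv)) D (obsH G β D b (i₀ + 1)) a.2) := by
  have h0 := ok.th_nonneg (show i₀ + 1 ≤ K by omega)
  set θ := chTh β (((i₀ + 1 : ℕ) : ℝ) * hv)
  have h1 : θ < 1 := chTh_lt_one _ _
  set H := obsH G β D b (i₀ + 1)
  obtain ⟨ha1, ha2, -⟩ := mem_dirE.mp ha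
  have key : ∀ v ∈ D, sigMul G θ D H (fun u => chLam β * chInc u a) v =
      chLam β * (sig G θ D H a.1 v + sig G θ D H a.2 v) := by
    intro v _
    simp only [sigMul, mul_assoc, ← Finset.mul_sum]
    rw [sum_chInc_mul (fun u => sig G θ D H u v) ha]
  simp only [obsU, obsM, obsAlpha_start ha]
  refine (Finset.sum_le_sum (g := fun v => 2 * chLam β ^ 2 *
    (sig G θ D H v a.1 ^ 2 + sig G θ D H v a.2 ^ 2)) fun v hv' => ?_).trans ?_
  · rw [key v hv', mul_pow, sig_comm D H a.1 v, sig_comm D H a.2 v, mul_comm 2 (chLam β ^ 2),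
      mul_assoc (chLam β ^ 2)]
    exact mul_le_mul_of_nonneg_left add_sq_le (sq_nonneg _)
  · rw [← Finset.mul_sum, Finset.sum_add_distrib]
    exact mul_le_mul_of_nonneg_left (add_le_add (sum_sq_sig_le hG h0 h1 hD H ha1)
      (sum_sq_sig_le hG h0 h1 hD H ha2)) (by positivity)

theorem obsN_start_le (ok : ChOk β hv K) (hi : i₀ < K) (ha : a ∈ dirE G D)
    (b : ℕ → V × V → ℝ) : obsN G β hv D i₀ a (i₀ + 1) b ≤ 8 * chLam β ^ 2 := by
  have hw := fieldWeight_pos (G := G) (ok.th_nonneg (show i₀ + 1 ≤ K by omega)) (chTh_lt_one _ _)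
    D (obsH G β D b (i₀ + 1))
  have hX : ∀ η, |obsStat D (fun v => chLam β * chInc v a) η| ≤ 2 * chLam β := by
    refine abs_obsStat_le _ ?_
    simp only [abs_mul, abs_of_nonneg (chLam_nonneg β), abs_of_nonneg (chInc_nonneg _ a),
      ← Finset.mul_sum, sum_chInc_vertex ha]
    linarith
  rw [obsN, obsAlpha_start ha, ← cov_obsStat_self]
  exact (le_abs_self _).trans ((abs_cov_le hw hX hX).trans (le_of_eq (by ring)))

theorem obsA2_le (hd : 3 ≤ d) (hreg : ∀ v, (G.neighborSet v).ncard = d) (ok : ChOk β hv K)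
    (ha : a ∈ dirE G D) (b : ℕ → V × V → ℝ) {j : ℕ} (hj : i₀ < j) (hjK : j ≤ K) :
    obsA2 G β hv D i₀ a j b ≤ 16 * chLam β ^ 2 +
      32 * (d : ℝ) ^ 2 * chLam β ^ 4 *
        ∑ l ∈ Finset.Ico (i₀ + 1) j, (hv : ℝ) * obsU G β hv D i₀ a l b := by
  set α := fun l => obsAlpha G β hv D i₀ a l b with hα
  set q := fun l v => chQ G D (fun u => obsM G β hv D i₀ a l u b) v with hq
  have hh : 0 ≤ (hv : ℝ) := NNReal.coe_nonneg hv
  have hsum : ∀ n, i₀ + 1 ≤ n → ∀ v, α n v =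
      chLam β * chInc v a + ∑ l ∈ Finset.Ico (i₀ + 1) n, (hv : ℝ) * chLam β ^ 2 * q l v := by
    intro n hn
    induction n, hn using Nat.le_induction with
    | base => intro v; simp [hα, obsAlpha_start ha]
    | succ n hn ih =>
      intro v
      rw [Finset.sum_Ico_succ_top hn, ← add_assoc, ← ih v]
      simp only [hα, obsAlpha, alphaPath, if_neg (show n ≠ i₀ by omega), add_zero]
      rfl
  set n := j - (i₀ + 1) with hn
  have hnK : (n : ℝ) * hv ≤ 1 :=
    (mul_le_mul_of_nonneg_right (by exact_mod_cast (by omega : n ≤ K)) hh).trans ok.time_le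
  have hcard : ((Finset.Ico (i₀ + 1) j).card : ℝ) = n := by rw [Nat.card_Ico]
  have hpt : ∀ v ∈ D, α j v ^ 2 ≤ 2 * (chLam β * chInc v a) ^ 2 +
      2 * ((n : ℝ) * hv * ((hv : ℝ) * (chLam β ^ 4 *
        ∑ l ∈ Finset.Ico (i₀ + 1) j, q l v ^ 2))) := by
    intro v _
    rw [hsum j hj v]
    refine add_sq_le.trans (le_of_eq_of_le (mul_add _ _ _) ?_)
    refine add_le_add le_rfl (mul_le_mul_of_nonneg_left ?_ zero_le_two)
    refine sq_sum_le_card_mul_sum_sq.trans (le_of_eq ?_)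
    simp only [mul_pow, ← Finset.mul_sum, hcard]
    ring
  show ∑ v ∈ D, α j v ^ 2 ≤ _
  refine (Finset.sum_le_sum hpt).trans ?_
  rw [Finset.sum_add_distrib]
  refine add_le_add ?_ ?_
  · simp only [mul_pow, ← mul_assoc, ← Finset.mul_sum]
    have h2 : ∑ v ∈ D, chInc v a ^ 2 ≤ 4 := by
      refine (sum_sq_le_of_sum_abs (B := 2) ?_).trans (by norm_num)
      simp only [abs_of_nonneg (chInc_nonneg _ a)]
      exact (sum_chInc_vertex ha).le
    linarith [mul_le_mul_of_nonneg_left h2 (show 0 ≤ 2 * chLam β ^ 2 by positivity),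
      sq_nonneg (chLam β)]
  · simp only [← Finset.mul_sum]
    rw [Finset.sum_comm]
    have hb : ∀ l ∈ Finset.Ico (i₀ + 1) j,
        ∑ v ∈ D, q l v ^ 2 ≤ (4 * (d : ℝ)) ^ 2 * obsU G β hv D i₀ a l b :=
      fun l _ => sum_sq_chQ_le hd hreg D _
    have hU0 : 0 ≤ ∑ l ∈ Finset.Ico (i₀ + 1) j, obsU G β hv D i₀ a l b :=
      Finset.sum_nonneg fun _ _ => Finset.sum_nonneg fun _ _ => sq_nonneg _
    calc 2 * ((n : ℝ) * hv * ((hv : ℝ) * (chLam β ^ 4 *
          ∑ l ∈ Finset.Ico (i₀ + 1) j, ∑ v ∈ D, q l v ^ 2)))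
        ≤ 2 * (1 * ((hv : ℝ) * (chLam β ^ 4 *
          ∑ l ∈ Finset.Ico (i₀ + 1) j, (4 * (d : ℝ)) ^ 2 * obsU G β hv D i₀ a l b))) := by
          refine mul_le_mul_of_nonneg_left (mul_le_mul hnK (mul_le_mul_of_nonneg_left
            (mul_le_mul_of_nonneg_left (Finset.sum_le_sum hb) (by positivity)) hh)
            (mul_nonneg hh (mul_nonneg (by positivity) (Finset.sum_nonneg fun _ _ =>
              Finset.sum_nonneg fun _ _ => sq_nonneg _))) zero_le_one) zero_le_two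
      _ = _ := by simp only [← Finset.mul_sum]; ring

theorem obsU_congr {h : ℝ} {l : ℕ} {b b' : ℕ → V × V → ℝ}
    (hb : ∀ j < l, ∀ e ∈ dirE G D, b j e = b' j e) :
    obsU G β h D i₀ a l b = obsU G β h D i₀ a l b' := by
  simp only [obsU, obsM, obsH_congr D hb, obsAlpha_congr hb (le_max_left _ _)]

/-- The mean energy right after the perturbation. -/
theorem exists_start_le (hG : G.IsTree) (hd : 3 ≤ d) (hreg : ∀ v, (G.neighborSet v).ncard = d)
    (ht0 : 0 < t) (hbt : ((d : ℝ) - 1) * t ^ 2 = 1) (hβ₀ : 0 < β₀) {K₀ r₀ : ℝ} (hK₀ : 0 ≤ K₀)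
    (hr₀ : 0 < r₀) (tb : TailBound G d β₀ K₀ r₀) :
    ∃ C : ℝ, 0 ≤ C ∧ ∀ β, CritPar G d t β₀ β → ∀ (D : Finset V), IsConvexSet G D →
      ∑ η : D → Bool, freeWeight G (Real.tanh β) D η = 1 →
      ∀ (hv : ℝ≥0) (K i₀ : ℕ) (a : V × V), ChOk β hv K → i₀ < K → a ∈ dirE G D →
      obsExp G β hv D (i₀ + 1) (obsU G β hv D i₀ a (i₀ + 1)) ≤
        C * (1 + 1 / Real.sqrt (((i₀ + 1 : ℕ) : ℝ) * hv)) := by
  have hd3 : (3 : ℝ) ≤ d := by exact_mod_cast hd
  have ht1 : t < 1 := by nlinarith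
  have hκ : 0 < gapRate t β₀ :=
    lt_min one_pos (mul_pos hβ₀ (by nlinarith [mul_pos ht0 (sub_pos.mpr ht1)]))
  set A := (1 + (d : ℝ)) / gapRate t β₀ with hA
  obtain ⟨B, hB, hBb⟩ := exists_bad_bound (C := 0) le_rfl
  refine ⟨4 * (1 / (1 - t)) * (K₀ + A * B + A / r₀), by
    have : 0 < 1 - t := sub_pos.mpr ht1
    positivity, ?_⟩
  intro β cp D hD hone hv K i₀ a ok hi ha
  have oki : ChOk β hv (i₀ + 1) := ok.mono hi
  set u := ((i₀ + 1 : ℕ) : ℝ) * hv with hu
  have hu0 : 0 < u := mul_pos (by positivity) ok.step_pos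
  have hu1 : u ≤ 1 := oki.time_le
  set θ := chTh β u
  have hR : ∀ c ∈ D, PathBdd G D (i₀ + 1) (fun b => regrSum G θ D (obsH G β D b (i₀ + 1)) c) :=
    fun c hc => ⟨measurable_regrSum_comp _ D c (measurable_obsH_apply _),
      (1 + d) / (gapRate t β₀ * u), fun x => by
        rw [abs_of_nonneg (regrSum_nonneg _ _ _)]; exact cp.regrSum_at hu0 hu1 hD _ hc⟩
  have hsu : 0 ≤ 1 / Real.sqrt u := by positivity
  have hER : ∀ c ∈ D, obsExp G β hv D (i₀ + 1)
      (fun b => regrSum G θ D (obsH G β D b (i₀ + 1)) c) ≤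
      (K₀ + A * B + A / r₀) * (1 + 1 / Real.sqrt u) := by
    intro c hc
    have hA0 : 0 ≤ A := by positivity
    rcases le_or_gt u r₀ with hur | hur
    · have hbd : PathBdd G D (i₀ + 1)
          (fun b => badInd G K₀ θ u D c (obsH G β D b (i₀ + 1))) :=
        pathBdd_comp_field le_rfl (measurable_badInd _ _ _ _) (badInd_nonneg _ _ _ _)
          (badInd_le_one _ _ _ _)
      have hbe : obsExp G β hv D (i₀ + 1)
          (fun b => badInd G K₀ θ u D c (obsH G β D b (i₀ + 1))) ≤ Real.exp (-(1 / u ^ 2)) := by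
        have h := obsExp_window_le (G := G) (D := D) (β := β) (hv := hv) (i₀ := 0) (k := i₀ + 1)
          (by rwa [Nat.zero_add]) (g := fun _ => 1) (pathBdd_const 1) (pathBdd_const 1)
          (fun _ => zero_le_one) (fun _ _ _ => rfl)
          (φ := badInd G K₀ θ u D c) (measurable_badInd _ _ _ _) (badInd_nonneg _ _ _ _)
          (badInd_le_one _ _ _ _)
          (p := Real.exp (-(1 / u ^ 2))) fun ν => integral_badInd_le cp tb hu0 hur
            (show u / 4 ≤ (((((i₀ + 1 : ℕ)) : ℝ≥0) * hv : ℝ≥0) : ℝ) by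
              push_cast [hu]; nlinarith [ok.step_pos]) hD hc ν
        rw [obsExp_const (ok.mono (Nat.zero_le K)) hone, mul_one, Nat.zero_add] at h
        simpa only [one_mul] using h
      refine (obsExp_mono oki (hR c hc) ((pathBdd_const (K₀ / Real.sqrt u)).add
        (hbd.const_mul ((1 + d) / (gapRate t β₀ * u)))) fun x => ?_).trans ?_
      · have h1 := cp.regrSum_at hu0 hu1 hD (obsH G β D (drv x) (i₀ + 1)) hc
        have h2 : 0 ≤ K₀ / Real.sqrt u := by positivity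
        unfold badInd
        split_ifs with hb
        · rw [mul_one]; linarith
        · rw [mul_zero, add_zero]; exact not_lt.mp hb
      · rw [obsExp_add oki (pathBdd_const _) (hbd.const_mul _), obsExp_const oki hone,
          obsExp_const_mul]
        have h2 : (1 + (d : ℝ)) / (gapRate t β₀ * u) * Real.exp (-(1 / u ^ 2)) ≤ A * B := by
          have e : (1 + (d : ℝ)) / (gapRate t β₀ * u) * Real.exp (-(1 / u ^ 2)) =
              A * (Real.exp (-(1 / u ^ 2)) * Real.exp (0 / u) * (1 / u)) := by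
            rw [hA, zero_div, Real.exp_zero]; field_simp
          rw [e]
          refine mul_le_mul_of_nonneg_left (le_trans ?_ (hBb u hu0 hu1)) hA0
          refine mul_le_mul_of_nonneg_left ?_ (by positivity)
          exact le_self_pow₀ (by rw [le_div_iff₀ hu0]; linarith) (by norm_num)
        have hAB : 0 ≤ A * B := mul_nonneg hA0 hB
        have hAr : 0 ≤ A / r₀ := by positivity
        calc K₀ / Real.sqrt u + (1 + (d : ℝ)) / (gapRate t β₀ * u) *
              obsExp G β hv D (i₀ + 1) (fun b => badInd G K₀ θ u D c (obsH G β D b (i₀ + 1)))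
            ≤ K₀ * (1 / Real.sqrt u) + A * B := by
              refine add_le_add (le_of_eq (by ring))
                ((mul_le_mul_of_nonneg_left hbe (by positivity)).trans h2)
          _ ≤ _ := by
              rw [add_mul, add_mul]
              nlinarith [mul_nonneg hAB hsu, mul_nonneg hAr (add_nonneg zero_le_one hsu)]
    · refine (obsExp_mono oki (hR c hc) (pathBdd_const (A / r₀)) fun x => ?_).trans ?_
      · refine (cp.regrSum_at hu0 hu1 hD _ hc).trans ?_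
        rw [hA, div_div]
        exact div_le_div_of_nonneg_left (by positivity) (by positivity)
          (mul_le_mul_of_nonneg_left hur.le hκ.le)
      · rw [obsExp_const oki hone]
        calc A / r₀ ≤ K₀ + A * B + A / r₀ := by nlinarith [mul_nonneg hA0 hB]
          _ ≤ _ := le_mul_of_one_le_right (by positivity) (by linarith)
  obtain ⟨ha1, ha2, -⟩ := mem_dirE.mp ha
  refine (obsExp_mono oki (pathBdd_obsU hG hd hreg hD oki le_rfl)
    (((hR _ ha1).add (hR _ ha2)).const_mul (2 * chLam β ^ 2))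
    fun x => obsU_start_le hG hD ok hi ha _).trans ?_
  rw [obsExp_const_mul, obsExp_add oki (hR _ ha1) (hR _ ha2)]
  calc 2 * chLam β ^ 2 * (_ + _)
      ≤ 2 * (1 / (1 - t)) * ((K₀ + A * B + A / r₀) * (1 + 1 / Real.sqrt u) +
          (K₀ + A * B + A / r₀) * (1 + 1 / Real.sqrt u)) := by
        refine mul_le_mul (mul_le_mul_of_nonneg_left cp.lam_sq_le zero_le_two)
          (add_le_add (hER _ ha1) (hER _ ha2)) (add_nonneg
            (obsExp_nonneg oki fun x => regrSum_nonneg _ _ _)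
            (obsExp_nonneg oki fun x => regrSum_nonneg _ _ _)) ?_
        have : 0 < 1 - t := sub_pos.mpr ht1
        positivity
    _ = _ := by ring

/-- One step of the mean energy and of the mean variance. -/
theorem exists_mean_step (hG : G.IsTree) (hd : 3 ≤ d) (hreg : ∀ v, (G.neighborSet v).ncard = d)
    (hD : IsConvexSet G D) (hone : ∑ η : D → Bool, freeWeight G (Real.tanh β) D η = 1) :
    ∃ Cs : ℝ, 0 ≤ Cs ∧ ∀ (hv : ℝ≥0) (i₀ j : ℕ) (a : V × V), ChOk β hv (j + 1) → i₀ < j →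
      obsExp G β hv D (j + 1) (obsN G β hv D i₀ a (j + 1)) ≤
          obsExp G β hv D j (obsN G β hv D i₀ a j) + (hv : ℝ) * (chLam β ^ 2 * (8 * d) *
            obsExp G β hv D j (obsU G β hv D i₀ a j) + Cs * Real.sqrt hv) ∧
      obsExp G β hv D (j + 1) (obsU G β hv D i₀ a (j + 1)) ≤
          obsExp G β hv D j (obsU G β hv D i₀ a j) + (hv : ℝ) * (chLam β ^ 2 * (4 * d) *
            obsExp G β hv D j (obsQV G β hv D i₀ a j) + Cs * Real.sqrt hv) := by
  obtain ⟨Cs, hCs, hstep⟩ := exists_energy_step (G := G) hd hreg D β (crudeBound d β D)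
  refine ⟨Cs, hCs, fun hv i₀ j a okj hj => ?_⟩
  have okj' : ChOk β hv j := okj.mono (Nat.le_succ j)
  have bU := pathBdd_obsU (n := j) (a := a) (i₀ := i₀) hG hd hreg hD okj' (le_refl j)
  have bN := pathBdd_obsN (n := j) (a := a) (i₀ := i₀) hG hd hreg hD okj' (le_refl j)
  have bQ := pathBdd_obsQV (n := j) (a := a) (i₀ := i₀) hG hd hreg hD okj' (le_refl j)
  have hb := fun x : CIdx G D j → ℝ => hstep hv i₀ j a okj hj x
    (sum_abs_obsAlpha_le hG hd hreg hD okj' _ le_rfl)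
  constructor
  · refine (obsExp_succ_le okj (pathBdd_obsN hG hd hreg hD okj le_rfl)
      ((bN.add (bU.const_mul ((hv : ℝ) * chLam β ^ 2 * (8 * d)))).add
        (pathBdd_const (Cs * ((hv : ℝ) * Real.sqrt hv)))) fun x =>
          (hb x).2.trans (le_of_eq (by ring))).trans (le_of_eq ?_)
    rw [obsExp_add okj' (bN.add (bU.const_mul _)) (pathBdd_const _),
      obsExp_add okj' bN (bU.const_mul _), obsExp_const_mul, obsExp_const okj' hone]
    ring
  · refine (obsExp_succ_le okj (pathBdd_obsU hG hd hreg hD okj le_rfl)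
      ((bU.add (bQ.const_mul ((hv : ℝ) * chLam β ^ 2 * (4 * d)))).add
        (pathBdd_const (Cs * ((hv : ℝ) * Real.sqrt hv)))) fun x =>
          (hb x).1.trans (le_of_eq (by ring))).trans (le_of_eq ?_)
    rw [obsExp_add okj' (bU.add (bQ.const_mul _)) (pathBdd_const _),
      obsExp_add okj' bU (bQ.const_mul _), obsExp_const_mul, obsExp_const okj' hone]
    ring

/-- The mean size of the perturbation is controlled by the earlier energies. -/
theorem mean_obsA2_le (hG : G.IsTree) (hd : 3 ≤ d) (hreg : ∀ v, (G.neighborSet v).ncard = d)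
    (hD : IsConvexSet G D) (hone : ∑ η : D → Bool, freeWeight G (Real.tanh β) D η = 1)
    (ok : ChOk β hv K) (ha : a ∈ dirE G D) (hi : i₀ < K) {Eb : ℝ}
    (hEb : ∀ l, i₀ + 1 ≤ l → l ≤ K → obsExp G β hv D l (obsU G β hv D i₀ a l) ≤ Eb) :
    obsExp G β hv D K (obsA2 G β hv D i₀ a K) ≤
      16 * chLam β ^ 2 + 32 * (d : ℝ) ^ 2 * chLam β ^ 4 * Eb := by
  have hh0 : 0 ≤ (hv : ℝ) := NNReal.coe_nonneg hv
  have bUl : ∀ l ∈ Finset.Ico (i₀ + 1) K, PathBdd G D K (obsU G β hv D i₀ a l) := fun l hl =>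
    pathBdd_obsU hG hd hreg hD ok (Finset.mem_Ico.mp hl).2.le
  have hEb0 : 0 ≤ Eb := (obsExp_nonneg (ok.mono hi) fun x =>
    Finset.sum_nonneg fun _ _ => sq_nonneg _).trans (hEb _ le_rfl hi)
  refine (obsExp_mono ok (pathBdd_obsA2 hG hd hreg hD ok le_rfl le_rfl)
    ((pathBdd_const (16 * chLam β ^ 2)).add ((PathBdd.sum _ fun l hl =>
      (bUl l hl).const_mul (hv : ℝ)).const_mul (32 * (d : ℝ) ^ 2 * chLam β ^ 4)))
    fun x => obsA2_le hd hreg ok ha _ hi le_rfl).trans ?_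
  rw [obsExp_add ok (pathBdd_const _) ((PathBdd.sum _ fun l hl =>
    (bUl l hl).const_mul (hv : ℝ)).const_mul _), obsExp_const ok hone, obsExp_const_mul,
    obsExp_sum ok _ fun l hl => (bUl l hl).const_mul (hv : ℝ)]
  have hterm : ∀ l ∈ Finset.Ico (i₀ + 1) K,
      obsExp G β hv D K (fun b => (hv : ℝ) * obsU G β hv D i₀ a l b) ≤ (hv : ℝ) * Eb := by
    intro l hl
    obtain ⟨hl1, hl2⟩ := Finset.mem_Ico.mp hl
    rw [obsExp_const_mul]
    refine mul_le_mul_of_nonneg_left (le_of_eq_of_le ?_ (hEb l hl1 hl2.le)) hh0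
    obtain ⟨k, rfl⟩ := Nat.exists_eq_add_of_le hl2.le
    exact obsExp_lift (fun b b' hb => obsU_congr hb)
      (pathBdd_obsU hG hd hreg hD (ok.mono (Nat.le_add_right l k)) le_rfl) k ok
  have hs' := Finset.sum_le_sum hterm
  rw [Finset.sum_const, Nat.card_Ico, nsmul_eq_mul, ← mul_assoc] at hs'
  refine add_le_add le_rfl (mul_le_mul_of_nonneg_left (hs'.trans (mul_le_of_le_one_left hEb0 ?_))
    (mul_nonneg (by positivity) (pow_nonneg (chLam_nonneg β) 4)))
  exact (mul_le_mul_of_nonneg_right (by exact_mod_cast (by omega : K - (i₀ + 1) ≤ K)) hh0).trans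
    ok.time_le

theorem column_const_le {C P Q δ X y Z : ℝ} (hC : 0 ≤ C) (hδ : 0 ≤ δ) (hy : 0 ≤ y)
    (hX : X = 1 + y) (hP : P = 2 * (2 * C + C * (C + 1) + 3 * C * C + 1))
    (hQ : Q = 2 * (1 + 3 * C)) (hZ : Z = 3 * C * (C + δ) * y) :
    2 * (C * X + C * (C + 1) + δ + Z) ≤ (P + Q * δ) * X := by
  subst hX hP hQ hZ
  nlinarith [mul_nonneg hδ hy, mul_nonneg hC hy, mul_nonneg hC hδ, mul_nonneg hC hC]

/-- The constants of the column bound dominate. -/
theorem column_parts {L d' C2 C1 : ℝ} (hL : 0 ≤ L) (hd : 0 ≤ d') (h2 : 0 ≤ C2) (h1 : 0 ≤ C1) :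
    (L * (4 * d') * C2 ≤ L * (4 * d') * C2 + L * (8 * d') + 16 * L + 32 * d' ^ 2 * L ^ 2 + 8 * L + C1) ∧
    (L * (8 * d') ≤ L * (4 * d') * C2 + L * (8 * d') + 16 * L + 32 * d' ^ 2 * L ^ 2 + 8 * L + C1) ∧
    (16 * L ≤ L * (4 * d') * C2 + L * (8 * d') + 16 * L + 32 * d' ^ 2 * L ^ 2 + 8 * L + C1) ∧
    (32 * d' ^ 2 * L ^ 2 ≤
      L * (4 * d') * C2 + L * (8 * d') + 16 * L + 32 * d' ^ 2 * L ^ 2 + 8 * L + C1) ∧
    (8 * L ≤ L * (4 * d') * C2 + L * (8 * d') + 16 * L + 32 * d' ^ 2 * L ^ 2 + 8 * L + C1) ∧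
    (C1 ≤ L * (4 * d') * C2 + L * (8 * d') + 16 * L + 32 * d' ^ 2 * L ^ 2 + 8 * L + C1) := by
  have a1 : 0 ≤ L * (4 * d') * C2 := by positivity
  have a2 : 0 ≤ L * (8 * d') := by positivity
  have a3 : 0 ≤ 32 * d' ^ 2 * L ^ 2 := by positivity
  refine ⟨?_, ?_, ?_, ?_, ?_, ?_⟩ <;> linarith

/-- The two phases of the recursion put together. -/
theorem column_recursion {h C Cl δ r1 y : ℝ} {i1 K : ℕ} {e nn a2 : ℕ → ℝ} (hh : 0 < h)
    (hC : 0 ≤ C) (hCl : 0 ≤ Cl) (hδ : 0 ≤ δ) (hi1 : 1 ≤ i1) (hK : i1 ≤ K)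
    (hy : y = 1 / Real.sqrt ((i1 : ℝ) * h)) (hr1 : r1 ≤ 1) (hKh : (K : ℝ) * h ≤ 1)
    (hsmall : (C * (C + 1)) * (2 * Real.sqrt r1) + C * (C + 1) * r1 ≤ 1 / 2)
    (he0 : ∀ j, i1 ≤ j → j ≤ K → 0 ≤ e j) (hE1 : e i1 ≤ C * (1 + y)) (hN1 : nn i1 ≤ C)
    (hn : ∀ j, i1 ≤ j → j < K → nn (j + 1) ≤ nn j + h * (C * e j + δ))
    (hA : ∀ j, i1 ≤ j → j ≤ K → ∀ Eb, (∀ l, i1 ≤ l → l ≤ j → e l ≤ Eb) → a2 j ≤ C * (1 + Eb))
    (hearly : ∀ j, i1 ≤ j → j < K → (j : ℝ) * h ≤ r1 → ∃ j3, i1 ≤ j3 ∧ j3 ≤ j ∧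
      e (j + 1) ≤ e j + h * (C * (nn j / ((j : ℝ) * h * Real.sqrt ((j : ℝ) * h)) +
        e j / Real.sqrt ((j : ℝ) * h) + a2 j3) + δ))
    (hlate : ∀ j, i1 ≤ j → j < K → r1 ≤ 2 * ((j : ℝ) * h) →
      e (j + 1) ≤ e j + h * (Cl * e j + δ)) :
    a2 K ≤ (C * (1 + 2 * (2 * C + C * (C + 1) + 3 * C * C + 1) * Real.exp Cl) +
      C * ((2 * (1 + 3 * C) + 1) * δ * Real.exp Cl)) * (1 + y) := by
  set P := 2 * (2 * C + C * (C + 1) + 3 * C * C + 1) with hP
  set Q := 2 * (1 + 3 * C) with hQ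
  have hy0 : 0 ≤ y := by rw [hy]; positivity
  have hX0 : (0 : ℝ) ≤ 1 + y := by linarith
  have hB : ∀ m, i1 ≤ m → m ≤ K → (m : ℝ) * h ≤ r1 → e m ≤ (P + Q * δ) * (1 + y) := by
    intro m hm hmK hmr
    refine (early_phase (n := nn) (a2 := a2) hh hC hi1 hm hC hδ hmr hr1 hsmall
      (fun j h1 h2 => he0 j h1 (h2.trans hmK)) hE1 hN1
      (fun j h1 h2 => hn j h1 (h2.trans_le hmK)) (fun j h1 h2 => hA j h1 (h2.trans hmK))
      fun j h1 h2 => hearly j h1 (h2.trans_le hmK) ((mul_le_mul_of_nonneg_right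
        (by exact_mod_cast h2.le) hh.le).trans hmr)).trans
      (column_const_le hC hδ hy0 rfl hP hQ (by rw [hy]; ring))
  have hall : ∀ m, i1 ≤ m → m ≤ K → e m ≤ ((P + Q * δ) * (1 + y) + δ) * Real.exp Cl := by
    intro m hm hmK
    have hB0 : 0 ≤ (P + Q * δ) * (1 + y) := mul_nonneg (by positivity) hX0
    refine (late_phase (C := Cl) (D := δ) hh.le hCl hδ hB0 m hm (fun j h1 h2 => ?_) ?_).trans ?_
    · rcases le_or_gt (((j + 1 : ℕ) : ℝ) * h) r1 with hjr | hjr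
      · exact Or.inl (hB (j + 1) (h1.trans (Nat.le_succ j))
          (Nat.succ_le_of_lt (h2.trans_le hmK)) hjr)
      · refine Or.inr ((hlate j h1 (h2.trans_le hmK) ?_).trans (le_of_eq (by ring)))
        have : ((j + 1 : ℕ) : ℝ) ≤ 2 * (j : ℝ) := by exact_mod_cast (by omega : j + 1 ≤ 2 * j)
        have := mul_le_mul_of_nonneg_right this hh.le
        linarith
    · refine hE1.trans (mul_le_mul_of_nonneg_right ?_ hX0)
      have : 0 ≤ Q * δ := by positivity
      have : 0 ≤ C * (C + 1) + 3 * C * C := by positivity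
      rw [hP]; linarith
    · have hmh : (m : ℝ) * h ≤ 1 :=
        (mul_le_mul_of_nonneg_right (by exact_mod_cast hmK) hh.le).trans hKh
      exact mul_le_mul (add_le_add le_rfl (mul_le_of_le_one_right hδ hmh))
        (Real.exp_le_exp.mpr (mul_le_of_le_one_right hCl hmh)) (Real.exp_pos _).le
        (by positivity)
  refine (hA K hK le_rfl _ fun l h1 h2 => hall l h1 h2).trans ?_
  have k1 : δ * Real.exp Cl ≤ δ * Real.exp Cl * (1 + y) :=
    le_mul_of_one_le_right (by positivity) (by linarith)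
  have k2 := mul_le_mul_of_nonneg_left k1 hC
  have k3 := mul_nonneg hC hy0
  linarith

/-- The column bound: the mean size of the response to one increment. -/
theorem exists_column (hG : G.IsTree) (hd : 3 ≤ d) (hreg : ∀ v, (G.neighborSet v).ncard = d)
    (ht0 : 0 < t) (hbt : ((d : ℝ) - 1) * t ^ 2 = 1) (hβ₀ : 0 < β₀) :
    ∃ C : ℝ, 0 ≤ C ∧ ∀ β, CritPar G d t β₀ β → ∀ (D : Finset V), IsConvexSet G D →
      ∑ η : D → Bool, freeWeight G (Real.tanh β) D η = 1 →
      ∃ CD : ℝ, 0 ≤ CD ∧ ∀ (hv : ℝ≥0) (K i₀ : ℕ) (a : V × V), ChOk β hv K → i₀ < K →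
        a ∈ dirE G D → obsExp G β hv D K (obsA2 G β hv D i₀ a K) ≤
          (C + CD * Real.sqrt hv) * (1 + 1 / Real.sqrt (((i₀ + 1 : ℕ) : ℝ) * hv)) := by
  obtain ⟨K₀, r₀, hK₀, hr₀, hr₀1, tb⟩ := regrSum_tail hG hd hreg hβ₀
  obtain ⟨C1, hC1, hstart⟩ := exists_start_le hG hd hreg ht0 hbt hβ₀ hK₀.le hr₀ tb
  obtain ⟨C2, hC2, hearly⟩ :=
    exists_qv_early (G := G) (β₀ := β₀) hG hd hreg ht0 hbt hK₀.le tb
  have hd3 : (3 : ℝ) ≤ d := by exact_mod_cast hd
  have ht1 : 0 < 1 - t := by nlinarith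
  set L := 1 / (1 - t) with hL
  set C := L * (4 * d) * C2 + L * (8 * d) + 16 * L + 32 * (d : ℝ) ^ 2 * L ^ 2 + 8 * L + C1 with hC
  have hL0 : 0 < L := by positivity
  obtain ⟨p2, p8, p16, p32, pN, p1⟩ := column_parts hL0.le (Nat.cast_nonneg d) hC2 hC1
  rw [← hC] at p2 p8 p16 p32 pN p1
  have hC0 : 0 ≤ C := hC1.trans p1
  set s := min (Real.sqrt r₀) (1 / (6 * (C * (C + 1)) + 1)) with hs
  have hs0 : 0 < s := lt_min (Real.sqrt_pos.mpr hr₀) (by positivity)
  have hr1r : s ^ 2 ≤ r₀ :=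
    (pow_le_pow_left₀ hs0.le (min_le_left _ _) 2).trans (le_of_eq (Real.sq_sqrt hr₀.le))
  have hsmall : (C * (C + 1)) * (2 * Real.sqrt (s ^ 2)) + C * (C + 1) * s ^ 2 ≤ 1 / 2 := by
    have hCC : 0 ≤ C * (C + 1) := by positivity
    have h2 : s * (6 * (C * (C + 1)) + 1) ≤ 1 := by
      rw [← le_div_iff₀ (by positivity)]; exact min_le_right _ _
    have h3 : s ≤ 1 := le_trans (le_mul_of_one_le_right hs0.le (by linarith)) h2
    have h4 : C * (C + 1) * s ^ 2 ≤ C * (C + 1) * s :=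
      mul_le_mul_of_nonneg_left (by rw [sq]; exact mul_le_of_le_one_right hs0.le h3) hCC
    rw [Real.sqrt_sq hs0.le]; linarith
  obtain ⟨C3, hC3, hlate⟩ :=
    exists_qv_late (G := G) (β₀ := β₀) hG hd hreg ht0 hbt (pow_pos hs0 2)
  refine ⟨C * (1 + 2 * (2 * C + C * (C + 1) + 3 * C * C + 1) * Real.exp (L * (4 * d) * C3)),
    by positivity, fun β cp D hD hone => ?_⟩
  obtain ⟨Cs, hCs, hstep⟩ := exists_mean_step (β := β) hG hd hreg hD hone
  refine ⟨C * ((2 * (1 + 3 * C) + 1) * Cs * Real.exp (L * (4 * d) * C3)), by positivity,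
    fun hv K i₀ a ok hi ha => ?_⟩
  have hh0 := ok.step_pos
  have hlam : chLam β ^ 2 ≤ L := cp.lam_sq_le
  have hU : ∀ j, j ≤ K → 0 ≤ obsExp G β hv D j (obsU G β hv D i₀ a j) := fun j hj =>
    obsExp_nonneg (ok.mono hj) fun x => Finset.sum_nonneg fun _ _ => sq_nonneg _
  have hQV : ∀ j, j ≤ K → 0 ≤ obsExp G β hv D j (obsQV G β hv D i₀ a j) := fun j hj =>
    obsExp_nonneg (ok.mono hj) fun x =>
      Finset.sum_nonneg fun _ _ => Finset.sum_nonneg fun _ _ => sq_nonneg _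
  refine (column_recursion (h := (hv : ℝ)) (C := C) (Cl := L * (4 * d) * C3)
    (δ := Cs * Real.sqrt hv) (r1 := s ^ 2) (i1 := i₀ + 1) (K := K)
    (e := fun j => obsExp G β hv D j (obsU G β hv D i₀ a j))
    (nn := fun j => obsExp G β hv D j (obsN G β hv D i₀ a j))
    (a2 := fun j => obsExp G β hv D j (obsA2 G β hv D i₀ a j))
    hh0 hC0 (by positivity) (by positivity) (Nat.succ_pos i₀) hi rfl (hr1r.trans hr₀1)
    ok.time_le hsmall (fun j _ hj => hU j hj) ?_ ?_ ?_ ?_ ?_ ?_).trans (le_of_eq (by ring))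
  · exact (hstart β cp D hD hone hv K i₀ a ok hi ha).trans
      (mul_le_mul_of_nonneg_right p1 (by positivity))
  · refine (obsExp_mono (ok.mono hi) (pathBdd_obsN hG hd hreg hD (ok.mono hi) le_rfl)
      (pathBdd_const (8 * chLam β ^ 2)) fun x => obsN_start_le ok hi ha _).trans ?_
    rw [obsExp_const (ok.mono hi) hone]
    linarith
  · exact fun j hj hjK => (hstep hv i₀ j a (ok.mono hjK) hj).1.trans (add_le_add le_rfl
      (mul_le_mul_of_nonneg_left (add_le_add (mul_le_mul_of_nonneg_right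
        ((mul_le_mul_of_nonneg_right hlam (by positivity)).trans p8) (hU j hjK.le)) le_rfl) hh0.le))
  · intro j hj hjK Eb hEb
    refine (mean_obsA2_le hG hd hreg hD hone (ok.mono hjK) ha hj hEb).trans ?_
    have hEb0 : 0 ≤ Eb := (hU _ hi).trans (hEb _ le_rfl hj)
    have h4 : chLam β ^ 4 ≤ L ^ 2 := by
      rw [show chLam β ^ 4 = (chLam β ^ 2) ^ 2 by ring]
      exact pow_le_pow_left₀ (sq_nonneg _) hlam 2
    rw [mul_add, mul_one]
    refine add_le_add (le_trans ?_ p16) (mul_le_mul_of_nonneg_right ((mul_le_mul_of_nonneg_left h4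
      (by positivity)).trans p32) hEb0)
    linarith
  · intro j hj hjK hjr
    refine ⟨max (j / 2) (i₀ + 1), le_max_right _ _, max_le (Nat.div_le_self _ _) hj,
      (hstep hv i₀ j a (ok.mono hjK) hj).2.trans (add_le_add le_rfl (mul_le_mul_of_nonneg_left
        (add_le_add ?_ le_rfl) hh0.le))⟩
    have okj : ChOk β hv j := ok.mono hjK.le
    refine (mul_le_mul (mul_le_mul_of_nonneg_right hlam (by positivity))
      (hearly β cp D hD hv j i₀ a okj (by omega) (hjr.trans hr1r)) (hQV j hjK.le)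
      (by positivity)).trans ?_
    rw [← mul_assoc]
    refine mul_le_mul_of_nonneg_right p2 ?_
    have : 0 ≤ obsExp G β hv D j (obsN G β hv D i₀ a j) := obsExp_nonneg okj fun x =>
      linVar_nonneg (okj.th_nonneg le_rfl) (chTh_lt_one _ _) _ _
    have : 0 ≤ obsExp G β hv D (max (j / 2) (i₀ + 1))
        (obsA2 G β hv D i₀ a (max (j / 2) (i₀ + 1))) := obsExp_nonneg (ok.mono (by omega)) fun x =>
      Finset.sum_nonneg fun _ _ => sq_nonneg _
    have := hU j hjK.le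
    positivity
  · intro j hj hjK hj2
    refine (hstep hv i₀ j a (ok.mono hjK) hj).2.trans (add_le_add le_rfl
      (mul_le_mul_of_nonneg_left (add_le_add ?_ le_rfl) hh0.le))
    refine (mul_le_mul (mul_le_mul_of_nonneg_right hlam (by positivity))
      (hlate β cp D hD hv j i₀ a (ok.mono hjK.le) hj2) (hQV j hjK.le)
      (by positivity)).trans (le_of_eq (mul_assoc _ _ _).symm)

end Vale.Agent.P161
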