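import Vale.Agent.P161.Crit.ColStep

/-!
# Bounds on the linearised scheme below the critical coupling
-/

namespace Vale.Agent.P161

open SimpleGraph MeasureTheory ProbabilityTheory
open scoped Classical NNReal

variable {V : Type*}

/-- The dominating scheme started from `α` at step `j`. -/
noncomputable def domA (G : SimpleGraph V) (β h : ℝ) (D : Finset V) (j : ℕ) (α : V → ℝ) :
    ℕ → V → ℝ
  | 0 => α
  | n + 1 => fun v => domA G β h D j α n v +
      h * chLam β ^ 2 * chQ G D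
        (kerMul G (chTh β (((j + n : ℕ) : ℝ) * h)) D (domA G β h D j α n)) v

variable {G : SimpleGraph V} {β : ℝ} {hv : ℝ≥0} {D : Finset V} {d K i₀ i : ℕ} {a : V × V}

theorem measurable_sig_comp {α : Type*} [MeasurableSpace α] (θ : ℝ) (D : Finset V) (v w : V)
    {Y : α → V → ℝ} (hY : ∀ u, Measurable fun x => Y x u) :
    Measurable fun x => sig G θ D (Y x) v w := by
  unfold sig mCov cov avg fieldWeight
  fun_prop

theorem measurable_sigMul_comp {α : Type*} [MeasurableSpace α] (θ : ℝ) (D : Finset V) (v : V)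
    {Y A : α → V → ℝ} (hY : ∀ u, Measurable fun x => Y x u)
    (hA : ∀ u, Measurable fun x => A x u) :
    Measurable fun x => sigMul G θ D (Y x) (A x) v :=
  Finset.measurable_sum _ fun u _ => (hA u).mul (measurable_sig_comp θ D u v hY)

theorem measurable_regrSum_comp {α : Type*} [MeasurableSpace α] (θ : ℝ) (D : Finset V) (c : V)
    {Y : α → V → ℝ} (hY : ∀ u, Measurable fun x => Y x u) :
    Measurable fun x => regrSum G θ D (Y x) c :=
  Finset.measurable_sum _ fun v _ =>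
    (((measurable_sig_comp θ D v c hY).div (measurable_sig_comp θ D c c hY))).pow_const 2

theorem measurable_cumLin_comp {α : Type*} [MeasurableSpace α] (θ : ℝ) (D : Finset V) (v w : V)
    {Y A : α → V → ℝ} (hY : ∀ u, Measurable fun x => Y x u)
    (hA : ∀ u, Measurable fun x => A x u) :
    Measurable fun x => cumLin G θ D (Y x) (A x) v w := by
  refine Finset.measurable_sum _ fun u _ => (hA u).mul ?_
  unfold cum3 cov avg fieldWeight
  fun_prop

theorem measurable_obsAlpha : ∀ (i : ℕ) (v : V),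
    Measurable fun x : CIdx G D K → ℝ => obsAlpha G β hv D i₀ a i (drv x) v
  | 0, _ => measurable_const
  | i + 1, v => by
    simp only [obsAlpha, alphaPath, stepA, chQ]
    refine (Measurable.add ?_ ((Finset.measurable_sum _ fun e _ => ?_).const_mul _)).add
      measurable_const
    · exact measurable_obsAlpha i v
    · exact ((measurable_sigMul_comp _ D _ (measurable_obsH_apply i)
        (measurable_obsAlpha i)).add (measurable_sigMul_comp _ D _ (measurable_obsH_apply i)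
        (measurable_obsAlpha i))).const_mul _

theorem measurable_obsM (i : ℕ) (v : V) :
    Measurable fun x : CIdx G D K → ℝ => obsM G β hv D i₀ a i v (drv x) :=
  measurable_sigMul_comp _ D v (measurable_obsH_apply i) (measurable_obsAlpha i)

theorem alphaPath_congr {h : ℝ} {H H' : ℕ → V → ℝ} : ∀ i,
    (∀ j, i₀ < j → j < i → H j = H' j) →
    alphaPath G β h D H i₀ a i = alphaPath G β h D H' i₀ a i
  | 0 => fun _ => rfl
  | i + 1 => fun hH => by
    have ih := alphaPath_congr (h := h) (H := H) (H' := H') i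
      fun j h1 h2 => hH j h1 (h2.trans (Nat.lt_succ_self i))
    funext v
    simp only [alphaPath, ih]
    rcases lt_or_ge i₀ i with hlt | hge
    · rw [hH i hlt (Nat.lt_succ_self i)]
    · have hzero : ∀ j ≤ i₀, alphaPath G β h D H' i₀ a j = fun _ => 0 := by
        intro j
        induction j with
        | zero => intro _; rfl
        | succ j ihj =>
          intro hj
          funext w
          simp only [alphaPath, ihj (Nat.le_of_succ_le hj), stepA, chQ, sigMul, zero_mul,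
            Finset.sum_const_zero, add_zero, mul_zero, zero_add, if_neg (Nat.ne_of_lt hj)]
      have hs : ∀ (θ : ℝ) (Y : V → ℝ), sigMul G θ D Y (fun _ => (0 : ℝ)) = fun _ => 0 :=
        fun θ Y => funext fun u => by simp [sigMul]
      simp only [hzero i hge, stepA, hs]

theorem obsAlpha_congr {n : ℕ} {b b' : ℕ → V × V → ℝ} {h : ℝ}
    (hb : ∀ j < n, ∀ e ∈ dirE G D, b j e = b' j e) (hn : i ≤ max n (i₀ + 1)) :
    obsAlpha G β h D i₀ a i b = obsAlpha G β h D i₀ a i b' :=
  alphaPath_congr i fun j h1 h2 =>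
    obsH_congr D fun l hl e he => hb l (by omega) e he

theorem obsAlpha_eq_alphaPath {h : ℝ} (b : ℕ → V × V → ℝ) :
    obsAlpha G β h D i₀ a i b = alphaPath G β h D (obsH G β D b) i₀ a i := rfl

variable (hG : G.IsTree) (hd : 3 ≤ d) (hreg : ∀ v, (G.neighborSet v).ncard = d)
  (hD : IsConvexSet G D) (ok : ChOk β hv K)

include hG hd hreg hD ok in
theorem sum_abs_obsAlpha_le (b : ℕ → V × V → ℝ) (hi : i ≤ K) :
    ∑ v ∈ D, |obsAlpha G β hv D i₀ a i b v| ≤ crudeBound d β D :=
  sum_abs_alphaPath_le' hG hd hreg ok.beta_nonneg (NNReal.coe_nonneg hv) ok.time_le hD _ i₀ a hi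

include hG ok hD in
theorem obsAlpha_nonneg (b : ℕ → V × V → ℝ) (hi : i ≤ K) (v : V) :
    0 ≤ obsAlpha G β hv D i₀ a i b v :=
  alphaPath_nonneg hG ok.beta_nonneg (NNReal.coe_nonneg hv) ok.time_le hD _ i₀ a i hi v

include hG hd hreg hD ok in
theorem abs_obsM_le (b : ℕ → V × V → ℝ) (hi : i ≤ K) {v : V} (hv' : v ∈ D) :
    |obsM G β hv D i₀ a i v b| ≤ crudeBound d β D :=
  (abs_sigMul_le hG (ok.th_nonneg hi) (chTh_lt_one _ _) hD _ _ hv').trans
    (sum_abs_obsAlpha_le hG hd hreg hD ok b hi)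

theorem sum_sq_le_of_sum_abs {f : V → ℝ} {B : ℝ} (hf : ∑ v ∈ D, |f v| ≤ B) :
    ∑ v ∈ D, f v ^ 2 ≤ B * B := by
  have hB : 0 ≤ B := (Finset.sum_nonneg fun _ _ => abs_nonneg _).trans hf
  calc ∑ v ∈ D, f v ^ 2 ≤ ∑ v ∈ D, B * |f v| := Finset.sum_le_sum fun v hv' => by
        rw [← sq_abs, sq]
        exact mul_le_mul_of_nonneg_right
          ((Finset.single_le_sum (f := fun v => |f v|) (fun _ _ => abs_nonneg _) hv').trans hf)
          (abs_nonneg _)
    _ ≤ B * B := by rw [← Finset.mul_sum]; exact mul_le_mul_of_nonneg_left hf hB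

include hG hd hreg hD ok in
theorem pathBdd_obsA2 {n : ℕ} (hn : n ≤ K) (hi : i ≤ K) :
    PathBdd G D n (obsA2 G β hv D i₀ a i) := by
  refine ⟨Finset.measurable_sum _ fun v _ => (measurable_obsAlpha i v).pow_const 2,
    crudeBound d β D * crudeBound d β D, fun x => ?_⟩
  rw [obsA2, abs_of_nonneg (Finset.sum_nonneg fun _ _ => sq_nonneg _)]
  exact sum_sq_le_of_sum_abs (sum_abs_obsAlpha_le hG hd hreg hD ok _ hi)

include hG hd hreg hD ok in
theorem pathBdd_obsU {n : ℕ} (hi : i ≤ K) : PathBdd G D n (obsU G β hv D i₀ a i) := by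
  refine ⟨Finset.measurable_sum _ fun v _ => (measurable_obsM i v).pow_const 2,
    D.card * crudeBound d β D ^ 2, fun x => ?_⟩
  rw [obsU, abs_of_nonneg (Finset.sum_nonneg fun _ _ => sq_nonneg _), ← nsmul_eq_mul,
    ← Finset.sum_const]
  refine Finset.sum_le_sum fun v hv' => ?_
  rw [← sq_abs]
  exact pow_le_pow_left₀ (abs_nonneg _) (abs_obsM_le hG hd hreg hD ok _ hi hv') 2

theorem obsN_eq {h : ℝ} (b : ℕ → V × V → ℝ) : obsN G β h D i₀ a i b =
    ∑ v ∈ D, obsAlpha G β h D i₀ a i b v * obsM G β h D i₀ a i v b := rfl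

include hG hd hreg hD ok in
theorem pathBdd_obsN {n : ℕ} (hi : i ≤ K) : PathBdd G D n (obsN G β hv D i₀ a i) := by
  refine ⟨Finset.measurable_sum _ fun v _ => (measurable_obsAlpha i v).mul (measurable_obsM i v),
    crudeBound d β D * crudeBound d β D, fun x => ?_⟩
  rw [obsN_eq]
  refine (Finset.abs_sum_le_sum_abs _ _).trans ?_
  calc ∑ v ∈ D, |obsAlpha G β hv D i₀ a i (drv x) v * obsM G β hv D i₀ a i v (drv x)|
      ≤ ∑ v ∈ D, |obsAlpha G β hv D i₀ a i (drv x) v| * crudeBound d β D :=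
        Finset.sum_le_sum fun v hv' => by
          rw [abs_mul]
          exact mul_le_mul_of_nonneg_left (abs_obsM_le hG hd hreg hD ok _ hi hv') (abs_nonneg _)
    _ ≤ _ := by
        rw [← Finset.sum_mul]
        exact mul_le_mul_of_nonneg_right (sum_abs_obsAlpha_le hG hd hreg hD ok _ hi)
          (crudeBound_nonneg d β D)

include hG hd hreg hD ok in
theorem pathBdd_obsQV {n : ℕ} (hi : i ≤ K) : PathBdd G D n (obsQV G β hv D i₀ a i) := by
  refine ⟨Finset.measurable_sum _ fun v _ => Finset.measurable_sum _ fun w _ =>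
    (measurable_cumLin_comp _ D v w (measurable_obsH_apply i)
      (measurable_obsAlpha i)).pow_const 2,
    (D.card : ℝ) * (D.card * (6 * crudeBound d β D) ^ 2), fun x => ?_⟩
  rw [obsQV, abs_of_nonneg (Finset.sum_nonneg fun _ _ => Finset.sum_nonneg fun _ _ => sq_nonneg _),
    show (D.card : ℝ) * (D.card * (6 * crudeBound d β D) ^ 2) =
      ∑ _v ∈ D, ∑ _w ∈ D, (6 * crudeBound d β D) ^ 2 by simp]
  refine Finset.sum_le_sum fun v _ => ?_
  refine Finset.sum_le_sum fun w _ => ?_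
  rw [← sq_abs]
  refine pow_le_pow_left₀ (abs_nonneg _) ?_ 2
  calc |cumLin G (chTh β ((i : ℝ) * hv)) D (obsH G β D (drv x) i)
        (obsAlpha G β hv D i₀ a i (drv x)) v w|
      ≤ ∑ u ∈ D, |obsAlpha G β hv D i₀ a i (drv x) u| * 6 := by
        refine (Finset.abs_sum_le_sum_abs _ _).trans (Finset.sum_le_sum fun u _ => ?_)
        rw [abs_mul]
        refine mul_le_mul_of_nonneg_left ?_ (abs_nonneg _)
        exact (abs_cum3_le (fieldWeight_pos (ok.th_nonneg hi) (chTh_lt_one _ _) D _)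
          (fun η => (abs_spin _).le) (fun η => (abs_spin _).le) fun η => (abs_spin _).le).trans
          (le_of_eq (by norm_num))
    _ ≤ _ := by
        rw [← Finset.sum_mul, mul_comm]
        exact mul_le_mul_of_nonneg_left (sum_abs_obsAlpha_le hG hd hreg hD ok _ hi) (by norm_num)

/-- A function of `n` steps has the same expectation at every later level. -/
theorem obsExp_lift {n : ℕ} {F : (ℕ → V × V → ℝ) → ℝ}
    (hF : ∀ b b' : ℕ → V × V → ℝ, (∀ j < n, ∀ e ∈ dirE G D, b j e = b' j e) → F b = F b')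
    (hFb : PathBdd G D n F) :
    ∀ k, ChOk β hv (n + k) → obsExp G β hv D (n + k) F = obsExp G β hv D n F
  | 0 => fun _ => rfl
  | k + 1 => fun ok' => by
    have hcast : ∀ {m : ℕ}, n ≤ m → PathBdd G D m F := by
      intro m hm
      obtain ⟨B, hB⟩ := hFb.2
      have e : (fun x : CIdx G D m → ℝ => F (drv x)) =
          (fun x : CIdx G D n → ℝ => F (drv x)) ∘ fun x q => drv x q.2 q.1 := by
        funext x
        exact hF _ _ fun j hj e he => by rw [drv_apply _ hj he]
      refine ⟨?_, B, fun x => ?_⟩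
      · rw [e]; exact hFb.1.comp (measurable_pi_lambda _ fun q => measurable_drv _ _)
      · rw [congr_fun e x]; exact hB _
    have ok1 : ChOk β hv (n + k + 1) := ok'
    show obsExp G β hv D (n + k + 1) F = _
    rw [obsExp_succ ok1 (hcast (by omega)), ← obsExp_lift hF hFb k (ok'.mono (by omega)), obsExp]
    refine integral_congr_ae (ae_of_all _ fun x => ?_)
    simp only
    congr 1
    have hz : ∀ z, F (drv (joinStep x z)) = F (drv x) := fun z =>
      hF _ _ fun j hj e _ => drv_joinStep_lt x z (by omega) e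
    have hw : ∀ η, 0 < chPost G β hv D (drv x) (n + k) η :=
      fieldWeight_pos (ok1.th_nonneg (by omega)) (chTh_lt_one _ _) D _
    simp only [hz, integral_mul_const, integral_stepDens ok1.step_ne hw, one_mul]

theorem schur_gap_le (hG : G.IsTree) (hd : 3 ≤ d) (hreg : ∀ v, (G.neighborSet v).ncard = d)
    {t θ δ : ℝ} (ht0 : 0 < t) (hbt : ((d : ℝ) - 1) * t ^ 2 = 1) (hθ0 : 0 ≤ θ) (hδ : 0 < δ)
    (hδ1 : δ ≤ 1) (hθ : θ ≤ t - δ) (s : Finset V) (v z : V) :
    ∑ u ∈ s, θ ^ G.dist v u * t ^ G.dist u z ≤ (1 + d) / δ ^ 2 * t ^ G.dist v z := by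
  have hd3 : (3 : ℝ) ≤ d := by exact_mod_cast hd
  have hθt : θ < t := by linarith
  have hb : (0 : ℝ) < (d : ℝ) - 1 := by linarith
  have hden : ((d : ℝ) - 1) * t * δ ≤ 1 - ((d : ℝ) - 1) * (θ * t) := by
    calc ((d : ℝ) - 1) * t * δ ≤ ((d : ℝ) - 1) * t * (t - θ) :=
          mul_le_mul_of_nonneg_left (by linarith) (by positivity)
      _ = ((d : ℝ) - 1) * t ^ 2 - ((d : ℝ) - 1) * (θ * t) := by ring
      _ = _ := by rw [hbt]
  have hden0 : 0 < ((d : ℝ) - 1) * t * δ := by positivity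
  refine (schur_le hG hd hreg hθ0 hθt (by linarith) s v z).trans
    (mul_le_mul_of_nonneg_right ?_ (pow_nonneg ht0.le _))
  have ht1 : t ≤ 1 := by nlinarith
  have hratio : δ / t ≤ 1 - θ / t := by rw [le_sub_iff_add_le, ← add_div, div_le_one ht0]; linarith
  calc (1 + (d : ℝ) * (θ * t) / (1 - ((d : ℝ) - 1) * (θ * t))) / (1 - θ / t)
      ≤ (1 + (d : ℝ) * (θ * t) / (((d : ℝ) - 1) * t * δ)) / (δ / t) := by
        have h0 : 0 ≤ (d : ℝ) * (θ * t) / (((d : ℝ) - 1) * t * δ) := by positivity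
        refine div_le_div₀ (by linarith) (add_le_add le_rfl ?_) (by positivity) hratio
        exact div_le_div_of_nonneg_left (by positivity) hden0 hden
    _ = t / δ + (d : ℝ) * θ * t / (((d : ℝ) - 1) * δ ^ 2) := by field_simp
    _ ≤ 1 / δ ^ 2 + (d : ℝ) / δ ^ 2 := by
        refine add_le_add ?_ ?_
        · calc t / δ ≤ 1 / δ := div_le_div_of_nonneg_right ht1 hδ.le
            _ ≤ 1 / δ ^ 2 := div_le_div_of_nonneg_left zero_le_one (by positivity) (by nlinarith)
        · rw [div_le_div_iff₀ (by positivity) (by positivity)]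
          have : θ * t ≤ (d : ℝ) - 1 := by nlinarith
          nlinarith [mul_le_mul_of_nonneg_left this (show (0:ℝ) ≤ (d:ℝ) * δ ^ 2 by positivity)]
    _ = _ := by ring

theorem regrSum_crude_le (hG : G.IsTree) (hd : 3 ≤ d) (hreg : ∀ v, (G.neighborSet v).ncard = d)
    {t θ δ : ℝ} (ht0 : 0 < t) (hbt : ((d : ℝ) - 1) * t ^ 2 = 1) (hθ0 : 0 ≤ θ) (hδ : 0 < δ)
    (hδ1 : δ ≤ 1) (hθ : θ ≤ t - δ) (hD : IsConvexSet G D) (H : V → ℝ) {c : V} (hc : c ∈ D) :
    regrSum G θ D H c ≤ (1 + d) / δ := by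
  have hd3 : (3 : ℝ) ≤ d := by exact_mod_cast hd
  have ht1 : t ≤ 1 := by nlinarith
  have h1 : θ < 1 := by linarith
  have hden : ((d : ℝ) - 1) * t * δ ≤ 1 - ((d : ℝ) - 1) * θ ^ 2 := by
    calc ((d : ℝ) - 1) * t * δ ≤ ((d : ℝ) - 1) * t * (t - θ) :=
          mul_le_mul_of_nonneg_left (by linarith) (mul_nonneg (by linarith) ht0.le)
      _ ≤ ((d : ℝ) - 1) * (t + θ) * (t - θ) := by
          refine mul_le_mul_of_nonneg_right (mul_le_mul_of_nonneg_left (by linarith) (by linarith))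
            (by linarith)
      _ = ((d : ℝ) - 1) * t ^ 2 - ((d : ℝ) - 1) * θ ^ 2 := by ring
      _ = _ := by rw [hbt]
  have hden0 : 0 < ((d : ℝ) - 1) * t * δ := mul_pos (mul_pos (by linarith) ht0) hδ
  calc regrSum G θ D H c ≤ ∑ v ∈ D, (θ ^ 2) ^ G.dist c v := by
        refine Finset.sum_le_sum fun v hv' => ?_
        obtain ⟨r0, r1⟩ := regr_bounds hG hθ0 h1 hD H hc hv'
        rw [← pow_mul, mul_comm 2, pow_mul, SimpleGraph.dist_comm]
        exact pow_le_pow_left₀ r0 r1 2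
    _ ≤ 1 + d * θ ^ 2 / (1 - ((d : ℝ) - 1) * θ ^ 2) :=
        geom_sum_le hG hd hreg (sq_nonneg θ) (by linarith) c D
    _ ≤ 1 / δ + d * t ^ 2 / (((d : ℝ) - 1) * t * δ) := by
        refine add_le_add ?_ (div_le_div₀ (by positivity)
          (mul_le_mul_of_nonneg_left (pow_le_pow_left₀ hθ0 (by linarith) 2) (by linarith)) hden0 hden)
        rw [le_div_iff₀ hδ]; linarith
    _ ≤ 1 / δ + d / δ := by
        refine add_le_add le_rfl ?_
        rw [div_le_div_iff₀ hden0 hδ]
        have : t ≤ (d : ℝ) - 1 := by linarith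
        nlinarith [mul_le_mul_of_nonneg_left this (show (0:ℝ) ≤ (d:ℝ) * t * δ by positivity)]
    _ = _ := by ring

theorem obsAlpha_le_domA (hG : G.IsTree) (hD : IsConvexSet G D) {j : ℕ} (hj : i₀ < j)
    (ok : ChOk β hv K) (b : ℕ → V × V → ℝ) : ∀ n, j + n ≤ K → ∀ v,
      obsAlpha G β hv D i₀ a (j + n) b v ≤
        domA G β hv D j (obsAlpha G β hv D i₀ a j b) n v
  | 0 => fun _ _ => le_rfl
  | n + 1 => fun hn v => by
    have ih := obsAlpha_le_domA hG hD hj ok b n (by omega)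
    show stepA G β hv D (j + n) (obsH G β D b (j + n)) (obsAlpha G β hv D i₀ a (j + n) b) v +
      (if j + n = i₀ then fieldOf G β D (fun e => if e = a then 1 else 0) v else 0) ≤ _
    rw [if_neg (show j + n ≠ i₀ by omega), add_zero, stepA, domA]
    refine add_le_add (ih v) (mul_le_mul_of_nonneg_left (chQ_mono D (fun u hu =>
      sigMul_le_kerMul hG (ok.th_nonneg (by omega)) (chTh_lt_one _ _) hD _ (fun w _ => ih w)
        (fun w _ => obsAlpha_nonneg hG hD ok b (by omega) w) hu) v)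
      (mul_nonneg (NNReal.coe_nonneg hv) (sq_nonneg _)))

theorem kerMul_nonneg {θ : ℝ} (h0 : 0 ≤ θ) {α : V → ℝ} (hα : ∀ v, 0 ≤ α v) (v : V) :
    0 ≤ kerMul G θ D α v :=
  Finset.sum_nonneg fun u _ => mul_nonneg (hα u) (pow_nonneg h0 _)

theorem domA_nonneg {h : ℝ} (hh : 0 ≤ h) {j : ℕ} {α : V → ℝ} (hα : ∀ v, 0 ≤ α v) :
    ∀ n, (∀ m < n, 0 ≤ chTh β (((j + m : ℕ) : ℝ) * h)) → ∀ v, 0 ≤ domA G β h D j α n v
  | 0 => fun _ => hα
  | n + 1 => fun hth v => add_nonneg
      (domA_nonneg hh hα n (fun m hm => hth m (hm.trans (Nat.lt_succ_self n))) v)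
      (mul_nonneg (mul_nonneg hh (sq_nonneg _)) (chQ_nonneg D (fun u _ =>
        kerMul_nonneg (hth n (Nat.lt_succ_self n))
          (domA_nonneg hh hα n (fun m hm => hth m (hm.trans (Nat.lt_succ_self n)))) u) v))

theorem sum_sq_domA_le (hd : 3 ≤ d) (hreg : ∀ v, (G.neighborSet v).ncard = d) {h t c : ℝ}
    (hh : 0 ≤ h) (ht : 0 < t) (hc : 0 < c) {j : ℕ} (α : V → ℝ) : ∀ n,
    (∀ m < n, 0 ≤ chTh β (((j + m : ℕ) : ℝ) * h) ∧ ∀ (s : Finset V) (v z : V),
      ∑ u ∈ s, chTh β (((j + m : ℕ) : ℝ) * h) ^ G.dist v u * t ^ G.dist u z ≤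
        c * t ^ G.dist v z) →
    ∑ v ∈ D, domA G β h D j α n v ^ 2 ≤
      Real.exp (2 * ((n : ℝ) * h) * (chLam β ^ 2 * (4 * d * c))) * ∑ v ∈ D, α v ^ 2
  | 0 => fun _ => by simp [domA]
  | n + 1 => fun hn => by
    have ih := sum_sq_domA_le hd hreg hh ht hc α n fun m hm => hn m (hm.trans (Nat.lt_succ_self n))
    obtain ⟨th0, hsch⟩ := hn n (Nat.lt_succ_self n)
    set γ := domA G β h D j α n
    set x := h * chLam β ^ 2
    set q := fun v => chQ G D (kerMul G (chTh β (((j + n : ℕ) : ℝ) * h)) D γ) v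
    set Lc := 4 * (d : ℝ) * c with hLc
    have hx : 0 ≤ x := mul_nonneg hh (sq_nonneg _)
    have hd3 : (3 : ℝ) ≤ d := by exact_mod_cast hd
    have hL : 0 < Lc := by positivity
    have hq : ∑ v ∈ D, q v ^ 2 ≤ Lc ^ 2 * ∑ v ∈ D, γ v ^ 2 := by
      refine (sum_sq_chQ_le hd hreg D _).trans ((mul_le_mul_of_nonneg_left
        (sum_sq_kerMul_le th0 ht hc.le hsch D γ) (sq_nonneg _)).trans (le_of_eq ?_))
      rw [hLc]; ring
    have hstep : ∑ v ∈ D, (γ v + x * q v) ^ 2 ≤ (1 + x * Lc) ^ 2 * ∑ v ∈ D, γ v ^ 2 := by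
      have hpt : ∀ v ∈ D, (γ v + x * q v) ^ 2 ≤
          (1 + x * Lc) * γ v ^ 2 + (x / Lc + x ^ 2) * q v ^ 2 := by
        intro v _
        have h2 : 2 * (γ v * q v) ≤ Lc * γ v ^ 2 + q v ^ 2 / Lc := by
          have e : Lc * γ v ^ 2 + q v ^ 2 / Lc - 2 * (γ v * q v) = (Lc * γ v - q v) ^ 2 / Lc := by
            field_simp; ring
          have : 0 ≤ (Lc * γ v - q v) ^ 2 / Lc := by positivity
          linarith
        have := mul_le_mul_of_nonneg_left h2 hx
        calc (γ v + x * q v) ^ 2 = γ v ^ 2 + x * (2 * (γ v * q v)) + x ^ 2 * q v ^ 2 := by ring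
          _ ≤ γ v ^ 2 + x * (Lc * γ v ^ 2 + q v ^ 2 / Lc) + x ^ 2 * q v ^ 2 := by linarith
          _ = _ := by ring
      refine (Finset.sum_le_sum hpt).trans ?_
      rw [Finset.sum_add_distrib, ← Finset.mul_sum, ← Finset.mul_sum]
      refine (add_le_add le_rfl (mul_le_mul_of_nonneg_left hq (by positivity))).trans (le_of_eq ?_)
      field_simp
    show ∑ v ∈ D, (γ v + x * q v) ^ 2 ≤ _
    refine hstep.trans ?_
    have hS : 0 ≤ ∑ v ∈ D, γ v ^ 2 := Finset.sum_nonneg fun _ _ => sq_nonneg _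
    calc (1 + x * Lc) ^ 2 * ∑ v ∈ D, γ v ^ 2
        ≤ Real.exp (x * Lc) ^ 2 * (Real.exp (2 * ((n : ℝ) * h) * (chLam β ^ 2 * (4 * d * c))) *
          ∑ v ∈ D, α v ^ 2) :=
          mul_le_mul (pow_le_pow_left₀ (by positivity) (by linarith [Real.add_one_le_exp (x * Lc)])
            2) ih hS (sq_nonneg _)
      _ = _ := by
          rw [← mul_assoc, ← Real.exp_nat_mul, ← Real.exp_add]
          congr 1
          congr 1
          push_cast
          simp only [x, hLc]
          ring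

end Vale.Agent.P161
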