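import Vale.Agent.P161.Crit.DecayMean

/-!
# The regression sums at positive times are rarely large
-/

namespace Vale.Agent.P161

open SimpleGraph MeasureTheory ProbabilityTheory
open scoped Classical NNReal

variable {V : Type*} {G : SimpleGraph V} {d : ℕ}

theorem tanh_gap {β β₀ r t : ℝ} (hβ₀ : 0 < β₀) (hβ : β₀ ≤ β) (hr0 : 0 < r) (hr1 : r ≤ 1)
    (ht : Real.tanh β ≤ t) :
    chTh β r ≤ t - β₀ * (1 - t ^ 2) * r := by
  have hβp : 0 < β := hβ₀.trans_le hβ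
  have hu : 0 ≤ β * r := by positivity
  have hd1 : 0 ≤ Real.tanh β := by
    rw [Real.tanh_eq_sinh_div_cosh]
    exact div_nonneg (Real.sinh_nonneg_iff.mpr hβp.le) (Real.cosh_pos _).le
  rw [chTh, show β * (1 - r) = β - β * r by ring]
  set u := β * r
  have huβ : u ≤ β := mul_le_of_le_one_right hβp.le hr1
  set T := Real.tanh β
  set T' := Real.tanh (β - u)
  have hT' : 0 ≤ T' := by
    simp only [T']
    rw [Real.tanh_eq_sinh_div_cosh]
    exact div_nonneg (Real.sinh_nonneg_iff.mpr (by linarith)) (Real.cosh_pos _).le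
  have hTu : T - T' = Real.sinh u / (Real.cosh β * Real.cosh (β - u)) := by
    simp only [T, T', Real.tanh_eq_sinh_div_cosh]
    rw [div_sub_div _ _ (Real.cosh_pos _).ne' (Real.cosh_pos _).ne', ← Real.sinh_sub,
      sub_sub_cancel]
  have hcosh : Real.cosh (β - u) ≤ Real.cosh β := by
    rw [Real.cosh_le_cosh, abs_of_nonneg (by linarith : 0 ≤ β - u), abs_of_pos hβp]
    linarith
  have hgap : u * (1 - T ^ 2) ≤ T - T' := by
    have h1 : 1 - T ^ 2 = 1 / (Real.cosh β * Real.cosh β) := by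
      simp only [T, Real.tanh_eq_sinh_div_cosh]
      rw [div_pow, sq (Real.cosh β), one_sub_div (by positivity),
        show Real.cosh β * Real.cosh β - Real.sinh β ^ 2 = 1 by
          have := Real.cosh_sq_sub_sinh_sq β; linarith]
    rw [hTu, h1, mul_one_div]
    gcongr
    exact Real.self_le_sinh_iff.mpr hu
  have h2 : β₀ * (1 - t ^ 2) * r ≤ u * (1 - T ^ 2) := by
    have e1 : T ^ 2 ≤ t ^ 2 := pow_le_pow_left₀ hd1 ht 2
    have e2 : 0 ≤ 1 - T ^ 2 := by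
      simp only [T]
      nlinarith [Real.tanh_lt_one β]
    calc β₀ * (1 - t ^ 2) * r ≤ β₀ * (1 - T ^ 2) * r := by gcongr
      _ ≤ β * (1 - T ^ 2) * r := by gcongr
      _ = u * (1 - T ^ 2) := by simp only [u]; ring
  linarith

theorem regrSum_eq_spheres {D : Finset V} {θ : ℝ} (H : V → ℝ) (c : V) :
    regrSum G θ D H c = ∑ i ∈ Finset.range (D.sup (fun v => G.dist c v) + 1),
      ∑ v ∈ sphIn G D c i, regr G θ D H v c ^ 2 := by
  rw [regrSum, ← Finset.sum_fiberwise_of_maps_to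
    (g := fun v => G.dist c v) (t := Finset.range (D.sup (fun v => G.dist c v) + 1))
    fun v hv => Finset.mem_range.mpr
      (Nat.lt_succ_of_le (Finset.le_sup (f := fun v => G.dist c v) hv))]
  rfl

theorem amplify {b C γ r s : ℝ} {m : ℕ} (hb2 : 2 ≤ b) (hCp : 0 < C) (hγp : 0 < γ) (hs0 : 0 < s)
    (hr0 : 0 < r) (hss : s * s = r) (hm : (24 * C / γ + 1) / Real.log 2 / s ≤ m) :
    C / r ^ 2 ≤ γ * b ^ m := by
  have hl2 : 0 < Real.log 2 := Real.log_pos (by norm_num)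
  set a := 24 * C / γ + 1 with ha
  have ha1 : 1 ≤ a := by
    have : 0 ≤ 24 * C / γ := by positivity
    rw [ha]; linarith
  have hm0 : a / s ≤ m * Real.log 2 := by
    refine le_trans (le_of_eq ?_) (mul_le_mul_of_nonneg_right hm hl2.le)
    field_simp
  have h4 : (a / s) ^ 4 / 24 ≤ b ^ m := by
    calc (a / s) ^ 4 / 24 ≤ (m * Real.log 2) ^ 4 / 24 := by gcongr
      _ ≤ Real.exp (m * Real.log 2) := by
          have := Real.pow_div_factorial_le_exp ((m : ℝ) * Real.log 2) (by positivity) 4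
          simpa [Nat.factorial] using this
      _ = (2 : ℝ) ^ m := by rw [Real.exp_nat_mul, Real.exp_log (by norm_num)]
      _ ≤ _ := pow_le_pow_left₀ (by norm_num) hb2 m
  calc C / r ^ 2 ≤ γ * (a / (24 * r ^ 2)) := by
        have e : γ * (a / (24 * r ^ 2)) = (C + γ / 24) / r ^ 2 := by
          rw [ha]; field_simp
        rw [e, div_le_div_iff_of_pos_right (by positivity)]
        linarith
    _ ≤ γ * ((a / s) ^ 4 / 24) := by
        refine mul_le_mul_of_nonneg_left ?_ hγp.le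
        rw [div_pow, show s ^ 4 = r ^ 2 by rw [← hss]; ring]
        rw [div_div, mul_comm (r ^ 2)]
        exact div_le_div_of_nonneg_right (by
          calc a = a ^ 1 := (pow_one a).symm
            _ ≤ a ^ 4 := pow_le_pow_right₀ ha1 (by norm_num)) (by positivity)
    _ ≤ _ := mul_le_mul_of_nonneg_left h4 hγp.le

theorem geometric_tail {q κ' r : ℝ} {R : ℕ} (hq0 : 0 ≤ q) (hq1 : q ≤ 1 - κ' * r) (hκp : 0 < κ')
    (hr0 : 0 < r) (hR : 1 / r ^ 2 ≤ R) : 2 * q ^ R / (1 - q) ≤ 2 / κ' ^ 2 := by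
  have hκr : 0 < κ' * r := by positivity
  have hR1 : 1 ≤ (R : ℝ) * r ^ 2 := by
    rw [← div_le_iff₀ (by positivity)]; exact hR
  have hqR : q ^ R * ((R : ℝ) * (κ' * r)) ≤ 1 := by
    calc q ^ R * ((R : ℝ) * (κ' * r))
        ≤ Real.exp (-((R : ℝ) * (κ' * r))) * ((R : ℝ) * (κ' * r)) := by
          refine mul_le_mul_of_nonneg_right ?_ (by positivity)
          rw [← mul_neg, Real.exp_nat_mul]
          exact pow_le_pow_left₀ hq0 (hq1.trans (by linarith [Real.add_one_le_exp (-(κ' * r))])) R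
      _ ≤ 1 := by
          rw [Real.exp_neg, inv_mul_le_iff₀ (Real.exp_pos _), mul_one]
          linarith [Real.add_one_le_exp ((R : ℝ) * (κ' * r))]
  rw [div_le_div_iff₀ (by linarith) (by positivity)]
  have e1 : q ^ R * κ' ^ 2 ≤ q ^ R * κ' ^ 2 * ((R : ℝ) * r ^ 2) :=
    le_mul_of_one_le_right (by positivity) hR1
  have e2 : q ^ R * κ' ^ 2 * ((R : ℝ) * r ^ 2) = q ^ R * ((R : ℝ) * (κ' * r)) * (κ' * r) := by
    ring
  have e3 := mul_le_mul_of_nonneg_right hqR hκr.le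
  linarith

theorem count_le (hG : G.IsTree) (hd : 3 ≤ d) (hreg : ∀ v, (G.neighborSet v).ncard = d)
    (D : Finset V) (c : V) (R : ℕ) :
    ((((Finset.range R).biUnion fun i => sphIn G D c (i + 1 + 1)).card : ℕ) : ℝ) ≤
      (2 * d : ℝ) ^ (R + 1) := by
  have hd3 : (3 : ℝ) ≤ d := by exact_mod_cast hd
  set b : ℝ := (d : ℝ) - 1 with hb
  have hb0 : 0 < b := by rw [hb]; linarith
  set Q := (Finset.range R).biUnion fun i => sphIn G D c (i + 1 + 1)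
  calc (Q.card : ℝ) ≤ ∑ i ∈ Finset.range R, ((sphIn G D c (i + 1 + 1)).card : ℝ) := by
        exact_mod_cast Finset.card_biUnion_le
    _ ≤ ∑ i ∈ Finset.range R, (d : ℝ) ^ (R + 1) := by
        refine Finset.sum_le_sum fun i hi => ?_
        refine (sphIn_card_le hG hd hreg c (i + 1)).trans ?_
        have hi' := Finset.mem_range.mp hi
        calc (d : ℝ) * b ^ (i + 1) ≤ (d : ℝ) * (d : ℝ) ^ R := by
              refine mul_le_mul_of_nonneg_left ?_ (by linarith)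
              exact (pow_le_pow_left₀ hb0.le (by rw [hb]; linarith) _).trans
                (pow_le_pow_right₀ (by linarith) (by omega))
          _ = _ := (pow_succ' _ _).symm
    _ = (R : ℝ) * (d : ℝ) ^ (R + 1) := by simp
    _ ≤ (2 : ℝ) ^ (R + 1) * (d : ℝ) ^ (R + 1) := by
        refine mul_le_mul_of_nonneg_right ?_ (by positivity)
        exact_mod_cast (Nat.lt_two_pow_self).le.trans
          (Nat.pow_le_pow_right (by norm_num) (Nat.le_succ R))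
    _ = _ := (mul_pow _ _ _).symm

theorem step_const {b c1 c2 β₀ lam2 τ r s ℓ : ℝ} (hb0 : 0 < b) (hβ₀ : 0 < β₀)
    (hc1p : 0 < c1) (hc : c1 ≤ c2 * β₀ / (2 * β₀ + 16 * b)) (hs0 : 0 < s) (hs1 : s ≤ 1)
    (hr0 : 0 < r) (hss : s * s = r) (hlam : β₀ / 2 ≤ lam2) (hτr : r / 4 ≤ τ) (hℓ1 : 1 / s ≤ ℓ) :
    2 * (1 + b / (lam2 * τ * ℓ)) * (c1 * s) ≤ c2 := by
  have hlam0 : 0 ≤ lam2 := by linarith
  have hτ0 : 0 ≤ τ := by linarith
  have hL : β₀ * s / 8 ≤ lam2 * τ * ℓ := by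
    calc β₀ * s / 8 = (β₀ / 2) * (r / 4) * (1 / s) := by
          rw [← hss]; field_simp; ring
      _ ≤ lam2 * τ * ℓ := by gcongr
  calc 2 * (1 + b / (lam2 * τ * ℓ)) * (c1 * s) ≤ 2 * (1 + b / (β₀ * s / 8)) * (c1 * s) := by gcongr
    _ = c1 * (2 * s + 16 * b / β₀) := by field_simp; ring
    _ ≤ c1 * ((2 * β₀ + 16 * b) / β₀) := by
        refine mul_le_mul_of_nonneg_left ?_ hc1p.le
        rw [le_div_iff₀ hβ₀, add_mul, div_mul_cancel₀ _ hβ₀.ne']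
        nlinarith
    _ ≤ c2 * β₀ / (2 * β₀ + 16 * b) * ((2 * β₀ + 16 * b) / β₀) :=
        mul_le_mul_of_nonneg_right hc (by positivity)
    _ = c2 := by field_simp

theorem regrSum_good_le (hG : G.IsTree) (hd : 3 ≤ d) (hreg : ∀ v, (G.neighborSet v).ncard = d)
    {θ κ' r : ℝ} (h0 : 0 ≤ θ) (h1 : θ < 1) {D : Finset V} (hD : IsConvexSet G D) {c : V}
    (hc : c ∈ D) (H : V → ℝ) (hq1 : ((d : ℝ) - 1) * θ ^ 2 ≤ 1 - κ' * r) (hκp : 0 < κ')
    (hr0 : 0 < r) {M R : ℕ} (hR : 1 / r ^ 2 ≤ R)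
    (hgood : ∀ v ∈ (Finset.range R).biUnion fun i => sphIn G D c (i + 1 + 1),
      wgt G θ ((d : ℝ) - 1) D H M (parentOf G c v) v ≤ 1 / 2) :
    regrSum G θ D H c ≤ 2 + 4 * ((M + 1 : ℕ) : ℝ) + 2 / κ' ^ 2 := by
  set q := ((d : ℝ) - 1) * θ ^ 2
  set S : ℕ → ℝ := fun i => ∑ v ∈ sphIn G D c i, regr G θ D H v c ^ 2 with hS
  have hd3 : (3 : ℝ) ≤ d := by exact_mod_cast hd
  have hq0 : 0 ≤ q := mul_nonneg (by linarith) (sq_nonneg θ)
  have hκr : 0 < κ' * r := by positivity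
  have hSq : ∀ i, S i ≤ 2 * q ^ i := fun i => sphere_mass_le hG hd hreg h0 h1 hD hc i
  rw [regrSum_eq_spheres]
  refine (sum_lag_le (s := S) (q := q) (N := M + 1) (R := R)
    (fun i => Finset.sum_nonneg fun v _ => sq_nonneg _)
    (fun i => (hSq i).trans (mul_le_of_le_one_right zero_le_two (pow_le_one₀ hq0 (by linarith))))
    hq0 (by linarith) hSq (fun i hi => ?_) _).trans ?_
  · have := sphere_halve hG hd hreg h0 h1 hD hc (H := H) (i := i) (M := M) fun v hv =>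
      hgood v (Finset.mem_biUnion.mpr ⟨i, Finset.mem_range.mpr hi, hv⟩)
    simp only [hS]
    linarith
  · linarith [geometric_tail hq0 hq1 hκp hr0 hR]

theorem regrSum_bad_le (hG : G.IsTree) (hd : 3 ≤ d) (hreg : ∀ v, (G.neighborSet v).ncard = d)
    {θ β κ' r : ℝ} (h0 : 0 ≤ θ) (h1 : θ < 1) {D : Finset V} (hD : IsConvexSet G D) {c : V}
    (hc : c ∈ D) (ν : V → ℝ) {τ : ℝ≥0} (hq1 : ((d : ℝ) - 1) * θ ^ 2 ≤ 1 - κ' * r) (hκp : 0 < κ')
    (hr0 : 0 < r) {n m R : ℕ} (hR : 1 / r ^ 2 ≤ R)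
    (hn : ∀ p x : V, G.Adj p x → p ∈ D → x ∈ D →
      ∫ z, nWgt G θ β ((d : ℝ) - 1) D ν n p x z ∂gaussPi (dirE G D) τ ≤ 1 / 4) :
    (gaussPi (dirE G D) τ).real {z | 2 + 4 * ((n + m + 1 : ℕ) : ℝ) + 2 / κ' ^ 2 <
        regrSum G θ D (noisy G β D ν z) c} ≤
      (2 * d : ℝ) ^ (R + 1) * Real.exp (-((3 - Real.exp 1) / 4 * ((d : ℝ) - 1) ^ m)) := by
  have hκr : 0 < κ' * r := by positivity
  have hbθ : ((d : ℝ) - 1) * θ ^ 2 ≤ 1 := by linarith
  set Q := (Finset.range R).biUnion fun i => sphIn G D c (i + 1 + 1) with hQ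
  have hQmem : ∀ v ∈ Q, G.Adj (parentOf G c v) v ∧ parentOf G c v ∈ D ∧ v ∈ D := by
    intro v hv
    obtain ⟨i, -, hi⟩ := Finset.mem_biUnion.mp hv
    obtain ⟨hvD, hdv⟩ := Finset.mem_filter.mp hi
    have hvc : v ≠ c := by rintro rfl; simp at hdv
    exact ⟨(parentOf_spec hG hvc).1.symm, parentOf_mem hG hD hc hvD hvc, hvD⟩
  have hsub : {z | 2 + 4 * ((n + m + 1 : ℕ) : ℝ) + 2 / κ' ^ 2 <
        regrSum G θ D (noisy G β D ν z) c} ⊆
      ⋃ v ∈ Q, {z | 1 / 2 < nWgt G θ β ((d : ℝ) - 1) D ν (n + m) (parentOf G c v) v z} := by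
    intro z hz
    by_contra hnot
    simp only [Set.mem_iUnion, not_exists, Set.mem_ofPred_eq, not_lt] at hnot
    exact absurd hz (not_lt.mpr
      (regrSum_good_le hG hd hreg h0 h1 hD hc (noisy G β D ν z) hq1 hκp hr0 hR hnot))
  refine (measureReal_mono hsub (measure_ne_top _ _)).trans ((measureReal_biUnion_finset_le Q _).trans ?_)
  refine (Finset.sum_le_sum fun v hv =>
    tail_decay hG hd hreg h0 h1 hbθ hn m (hQmem v hv).1 (hQmem v hv).2.1 (hQmem v hv).2.2).trans ?_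
  rw [Finset.sum_const, nsmul_eq_mul]
  exact mul_le_mul_of_nonneg_right (count_le hG hd hreg D c R) (Real.exp_pos _).le

theorem exp_count_le {dd C r g : ℝ} {R : ℕ} (hdd : 1 ≤ dd) (hC : 3 * Real.log dd + 1 ≤ C)
    (hr0 : 0 < r) (hr1 : r ≤ 1) (hR : (R : ℝ) ≤ 1 / r ^ 2 + 1) (hg : C / r ^ 2 ≤ g) :
    dd ^ (R + 1) * Real.exp (-g) ≤ Real.exp (-(1 / r ^ 2)) := by
  have hlog : 0 ≤ Real.log dd := Real.log_nonneg hdd
  have h1 : 1 ≤ 1 / r ^ 2 := by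
    rw [le_div_iff₀ (by positivity)]
    nlinarith
  rw [← Real.exp_log (show 0 < dd by linarith), ← Real.exp_nat_mul, ← Real.exp_add,
    Real.exp_le_exp]
  have e : ((R + 1 : ℕ) : ℝ) * Real.log dd ≤ 3 * (1 / r ^ 2) * Real.log dd := by
    refine mul_le_mul_of_nonneg_right ?_ hlog
    push_cast
    linarith
  have e2 : (3 * Real.log dd + 1) * (1 / r ^ 2) ≤ C * (1 / r ^ 2) :=
    mul_le_mul_of_nonneg_right hC (by positivity)
  have e3 : C * (1 / r ^ 2) = C / r ^ 2 := mul_one_div _ _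
  linarith

theorem ceil_div_le {a s : ℝ} (ha : 0 ≤ a) (hs0 : 0 < s) (hs1 : s ≤ 1) :
    (⌈a / s⌉₊ : ℝ) ≤ (a + 1) / s := by
  have h := (Nat.ceil_lt_add_one (show 0 ≤ a / s by positivity)).le
  have : 1 ≤ 1 / s := by rw [le_div_iff₀ hs0]; linarith
  rw [add_div]
  linarith

theorem mean_quarter (hG : G.IsTree) (hd : 3 ≤ d) (hreg : ∀ v, (G.neighborSet v).ncard = d)
    {θ β t k : ℝ} (h0 : 0 ≤ θ) (hθt : θ ≤ t) (ht1 : t < 1) (hbt : ((d : ℝ) - 1) * t ^ 2 ≤ 1)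
    {D : Finset V} (hD : IsConvexSet G D) (ν : V → ℝ) {τ : ℝ≥0} (hτ : τ ≠ 0) (hlam : 0 < chLam β)
    {ℓ n : ℕ} (hℓ : 0 < ℓ) (hkp : 0 < k) (hk3 : k ≤ 1 / 3)
    (hk : 2 * (1 + ((d : ℝ) - 1) / (chLam β ^ 2 * τ * ℓ)) * k ≤ 1 - t ^ 2)
    (hn : (3 / 4 : ℝ) * (32 * ((d : ℝ) - 1) / k) ≤ n)
    (p x : V) (h : G.Adj p x) (hp : p ∈ D) (hx : x ∈ D) :
    ∫ z, nWgt G θ β ((d : ℝ) - 1) D ν (ℓ + n) p x z ∂gaussPi (dirE G D) τ ≤ 1 / 4 := by
  have hd3 : (3 : ℝ) ≤ d := by exact_mod_cast hd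
  have hb0 : 0 < (d : ℝ) - 1 := by linarith
  refine (mean_decay hG hd hreg h0 hθt ht1 hbt hD hτ hlam hℓ hkp.le hk3 hk n p x h hp hx).trans
    (max_le le_rfl ?_)
  have := mul_le_mul_of_nonneg_right hn
    (show 0 ≤ k / (32 * ((d : ℝ) - 1)) by positivity)
  have e : (3 / 4 : ℝ) * (32 * ((d : ℝ) - 1) / k) * (k / (32 * ((d : ℝ) - 1))) = 3 / 4 := by
    field_simp
  rw [e] at this
  linarith

theorem theta_facts {β₀ β r b t : ℝ} (hβ₀ : 0 < β₀) (hβ : β₀ ≤ β) (hb0 : 0 < b) (ht0 : 0 < t)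
    (ht1 : t < 1) (hbt2 : b * t ^ 2 = 1) (hr0 : 0 < r) (hr1 : r ≤ 1)
    (hbβ : b * Real.tanh β ^ 2 ≤ 1) :
    0 ≤ chTh β r ∧ chTh β r ≤ t ∧
      b * chTh β r ^ 2 ≤ 1 - b * t * (β₀ * (1 - t ^ 2)) * r := by
  have hβp : 0 < β := hβ₀.trans_le hβ
  have hT0 : 0 ≤ Real.tanh β := by
    rw [Real.tanh_eq_sinh_div_cosh]
    exact div_nonneg (Real.sinh_nonneg_iff.mpr hβp.le) (Real.cosh_pos _).le
  have hTt : Real.tanh β ≤ t := by
    refine (pow_le_pow_iff_left₀ hT0 ht0.le two_ne_zero).mp ?_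
    refine le_of_mul_le_mul_left ?_ hb0
    rw [hbt2]; exact hbβ
  have h0 : 0 ≤ chTh β r := chTh_nonneg hβp.le hr1
  have hgap : chTh β r ≤ t - β₀ * (1 - t ^ 2) * r := tanh_gap hβ₀ hβ hr0 hr1 hTt
  have hc : 0 ≤ 1 - t ^ 2 := by nlinarith
  have hθt : chTh β r ≤ t := hgap.trans (by linarith [show 0 ≤ β₀ * (1 - t ^ 2) * r by positivity])
  refine ⟨h0, hθt, ?_⟩
  calc b * chTh β r ^ 2 = b * (chTh β r * chTh β r) := by rw [sq]
    _ ≤ b * (t * (t - β₀ * (1 - t ^ 2) * r)) := by gcongr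
    _ = b * t ^ 2 - b * t * (β₀ * (1 - t ^ 2)) * r := by ring
    _ = _ := by rw [hbt2]

theorem regrSum_tail_at (hG : G.IsTree) (hd : 3 ≤ d) (hreg : ∀ v, (G.neighborSet v).ncard = d)
    {β₀ t κ' c1 C : ℝ} (hβ₀ : 0 < β₀) (ht0 : 0 < t) (ht1 : t < 1)
    (hbt2 : ((d : ℝ) - 1) * t ^ 2 = 1) (hκ : κ' = ((d : ℝ) - 1) * t * (β₀ * (1 - t ^ 2)))
    (hκp : 0 < κ') (hc1p : 0 < c1) (hc1a : c1 ≤ (1 - t ^ 2) * β₀ / (2 * β₀ + 16 * ((d : ℝ) - 1)))
    (hc13 : c1 ≤ 1 / 3) (hC : 3 * Real.log (2 * d) + 1 ≤ C) {β r : ℝ} {τ : ℝ≥0} (hβ : β₀ ≤ β)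
    (hbβ : ((d : ℝ) - 1) * Real.tanh β ^ 2 ≤ 1) (hr0 : 0 < r) (hr1 : r ≤ 1) (hτr : r / 4 ≤ τ)
    {D : Finset V} (hD : IsConvexSet G D) {c : V} (hc : c ∈ D) (ν : V → ℝ) :
    (gaussPi (dirE G D) τ).real {z |
        (4 + 4 * (2 + (32 * ((d : ℝ) - 1) / c1 + 1) +
          ((24 * C / ((3 - Real.exp 1) / 4) + 1) / Real.log 2 + 1) + 1) + 2 / κ' ^ 2) /
            Real.sqrt r < regrSum G (chTh β r) D (noisy G β D ν z) c} ≤
      Real.exp (-(1 / r ^ 2)) := by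
  have hd3 : (3 : ℝ) ≤ d := by exact_mod_cast hd
  have hb0 : 0 < (d : ℝ) - 1 := by linarith
  have hβp : 0 < β := hβ₀.trans_le hβ
  obtain ⟨h0, hθt, hq1⟩ := theta_facts hβ₀ hβ hb0 ht0 ht1 hbt2 hr0 hr1 hbβ
  rw [← hκ] at hq1
  have hτp : 0 < (τ : ℝ) := lt_of_lt_of_le (by linarith) hτr
  have hτ : τ ≠ 0 := fun h => by simp [h] at hτp
  have hlam : 0 < chLam β := Real.sqrt_pos.mpr (by linarith)
  have hlam2 : β₀ / 2 ≤ chLam β ^ 2 := by rw [chLam_sq hβp.le]; linarith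
  have hs0 : 0 < Real.sqrt r := Real.sqrt_pos.mpr hr0
  have hs1 : Real.sqrt r ≤ 1 := Real.sqrt_le_one.mpr hr1
  have hss : Real.sqrt r * Real.sqrt r = r := Real.mul_self_sqrt hr0.le
  have hgp : 0 < (3 - Real.exp 1) / 4 := by
    have := Real.exp_one_lt_d9
    linarith
  have hCp : 0 < C := lt_of_lt_of_le (by
    have : 0 ≤ Real.log (2 * d) := Real.log_nonneg (by linarith)
    linarith) hC
  have hl2 : 0 < Real.log 2 := Real.log_pos (by norm_num)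
  have hC'0 : 0 ≤ (24 * C / ((3 - Real.exp 1) / 4) + 1) / Real.log 2 := by positivity
  have hℓ1 : 1 / Real.sqrt r ≤ (⌈1 / Real.sqrt r⌉₊ : ℝ) := Nat.le_ceil _
  have hℓp : 0 < ⌈1 / Real.sqrt r⌉₊ := Nat.ceil_pos.mpr (by positivity)
  have hk' := step_const hb0 hβ₀ hc1p hc1a hs0 hs1 hr0 hss hlam2 hτr hℓ1
  have hkp : 0 < c1 * Real.sqrt r := by positivity
  have hk3 : c1 * Real.sqrt r ≤ 1 / 3 := (mul_le_of_le_one_right hc1p.le hs1).trans hc13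
  have hn3 : (3 / 4 : ℝ) * (32 * ((d : ℝ) - 1) / (c1 * Real.sqrt r)) ≤
      (⌈32 * ((d : ℝ) - 1) / c1 / Real.sqrt r⌉₊ : ℝ) := by
    refine le_trans ?_ (Nat.le_ceil _)
    rw [div_div]
    linarith [show 0 ≤ 32 * ((d : ℝ) - 1) / (c1 * Real.sqrt r) by positivity]
  have hmean := mean_quarter hG hd hreg h0 hθt ht1 hbt2.le hD ν hτ hlam hℓp hkp hk3 hk' hn3
  have hl := ceil_div_le zero_le_one hs0 hs1
  have hnn := ceil_div_le (show 0 ≤ 32 * ((d : ℝ) - 1) / c1 by positivity) hs0 hs1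
  have hm := ceil_div_le hC'0 hs0 hs1
  have hbm := amplify (show 2 ≤ (d : ℝ) - 1 by linarith) hCp hgp hs0 hr0 hss
    (Nat.le_ceil ((24 * C / ((3 - Real.exp 1) / 4) + 1) / Real.log 2 / Real.sqrt r))
  generalize ⌈1 / Real.sqrt r⌉₊ = ℓ at *
  generalize ⌈32 * ((d : ℝ) - 1) / c1 / Real.sqrt r⌉₊ = n at *
  generalize ⌈(24 * C / ((3 - Real.exp 1) / 4) + 1) / Real.log 2 / Real.sqrt r⌉₊ = m at *
  refine le_trans ?_ ((regrSum_bad_le hG hd hreg h0 (chTh_lt_one β r) hD hc ν hq1 hκp hr0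
    (m := m) (Nat.le_ceil (1 / r ^ 2)) hmean).trans
      (exp_count_le (by linarith) hC hr0 hr1
        (Nat.ceil_lt_add_one (by positivity)).le hbm))
  refine measureReal_mono (fun z hz => ?_) (measure_ne_top _ _)
  simp only [Set.mem_ofPred_eq] at hz ⊢
  refine lt_of_le_of_lt ?_ hz
  rw [le_div_iff₀ hs0]
  push_cast
  rw [le_div_iff₀ hs0] at hl hnn hm
  have : 0 ≤ 2 / κ' ^ 2 := by positivity
  nlinarith

/-- The regression sums are `O(r ^ (-1/2))` outside an event of probability `exp (-1/r²)`. -/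
theorem regrSum_tail (hG : G.IsTree) (hd : 3 ≤ d) (hreg : ∀ v, (G.neighborSet v).ncard = d)
    {β₀ : ℝ} (hβ₀ : 0 < β₀) :
    ∃ K r₀ : ℝ, 0 < K ∧ 0 < r₀ ∧ r₀ ≤ 1 ∧ ∀ (β r : ℝ) (τ : ℝ≥0), β₀ ≤ β →
      ((d : ℝ) - 1) * Real.tanh β ^ 2 ≤ 1 → 0 < r → r ≤ r₀ → r / 4 ≤ τ →
      ∀ D : Finset V, IsConvexSet G D → ∀ c ∈ D, ∀ ν : V → ℝ,
        (gaussPi (dirE G D) τ).real {x | K / Real.sqrt r < regrSum G (chTh β r) D
          (fun v => ν v + fieldOf G β D (fun a => if h : a ∈ dirE G D then x ⟨a, h⟩ else 0) v) c} ≤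
          Real.exp (-(1 / r ^ 2)) := by
  have hd3 : (3 : ℝ) ≤ d := by exact_mod_cast hd
  have hb0 : 0 < (d : ℝ) - 1 := by linarith
  obtain ⟨t, ht0, hbt2⟩ : ∃ t : ℝ, 0 < t ∧ ((d : ℝ) - 1) * t ^ 2 = 1 :=
    ⟨(Real.sqrt ((d : ℝ) - 1))⁻¹, inv_pos.mpr (Real.sqrt_pos.mpr hb0), by
      rw [inv_pow, Real.sq_sqrt hb0.le, mul_inv_cancel₀ hb0.ne']⟩
  have ht1 : t < 1 := by nlinarith
  have hc2p : 0 < 1 - t ^ 2 := by nlinarith
  have hlog : 0 ≤ Real.log (2 * d) := Real.log_nonneg (by linarith)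
  have hl2 : 0 < Real.log 2 := Real.log_pos (by norm_num)
  have hgp : 0 < (3 - Real.exp 1) / 4 := by
    have := Real.exp_one_lt_d9
    linarith
  refine ⟨_, 1, ?_, one_pos, le_rfl, fun β r τ hβ hbβ hr0 hr1 hτr D hD c hc ν =>
    regrSum_tail_at hG hd hreg hβ₀ ht0 ht1 hbt2 rfl (by positivity)
      (c1 := min ((1 - t ^ 2) * β₀ / (2 * β₀ + 16 * ((d : ℝ) - 1))) (1 / 3))
      (lt_min (by positivity) (by norm_num)) (min_le_left _ _) (min_le_right _ _)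
      (C := 3 * Real.log (2 * d) + 1) le_rfl hβ hbβ hr0 hr1 hτr hD hc ν⟩
  have : 0 < min ((1 - t ^ 2) * β₀ / (2 * β₀ + 16 * ((d : ℝ) - 1))) (1 / 3 : ℝ) :=
    lt_min (by positivity) (by norm_num)
  positivity

end Vale.Agent.P161
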