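import Mathlib

/-!
# Real recursions used for the energies
-/

namespace Vale.Agent.P161

theorem step_inv_sqrt_le {a b : ℝ} (ha : 0 ≤ a) (hab : a ≤ b) (hb : 0 < b) :
    (b - a) / Real.sqrt b ≤ 2 * (Real.sqrt b - Real.sqrt a) := by
  have hsb := Real.sqrt_pos.mpr hb
  have hsab : Real.sqrt a ≤ Real.sqrt b := Real.sqrt_le_sqrt hab
  have hsa := Real.sqrt_nonneg a
  rw [div_le_iff₀ hsb]
  have e : b - a = (Real.sqrt b - Real.sqrt a) * (Real.sqrt b + Real.sqrt a) := by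
    linear_combination (-1 : ℝ) * Real.sq_sqrt hb.le + Real.sq_sqrt ha
  rw [e]
  nlinarith

theorem sum_inv_sqrt_le {h : ℝ} (hh : 0 < h) {i1 : ℕ} (hi1 : 1 ≤ i1) : ∀ m, i1 ≤ m →
    ∑ j ∈ Finset.Ico i1 m, h / Real.sqrt ((j : ℝ) * h) ≤ 2 * Real.sqrt ((m : ℝ) * h) := by
  intro m hm
  suffices H : ∑ j ∈ Finset.Ico i1 m, h / Real.sqrt ((j : ℝ) * h) ≤
      2 * Real.sqrt (((m - 1 : ℕ) : ℝ) * h) from H.trans (mul_le_mul_of_nonneg_left
    (Real.sqrt_le_sqrt (mul_le_mul_of_nonneg_right (by exact_mod_cast Nat.sub_le m 1) hh.le))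
    zero_le_two)
  induction m, hm using Nat.le_induction with
  | base =>
    rw [Finset.Ico_self, Finset.sum_empty]
    exact mul_nonneg zero_le_two (Real.sqrt_nonneg _)
  | succ n hn ihn =>
    rw [Finset.sum_Ico_succ_top hn]
    have hn1 : (1 : ℝ) ≤ (n : ℝ) := by exact_mod_cast hi1.trans hn
    have k := step_inv_sqrt_le (a := ((n - 1 : ℕ) : ℝ) * h) (b := (n : ℝ) * h)
      (by positivity) (mul_le_mul_of_nonneg_right (by exact_mod_cast Nat.sub_le n 1) hh.le)
      (by positivity)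
    have e : (n : ℝ) * h - ((n - 1 : ℕ) : ℝ) * h = h := by
      rw [Nat.cast_sub (hi1.trans hn)]; push_cast; ring
    rw [e] at k
    rw [Nat.add_sub_cancel]
    linarith

theorem step_inv_three_half_le {a b : ℝ} (ha : 0 < a) (hab : a ≤ b) :
    (b - a) / (b * Real.sqrt b) ≤ 2 * (1 / Real.sqrt a - 1 / Real.sqrt b) := by
  have hb : 0 < b := ha.trans_le hab
  have hsa := Real.sqrt_pos.mpr ha
  have hsb := Real.sqrt_pos.mpr hb
  have hsab : Real.sqrt a ≤ Real.sqrt b := Real.sqrt_le_sqrt hab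
  set x := Real.sqrt a
  set y := Real.sqrt b
  have ea : a = x ^ 2 := (Real.sq_sqrt ha.le).symm
  have eb : b = y ^ 2 := (Real.sq_sqrt hb.le).symm
  rw [ea, eb, div_le_iff₀ (by positivity)]
  have e : 2 * (1 / x - 1 / y) * (y ^ 2 * y) = (y - x) * (2 * y ^ 2 / x) := by field_simp
  rw [e, show y ^ 2 - x ^ 2 = (y - x) * (y + x) by ring]
  refine mul_le_mul_of_nonneg_left ?_ (sub_nonneg.mpr hsab)
  rw [le_div_iff₀ hsa]
  nlinarith

theorem sum_inv_three_half_le {h : ℝ} (hh : 0 < h) {i1 : ℕ} (hi1 : 1 ≤ i1) (m : ℕ) :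
    ∑ j ∈ Finset.Ico i1 m, h / ((j : ℝ) * h * Real.sqrt ((j : ℝ) * h)) ≤
      3 / Real.sqrt ((i1 : ℝ) * h) := by
  rcases Nat.lt_or_ge i1 m with hm | hm
  swap
  · rw [Finset.Ico_eq_empty_of_le hm, Finset.sum_empty]
    positivity
  have h1 : (1 : ℝ) ≤ (i1 : ℝ) := by exact_mod_cast hi1
  have hu : 0 < (i1 : ℝ) * h := by positivity
  have key : ∀ n, i1 + 1 ≤ n → ∑ j ∈ Finset.Ico i1 n, h / ((j : ℝ) * h * Real.sqrt ((j : ℝ) * h)) ≤
      3 / Real.sqrt ((i1 : ℝ) * h) - 2 / Real.sqrt (((n - 1 : ℕ) : ℝ) * h) := by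
    intro n hn
    induction n, hn using Nat.le_induction with
    | base =>
      rw [Finset.sum_Ico_succ_top le_rfl, Finset.Ico_self, Finset.sum_empty, zero_add,
        Nat.add_sub_cancel, ← sub_div, show (3 : ℝ) - 2 = 1 by norm_num,
        div_le_div_iff₀ (by positivity) (Real.sqrt_pos.mpr hu), one_mul]
      exact mul_le_mul_of_nonneg_right (le_mul_of_one_le_left hh.le h1) (Real.sqrt_nonneg _)
    | succ n hn ih =>
      have hn2 : i1 ≤ n := by omega
      have hn3 : 1 ≤ n - 1 := by omega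
      rw [Finset.sum_Ico_succ_top hn2, Nat.add_sub_cancel]
      have k := step_inv_three_half_le (a := ((n - 1 : ℕ) : ℝ) * h) (b := (n : ℝ) * h)
        (mul_pos (by exact_mod_cast hn3) hh)
        (mul_le_mul_of_nonneg_right (by exact_mod_cast Nat.sub_le n 1) hh.le)
      have e : (n : ℝ) * h - ((n - 1 : ℕ) : ℝ) * h = h := by
        rw [Nat.cast_sub (by omega : 1 ≤ n)]; push_cast; ring
      rw [e] at k
      rw [mul_sub, mul_one_div, mul_one_div] at k
      linarith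
  refine (key m hm).trans ?_
  have : 0 ≤ 2 / Real.sqrt (((m - 1 : ℕ) : ℝ) * h) := by positivity
  linarith

theorem exists_bad_bound {C : ℝ} (hC : 0 ≤ C) :
    ∃ B : ℝ, 0 ≤ B ∧ ∀ r : ℝ, 0 < r → r ≤ 1 →
      Real.exp (-(1 / r ^ 2)) * Real.exp (C / r) * (1 / r) ^ 6 ≤ B := by
  refine ⟨720 * Real.exp ((C + 1) ^ 2 / 4), by positivity, fun r hr0 _ => ?_⟩
  set x := 1 / r with hx
  have hx0 : 0 ≤ x := by positivity
  have e1 : 1 / r ^ 2 = x ^ 2 := by rw [hx, one_div_pow]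
  have e2 : C / r = C * x := by rw [hx]; ring
  rw [e1, e2]
  have h6 : x ^ 6 ≤ 720 * Real.exp x := by
    have := Real.pow_div_factorial_le_exp x hx0 6
    rw [div_le_iff₀ (by positivity)] at this
    simpa [Nat.factorial, mul_comm] using this
  calc Real.exp (-x ^ 2) * Real.exp (C * x) * x ^ 6
      ≤ Real.exp (-x ^ 2) * Real.exp (C * x) * (720 * Real.exp x) :=
        mul_le_mul_of_nonneg_left h6 (by positivity)
    _ = 720 * Real.exp (-x ^ 2 + C * x + x) := by rw [Real.exp_add, Real.exp_add]; ring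
    _ ≤ _ := by
        refine mul_le_mul_of_nonneg_left (Real.exp_le_exp.mpr ?_) (by norm_num)
        nlinarith [sq_nonneg (2 * x - (C + 1))]

/-- A sequence with increments at most `h f` grows at most by the sum. -/
theorem le_add_sum {e f : ℕ → ℝ} {h : ℝ} {i1 : ℕ} : ∀ m, i1 ≤ m →
    (∀ j, i1 ≤ j → j < m → e (j + 1) ≤ e j + h * f j) →
    e m ≤ e i1 + ∑ j ∈ Finset.Ico i1 m, h * f j := by
  intro m hm
  induction m, hm using Nat.le_induction with
  | base => intro _; simp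
  | succ m hm ih =>
    intro hstep
    rw [Finset.sum_Ico_succ_top hm]
    have := ih fun j h1 h2 => hstep j h1 (h2.trans (Nat.lt_succ_self m))
    linarith [hstep m hm (Nat.lt_succ_self m)]

/-- The recursion of the energies near time zero. -/
theorem early_phase {h C δ N1 E1 r1 : ℝ} {i1 m : ℕ} {e n a2 : ℕ → ℝ} (hh : 0 < h) (hC : 0 ≤ C)
    (hi1 : 1 ≤ i1) (hi1m : i1 ≤ m) (hN1 : 0 ≤ N1) (hδ : 0 ≤ δ) (hm : (m : ℝ) * h ≤ r1)
    (hr1 : r1 ≤ 1)
    (hsmall : (C * (C + 1)) * (2 * Real.sqrt r1) + C * (C + 1) * r1 ≤ 1 / 2)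
    (he0 : ∀ j, i1 ≤ j → j ≤ m → 0 ≤ e j)
    (he1 : e i1 ≤ E1) (hn1 : n i1 ≤ N1) (hstepn : ∀ j, i1 ≤ j → j < m → n (j + 1) ≤ n j + h * (C * e j + δ))
    (ha2 : ∀ j, i1 ≤ j → j ≤ m → ∀ E, (∀ l, i1 ≤ l → l ≤ j → e l ≤ E) → a2 j ≤ C * (1 + E))
    (hstep : ∀ j, i1 ≤ j → j < m → ∃ j3, i1 ≤ j3 ∧ j3 ≤ j ∧ e (j + 1) ≤ e j + h * (C * (n j /
      ((j : ℝ) * h * Real.sqrt ((j : ℝ) * h)) + e j / Real.sqrt ((j : ℝ) * h) + a2 j3) + δ)) :
    e m ≤ 2 * (E1 + C * (C + 1) + δ + 3 * C * (N1 + δ) / Real.sqrt ((i1 : ℝ) * h)) := by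
  set E := (Finset.Icc i1 m).sup' ⟨i1, Finset.mem_Icc.mpr ⟨le_rfl, hi1m⟩⟩ e with hE
  have hEle : ∀ l, i1 ≤ l → l ≤ m → e l ≤ E := fun l h1 h2 =>
    Finset.le_sup' e (Finset.mem_Icc.mpr ⟨h1, h2⟩)
  have hE0 : 0 ≤ E := (he0 i1 le_rfl hi1m).trans (hEle i1 le_rfl hi1m)
  have hnb : ∀ j, i1 ≤ j → j ≤ m → n j ≤ N1 + C * ((j : ℝ) * h) * E + δ := by
    intro j h1 h2
    refine (le_add_sum (h := h) (f := fun l => C * e l + δ) j h1
      fun l hl1 hl2 => hstepn l hl1 (hl2.trans_le h2)).trans ?_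
    have hs : ∑ l ∈ Finset.Ico i1 j, h * (C * e l + δ) ≤
        ∑ _l ∈ Finset.Ico i1 j, h * (C * E + δ) := by
      refine Finset.sum_le_sum fun l hl => mul_le_mul_of_nonneg_left ?_ hh.le
      obtain ⟨hl1, hl2⟩ := Finset.mem_Ico.mp hl
      linarith [mul_le_mul_of_nonneg_left (hEle l hl1 (hl2.le.trans h2)) hC]
    rw [Finset.sum_const, Nat.card_Ico, nsmul_eq_mul] at hs
    have hji : ((j - i1 : ℕ) : ℝ) ≤ (j : ℝ) := by exact_mod_cast Nat.sub_le j i1
    have hjh : (j : ℝ) * h ≤ 1 :=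
      ((mul_le_mul_of_nonneg_right (by exact_mod_cast h2) hh.le).trans hm).trans hr1
    have h3 : ((j - i1 : ℕ) : ℝ) * (h * (C * E + δ)) ≤ (j : ℝ) * h * (C * E + δ) := by
      rw [mul_assoc (j : ℝ)]
      exact mul_le_mul_of_nonneg_right hji (by positivity)
    nlinarith [mul_le_mul_of_nonneg_right hjh hδ]
  have hall : ∀ l, i1 ≤ l → l ≤ m → e l ≤ E1 + ∑ j ∈ Finset.Ico i1 m,
      h * (C * (N1 + δ) / ((j : ℝ) * h * Real.sqrt ((j : ℝ) * h)) +
        C * (C + 1) * E / Real.sqrt ((j : ℝ) * h) + (C * C * (1 + E) + δ)) := by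
    intro l hl1 hl2
    refine (le_add_sum (h := h) (f := fun j => C * (N1 + δ) / ((j : ℝ) * h * Real.sqrt ((j : ℝ) * h)) +
        C * (C + 1) * E / Real.sqrt ((j : ℝ) * h) + (C * C * (1 + E) + δ)) l hl1
      fun j h1 h2 => ?_).trans (add_le_add he1 ?_)
    · have hjm : j < m := h2.trans_le hl2
      obtain ⟨j3, g1, g2, g3⟩ := hstep j h1 hjm
      refine g3.trans (add_le_add le_rfl (mul_le_mul_of_nonneg_left ?_ hh.le))
      have hj : 0 < (j : ℝ) * h := mul_pos (by exact_mod_cast hi1.trans h1) hh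
      set r := (j : ℝ) * h
      have hr : 0 < r * Real.sqrt r := by positivity
      have t1 : n j / (r * Real.sqrt r) ≤ (N1 + δ) / (r * Real.sqrt r) + C * E / Real.sqrt r := by
        refine (div_le_div_of_nonneg_right (hnb j h1 hjm.le) hr.le).trans (le_of_eq ?_)
        field_simp
        ring
      have t2 : e j / Real.sqrt r ≤ E / Real.sqrt r :=
        div_le_div_of_nonneg_right (hEle j h1 hjm.le) (Real.sqrt_nonneg _)
      have t3 : a2 j3 ≤ C * (1 + E) := ha2 j3 g1 (g2.trans hjm.le) E fun l' a b =>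
        hEle l' a (b.trans (g2.trans hjm.le))
      calc C * (n j / (r * Real.sqrt r) + e j / Real.sqrt r + a2 j3) + δ
          ≤ C * (((N1 + δ) / (r * Real.sqrt r) + C * E / Real.sqrt r) + E / Real.sqrt r +
              C * (1 + E)) + δ := by
            linarith [mul_le_mul_of_nonneg_left (add_le_add (add_le_add t1 t2) t3) hC]
        _ = _ := by ring
    · refine Finset.sum_le_sum_of_subset_of_nonneg (Finset.Ico_subset_Ico le_rfl hl2)
        fun j hj _ => ?_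
      positivity
  have hsum : ∑ j ∈ Finset.Ico i1 m, h * (C * (N1 + δ) / ((j : ℝ) * h * Real.sqrt ((j : ℝ) * h)) +
        C * (C + 1) * E / Real.sqrt ((j : ℝ) * h) + (C * C * (1 + E) + δ)) ≤
      C * (N1 + δ) * (3 / Real.sqrt ((i1 : ℝ) * h)) + C * (C + 1) * E * (2 * Real.sqrt r1) +
        r1 * (C * C * (1 + E) + δ) := by
    have e1 : ∀ j ∈ Finset.Ico i1 m, h * (C * (N1 + δ) / ((j : ℝ) * h * Real.sqrt ((j : ℝ) * h)) +
        C * (C + 1) * E / Real.sqrt ((j : ℝ) * h) + (C * C * (1 + E) + δ)) =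
        C * (N1 + δ) * (h / ((j : ℝ) * h * Real.sqrt ((j : ℝ) * h))) +
        C * (C + 1) * E * (h / Real.sqrt ((j : ℝ) * h)) + h * (C * C * (1 + E) + δ) :=
      fun j _ => by ring
    rw [Finset.sum_congr rfl e1, Finset.sum_add_distrib, Finset.sum_add_distrib, ← Finset.mul_sum,
      ← Finset.mul_sum, Finset.sum_const, Nat.card_Ico, nsmul_eq_mul, ← mul_assoc ((m - i1 : ℕ) : ℝ)]
    refine add_le_add (add_le_add (mul_le_mul_of_nonneg_left (sum_inv_three_half_le hh hi1 m)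
      (by positivity)) (mul_le_mul_of_nonneg_left ((sum_inv_sqrt_le hh hi1 m hi1m).trans
        (mul_le_mul_of_nonneg_left (Real.sqrt_le_sqrt hm) zero_le_two)) (by positivity))) ?_
    refine mul_le_mul_of_nonneg_right ?_ (by positivity)
    exact (mul_le_mul_of_nonneg_right (by exact_mod_cast Nat.sub_le m i1) hh.le).trans hm
  have hEb : E ≤ E1 + (C * (N1 + δ) * (3 / Real.sqrt ((i1 : ℝ) * h)) +
      C * (C + 1) * E * (2 * Real.sqrt r1) + r1 * (C * C * (1 + E) + δ)) :=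
    Finset.sup'_le _ _ fun l hl =>
      (hall l (Finset.mem_Icc.mp hl).1 (Finset.mem_Icc.mp hl).2).trans (add_le_add le_rfl hsum)
  refine (hEle m hi1m le_rfl).trans ?_
  have hr10 : 0 ≤ r1 := (by positivity : (0:ℝ) ≤ (m : ℝ) * h).trans hm
  have k1 : E * ((C * (C + 1)) * (2 * Real.sqrt r1) + C * (C + 1) * r1) ≤ E * (1 / 2) :=
    mul_le_mul_of_nonneg_left hsmall hE0
  have k2 : r1 * (C * C + δ) ≤ C * (C + 1) + δ := by nlinarith
  have k3 : r1 * (C * C * E) ≤ r1 * (C * (C + 1) * E) := by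
    refine mul_le_mul_of_nonneg_left (mul_le_mul_of_nonneg_right ?_ hE0) hr10
    nlinarith
  have e3 : C * (N1 + δ) * (3 / Real.sqrt ((i1 : ℝ) * h)) =
      3 * C * (N1 + δ) / Real.sqrt ((i1 : ℝ) * h) := by ring
  nlinarith

/-- The recursion of the energies away from time zero. -/
theorem late_phase {h C D B : ℝ} {i1 : ℕ} {e : ℕ → ℝ} (hh : 0 ≤ h) (hC : 0 ≤ C) (hD : 0 ≤ D)
    (hB : 0 ≤ B) : ∀ m, i1 ≤ m →
    (∀ j, i1 ≤ j → j < m → e (j + 1) ≤ B ∨ e (j + 1) ≤ (1 + h * C) * e j + h * D) →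
    e i1 ≤ B → e m ≤ (B + D * ((m : ℝ) * h)) * Real.exp (C * ((m : ℝ) * h)) := by
  intro m hm
  induction m, hm using Nat.le_induction with
  | base =>
    intro _ h1
    exact h1.trans ((le_add_of_nonneg_right (by positivity)).trans
      (le_mul_of_one_le_right (by positivity) (Real.one_le_exp (by positivity))))
  | succ m hm ih =>
    intro hstep h1
    have ih' := ih (fun j a b => hstep j a (b.trans (Nat.lt_succ_self m))) h1
    have hmh : 0 ≤ (m : ℝ) * h := by positivity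
    have hb : B + D * ((m : ℝ) * h) ≤ B + D * (((m + 1 : ℕ) : ℝ) * h) := by
      have : (m : ℝ) * h ≤ ((m + 1 : ℕ) : ℝ) * h :=
        mul_le_mul_of_nonneg_right (by push_cast; linarith) hh
      linarith [mul_le_mul_of_nonneg_left this hD]
    rcases hstep m hm (Nat.lt_succ_self m) with h2 | h2
    · exact h2.trans ((le_add_of_nonneg_right (by positivity)).trans
        (le_mul_of_one_le_right (by positivity) (Real.one_le_exp (by positivity))))
    · refine h2.trans ?_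
      have hexp : (1 + h * C) * Real.exp (C * ((m : ℝ) * h)) ≤
          Real.exp (C * (((m + 1 : ℕ) : ℝ) * h)) := by
        rw [show C * (((m + 1 : ℕ) : ℝ) * h) = h * C + C * ((m : ℝ) * h) by push_cast; ring,
          Real.exp_add]
        exact mul_le_mul_of_nonneg_right (by linarith [Real.add_one_le_exp (h * C)])
          (Real.exp_pos _).le
      have hone : 1 ≤ Real.exp (C * (((m + 1 : ℕ) : ℝ) * h)) := Real.one_le_exp (by positivity)
      calc (1 + h * C) * e m + h * D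
          ≤ (1 + h * C) * ((B + D * ((m : ℝ) * h)) * Real.exp (C * ((m : ℝ) * h))) + h * D :=
            add_le_add (mul_le_mul_of_nonneg_left ih' (by positivity)) le_rfl
        _ ≤ (B + D * ((m : ℝ) * h)) * Real.exp (C * (((m + 1 : ℕ) : ℝ) * h)) +
            h * D * Real.exp (C * (((m + 1 : ℕ) : ℝ) * h)) := by
            refine add_le_add ?_ (le_mul_of_one_le_right (by positivity) hone)
            rw [mul_left_comm]
            exact mul_le_mul_of_nonneg_left hexp (by positivity)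
        _ = _ := by push_cast; ring

end Vale.Agent.P161
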