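import Vale.Agent.P161.Crit.ColBounds
import Vale.Agent.P161.Crit.Decay
import Vale.Agent.P161.Crit.Recur

/-!
# The mean quadratic variation of the energy
-/

namespace Vale.Agent.P161

open SimpleGraph MeasureTheory ProbabilityTheory
open scoped Classical NNReal

variable {V : Type*}

/-- The standing parameters: `t` is the critical coupling and `β₀ ≤ β` with `tanh β ≤ t`. -/
structure CritPar (G : SimpleGraph V) (d : ℕ) (t β₀ β : ℝ) : Prop where
  tree : G.IsTree
  deg : 3 ≤ d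
  reg : ∀ v, (G.neighborSet v).ncard = d
  t_pos : 0 < t
  t_crit : ((d : ℝ) - 1) * t ^ 2 = 1
  base_pos : 0 < β₀
  base_le : β₀ ≤ β
  tanh_le : Real.tanh β ≤ t

/-- The speed at which the coupling leaves the critical one. -/
noncomputable def gapRate (t β₀ : ℝ) : ℝ := min 1 (β₀ * (1 - t ^ 2))

/-- The Schur constant at time `r`. -/
noncomputable def schurAt (d : ℕ) (t β₀ r : ℝ) : ℝ := 16 * (1 + d) / (gapRate t β₀ * r) ^ 2

/-- The rate of the exponential bound on the linearised scheme over a window. -/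
noncomputable def domRate (d : ℕ) (t β₀ : ℝ) : ℝ :=
  8 * d * (16 * (1 + d)) / ((1 - t) * gapRate t β₀ ^ 2)

/-- The indicator of the bad event at `c`. -/
noncomputable def badInd (G : SimpleGraph V) (K₀ θ r : ℝ) (D : Finset V) (c : V) (u : V → ℝ) : ℝ :=
  if K₀ / Real.sqrt r < regrSum G θ D u c then 1 else 0

variable {G : SimpleGraph V} {d : ℕ} {t β₀ β : ℝ} {hv : ℝ≥0} {D : Finset V} {K i i₀ : ℕ}
  {a : V × V}

namespace CritPar

variable (cp : CritPar G d t β₀ β)

include cp in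
theorem t_lt_one : t < 1 := by
  have hd3 : (3 : ℝ) ≤ d := by exact_mod_cast cp.deg
  have := cp.t_crit
  have := cp.t_pos
  nlinarith

include cp in
theorem beta_nonneg : 0 ≤ β := cp.base_pos.le.trans cp.base_le

include cp in
theorem rate_pos : 0 < gapRate t β₀ :=
  lt_min one_pos (mul_pos cp.base_pos (by have := cp.t_pos; have := cp.t_lt_one; nlinarith))

include cp in
theorem sq_le_one : ((d : ℝ) - 1) * Real.tanh β ^ 2 ≤ 1 := by
  have hd3 : (3 : ℝ) ≤ d := by exact_mod_cast cp.deg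
  refine le_trans ?_ (le_of_eq cp.t_crit)
  refine mul_le_mul_of_nonneg_left (pow_le_pow_left₀ ?_ cp.tanh_le 2) (by linarith)
  rw [Real.tanh_eq_sinh_div_cosh]
  exact div_nonneg (Real.sinh_nonneg_iff.mpr cp.beta_nonneg) (Real.cosh_pos _).le

include cp in
theorem th_le {r : ℝ} (hr0 : 0 ≤ r) (hr1 : r ≤ 1) : chTh β r ≤ t - gapRate t β₀ * r := by
  have h := chTh_gap cp.base_pos.le cp.base_le cp.tanh_le cp.t_lt_one.le hr0 hr1
  have : gapRate t β₀ * r ≤ β₀ * (1 - t ^ 2) * r :=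
    mul_le_mul_of_nonneg_right (min_le_right _ _) hr0
  linarith

include cp in
theorem th_le_t {r : ℝ} (hr0 : 0 ≤ r) (hr1 : r ≤ 1) : chTh β r ≤ t := by
  have := cp.th_le hr0 hr1
  have := mul_nonneg cp.rate_pos.le hr0
  linarith

include cp in
theorem lam_sq_le : chLam β ^ 2 ≤ 1 / (1 - t) := by
  have ht := cp.t_lt_one
  have hb := cp.beta_nonneg
  rw [chLam_sq hb]
  have h1 : 1 - t ≤ 1 - Real.tanh β := by linarith [cp.tanh_le]
  have h2 : 1 - Real.tanh β = 2 / (Real.exp (2 * β) + 1) := by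
    rw [Real.tanh_eq, show Real.exp (2 * β) = Real.exp β * Real.exp β by rw [← Real.exp_add]; ring_nf,
      Real.exp_neg]
    have := Real.exp_pos β
    field_simp
    ring
  have h3 : 2 * β + 1 ≤ Real.exp (2 * β) := Real.add_one_le_exp _
  rw [h2] at h1
  rw [le_div_iff₀ (by linarith)]
  calc β / 2 * (1 - t) ≤ β / 2 * (2 / (Real.exp (2 * β) + 1)) :=
        mul_le_mul_of_nonneg_left h1 (by positivity)
    _ ≤ 1 := by
        rw [div_mul_div_comm, div_le_one (by positivity)]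
        linarith

include cp in
theorem schur_at {m : ℕ} {r : ℝ} (ok : ChOk β hv K) (hm : m ≤ K) (hr0 : 0 < r) (hr1 : r ≤ 1)
    (hrm : r / 4 ≤ (m : ℝ) * hv) (s : Finset V) (v z : V) :
    ∑ u ∈ s, chTh β ((m : ℝ) * hv) ^ G.dist v u * t ^ G.dist u z ≤
      schurAt d t β₀ r * t ^ G.dist v z := by
  have hκ := cp.rate_pos
  have hmh : (m : ℝ) * hv ≤ 1 := (ok.mono hm).time_le
  have hδ1 : gapRate t β₀ * (r / 4) ≤ 1 := by
    refine (mul_le_mul (min_le_left _ _) (show r / 4 ≤ 1 by linarith) (by positivity)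
      zero_le_one).trans (le_of_eq (one_mul 1))
  refine (schur_gap_le cp.tree cp.deg cp.reg cp.t_pos cp.t_crit (ok.th_nonneg hm)
    (mul_pos hκ (by positivity)) hδ1 ?_ s v z).trans (le_of_eq ?_)
  · refine (cp.th_le (by positivity) hmh).trans ?_
    linarith [mul_le_mul_of_nonneg_left hrm hκ.le]
  · unfold schurAt
    field_simp
    ring

include cp in
theorem regrSum_at {r : ℝ} (hr0 : 0 < r) (hr1 : r ≤ 1) (hD : IsConvexSet G D) (H : V → ℝ)
    {c : V} (hc : c ∈ D) :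
    regrSum G (chTh β r) D H c ≤ (1 + d) / (gapRate t β₀ * r) :=
  regrSum_crude_le cp.tree cp.deg cp.reg cp.t_pos cp.t_crit (chTh_nonneg cp.beta_nonneg hr1)
    (mul_pos cp.rate_pos hr0)
    ((mul_le_mul (min_le_left _ _) hr1 hr0.le zero_le_one).trans (le_of_eq (one_mul 1)))
    (cp.th_le hr0.le hr1) hD H hc

end CritPar

theorem badInd_nonneg (K₀ θ r : ℝ) (c : V) (u : V → ℝ) : 0 ≤ badInd G K₀ θ r D c u := by
  unfold badInd; split_ifs <;> norm_num

theorem badInd_le_one (K₀ θ r : ℝ) (c : V) (u : V → ℝ) : badInd G K₀ θ r D c u ≤ 1 := by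
  unfold badInd; split_ifs <;> norm_num

theorem measurable_badInd (K₀ θ r : ℝ) (c : V) : Measurable (badInd G K₀ θ r D c) :=
  Measurable.ite (measurableSet_lt measurable_const
    (measurable_regrSum_comp θ D c fun u => measurable_pi_apply u)) measurable_const measurable_const

/-- The hypothesis produced by `regrSum_tail`. -/
def TailBound (G : SimpleGraph V) (d : ℕ) (β₀ K₀ r₀ : ℝ) : Prop :=
  ∀ (β r : ℝ) (τ : ℝ≥0), β₀ ≤ β →
    ((d : ℝ) - 1) * Real.tanh β ^ 2 ≤ 1 → 0 < r → r ≤ r₀ → r / 4 ≤ τ →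
    ∀ D : Finset V, IsConvexSet G D → ∀ c ∈ D, ∀ ν : V → ℝ,
      (gaussPi (dirE G D) τ).real {x | K₀ / Real.sqrt r < regrSum G (chTh β r) D
        (fun v => ν v + fieldOf G β D (fun a => if h : a ∈ dirE G D then x ⟨a, h⟩ else 0) v) c} ≤
        Real.exp (-(1 / r ^ 2))

theorem integral_badInd_le (cp : CritPar G d t β₀ β) {K₀ r₀ : ℝ} (tb : TailBound G d β₀ K₀ r₀)
    {r : ℝ} {τ : ℝ≥0} (hr0 : 0 < r) (hr1 : r ≤ r₀) (hτ : r / 4 ≤ τ) (hD : IsConvexSet G D)
    {c : V} (hc : c ∈ D) (ν : V → ℝ) :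
    ∫ y, badInd G K₀ (chTh β r) r D c (fun v => ν v + edgeField G β D y v)
      ∂gaussPi (dirE G D) τ ≤ Real.exp (-(1 / r ^ 2)) := by
  refine le_of_eq_of_le ?_ (tb β r τ cp.base_le cp.sq_le_one hr0 hr1 hτ D hD c hc ν)
  have hm : MeasurableSet {x : dirE G D → ℝ | K₀ / Real.sqrt r < regrSum G (chTh β r) D
      (fun v => ν v + edgeField G β D x v) c} :=
    measurableSet_lt measurable_const (measurable_regrSum_comp _ D c fun u =>
      (measurable_edgeField_apply u).const_add _)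
  show _ = (gaussPi (dirE G D) τ).real {x | K₀ / Real.sqrt r < regrSum G (chTh β r) D
    (fun v => ν v + edgeField G β D x v) c}
  rw [← integral_indicator_one hm]
  refine integral_congr_ae (ae_of_all _ fun y => ?_)
  by_cases hy : K₀ / Real.sqrt r < regrSum G (chTh β r) D (fun v => ν v + edgeField G β D y v) c
  · rw [Set.indicator_of_mem (show y ∈ {x : dirE G D → ℝ | K₀ / Real.sqrt r <
      regrSum G (chTh β r) D (fun v => ν v + edgeField G β D x v) c} from hy)]
    simp [badInd, hy]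
  · rw [Set.indicator_of_notMem (show y ∉ {x : dirE G D → ℝ | K₀ / Real.sqrt r <
      regrSum G (chTh β r) D (fun v => ν v + edgeField G β D x v) c} from hy)]
    simp [badInd, hy]

theorem obsA2_congr {h : ℝ} {n : ℕ} {b b' : ℕ → V × V → ℝ}
    (hb : ∀ j < n, ∀ e ∈ dirE G D, b j e = b' j e) (hi : i ≤ max n (i₀ + 1)) :
    obsA2 G β h D i₀ a i b = obsA2 G β h D i₀ a i b' := by
  simp only [obsA2, obsAlpha_congr hb hi]

theorem pathBdd_comp_field (hn : i ≤ K) {φ : (V → ℝ) → ℝ} (hφ : Measurable φ)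
    (h0 : ∀ u, 0 ≤ φ u) (h1 : ∀ u, φ u ≤ 1) :
    PathBdd G D K (fun b => φ (obsH G β D b i)) :=
  ⟨hφ.comp (measurable_obsH i), 1, fun x => by rw [abs_of_nonneg (h0 _)]; exact h1 _⟩

/-- The noise after half of the time is independent of the past given the spins. -/
theorem bad_event_le (cp : CritPar G d t β₀ β) {K₀ r₀ : ℝ} (tb : TailBound G d β₀ K₀ r₀)
    (hD : IsConvexSet G D) (ok : ChOk β hv i) (hi : i₀ < i) (hr : (i : ℝ) * hv ≤ r₀)
    {g : (ℕ → V × V → ℝ) → ℝ} (hg : PathBdd G D (i / 2) g) (hgi : PathBdd G D i g)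
    (hg0 : ∀ b, 0 ≤ g b)
    (hgc : ∀ b b' : ℕ → V × V → ℝ, (∀ j < i / 2, ∀ e ∈ dirE G D, b j e = b' j e) → g b = g b')
    {c : V} (hc : c ∈ D) :
    obsExp G β hv D i (fun b => g b *
        badInd G K₀ (chTh β ((i : ℝ) * hv)) ((i : ℝ) * hv) D c (obsH G β D b i)) ≤
      Real.exp (-(1 / ((i : ℝ) * hv) ^ 2)) * obsExp G β hv D (i / 2) g := by
  obtain ⟨k, hk⟩ : ∃ k, i / 2 + k = i := ⟨i - i / 2, by omega⟩
  have hr0 : 0 < (i : ℝ) * hv :=
    mul_pos (by exact_mod_cast Nat.lt_of_le_of_lt (Nat.zero_le i₀) hi) ok.step_pos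
  have hτ : (i : ℝ) * hv / 4 ≤ (((k : ℝ≥0) * hv : ℝ≥0) : ℝ) := by
    push_cast
    have : (i : ℝ) ≤ 4 * (k : ℝ) := by exact_mod_cast (by omega : i ≤ 4 * k)
    nlinarith [mul_le_mul_of_nonneg_right this (NNReal.coe_nonneg hv)]
  have h := obsExp_window_le (G := G) (D := D) (i₀ := i / 2) (k := k) (by rwa [hk]) hg
    (by rwa [hk]) hg0 hgc
    (measurable_badInd (G := G) (D := D) K₀ (chTh β ((i : ℝ) * hv)) ((i : ℝ) * hv) c)
    (fun u => badInd_nonneg _ _ _ _ u) (fun u => badInd_le_one _ _ _ _ u)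
    (fun ν => integral_badInd_le cp tb hr0 hr hτ hD hc ν)
  rwa [hk] at h

/-- The dominated energy after a window, conditional on the past, at the bad vertices. -/
theorem bad_sum_le (cp : CritPar G d t β₀ β) {K₀ r₀ : ℝ} (tb : TailBound G d β₀ K₀ r₀)
    (hD : IsConvexSet G D) (ok : ChOk β hv i) (hi : i₀ < i) (hr : (i : ℝ) * hv ≤ r₀) :
    obsExp G β hv D i (fun b => ∑ c ∈ D,
        badInd G K₀ (chTh β ((i : ℝ) * hv)) ((i : ℝ) * hv) D c (obsH G β D b i) *
          obsM G β hv D i₀ a i c b ^ 2) ≤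
      Real.exp (-(1 / ((i : ℝ) * hv) ^ 2)) * (schurAt d t β₀ ((i : ℝ) * hv) ^ 2 *
        Real.exp (domRate d t β₀ / ((i : ℝ) * hv))) *
          obsExp G β hv D (max (i / 2) (i₀ + 1)) (obsA2 G β hv D i₀ a (max (i / 2) (i₀ + 1))) := by
  set r := (i : ℝ) * hv with hrdef
  set j := max (i / 2) (i₀ + 1) with hj
  obtain ⟨n, hn⟩ : ∃ n, j + n = i := ⟨i - j, by omega⟩
  set φ := fun c b => badInd G K₀ (chTh β r) r D c (obsH G β D b i) with hφ
  set Γ := fun b => domA G β hv D j (obsAlpha G β hv D i₀ a j b) n with hΓ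
  set g := fun c b => kerMul G (chTh β r) D (Γ b) c ^ 2 with hg
  set E := schurAt d t β₀ r ^ 2 * Real.exp (domRate d t β₀ / r) with hE
  have hr0 : 0 < r := mul_pos (by exact_mod_cast Nat.lt_of_le_of_lt (Nat.zero_le i₀) hi) ok.step_pos
  have hr1 : r ≤ 1 := ok.time_le
  have hth : 0 ≤ chTh β r := ok.th_nonneg le_rfl
  have hs0 : 0 < schurAt d t β₀ r := by
    have := cp.rate_pos; unfold schurAt; positivity
  have hsum : ∀ b, ∑ c ∈ D, g c b ≤ E * obsA2 G β hv D i₀ a j b := by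
    intro b
    have h1 := sum_sq_kerMul_le (G := G) hth cp.t_pos hs0.le
      (fun s v z => cp.schur_at (m := i) ok le_rfl hr0 hr1
        (show r / 4 ≤ (i : ℝ) * hv by linarith) s v z) D (Γ b)
    have h2 := sum_sq_domA_le (G := G) (D := D) (β := β) cp.deg cp.reg (NNReal.coe_nonneg hv)
      cp.t_pos hs0 (j := j) (obsAlpha G β hv D i₀ a j b) n fun m hm => by
        have hjm : j + m ≤ i := by omega
        refine ⟨ok.th_nonneg hjm, fun s v z => cp.schur_at ok hjm hr0 hr1 ?_ s v z⟩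
        have : (i : ℝ) ≤ 4 * ((j + m : ℕ) : ℝ) := by exact_mod_cast (by omega : i ≤ 4 * (j + m))
        nlinarith [mul_le_mul_of_nonneg_right this (NNReal.coe_nonneg hv)]
    refine h1.trans ((mul_le_mul_of_nonneg_left h2 (sq_nonneg _)).trans ?_)
    rw [hE, mul_assoc (schurAt d t β₀ r ^ 2), obsA2]
    refine mul_le_mul_of_nonneg_left (mul_le_mul_of_nonneg_right (Real.exp_le_exp.mpr ?_)
      (Finset.sum_nonneg fun _ _ => sq_nonneg _)) (sq_nonneg _)
    have hnr : (n : ℝ) * hv ≤ r :=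
      mul_le_mul_of_nonneg_right (by exact_mod_cast (by omega : n ≤ i)) (NNReal.coe_nonneg hv)
    have hκ := cp.rate_pos
    have ht := cp.t_lt_one
    calc 2 * ((n : ℝ) * hv) * (chLam β ^ 2 * (4 * d * schurAt d t β₀ r))
        ≤ 2 * r * (1 / (1 - t) * (4 * d * schurAt d t β₀ r)) := by
          refine mul_le_mul (mul_le_mul_of_nonneg_left hnr zero_le_two)
            (mul_le_mul_of_nonneg_right cp.lam_sq_le (by positivity)) (by positivity) (by positivity)
      _ = domRate d t β₀ / r := by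
          have : 0 < 1 - t := by linarith
          unfold domRate schurAt
          field_simp
          ring
  have hmΓ : ∀ {m : ℕ} (c : V), Measurable fun x : CIdx G D m → ℝ => g c (drv x) := by
    intro m c
    have hdom : ∀ k v, Measurable fun x : CIdx G D m → ℝ =>
        domA G β hv D j (obsAlpha G β hv D i₀ a j (drv x)) k v := by
      intro k
      induction k with
      | zero => exact measurable_obsAlpha j
      | succ k ih =>
        intro v
        simp only [domA, chQ, kerMul]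
        exact (ih v).add ((Finset.measurable_sum _ fun e _ =>
          (((Finset.measurable_sum _ fun u _ => (ih u).mul_const _)).add
            (Finset.measurable_sum _ fun u _ => (ih u).mul_const _)).const_mul _).const_mul _)
    exact (Finset.measurable_sum _ fun u _ => (hdom n u).mul_const _).pow_const 2
  have hgb : ∀ {m : ℕ} (c : V), c ∈ D → PathBdd G D m (g c) := fun {m} c hc =>
    ⟨hmΓ c, E * (crudeBound d β D * crudeBound d β D), fun x => by
      rw [abs_of_nonneg (sq_nonneg _)]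
      refine (Finset.single_le_sum (f := fun c => g c (drv x)) (fun _ _ => sq_nonneg _) hc).trans
        ((hsum _).trans (mul_le_mul_of_nonneg_left ?_ (by rw [hE]; positivity)))
      exact sum_sq_le_of_sum_abs
        (sum_abs_obsAlpha_le cp.tree cp.deg cp.reg hD ok _ (by omega))⟩
  have hgc : ∀ c, ∀ b b' : ℕ → V × V → ℝ,
      (∀ l < i / 2, ∀ e ∈ dirE G D, b l e = b' l e) → g c b = g c b' := fun c b b' hb => by
    simp only [hg, hΓ, obsAlpha_congr hb (le_of_eq hj)]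
  have hM : ∀ b, ∀ c ∈ D, obsM G β hv D i₀ a i c b ^ 2 ≤ g c b := by
    intro b c hc
    have hdom : ∀ v ∈ D, obsAlpha G β hv D i₀ a i b v ≤ Γ b v := fun v _ => by
      have := obsAlpha_le_domA (a := a) cp.tree hD (show i₀ < j by omega) ok b n hn.le v
      rwa [hn] at this
    exact pow_le_pow_left₀ (sigMul_nonneg cp.tree hth (chTh_lt_one _ _) hD _
        (fun u _ => obsAlpha_nonneg cp.tree hD ok b le_rfl u) hc)
      (sigMul_le_kerMul cp.tree hth (chTh_lt_one _ _) hD _ hdom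
        (fun u _ => obsAlpha_nonneg cp.tree hD ok b le_rfl u) hc) 2
  have hφb : ∀ c, PathBdd G D i (φ c) := fun c =>
    pathBdd_comp_field le_rfl (measurable_badInd _ _ _ _) (badInd_nonneg _ _ _ _)
      (badInd_le_one _ _ _ _)
  have hMb : ∀ c ∈ D, PathBdd G D i (fun b => obsM G β hv D i₀ a i c b ^ 2) := fun c hc =>
    ⟨(measurable_obsM i c).pow_const 2, crudeBound d β D ^ 2, fun x => by
      rw [abs_pow]
      exact pow_le_pow_left₀ (abs_nonneg _)
        (abs_obsM_le cp.tree cp.deg cp.reg hD ok _ le_rfl hc) 2⟩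
  calc obsExp G β hv D i (fun b => ∑ c ∈ D, φ c b * obsM G β hv D i₀ a i c b ^ 2)
      = ∑ c ∈ D, obsExp G β hv D i (fun b => φ c b * obsM G β hv D i₀ a i c b ^ 2) :=
        obsExp_sum ok _ fun c hc => (hφb c).mul (hMb c hc)
    _ ≤ ∑ c ∈ D, Real.exp (-(1 / r ^ 2)) * obsExp G β hv D (i / 2) (g c) := by
        refine Finset.sum_le_sum fun c hc => ?_
        refine (obsExp_mono ok ((hφb c).mul (hMb c hc)) ((hgb c hc).mul (hφb c))
          fun x => ?_).trans (bad_event_le cp tb hD ok hi hr (hgb c hc) (hgb c hc)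
          (fun b => sq_nonneg _) (hgc c) hc)
        rw [mul_comm (g c (drv x))]
        exact mul_le_mul_of_nonneg_left (hM _ c hc) (badInd_nonneg _ _ _ _ _)
    _ = Real.exp (-(1 / r ^ 2)) * obsExp G β hv D (i / 2) (fun b => ∑ c ∈ D, g c b) := by
        rw [← Finset.mul_sum, obsExp_sum (ok.mono (by omega)) _ fun c hc => hgb c hc]
    _ ≤ Real.exp (-(1 / r ^ 2)) *
        obsExp G β hv D (i / 2) (fun b => E * obsA2 G β hv D i₀ a j b) := by
        refine mul_le_mul_of_nonneg_left (obsExp_mono (ok.mono (by omega))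
          (PathBdd.sum _ fun c hc => hgb c hc) ((pathBdd_obsA2 cp.tree cp.deg cp.reg hD ok
            (by omega) (by omega)).const_mul E) fun x => hsum _) (Real.exp_pos _).le
    _ = _ := by
        rw [obsExp_const_mul]
        obtain ⟨k, hk⟩ : ∃ k, i / 2 + k = j := ⟨j - i / 2, by omega⟩
        have hl := obsExp_lift (G := G) (β := β) (hv := hv) (D := D) (n := i / 2)
          (F := obsA2 G β hv D i₀ a j) (fun b b' hb => obsA2_congr hb (le_of_eq hj))
          (pathBdd_obsA2 cp.tree cp.deg cp.reg hD ok (by omega) (by omega)) k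
          (ok.mono (by omega))
        rw [hk] at hl
        rw [← hl, hE]
        ring

theorem linVar_nonneg {θ : ℝ} (h0 : 0 ≤ θ) (h1 : θ < 1) (H α : V → ℝ) :
    0 ≤ linVar G θ D H α := by
  rw [← cov_obsStat_self]
  exact cov_self_nonneg (fieldWeight_pos h0 h1 D H) _

/-- The pointwise bound with the bad vertices. -/
theorem qv_pointwise (cp : CritPar G d t β₀ β) {CE CY K₀ : ℝ} (hCE : 0 ≤ CE) (hCY : 0 ≤ CY)
    (hK₀ : 0 ≤ K₀)
    (hE : ∀ (θ : ℝ), 0 ≤ θ → θ ≤ t → ∀ (D : Finset V), IsConvexSet G D →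
      ∀ (y α : V → ℝ), (∀ u ∈ D, 0 ≤ α u) →
      ∑ v ∈ D, ∑ w ∈ D, cumLin G θ D y α v w ^ 2 ≤
        CE * ∑ c ∈ D, regrSum G θ D y c ^ 2 * (magn G θ D c y ^ 2 * sigMul G θ D y α c ^ 2))
    (hY : ∀ (θ : ℝ), 0 ≤ θ → θ ≤ t → ∀ (D : Finset V), IsConvexSet G D →
      ∀ (y α : V → ℝ),
      ∑ v ∈ D, magn G θ D v y ^ 2 * sigMul G θ D y α v ^ 2 ≤
        CY * (linVar G θ D y α +
          Real.sqrt ((∑ v ∈ D, sigMul G θ D y α v ^ 2) * linVar G θ D y α)))
    {r : ℝ} (hr0 : 0 < r) (hr1 : r ≤ 1) (hD : IsConvexSet G D) (H α : V → ℝ)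
    (hα : ∀ u ∈ D, 0 ≤ α u) :
    ∑ v ∈ D, ∑ w ∈ D, cumLin G (chTh β r) D H α v w ^ 2 ≤
      CE * K₀ ^ 2 * CY * (2 * (linVar G (chTh β r) D H α / (r * Real.sqrt r)) +
        (∑ v ∈ D, sigMul G (chTh β r) D H α v ^ 2) / Real.sqrt r) +
      CE * ((1 + d) / (gapRate t β₀ * r)) ^ 2 *
        ∑ c ∈ D, badInd G K₀ (chTh β r) r D c H * sigMul G (chTh β r) D H α c ^ 2 := by
  set θ := chTh β r
  have h0 : 0 ≤ θ := chTh_nonneg cp.beta_nonneg hr1
  have h1 : θ < 1 := chTh_lt_one _ _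
  have ht : θ ≤ t := cp.th_le_t hr0.le hr1
  refine (hE θ h0 ht D hD H α hα).trans ?_
  set A0 := (1 + (d : ℝ)) / (gapRate t β₀ * r)
  set U := ∑ v ∈ D, sigMul G θ D H α v ^ 2
  set N := linVar G θ D H α
  have hN : 0 ≤ N := linVar_nonneg h0 h1 H α
  have hU : 0 ≤ U := Finset.sum_nonneg fun _ _ => sq_nonneg _
  have hpt : ∀ c ∈ D, regrSum G θ D H c ^ 2 * (magn G θ D c H ^ 2 * sigMul G θ D H α c ^ 2) ≤
      K₀ ^ 2 / r * (magn G θ D c H ^ 2 * sigMul G θ D H α c ^ 2) +
        A0 ^ 2 * (badInd G K₀ θ r D c H * sigMul G θ D H α c ^ 2) := by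
    intro c hc
    have hA := regrSum_nonneg (G := G) (θ := θ) D H c
    have hm2 : magn G θ D c H ^ 2 ≤ 1 := (sq_le_one_iff_abs_le_one _).mpr (abs_magn_le h0 h1 D c H)
    set Z := magn G θ D c H ^ 2 * sigMul G θ D H α c ^ 2
    have hZ : 0 ≤ Z := by positivity
    unfold badInd
    by_cases hb : K₀ / Real.sqrt r < regrSum G θ D H c
    · rw [if_pos hb, one_mul]
      refine le_add_of_nonneg_of_le (by positivity) (mul_le_mul
        (pow_le_pow_left₀ hA (cp.regrSum_at hr0 hr1 hD H hc) 2)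
        (mul_le_of_le_one_left (sq_nonneg _) hm2) hZ (sq_nonneg _))
    · rw [if_neg hb, zero_mul, mul_zero, add_zero]
      refine mul_le_mul_of_nonneg_right ((pow_le_pow_left₀ hA (not_lt.mp hb) 2).trans (le_of_eq ?_))
        hZ
      rw [div_pow, Real.sq_sqrt hr0.le]
  have hsr : 0 < Real.sqrt r := Real.sqrt_pos.mpr hr0
  have hsr1 : Real.sqrt r ≤ 1 := Real.sqrt_le_one.mpr hr1
  have hsq : Real.sqrt (U * N) ≤ Real.sqrt r * U / 2 + N / (2 * Real.sqrt r) := by
    rw [Real.sqrt_le_iff]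
    refine ⟨by positivity, ?_⟩
    have e : (Real.sqrt r * U / 2 + N / (2 * Real.sqrt r)) ^ 2 - U * N =
        (Real.sqrt r * U / 2 - N / (2 * Real.sqrt r)) ^ 2 := by
      field_simp; ring
    nlinarith [sq_nonneg (Real.sqrt r * U / 2 - N / (2 * Real.sqrt r))]
  calc CE * ∑ c ∈ D, regrSum G θ D H c ^ 2 * (magn G θ D c H ^ 2 * sigMul G θ D H α c ^ 2)
      ≤ CE * (K₀ ^ 2 / r * (CY * (N + Real.sqrt (U * N))) +
          A0 ^ 2 * ∑ c ∈ D, badInd G K₀ θ r D c H * sigMul G θ D H α c ^ 2) := by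
        refine mul_le_mul_of_nonneg_left ((Finset.sum_le_sum hpt).trans ?_) hCE
        rw [Finset.sum_add_distrib, ← Finset.mul_sum, ← Finset.mul_sum]
        exact add_le_add (mul_le_mul_of_nonneg_left (hY θ h0 ht D hD H α) (by positivity)) le_rfl
    _ ≤ CE * (K₀ ^ 2 * CY * (2 * (N / (r * Real.sqrt r)) + U / Real.sqrt r) +
          A0 ^ 2 * ∑ c ∈ D, badInd G K₀ θ r D c H * sigMul G θ D H α c ^ 2) := by
        refine mul_le_mul_of_nonneg_left (add_le_add ?_ le_rfl) hCE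
        have k : (N + Real.sqrt (U * N)) / r ≤ 2 * (N / (r * Real.sqrt r)) + U / Real.sqrt r := by
          refine (div_le_div_of_nonneg_right (add_le_add le_rfl hsq) hr0.le).trans ?_
          have hrr : Real.sqrt r * Real.sqrt r = r := Real.mul_self_sqrt hr0.le
          have e : (N + (Real.sqrt r * U / 2 + N / (2 * Real.sqrt r))) / r =
              N / r + U / (2 * Real.sqrt r) + N / (2 * (r * Real.sqrt r)) := by
            field_simp
            linear_combination U * hrr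
          rw [e]
          have a1 : N / r ≤ N / (r * Real.sqrt r) :=
            div_le_div_of_nonneg_left hN (by positivity) (mul_le_of_le_one_right hr0.le hsr1)
          have a2 : U / (2 * Real.sqrt r) ≤ U / Real.sqrt r :=
            div_le_div_of_nonneg_left hU hsr (by linarith)
          have a3 : N / (2 * (r * Real.sqrt r)) ≤ N / (r * Real.sqrt r) :=
            div_le_div_of_nonneg_left hN (by positivity) (by nlinarith)
          linarith
        calc K₀ ^ 2 / r * (CY * (N + Real.sqrt (U * N)))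
            = K₀ ^ 2 * CY * ((N + Real.sqrt (U * N)) / r) := by ring
          _ ≤ _ := mul_le_mul_of_nonneg_left k (by positivity)
    _ = _ := by ring

/-- The mean quadratic variation near time zero. -/
theorem exists_qv_early (hG : G.IsTree) (hd : 3 ≤ d) (hreg : ∀ v, (G.neighborSet v).ncard = d)
    (ht0 : 0 < t) (hbt : ((d : ℝ) - 1) * t ^ 2 = 1) {K₀ r₀ : ℝ} (hK₀ : 0 ≤ K₀)
    (tb : TailBound G d β₀ K₀ r₀) :
    ∃ C : ℝ, 0 ≤ C ∧ ∀ β, CritPar G d t β₀ β → ∀ (D : Finset V), IsConvexSet G D →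
      ∀ (hv : ℝ≥0) (i i₀ : ℕ) (a : V × V), ChOk β hv i → i₀ < i → (i : ℝ) * hv ≤ r₀ →
      obsExp G β hv D i (obsQV G β hv D i₀ a i) ≤
        C * (obsExp G β hv D i (obsN G β hv D i₀ a i) /
            ((i : ℝ) * hv * Real.sqrt ((i : ℝ) * hv)) +
          obsExp G β hv D i (obsU G β hv D i₀ a i) / Real.sqrt ((i : ℝ) * hv) +
          obsExp G β hv D (max (i / 2) (i₀ + 1))
            (obsA2 G β hv D i₀ a (max (i / 2) (i₀ + 1)))) := by
  obtain ⟨CE, hCE, hE⟩ := cumLin_sq_le hG hd hreg ht0 hbt.le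
  obtain ⟨CY, hCY, hY⟩ := weighted_energy_le hG hd hreg ht0 hbt.le
  obtain ⟨B, hB, hBb⟩ := exists_bad_bound (C := |domRate d t β₀|) (abs_nonneg _)
  refine ⟨2 * (CE * K₀ ^ 2 * CY) + CE * ((1 + d) / gapRate t β₀) ^ 2 *
    (16 * (1 + d) / gapRate t β₀ ^ 2) ^ 2 * B, by positivity, ?_⟩
  intro β cp D hD hv i i₀ a ok hi hir
  set r := (i : ℝ) * hv
  have hr0 : 0 < r := mul_pos (by exact_mod_cast Nat.lt_of_le_of_lt (Nat.zero_le i₀) hi) ok.step_pos
  have hr1 : r ≤ 1 := ok.time_le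
  set C1 := CE * K₀ ^ 2 * CY
  set A0 := (1 + (d : ℝ)) / (gapRate t β₀ * r) with hA0
  set j := max (i / 2) (i₀ + 1)
  have bN := pathBdd_obsN (n := i) (i₀ := i₀) (a := a) hG hd hreg hD ok (le_refl i)
  have bU := pathBdd_obsU (n := i) (i₀ := i₀) (a := a) hG hd hreg hD ok (le_refl i)
  have bS : PathBdd G D i (fun b => ∑ c ∈ D, badInd G K₀ (chTh β r) r D c (obsH G β D b i) *
      obsM G β hv D i₀ a i c b ^ 2) := PathBdd.sum _ fun c hc =>
    (pathBdd_comp_field le_rfl (measurable_badInd _ _ _ _) (badInd_nonneg _ _ _ _)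
      (badInd_le_one _ _ _ _)).mul ⟨(measurable_obsM i c).pow_const 2, crudeBound d β D ^ 2,
        fun x => by
          rw [abs_pow]
          exact pow_le_pow_left₀ (abs_nonneg _) (abs_obsM_le hG hd hreg hD ok _ le_rfl hc) 2⟩
  refine (obsExp_mono ok (pathBdd_obsQV hG hd hreg hD ok le_rfl)
    (((bN.const_mul (2 * C1 / (r * Real.sqrt r))).add (bU.const_mul (C1 / Real.sqrt r))).add
      (bS.const_mul (CE * A0 ^ 2))) fun x => ?_).trans ?_
  · refine (qv_pointwise cp hCE hCY hK₀ hE hY hr0 hr1 hD _ _ fun u _ =>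
      obsAlpha_nonneg hG hD ok _ le_rfl u).trans (le_of_eq ?_)
    simp only [obsN, obsU, obsM, C1, A0, r]
    ring
  rw [obsExp_add ok ((bN.const_mul _).add (bU.const_mul _)) (bS.const_mul _),
    obsExp_add ok (bN.const_mul _) (bU.const_mul _), obsExp_const_mul, obsExp_const_mul,
    obsExp_const_mul]
  set EN := obsExp G β hv D i (obsN G β hv D i₀ a i)
  set EU := obsExp G β hv D i (obsU G β hv D i₀ a i)
  set EA := obsExp G β hv D j (obsA2 G β hv D i₀ a j)
  have hEA : 0 ≤ EA := obsExp_nonneg (ok.mono (by omega)) fun x =>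
    Finset.sum_nonneg fun _ _ => sq_nonneg _
  have hEN : 0 ≤ EN := obsExp_nonneg ok fun x =>
    linVar_nonneg (ok.th_nonneg le_rfl) (chTh_lt_one _ _) _ _
  have hEU : 0 ≤ EU := obsExp_nonneg ok fun x => Finset.sum_nonneg fun _ _ => sq_nonneg _
  have hκ := cp.rate_pos
  have hbad : CE * A0 ^ 2 * (Real.exp (-(1 / r ^ 2)) * (schurAt d t β₀ r ^ 2 *
      Real.exp (domRate d t β₀ / r))) ≤
      CE * ((1 + d) / gapRate t β₀) ^ 2 * (16 * (1 + d) / gapRate t β₀ ^ 2) ^ 2 * B := by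
    have e : CE * A0 ^ 2 * (Real.exp (-(1 / r ^ 2)) * (schurAt d t β₀ r ^ 2 *
        Real.exp (domRate d t β₀ / r))) =
        CE * ((1 + d) / gapRate t β₀) ^ 2 * (16 * (1 + d) / gapRate t β₀ ^ 2) ^ 2 *
          (Real.exp (-(1 / r ^ 2)) * Real.exp (domRate d t β₀ / r) * (1 / r) ^ 6) := by
      rw [hA0, schurAt]
      field_simp
    rw [e]
    refine mul_le_mul_of_nonneg_left ((mul_le_mul_of_nonneg_right (mul_le_mul_of_nonneg_left
      (Real.exp_le_exp.mpr (div_le_div_of_nonneg_right (le_abs_self _) hr0.le))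
      (Real.exp_pos _).le) (by positivity)).trans (hBb r hr0 hr1)) (by positivity)
  have hb2 := mul_le_mul_of_nonneg_left (bad_sum_le (a := a) cp tb hD ok hi hir)
    (show 0 ≤ CE * A0 ^ 2 by positivity)
  rw [← mul_assoc (CE * A0 ^ 2)] at hb2
  have hb3 := hb2.trans (mul_le_mul_of_nonneg_right hbad hEA)
  set C2 := CE * ((1 + d) / gapRate t β₀) ^ 2 * (16 * (1 + d) / gapRate t β₀ ^ 2) ^ 2 * B
  have hC2 : 0 ≤ C2 := by positivity
  have hC1 : 0 ≤ C1 := by positivity
  have q1 : 0 ≤ EN / (r * Real.sqrt r) := by positivity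
  have q2 : 0 ≤ EU / Real.sqrt r := by positivity
  have e1 : 2 * C1 / (r * Real.sqrt r) * EN = 2 * C1 * (EN / (r * Real.sqrt r)) := by ring
  have e2 : C1 / Real.sqrt r * EU = C1 * (EU / Real.sqrt r) := by ring
  nlinarith [mul_nonneg hC2 q1, mul_nonneg hC2 q2, mul_nonneg hC1 q2, mul_nonneg hC1 hEA]

/-- The mean quadratic variation away from time zero. -/
theorem exists_qv_late (hG : G.IsTree) (hd : 3 ≤ d) (hreg : ∀ v, (G.neighborSet v).ncard = d)
    (ht0 : 0 < t) (hbt : ((d : ℝ) - 1) * t ^ 2 = 1) {r1 : ℝ} (hr1 : 0 < r1) :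
    ∃ C : ℝ, 0 ≤ C ∧ ∀ β, CritPar G d t β₀ β → ∀ (D : Finset V), IsConvexSet G D →
      ∀ (hv : ℝ≥0) (i i₀ : ℕ) (a : V × V), ChOk β hv i → r1 ≤ 2 * ((i : ℝ) * hv) →
      obsExp G β hv D i (obsQV G β hv D i₀ a i) ≤
        C * obsExp G β hv D i (obsU G β hv D i₀ a i) := by
  obtain ⟨CE, hCE, hE⟩ := cumLin_sq_le hG hd hreg ht0 hbt.le
  refine ⟨CE * (2 * (1 + d) / (gapRate t β₀ * r1)) ^ 2, by positivity, ?_⟩
  intro β cp D hD hv i i₀ a ok hir
  set r := (i : ℝ) * hv
  have hr0 : 0 < r := by linarith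
  have hrone : r ≤ 1 := ok.time_le
  have h0 : 0 ≤ chTh β r := ok.th_nonneg le_rfl
  rw [← obsExp_const_mul]
  refine obsExp_mono ok (pathBdd_obsQV hG hd hreg hD ok le_rfl)
    ((pathBdd_obsU hG hd hreg hD ok le_rfl).const_mul _) fun x => ?_
  refine (hE _ h0 (cp.th_le_t hr0.le hrone) D hD _ _ fun u _ =>
    obsAlpha_nonneg hG hD ok _ le_rfl u).trans ?_
  rw [mul_assoc]
  refine mul_le_mul_of_nonneg_left ?_ hCE
  rw [obsU, Finset.mul_sum]
  refine Finset.sum_le_sum fun c hc => mul_le_mul ?_ ?_ (by positivity) (sq_nonneg _)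
  · refine pow_le_pow_left₀ (regrSum_nonneg _ _ _) ((cp.regrSum_at hr0 hrone hD _ hc).trans ?_) 2
    have hκ := cp.rate_pos
    rw [div_le_div_iff₀ (by positivity) (by positivity)]
    nlinarith [mul_le_mul_of_nonneg_left hir (show 0 ≤ (1 + (d : ℝ)) * gapRate t β₀ by positivity)]
  · exact mul_le_of_le_one_left (sq_nonneg _)
      ((sq_le_one_iff_abs_le_one _).mpr (abs_magn_le h0 (chTh_lt_one _ _) D c _))

end Vale.Agent.P161
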