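import Vale.Agent.P161.Crit.Growth
import Vale.Agent.P161.Crit.Gibbs

/-!
# One step of the filter of an exponential family

Weights `w` on a finite set are tilted by `exp ξ(z)`, where `z` is one step of Gaussian increments.
-/

namespace Vale.Agent.P161

open MeasureTheory ProbabilityTheory
open scoped NNReal Classical

variable {Ω : Type*} [Fintype Ω] [Nonempty Ω] {ι : Type*} [Fintype ι]

/-- The log-likelihood of one step of increments. -/
noncomputable def stepXi (L h : ℝ) (S : Ω → ι → ℝ) (z : ι → ℝ) (x : Ω) : ℝ :=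
  ∑ a, (L * S x a * z a - h * L ^ 2 * S x a ^ 2 / 2)

/-- The density of one step of increments. -/
noncomputable def stepDens (L h : ℝ) (S : Ω → ι → ℝ) (w : Ω → ℝ) (z : ι → ℝ) : ℝ :=
  avg w fun x => Real.exp (stepXi L h S z x)

/-- The tilted average. -/
noncomputable def stepAvg (L h : ℝ) (S : Ω → ι → ℝ) (w : Ω → ℝ) (f : Ω → ℝ) (z : ι → ℝ) : ℝ :=
  avg (tilt w (stepXi L h S z) 1) f

/-- The change of an average over one step. -/
noncomputable def stepDelta (L h : ℝ) (S : Ω → ι → ℝ) (w : Ω → ℝ) (f : Ω → ℝ) (z : ι → ℝ) : ℝ :=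
  stepAvg L h S w f z - avg w f

/-- The linear part of the change of an average. -/
noncomputable def stepLin (L : ℝ) (S : Ω → ι → ℝ) (w : Ω → ℝ) (f : Ω → ℝ) (z : ι → ℝ) : ℝ :=
  ∑ a, L * cov w f (fun x => S x a) * z a

/-- The size of one step of increments. -/
noncomputable def stepSize (h : ℝ) (z : ι → ℝ) : ℝ := Real.sqrt h + ∑ a, |z a|

theorem stepSize_nonneg (h : ℝ) (z : ι → ℝ) : 0 ≤ stepSize h z :=
  add_nonneg (Real.sqrt_nonneg _) (Finset.sum_nonneg fun _ _ => abs_nonneg _)

theorem le_stepSize {h : ℝ} (h0 : 0 ≤ h) (h1 : h ≤ 1) (z : ι → ℝ) : h ≤ stepSize h z := by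
  have : h ≤ Real.sqrt h := Real.le_sqrt_of_sq_le (by nlinarith)
  exact this.trans (le_add_of_nonneg_right (Finset.sum_nonneg fun _ _ => abs_nonneg _))

theorem le_stepSize_sq {h : ℝ} (h0 : 0 ≤ h) (z : ι → ℝ) : h ≤ stepSize h z ^ 2 := by
  have : Real.sqrt h ≤ stepSize h z :=
    le_add_of_nonneg_right (Finset.sum_nonneg fun _ _ => abs_nonneg _)
  calc h = Real.sqrt h ^ 2 := (Real.sq_sqrt h0).symm
    _ ≤ _ := pow_le_pow_left₀ (Real.sqrt_nonneg _) this 2

theorem abs_coord_le_stepSize {h : ℝ} (z : ι → ℝ) (a : ι) : |z a| ≤ stepSize h z :=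
  le_add_of_nonneg_of_le (Real.sqrt_nonneg _)
    (Finset.single_le_sum (f := fun b => |z b|) (fun b _ => abs_nonneg _) (Finset.mem_univ a))

theorem measurable_stepSize (h : ℝ) : Measurable (stepSize (ι := ι) h) := by
  unfold stepSize; fun_prop

/-- Moments of the step size. -/
theorem exists_stepSize_moment (k : ℕ) {C : ℝ} (hC : 0 ≤ C) :
    ∃ M : ℝ, 0 ≤ M ∧ ∀ v : ℝ≥0, (v : ℝ) ≤ 1 →
      ∫ z, stepSize v z ^ k * Real.exp (C * stepSize v z) ∂gaussPi ι v ≤
        M * Real.sqrt v ^ k := by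
  set g : (ι → ℝ) → ℝ := fun y => (1 + ∑ a, |y a|) ^ k * Real.exp (C * (1 + ∑ a, |y a|)) with hg
  have hgg : ExpGrowth g := by
    refine .of_bound (by fun_prop) (B := Real.exp ((k : ℝ) + C)) (C := (k : ℝ) + C) fun y => ?_
    have hs : 0 ≤ ∑ a, |y a| := Finset.sum_nonneg fun _ _ => abs_nonneg _
    rw [abs_of_nonneg (by positivity), ← Real.exp_add]
    refine (mul_le_mul_of_nonneg_right (pow_le_pow_left₀ (b := Real.exp (1 + ∑ a, |y a|))
      (by positivity) (by linarith [Real.add_one_le_exp (1 + ∑ a, |y a|)]) k)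
      (Real.exp_pos _).le).trans
      (le_of_eq ?_)
    rw [← Real.exp_nat_mul, ← Real.exp_add]; ring_nf
  refine ⟨∫ y, g y ∂gaussPi ι 1, integral_nonneg fun y => by positivity, fun v hv => ?_⟩
  set s := Real.sqrt v with hs
  have hs0 : 0 ≤ s := Real.sqrt_nonneg _
  have hs1 : s ≤ 1 := Real.sqrt_le_one.mpr hv
  have hmap : gaussPi ι v = (gaussPi ι 1).map (fun y a => s * y a) := by
    unfold gaussPi
    rw [Measure.pi_map_pi fun _ => by fun_prop]
    congr 1
    funext a
    rw [gaussianReal_map_const_mul, mul_zero]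
    congr 1
    exact NNReal.coe_injective (by
      rw [NNReal.coe_mul, NNReal.coe_mk, NNReal.coe_one, mul_one, hs, Real.sq_sqrt (NNReal.coe_nonneg v)])
  have hm : Measurable fun z : ι → ℝ => stepSize v z ^ k * Real.exp (C * stepSize v z) := by
    have := measurable_stepSize (ι := ι) (v : ℝ)
    fun_prop
  rw [hmap, integral_map
    (measurable_pi_lambda _ fun a => (measurable_pi_apply a).const_mul s).aemeasurable
    hm.aestronglyMeasurable, mul_comm, ← integral_const_mul]
  refine integral_mono_of_nonneg (ae_of_all _ fun y => mul_nonneg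
    (pow_nonneg (stepSize_nonneg _ _) k) (Real.exp_pos _).le) ((hgg.const_mul _).integrable 1)
    (ae_of_all _ fun y => ?_)
  have hy : 0 ≤ 1 + ∑ a, |y a| :=
    add_nonneg zero_le_one (Finset.sum_nonneg fun _ _ => abs_nonneg _)
  have e : stepSize v (fun a => s * y a) = s * (1 + ∑ a, |y a|) := by
    simp only [stepSize, ← hs, abs_mul, abs_of_nonneg hs0, ← Finset.mul_sum]; ring
  simp only [e, hg, mul_pow]
  rw [mul_assoc]
  refine mul_le_mul_of_nonneg_left (mul_le_mul_of_nonneg_left (Real.exp_le_exp.mpr ?_)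
    (pow_nonneg hy k)) (pow_nonneg hs0 k)
  exact mul_le_mul_of_nonneg_left (mul_le_of_le_one_left hy hs1) hC

variable {L B : ℝ} {hv : ℝ≥0} {w : Ω → ℝ} {S : Ω → ι → ℝ}

/-- The Lipschitz constant of the log-likelihood. -/
noncomputable def stepConst (ι : Type*) [Fintype ι] (L : ℝ) : ℝ :=
  1 + 2 * L + 2 * L ^ 2 * (Fintype.card ι : ℝ)

theorem stepConst_one_le (hL : 0 ≤ L) : 1 ≤ stepConst ι L := by
  have : 0 ≤ 2 * L ^ 2 * (Fintype.card ι : ℝ) := by positivity
  unfold stepConst
  linarith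

theorem abs_stepXi_le (hL : 0 ≤ L) (h1 : (hv : ℝ) ≤ 1) (hS : ∀ x a, |S x a| ≤ 2) (z : ι → ℝ)
    (x : Ω) : |stepXi L hv S z x| ≤ stepConst ι L * stepSize hv z := by
  have hz : ∑ a, |z a| ≤ stepSize hv z := le_add_of_nonneg_left (Real.sqrt_nonneg _)
  calc |stepXi L hv S z x|
      ≤ ∑ a, (2 * L * |z a| + (hv : ℝ) * L ^ 2 * 2) := by
        refine (Finset.abs_sum_le_sum_abs _ _).trans (Finset.sum_le_sum fun a _ =>
          (abs_sub _ _).trans (add_le_add ?_ ?_))
        · rw [abs_mul, abs_mul, abs_of_nonneg hL, mul_comm 2 L]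
          exact mul_le_mul_of_nonneg_right (mul_le_mul_of_nonneg_left (hS x a) hL) (abs_nonneg _)
        · rw [abs_of_nonneg (by positivity)]
          have := pow_le_pow_left₀ (abs_nonneg _) (hS x a) 2
          rw [sq_abs] at this
          nlinarith [mul_le_mul_of_nonneg_left this
            (mul_nonneg (NNReal.coe_nonneg hv) (sq_nonneg L))]
    _ = 2 * L * ∑ a, |z a| + 2 * L ^ 2 * (Fintype.card ι : ℝ) * hv := by
        rw [Finset.sum_add_distrib, ← Finset.mul_sum, Finset.sum_const, Finset.card_univ,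
          nsmul_eq_mul]
        ring
    _ ≤ 2 * L * stepSize hv z + 2 * L ^ 2 * (Fintype.card ι : ℝ) * stepSize hv z := by
        exact add_le_add (mul_le_mul_of_nonneg_left hz (by positivity))
          (mul_le_mul_of_nonneg_left (le_stepSize (NNReal.coe_nonneg hv) h1 z) (by positivity))
    _ ≤ _ := by unfold stepConst; nlinarith [stepSize_nonneg (hv : ℝ) z]

theorem measurable_stepXi (L h : ℝ) (S : Ω → ι → ℝ) (x : Ω) :
    Measurable fun z : ι → ℝ => stepXi L h S z x := by unfold stepXi; fun_prop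

theorem measurable_stepDens (L h : ℝ) (S : Ω → ι → ℝ) (w : Ω → ℝ) :
    Measurable (stepDens L h S w) := by
  unfold stepDens avg
  exact (Finset.measurable_sum _ fun x _ => (measurable_stepXi L h S x).exp.const_mul _).div_const _

theorem measurable_stepAvg (L h : ℝ) (S : Ω → ι → ℝ) (w f : Ω → ℝ) :
    Measurable (stepAvg L h S w f) := by
  unfold stepAvg avg tilt
  exact (Finset.measurable_sum _ fun x _ =>
      (((measurable_stepXi L h S x).const_mul _).exp.const_mul _).mul_const _).div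
    (Finset.measurable_sum _ fun x _ => ((measurable_stepXi L h S x).const_mul _).exp.const_mul _)

theorem expGrowth_stepSize_exp (h : ℝ) (A C : ℝ) :
    ExpGrowth fun z : ι → ℝ => A * Real.exp (C * stepSize h z) :=
  (expGrowth_exp ((measurable_stepSize h).const_mul C) (A := |C| * Real.sqrt h) (B := |C|)
    fun z => by
      rw [← mul_add]
      exact mul_le_mul_of_nonneg_right (le_abs_self C) (stepSize_nonneg h z)).const_mul A

theorem abs_stepDens_le (hw : ∀ x, 0 < w x) (hL : 0 ≤ L) (h1 : (hv : ℝ) ≤ 1)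
    (hS : ∀ x a, |S x a| ≤ 2) (z : ι → ℝ) :
    |stepDens L hv S w z| ≤ Real.exp (stepConst ι L * stepSize hv z) :=
  abs_avg_le hw fun x => by
    rw [abs_of_pos (Real.exp_pos _)]
    exact Real.exp_le_exp.mpr ((le_abs_self _).trans (abs_stepXi_le hL h1 hS z x))

theorem expGrowth_stepDens (hw : ∀ x, 0 < w x) (hL : 0 ≤ L) (h1 : (hv : ℝ) ≤ 1)
    (hS : ∀ x a, |S x a| ≤ 2) : ExpGrowth (stepDens L hv S w) := by
  obtain ⟨C, _, hC⟩ := (expGrowth_stepSize_exp (ι := ι) (hv : ℝ) 1 (stepConst ι L)).2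
  refine .of_bound (measurable_stepDens _ _ _ _) (B := C) (C := C) fun z =>
    (abs_stepDens_le hw hL h1 hS z).trans ?_
  simpa using hC z

theorem expGrowth_stepAvg (hw : ∀ x, 0 < w x) {f : Ω → ℝ} (hf : ∀ x, |f x| ≤ B) :
    ExpGrowth (stepAvg L hv S w f) :=
  .of_bounded (measurable_stepAvg _ _ _ _ _) fun z => abs_avg_le (tilt_pos hw _ 1) hf

theorem expGrowth_stepDelta (hw : ∀ x, 0 < w x) {f : Ω → ℝ} (hf : ∀ x, |f x| ≤ B) :
    ExpGrowth (stepDelta L hv S w f) :=
  (expGrowth_stepAvg hw hf).sub (expGrowth_const _)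

theorem stepDens_mul_stepAvg (hw : ∀ x, 0 < w x) (f : Ω → ℝ) (z : ι → ℝ) :
    stepDens L hv S w z * stepAvg L hv S w f z =
      avg w fun x => Real.exp (stepXi L hv S z x) * f x := by
  have h1 : (∑ x, w x) ≠ 0 := ne_of_gt (sum_weight_pos hw)
  have h2 : (∑ x, w x * Real.exp (stepXi L hv S z x)) ≠ 0 :=
    ne_of_gt (sum_weight_pos fun x => mul_pos (hw x) (Real.exp_pos _))
  simp only [stepDens, stepAvg, avg, tilt, one_mul, ← mul_assoc]
  field_simp

theorem integral_exp_stepXi (hv0 : hv ≠ 0) (S : Ω → ι → ℝ) (x : Ω) :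
    ∫ z, Real.exp (stepXi L hv S z x) ∂gaussPi ι hv = 1 := by
  rw [← integral_exp_tilt (fun a => (hv : ℝ) * (L * S x a)) hv0]
  refine integral_congr_ae (ae_of_all _ fun z => ?_)
  simp only [stepXi]
  congr 1
  refine Finset.sum_congr rfl fun a _ => ?_
  have : (hv : ℝ) ≠ 0 := by exact_mod_cast hv0
  field_simp

theorem integral_stepDens_mul (hv0 : hv ≠ 0) (hw : ∀ x, 0 < w x) (f : Ω → ℝ) :
    ∫ z, stepDens L hv S w z * stepAvg L hv S w f z ∂gaussPi ι hv = avg w f := by
  simp only [stepDens_mul_stepAvg hw, avg]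
  rw [integral_div, integral_finsetSum]
  · congr 1
    refine Finset.sum_congr rfl fun x _ => ?_
    rw [integral_const_mul, integral_mul_const, integral_exp_stepXi hv0, one_mul]
  · intro x _
    refine ExpGrowth.integrable ?_ hv
    refine ExpGrowth.const_mul ?_ _
    refine ExpGrowth.mul ?_ (expGrowth_const _)
    refine expGrowth_exp (measurable_stepXi _ _ _ _) (A := 0) (B := ∑ a, |L * S x a|) fun z => ?_
    rw [zero_add, Finset.sum_mul]
    refine Finset.sum_le_sum fun a _ => ?_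
    have h0 : 0 ≤ (hv : ℝ) * L ^ 2 * S x a ^ 2 / 2 := by positivity
    have h2 : L * S x a * z a ≤ |L * S x a| * ∑ b, |z b| := by
      refine (le_abs_self _).trans ?_
      rw [abs_mul]
      exact mul_le_mul_of_nonneg_left (Finset.single_le_sum (f := fun b => |z b|)
        (fun b _ => abs_nonneg _) (Finset.mem_univ a)) (abs_nonneg _)
    linarith

theorem integral_stepDens (hv0 : hv ≠ 0) (hw : ∀ x, 0 < w x) :
    ∫ z, stepDens L hv S w z ∂gaussPi ι hv = 1 := by
  have h := integral_stepDens_mul (L := L) (S := S) hv0 hw (fun _ => (1 : ℝ))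
  simp only [stepAvg] at h
  simp only [avg_const (tilt_pos hw _ 1), mul_one, avg_const hw] at h
  exact h

theorem integral_stepDens_delta (hv0 : hv ≠ 0) (hw : ∀ x, 0 < w x) (hL : 0 ≤ L)
    (h1 : (hv : ℝ) ≤ 1) (hS : ∀ x a, |S x a| ≤ 2) {f : Ω → ℝ} (hf : ∀ x, |f x| ≤ B) :
    ∫ z, stepDens L hv S w z * stepDelta L hv S w f z ∂gaussPi ι hv = 0 := by
  have gW := expGrowth_stepDens hw hL h1 hS
  simp only [stepDelta, mul_sub]
  rw [integral_sub ((gW.mul (expGrowth_stepAvg hw hf)).integrable hv)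
    ((gW.mul (expGrowth_const _)).integrable hv), integral_mul_const,
    integral_stepDens_mul hv0 hw, integral_stepDens hv0 hw, one_mul, sub_self]

/-- The exponential rate absorbing all remainders. -/
noncomputable def stepRate (ι : Type*) [Fintype ι] (L : ℝ) : ℝ := stepConst ι L + 1

theorem one_le_exp_stepRate (hL : 0 ≤ L) (h : ℝ) (z : ι → ℝ) :
    1 ≤ Real.exp (stepRate ι L * stepSize h z) :=
  Real.one_le_exp (mul_nonneg (by linarith [stepConst_one_le (ι := ι) hL, stepRate.eq_def ι L])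
    (stepSize_nonneg h z))

theorem abs_stepDens_sub_one_le (hw : ∀ x, 0 < w x) (hL : 0 ≤ L) (h1 : (hv : ℝ) ≤ 1)
    (hS : ∀ x a, |S x a| ≤ 2) (z : ι → ℝ) :
    |stepDens L hv S w z - 1| ≤
      stepConst ι L * stepSize hv z * Real.exp (stepRate ι L * stepSize hv z) := by
  have hP := stepSize_nonneg (hv : ℝ) z
  have hK : 0 ≤ stepConst ι L := zero_le_one.trans (stepConst_one_le hL)
  rw [← avg_const hw (1 : ℝ), stepDens, ← avg_sub]
  refine abs_avg_le hw fun x => ?_
  have h := abs_stepXi_le hL h1 hS z x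
  have hm : Real.exp |stepXi L hv S z x| ≤ Real.exp (stepRate ι L * stepSize hv z) := by
    refine Real.exp_le_exp.mpr (h.trans (mul_le_mul_of_nonneg_right ?_ hP))
    rw [stepRate]; linarith
  set u := stepXi L hv S z x
  have hu : |Real.exp u - 1| ≤ |u| * Real.exp |u| := by
    rcases le_total 0 u with hu | hu
    · rw [abs_of_nonneg (by linarith [Real.add_one_le_exp u]), abs_of_nonneg hu]
      have h2 : Real.exp u * Real.exp (-u) = 1 := by rw [← Real.exp_add, add_neg_cancel, Real.exp_zero]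
      nlinarith [Real.add_one_le_exp (-u), Real.exp_pos u]
    · have h3 : Real.exp u ≤ 1 := Real.exp_le_one_iff.mpr hu
      rw [abs_of_nonpos (by linarith), abs_of_nonpos hu]
      nlinarith [Real.add_one_le_exp u, Real.one_le_exp (neg_nonneg.mpr hu)]
  refine hu.trans ?_
  exact mul_le_mul h hm (Real.exp_pos _).le (mul_nonneg hK hP)

theorem stepLin_eq (f : Ω → ℝ) (z : ι → ℝ) :
    cov w f (stepXi L hv S z) - stepLin L S w f z =
      -((hv : ℝ) * L ^ 2 / 2) * ∑ a, cov w f (fun x => S x a ^ 2) := by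
  have e : stepXi L hv S z = fun x =>
      ∑ a, (L * z a * S x a + -((hv : ℝ) * L ^ 2 / 2) * S x a ^ 2) := by
    funext x; exact Finset.sum_congr rfl fun a _ => by ring
  rw [e, cov_sum_right]
  simp only [cov_add_right, cov_mul_right, Finset.sum_add_distrib, ← Finset.mul_sum, stepLin]
  rw [show ∑ a, L * cov w f (fun x => S x a) * z a = ∑ a, L * z a * cov w f (fun x => S x a) from
    Finset.sum_congr rfl fun a _ => by ring]
  ring

theorem abs_stepDelta_sub_lin_le (hw : ∀ x, 0 < w x) (hL : 0 ≤ L) (h1 : (hv : ℝ) ≤ 1)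
    (hS : ∀ x a, |S x a| ≤ 2) {f : Ω → ℝ} (hf : ∀ x, |f x| ≤ B) (z : ι → ℝ) :
    |stepDelta L hv S w f z - stepLin L S w f z| ≤
      10 * stepConst ι L ^ 2 * B * stepSize hv z ^ 2 := by
  obtain ⟨x0⟩ := ‹Nonempty Ω›
  have hB : 0 ≤ B := (abs_nonneg _).trans (hf x0)
  have ht := (avg_tilt_taylor hw hf (abs_stepXi_le hL h1 hS z)).1
  have hl : |cov w f (stepXi L hv S z) - stepLin L S w f z| ≤
      4 * stepConst ι L * B * stepSize hv z ^ 2 := by
    rw [stepLin_eq, abs_mul, abs_neg, abs_of_nonneg (by positivity)]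
    have hs : |∑ a, cov w f (fun x => S x a ^ 2)| ≤ (Fintype.card ι : ℝ) * (8 * B) := by
      refine (Finset.abs_sum_le_sum_abs _ _).trans ((Finset.sum_le_sum (g := fun _ => 8 * B)
        fun a _ => ?_).trans (by simp))
      refine (abs_cov_le hw hf (C := 4) fun x => ?_).trans (le_of_eq (by ring))
      rw [abs_pow]
      calc |S x a| ^ 2 ≤ (2 : ℝ) ^ 2 := pow_le_pow_left₀ (abs_nonneg _) (hS x a) 2
        _ = 4 := by norm_num
    refine (mul_le_mul_of_nonneg_left hs (by positivity)).trans ?_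
    calc (hv : ℝ) * L ^ 2 / 2 * ((Fintype.card ι : ℝ) * (8 * B))
        = (4 * (L ^ 2 * (Fintype.card ι : ℝ)) * B) * hv := by ring
      _ ≤ (4 * stepConst ι L * B) * stepSize hv z ^ 2 := by
          refine mul_le_mul (mul_le_mul_of_nonneg_right (mul_le_mul_of_nonneg_left ?_ (by norm_num))
            hB) (le_stepSize_sq (NNReal.coe_nonneg hv) z) (NNReal.coe_nonneg hv) ?_
          · unfold stepConst
            have : 0 ≤ L ^ 2 * (Fintype.card ι : ℝ) := by positivity
            linarith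
          · exact mul_nonneg (mul_nonneg (by norm_num)
              (zero_le_one.trans (stepConst_one_le hL))) hB
  have hK := stepConst_one_le (ι := ι) hL
  have hX : 0 ≤ B * stepSize hv z ^ 2 := mul_nonneg hB (sq_nonneg _)
  calc |stepDelta L hv S w f z - stepLin L S w f z|
      ≤ |stepAvg L hv S w f z - avg w f - cov w f (stepXi L hv S z)| +
        |cov w f (stepXi L hv S z) - stepLin L S w f z| := by
        refine le_of_eq_of_le ?_ (abs_add_le _ _)
        unfold stepDelta; congr 1; ring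
    _ ≤ 6 * (B * (stepConst ι L * stepSize hv z) ^ 2) +
        4 * stepConst ι L * B * stepSize hv z ^ 2 := add_le_add ht hl
    _ = (6 * stepConst ι L ^ 2 + 4 * stepConst ι L) * (B * stepSize hv z ^ 2) := by ring
    _ ≤ 10 * stepConst ι L ^ 2 * (B * stepSize hv z ^ 2) :=
        mul_le_mul_of_nonneg_right (by nlinarith) hX
    _ = _ := by ring

theorem abs_stepLin_le (hw : ∀ x, 0 < w x) (hL : 0 ≤ L) (hS : ∀ x a, |S x a| ≤ 2) {f : Ω → ℝ}
    (hf : ∀ x, |f x| ≤ B) (z : ι → ℝ) :
    |stepLin L S w f z| ≤ 4 * stepConst ι L * B * stepSize hv z := by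
  obtain ⟨x0⟩ := ‹Nonempty Ω›
  have hB : 0 ≤ B := (abs_nonneg _).trans (hf x0)
  have hLK : L ≤ stepConst ι L := by
    have : 0 ≤ 2 * L ^ 2 * (Fintype.card ι : ℝ) := by positivity
    unfold stepConst; linarith
  calc |stepLin L S w f z| ≤ ∑ a, L * (4 * B) * |z a| := by
        refine (Finset.abs_sum_le_sum_abs _ _).trans (Finset.sum_le_sum fun a _ => ?_)
        rw [abs_mul, abs_mul, abs_of_nonneg hL]
        refine mul_le_mul_of_nonneg_right (mul_le_mul_of_nonneg_left ?_ hL) (abs_nonneg _)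
        exact (abs_cov_le hw hf fun x => hS x a).trans (le_of_eq (by ring))
    _ = L * (4 * B) * ∑ a, |z a| := by rw [Finset.mul_sum]
    _ ≤ stepConst ι L * (4 * B) * stepSize hv z :=
        mul_le_mul (mul_le_mul_of_nonneg_right hLK (by positivity))
          (le_add_of_nonneg_left (Real.sqrt_nonneg _))
          (Finset.sum_nonneg fun _ _ => abs_nonneg _)
          (mul_nonneg (zero_le_one.trans (stepConst_one_le hL)) (by positivity))
    _ = _ := by ring

theorem abs_stepDelta_le (hw : ∀ x, 0 < w x) (hL : 0 ≤ L) (h1 : (hv : ℝ) ≤ 1)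
    (hS : ∀ x a, |S x a| ≤ 2) {f : Ω → ℝ} (hf : ∀ x, |f x| ≤ B) (z : ι → ℝ) :
    |stepDelta L hv S w f z| ≤
      14 * stepConst ι L ^ 2 * B * stepSize hv z * Real.exp (stepRate ι L * stepSize hv z) := by
  obtain ⟨x0⟩ := ‹Nonempty Ω›
  have hB : 0 ≤ B := (abs_nonneg _).trans (hf x0)
  have hP := stepSize_nonneg (hv : ℝ) z
  have hK := stepConst_one_le (ι := ι) hL
  have hE1 := one_le_exp_stepRate (ι := ι) hL (hv : ℝ) z
  have hE2 : stepSize hv z ≤ Real.exp (stepRate ι L * stepSize hv z) := by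
    refine le_trans ?_ (Real.add_one_le_exp _)
    unfold stepRate; nlinarith
  set E := Real.exp (stepRate ι L * stepSize hv z)
  have hX : 0 ≤ stepConst ι L ^ 2 * B * stepSize hv z := by positivity
  calc |stepDelta L hv S w f z|
      ≤ |stepDelta L hv S w f z - stepLin L S w f z| + |stepLin L S w f z| := by
        refine le_of_eq_of_le ?_ (abs_add_le _ _)
        congr 1; ring
    _ ≤ 10 * stepConst ι L ^ 2 * B * stepSize hv z ^ 2 +
        4 * stepConst ι L * B * stepSize hv z :=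
        add_le_add (abs_stepDelta_sub_lin_le hw hL h1 hS hf z) (abs_stepLin_le hw hL hS hf z)
    _ ≤ 10 * (stepConst ι L ^ 2 * B * stepSize hv z) * E +
        4 * (stepConst ι L ^ 2 * B * stepSize hv z) * E := by
        refine add_le_add ?_ ?_
        · calc 10 * stepConst ι L ^ 2 * B * stepSize hv z ^ 2
              = 10 * (stepConst ι L ^ 2 * B * stepSize hv z) * stepSize hv z := by ring
            _ ≤ _ := mul_le_mul_of_nonneg_left hE2 (by positivity)
        · have : stepConst ι L ≤ stepConst ι L ^ 2 := by nlinarith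
          calc 4 * stepConst ι L * B * stepSize hv z
              ≤ 4 * (stepConst ι L ^ 2 * B * stepSize hv z) := by nlinarith [mul_nonneg hB hP]
            _ ≤ _ := le_mul_of_one_le_right (by positivity) hE1
    _ = _ := by ring

theorem gaussPi_mul_coord (v : ℝ≥0) (a b : ι) :
    ∫ z : ι → ℝ, z a * z b ∂gaussPi ι v = if a = b then (v : ℝ) else 0 := by
  classical
  by_cases hab : a = b
  · subst hab
    rw [if_pos rfl]
    have h1 : ∫ z : ι → ℝ, z a * z a ∂gaussPi ι v = ∫ y, y * y ∂gaussianReal 0 v := by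
      have hm := (measurePreserving_eval (fun _ : ι => gaussianReal 0 v) a).map_eq
      have hi := integral_map (μ := gaussPi ι v) (f := fun y : ℝ => y * y)
        (measurable_pi_apply a).aemeasurable (by fun_prop)
      rw [show (gaussPi ι v).map (fun z => z a) = gaussianReal 0 v from hm] at hi
      exact hi.symm
    have h2 := variance_fun_id_gaussianReal (μ := 0) (v := v)
    rw [variance_eq_integral measurable_id'.aemeasurable, integral_id_gaussianReal] at h2
    simp only [sub_zero, sq] at h2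
    rw [h1, h2]
  · rw [if_neg hab]
    have e : ∀ z : ι → ℝ, z a * z b =
        ∏ i, (if i = a then z i else if i = b then z i else 1) := by
      intro z
      rw [← Finset.prod_subset (Finset.subset_univ {a, b}) (fun i _ hi => by
        simp only [Finset.mem_insert, Finset.mem_singleton, not_or] at hi
        simp [hi.1, hi.2]), Finset.prod_pair hab]
      simp [Ne.symm hab]
    simp only [e]
    rw [gaussPi, integral_fintype_prod_eq_prod
      (fun (i : ι) (y : ℝ) => if i = a then y else if i = b then y else 1)]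
    exact Finset.prod_eq_zero (Finset.mem_univ a) (by simp)

theorem integral_linear_mul (v : ℝ≥0) (c e : ι → ℝ) :
    ∫ z, (∑ a, c a * z a) * (∑ a, e a * z a) ∂gaussPi ι v = (v : ℝ) * ∑ a, c a * e a := by
  classical
  have hI : ∀ a b, Integrable (fun z : ι → ℝ => c a * e b * (z a * z b)) (gaussPi ι v) :=
    fun a b => (((expGrowth_coord a).mul (expGrowth_coord b)).const_mul _).integrable v
  have e1 : ∀ z : ι → ℝ, (∑ a, c a * z a) * (∑ a, e a * z a) =
      ∑ a, ∑ b, c a * e b * (z a * z b) := fun z => by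
    rw [Finset.sum_mul_sum]
    exact Finset.sum_congr rfl fun a _ => Finset.sum_congr rfl fun b _ => by ring
  simp only [e1]
  rw [integral_finsetSum _ fun a _ => integrable_finsetSum _ fun b _ => hI a b, Finset.mul_sum]
  refine Finset.sum_congr rfl fun a _ => ?_
  rw [integral_finsetSum _ fun b _ => hI a b]
  simp only [integral_const_mul, gaussPi_mul_coord, mul_ite, mul_zero, Finset.sum_ite_eq,
    Finset.mem_univ, if_true]
  ring

theorem exists_cross_remainder (hL : 0 ≤ L) (A : ℝ) :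
    ∃ C : ℝ, 0 ≤ C ∧ ∀ (hv : ℝ≥0), hv ≠ 0 → (hv : ℝ) ≤ 1 → ∀ (w : Ω → ℝ), (∀ x, 0 < w x) →
      ∀ S : Ω → ι → ℝ, (∀ x a, |S x a| ≤ 2) → ∀ U U' : (ι → ℝ) → ℝ, ∀ c c' : ι → ℝ,
      ExpGrowth U → ExpGrowth U' →
      (∀ z, |U z - ∑ a, c a * z a| ≤ A * stepSize hv z ^ 2 *
        Real.exp (stepRate ι L * stepSize hv z) ^ 4) →
      (∀ z, |U' z - ∑ a, c' a * z a| ≤ A * stepSize hv z ^ 2 *
        Real.exp (stepRate ι L * stepSize hv z) ^ 4) →
      (∀ z, |U z| ≤ A * stepSize hv z * Real.exp (stepRate ι L * stepSize hv z) ^ 4) →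
      (∀ z, |U' z| ≤ A * stepSize hv z * Real.exp (stepRate ι L * stepSize hv z) ^ 4) →
      (∀ z, |∑ a, c a * z a| ≤ A * stepSize hv z) →
      |∫ z, stepDens L hv S w z * (U z * U' z) ∂gaussPi ι hv - (hv : ℝ) * ∑ a, c a * c' a| ≤
        C * ((hv : ℝ) * Real.sqrt hv) := by
  obtain ⟨M, hM0, hM⟩ := exists_stepSize_moment (ι := ι) 3 (C := 9 * stepRate ι L)
    (by have := stepConst_one_le (ι := ι) hL; unfold stepRate; linarith)
  refine ⟨(stepConst ι L + 2) * A ^ 2 * M, by
    have := stepConst_one_le (ι := ι) hL; positivity, ?_⟩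
  intro hv hv0 h1 w hw S hS U U' c c' gU gU' rU rU' bU bU' bc
  have gW := expGrowth_stepDens hw hL h1 hS
  have gl : ∀ c : ι → ℝ, ExpGrowth fun z : ι → ℝ => ∑ a, c a * z a :=
    fun c => ExpGrowth.sum _ fun a _ => (expGrowth_coord a).const_mul _
  rw [← integral_linear_mul, ← integral_sub ((gW.mul (gU.mul gU')).integrable hv)
    (((gl c).mul (gl c')).integrable hv)]
  refine abs_integral_le_integral_abs.trans ?_
  have hbound : ∀ z, |stepDens L hv S w z * (U z * U' z) - (∑ a, c a * z a) * ∑ a, c' a * z a| ≤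
      (stepConst ι L + 2) * A ^ 2 *
        (stepSize hv z ^ 3 * Real.exp (9 * stepRate ι L * stepSize hv z)) := by
    intro z
    set P := stepSize hv z
    set E := Real.exp (stepRate ι L * P)
    have hP : 0 ≤ P := stepSize_nonneg _ _
    have hE : 1 ≤ E := one_le_exp_stepRate hL _ z
    have hE3 : Real.exp (9 * stepRate ι L * P) = E ^ 9 := by
      rw [← Real.exp_nat_mul]; push_cast; ring_nf
    rw [hE3]
    have e : stepDens L hv S w z * (U z * U' z) - (∑ a, c a * z a) * ∑ a, c' a * z a =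
        (stepDens L hv S w z - 1) * (U z * U' z) + (U z - ∑ a, c a * z a) * U' z +
          (∑ a, c a * z a) * (U' z - ∑ a, c' a * z a) := by ring
    rw [e]
    refine (abs_add_three _ _ _).trans ?_
    rw [abs_mul, abs_mul, abs_mul, abs_mul]
    have hA : 0 ≤ A ^ 2 * P ^ 3 := by positivity
    have hK := zero_le_one.trans (stepConst_one_le (ι := ι) hL)
    have t1 : |stepDens L hv S w z - 1| * (|U z| * |U' z|) ≤
        stepConst ι L * A ^ 2 * (P ^ 3 * E ^ 9) := by
      refine (mul_le_mul (abs_stepDens_sub_one_le hw hL h1 hS z)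
        (mul_le_mul (bU z) (bU' z) (abs_nonneg _) ((abs_nonneg _).trans (bU z)))
        (by positivity) (by positivity)).trans (le_of_eq (by ring))
    have t2 : |U z - ∑ a, c a * z a| * |U' z| ≤ A ^ 2 * (P ^ 3 * E ^ 9) := by
      refine (mul_le_mul (rU z) (bU' z) (abs_nonneg _) ((abs_nonneg _).trans (rU z))).trans ?_
      calc A * P ^ 2 * E ^ 4 * (A * P * E ^ 4) = A ^ 2 * P ^ 3 * E ^ 8 := by ring
        _ ≤ A ^ 2 * P ^ 3 * E ^ 9 := mul_le_mul_of_nonneg_left
            (pow_le_pow_right₀ hE (by norm_num)) hA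
        _ = _ := by ring
    have t3 : |∑ a, c a * z a| * |U' z - ∑ a, c' a * z a| ≤ A ^ 2 * (P ^ 3 * E ^ 9) := by
      refine (mul_le_mul (bc z) (rU' z) (abs_nonneg _) ((abs_nonneg _).trans (bc z))).trans ?_
      calc A * P * (A * P ^ 2 * E ^ 4) = A ^ 2 * P ^ 3 * E ^ 4 := by ring
        _ ≤ A ^ 2 * P ^ 3 * E ^ 9 := mul_le_mul_of_nonneg_left
            (pow_le_pow_right₀ hE (by norm_num)) hA
        _ = _ := by ring
    linarith
  have gR : ExpGrowth fun z : ι → ℝ => (stepConst ι L + 2) * A ^ 2 *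
      (stepSize hv z ^ 3 * Real.exp (9 * stepRate ι L * stepSize hv z)) := by
    refine ExpGrowth.const_mul (ExpGrowth.mul ?_ ?_) _
    · have := (expGrowth_const (Real.sqrt hv)).add
        (ExpGrowth.sum Finset.univ fun a _ => (expGrowth_coord (ι := ι) a).abs)
      simpa [pow_succ, stepSize] using (this.mul this).mul this
    · simpa using expGrowth_stepSize_exp (ι := ι) (hv : ℝ) 1 (9 * stepRate ι L)
  refine (integral_mono ((gW.mul (gU.mul gU')).sub ((gl c).mul (gl c')) |>.integrable hv).abs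
    (gR.integrable hv) hbound).trans ?_
  rw [integral_const_mul]
  refine (mul_le_mul_of_nonneg_left (hM hv h1)
    (by have := stepConst_one_le (ι := ι) hL; positivity)).trans (le_of_eq ?_)
  rw [show Real.sqrt hv ^ 3 = (hv : ℝ) * Real.sqrt hv by rw [pow_succ, Real.sq_sqrt (NNReal.coe_nonneg hv)]]; ring

theorem step_upgrade (hL : 0 ≤ L) {A x P : ℝ} (hA : 0 ≤ A) (hP : 0 ≤ P) {h : ℝ} {z : ι → ℝ}
    (hx : x ≤ A * P * Real.exp (stepRate ι L * stepSize h z)) :
    x ≤ A * P * Real.exp (stepRate ι L * stepSize h z) ^ 2 :=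
  hx.trans (mul_le_mul_of_nonneg_left
    (le_self_pow₀ (one_le_exp_stepRate hL h z) two_ne_zero) (mul_nonneg hA hP))

theorem delta_bounds (hw : ∀ x, 0 < w x) (hL : 0 ≤ L) (h1 : (hv : ℝ) ≤ 1)
    (hS : ∀ x a, |S x a| ≤ 2) {f : Ω → ℝ} (hf : ∀ x, |f x| ≤ B) (z : ι → ℝ) :
    |stepDelta L hv S w f z - stepLin L S w f z| ≤ 14 * stepConst ι L ^ 2 * B *
        stepSize hv z ^ 2 * Real.exp (stepRate ι L * stepSize hv z) ^ 2 ∧
    |stepDelta L hv S w f z| ≤ 14 * stepConst ι L ^ 2 * B *
        stepSize hv z * Real.exp (stepRate ι L * stepSize hv z) ^ 2 ∧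
    |stepLin L S w f z| ≤ 14 * stepConst ι L ^ 2 * B * stepSize hv z := by
  obtain ⟨x0⟩ := ‹Nonempty Ω›
  have hB : 0 ≤ B := (abs_nonneg _).trans (hf x0)
  have hK := stepConst_one_le (ι := ι) hL
  have hE := one_le_exp_stepRate (ι := ι) hL (hv : ℝ) z
  have hA : 0 ≤ stepConst ι L ^ 2 * B := by positivity
  have hP := stepSize_nonneg (hv : ℝ) z
  refine ⟨?_, step_upgrade hL (by positivity) hP (abs_stepDelta_le hw hL h1 hS hf z), ?_⟩
  · refine step_upgrade hL (by positivity) (sq_nonneg _) ?_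
    refine (abs_stepDelta_sub_lin_le hw hL h1 hS hf z).trans ?_
    refine le_trans ?_ (le_mul_of_one_le_right (by positivity) hE)
    exact mul_le_mul_of_nonneg_right (by linarith) (sq_nonneg _)
  · refine (abs_stepLin_le (hv := hv) hw hL hS hf z).trans (mul_le_mul_of_nonneg_right ?_ hP)
    have : stepConst ι L * B ≤ stepConst ι L ^ 2 * B :=
      mul_le_mul_of_nonneg_right (le_self_pow₀ hK two_ne_zero) hB
    linarith

theorem combine3 {m n a b c : ℝ} {B1 : ℝ} (hm : |m| ≤ 1) (hn : |n| ≤ B1) :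
    |a - m * b - n * c| ≤ |a| + |b| + B1 * |c| := by
  refine (abs_sub _ _).trans (add_le_add ((abs_sub _ _).trans (add_le_add le_rfl ?_)) ?_)
  · rw [abs_mul]; exact mul_le_of_le_one_left (abs_nonneg _) hm
  · rw [abs_mul]; exact mul_le_mul_of_nonneg_right hn (abs_nonneg _)

theorem covDelta_bounds (hw : ∀ x, 0 < w x) (hL : 0 ≤ L) (h1 : (hv : ℝ) ≤ 1)
    (hS : ∀ x a, |S x a| ≤ 2) {f g : Ω → ℝ} {B1 : ℝ} (hB1 : 1 ≤ B1) (hf : ∀ x, |f x| ≤ 1)
    (hg : ∀ x, |g x| ≤ B1) (z : ι → ℝ) :
    let U := stepDelta L hv S w (fun x => f x * g x) z - avg w f * stepDelta L hv S w g z -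
      avg w g * stepDelta L hv S w f z - stepDelta L hv S w f z * stepDelta L hv S w g z
    let l := stepLin L S w (fun x => f x * g x) z - avg w f * stepLin L S w g z -
      avg w g * stepLin L S w f z
    let A := 500 * stepConst ι L ^ 4 * B1
    |U - l| ≤ A * stepSize hv z ^ 2 * Real.exp (stepRate ι L * stepSize hv z) ^ 4 ∧
    |U| ≤ A * stepSize hv z * Real.exp (stepRate ι L * stepSize hv z) ^ 4 ∧
    |l| ≤ A * stepSize hv z := by
  intro U l A
  have hfg : ∀ x, |f x * g x| ≤ B1 := fun x => by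
    rw [abs_mul]
    exact (mul_le_mul (hf x) (hg x) (abs_nonneg _) zero_le_one).trans (le_of_eq (one_mul _))
  have hm : |avg w f| ≤ 1 := abs_avg_le hw hf
  have hn : |avg w g| ≤ B1 := abs_avg_le hw hg
  obtain ⟨r1, d1, l1⟩ := delta_bounds hw hL h1 hS hfg z
  obtain ⟨r2, d2, l2⟩ := delta_bounds hw hL h1 hS hg z
  obtain ⟨r3, d3, l3⟩ := delta_bounds hw hL h1 hS hf z
  have hdf2 : |stepDelta L hv S w f z| ≤ 2 := by
    refine (abs_sub _ _).trans ?_
    have := abs_avg_le (tilt_pos hw (stepXi L hv S z) 1) hf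
    simp only [stepAvg]; linarith
  have hP : 0 ≤ stepSize (hv : ℝ) z := stepSize_nonneg _ _
  have hE : 1 ≤ Real.exp (stepRate ι L * stepSize hv z) := one_le_exp_stepRate hL _ z
  have hK := stepConst_one_le (ι := ι) hL
  set K := stepConst ι L
  set P := stepSize (hv : ℝ) z
  set E := Real.exp (stepRate ι L * P)
  have hE24 : E ^ 2 ≤ E ^ 4 := pow_le_pow_right₀ hE (by norm_num)
  have hB0 : 0 ≤ B1 := zero_le_one.trans hB1
  have hA : 42 * K ^ 2 * B1 ≤ A := by
    have : K ^ 2 * B1 ≤ K ^ 4 * B1 :=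
      mul_le_mul_of_nonneg_right (pow_le_pow_right₀ hK (by norm_num)) hB0
    have : 0 ≤ K ^ 4 * B1 := by positivity
    simp only [A]; linarith
  have hlin : |l| ≤ A * P := by
    refine ((combine3 hm hn).trans ?_).trans (mul_le_mul_of_nonneg_right hA hP)
    have := mul_le_mul_of_nonneg_left l3 hB0
    linarith
  refine ⟨?_, ?_, hlin⟩
  · have hq : |stepDelta L hv S w f z * stepDelta L hv S w g z| ≤
        (14 * K ^ 2 * 1 * P * E ^ 2) * (14 * K ^ 2 * B1 * P * E ^ 2) := by
      rw [abs_mul]; exact mul_le_mul d3 d2 (abs_nonneg _) (by positivity)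
    have e : U - l = (stepDelta L hv S w (fun x => f x * g x) z -
        stepLin L S w (fun x => f x * g x) z) -
        avg w f * (stepDelta L hv S w g z - stepLin L S w g z) -
        avg w g * (stepDelta L hv S w f z - stepLin L S w f z) -
        stepDelta L hv S w f z * stepDelta L hv S w g z := by simp only [U, l]; ring
    rw [e]
    refine ((abs_sub _ _).trans (add_le_add ((combine3 hm hn).trans
      (add_le_add (add_le_add r1 r2) (mul_le_mul_of_nonneg_left r3 hB0))) hq)).trans ?_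
    calc 14 * K ^ 2 * B1 * P ^ 2 * E ^ 2 + 14 * K ^ 2 * B1 * P ^ 2 * E ^ 2 +
          B1 * (14 * K ^ 2 * 1 * P ^ 2 * E ^ 2) +
          14 * K ^ 2 * 1 * P * E ^ 2 * (14 * K ^ 2 * B1 * P * E ^ 2)
        = (42 * K ^ 2 * B1 * P ^ 2) * E ^ 2 + (196 * K ^ 4 * B1 * P ^ 2) * E ^ 4 := by ring
      _ ≤ (42 * K ^ 4 * B1 * P ^ 2) * E ^ 4 + (196 * K ^ 4 * B1 * P ^ 2) * E ^ 4 := by
          refine add_le_add (mul_le_mul ?_ hE24 (by positivity) (by positivity)) le_rfl
          exact mul_le_mul_of_nonneg_right (mul_le_mul_of_nonneg_right (mul_le_mul_of_nonneg_left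
            (pow_le_pow_right₀ hK (by norm_num)) (by norm_num)) hB0) (sq_nonneg _)
      _ ≤ _ := by
          have : 0 ≤ K ^ 4 * B1 * P ^ 2 * E ^ 4 := by positivity
          simp only [A]; linarith
  · have hq : |stepDelta L hv S w f z * stepDelta L hv S w g z| ≤
        2 * (14 * K ^ 2 * B1 * P * E ^ 2) := by
      rw [abs_mul]; exact mul_le_mul hdf2 d2 (abs_nonneg _) zero_le_two
    refine ((abs_sub _ _).trans (add_le_add ((combine3 hm hn).trans
      (add_le_add (add_le_add d1 d2) (mul_le_mul_of_nonneg_left d3 hB0))) hq)).trans ?_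
    calc 14 * K ^ 2 * B1 * P * E ^ 2 + 14 * K ^ 2 * B1 * P * E ^ 2 +
          B1 * (14 * K ^ 2 * 1 * P * E ^ 2) + 2 * (14 * K ^ 2 * B1 * P * E ^ 2)
        = (70 * K ^ 2 * B1 * P) * E ^ 2 := by ring
      _ ≤ (500 * K ^ 4 * B1 * P) * E ^ 4 := by
          refine mul_le_mul ?_ hE24 (by positivity) (by positivity)
          refine mul_le_mul_of_nonneg_right (mul_le_mul_of_nonneg_right ?_ hB0) hP
          have : K ^ 2 ≤ K ^ 4 := pow_le_pow_right₀ hK (by norm_num)
          nlinarith
      _ = _ := by simp only [A, K]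

/-- The covariance update. -/
theorem exists_cov_sq_step (hL : 0 ≤ L) (B : ℝ) :
    ∃ C : ℝ, 0 ≤ C ∧ ∀ (hv : ℝ≥0), hv ≠ 0 → (hv : ℝ) ≤ 1 → ∀ (w : Ω → ℝ), (∀ x, 0 < w x) →
      ∀ S : Ω → ι → ℝ, (∀ x a, |S x a| ≤ 2) → ∀ f g : Ω → ℝ, (∀ x, |f x| ≤ 1) → (∀ x, |g x| ≤ B) →
      ∫ z, stepDens L hv S w z * cov (tilt w (stepXi L hv S z) 1) f g ^ 2 ∂gaussPi ι hv ≤
        cov w f g ^ 2 -
          2 * cov w f g * ((hv : ℝ) * L ^ 2 *
            ∑ a, cov w f (fun x => S x a) * cov w g (fun x => S x a)) +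
        (hv : ℝ) * L ^ 2 * ∑ a, cum3 w f g (fun x => S x a) ^ 2 + C * ((hv : ℝ) * Real.sqrt hv) := by
  set B1 := |B| + 1 with hB1
  set A := 500 * stepConst ι L ^ 4 * B1 with hA
  have hK1 : 1 ≤ stepConst ι L := stepConst_one_le hL
  obtain ⟨C1, hC1, hcross⟩ := exists_cross_remainder (Ω := Ω) (ι := ι) hL A
  refine ⟨(2 * B1 * 2 + 1) * C1, by positivity, ?_⟩
  intro hv hv0 h1 w hw S hS f g hf hg
  have hB0 : 1 ≤ B1 := le_add_of_nonneg_left (abs_nonneg B)
  have hg1 : ∀ x, |g x| ≤ B1 := fun x => (hg x).trans ((le_abs_self B).trans (by simp [hB1]))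
  have hf1 : ∀ x, |f x| ≤ B1 := fun x => (hf x).trans hB0
  have hfg : ∀ x, |f x * g x| ≤ B1 := fun x => by
    rw [abs_mul]
    exact (mul_le_mul (hf x) (hg1 x) (abs_nonneg _) zero_le_one).trans (le_of_eq (one_mul _))
  set m := avg w f with hm
  set n := avg w g with hn
  set W := stepDens L hv S w
  set df := stepDelta L hv S w f
  set dg := stepDelta L hv S w g
  set dfg := stepDelta L hv S w (fun x => f x * g x)
  set U := fun z => dfg z - m * dg z - n * df z - df z * dg z
  set cf := fun a => L * cov w f (fun x => S x a)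
  set cg := fun a => L * cov w g (fun x => S x a)
  set cu := fun a => L * cum3 w f g (fun x => S x a)
  have hU : ∀ z, cov (tilt w (stepXi L hv S z) 1) f g = cov w f g + U z := by
    intro z
    simp only [U, df, dg, dfg, stepDelta, stepAvg, cov, m, n]
    ring
  have hcu : ∀ z : ι → ℝ, ∑ a, cu a * z a = stepLin L S w (fun x => f x * g x) z -
      m * stepLin L S w g z - n * stepLin L S w f z := by
    intro z
    simp only [stepLin, Finset.mul_sum, ← Finset.sum_sub_distrib, cu, cum3, m, n]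
    exact Finset.sum_congr rfl fun a _ => by ring
  have gW : ExpGrowth W := expGrowth_stepDens hw hL h1 hS
  have gdf : ExpGrowth df := expGrowth_stepDelta hw hf1
  have gdg : ExpGrowth dg := expGrowth_stepDelta hw hg1
  have gdfg : ExpGrowth dfg := expGrowth_stepDelta hw hfg
  have gU : ExpGrowth U :=
    ((gdfg.sub (gdg.const_mul m)).sub (gdf.const_mul n)).sub (gdf.mul gdg)
  have up : ∀ {f0 : Ω → ℝ}, (∀ x, |f0 x| ≤ B1) → ∀ z,
      |stepDelta L hv S w f0 z - ∑ a, L * cov w f0 (fun x => S x a) * z a| ≤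
        A * stepSize hv z ^ 2 * Real.exp (stepRate ι L * stepSize hv z) ^ 4 ∧
      |stepDelta L hv S w f0 z| ≤
        A * stepSize hv z * Real.exp (stepRate ι L * stepSize hv z) ^ 4 ∧
      |∑ a, L * cov w f0 (fun x => S x a) * z a| ≤ A * stepSize hv z := by
    intro f0 hf0 z
    obtain ⟨r, dd, l⟩ := delta_bounds hw hL h1 hS hf0 z
    have hP := stepSize_nonneg (hv : ℝ) z
    have hAA : 14 * stepConst ι L ^ 2 * B1 ≤ A := by
      rw [hA]
      refine mul_le_mul_of_nonneg_right ?_ (by linarith)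
      have : stepConst ι L ^ 2 ≤ stepConst ι L ^ 4 := pow_le_pow_right₀ hK1 (by norm_num)
      nlinarith
    have hE : Real.exp (stepRate ι L * stepSize hv z) ^ 2 ≤
        Real.exp (stepRate ι L * stepSize hv z) ^ 4 :=
      pow_le_pow_right₀ (one_le_exp_stepRate hL _ z) (by norm_num)
    exact ⟨r.trans (mul_le_mul (mul_le_mul_of_nonneg_right hAA (sq_nonneg _)) hE (by positivity)
        (by positivity)),
      dd.trans (mul_le_mul (mul_le_mul_of_nonneg_right hAA hP) hE (by positivity) (by positivity)),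
      l.trans (mul_le_mul_of_nonneg_right hAA hP)⟩
  have h1st : |∫ z, W z * (df z * dg z) ∂gaussPi ι hv - (hv : ℝ) * ∑ a, cf a * cg a| ≤
      C1 * ((hv : ℝ) * Real.sqrt hv) :=
    hcross hv hv0 h1 w hw S hS df dg cf cg gdf gdg (fun z => (up hf1 z).1) (fun z => (up hg1 z).1)
      (fun z => (up hf1 z).2.1) (fun z => (up hg1 z).2.1) (fun z => (up hf1 z).2.2)
  have hres : ∀ z, |U z - ∑ a, cu a * z a| ≤
      A * stepSize hv z ^ 2 * Real.exp (stepRate ι L * stepSize hv z) ^ 4 := fun z => by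
    rw [hcu]; exact (covDelta_bounds hw hL h1 hS hB0 hf hg1 z).1
  have hUb : ∀ z, |U z| ≤ A * stepSize hv z * Real.exp (stepRate ι L * stepSize hv z) ^ 4 :=
    fun z => (covDelta_bounds hw hL h1 hS hB0 hf hg1 z).2.1
  have h2nd : |∫ z, W z * (U z * U z) ∂gaussPi ι hv - (hv : ℝ) * ∑ a, cu a * cu a| ≤
      C1 * ((hv : ℝ) * Real.sqrt hv) :=
    hcross hv hv0 h1 w hw S hS U U cu cu gU gU hres hres hUb hUb
      (fun z => by rw [hcu]; exact (covDelta_bounds hw hL h1 hS hB0 hf hg1 z).2.2)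
  set M := cov w f g
  have hM : |M| ≤ 2 * B1 := (abs_cov_le hw hf hg1).trans (le_of_eq (by ring))
  have hWU : ∫ z, W z * U z ∂gaussPi ι hv = -∫ z, W z * (df z * dg z) ∂gaussPi ι hv := by
    have i1 : Integrable (fun z => W z * dfg z) (gaussPi ι hv) := (gW.mul gdfg).integrable hv
    have i2 : Integrable (fun z => m * (W z * dg z)) (gaussPi ι hv) :=
      ((gW.mul gdg).const_mul m).integrable hv
    have i3 : Integrable (fun z => n * (W z * df z)) (gaussPi ι hv) :=
      ((gW.mul gdf).const_mul n).integrable hv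
    have i4 : Integrable (fun z => W z * (df z * dg z)) (gaussPi ι hv) :=
      (gW.mul (gdf.mul gdg)).integrable hv
    have i12 : Integrable (fun z => W z * dfg z - m * (W z * dg z)) (gaussPi ι hv) := i1.sub i2
    have i123 : Integrable (fun z => W z * dfg z - m * (W z * dg z) - n * (W z * df z))
        (gaussPi ι hv) := i12.sub i3
    have e : ∀ z, W z * U z =
        W z * dfg z - m * (W z * dg z) - n * (W z * df z) - W z * (df z * dg z) := fun z => by
      simp only [U]; ring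
    simp only [e]
    rw [integral_sub i123 i4, integral_sub i12 i3, integral_sub i1 i2, integral_const_mul,
      integral_const_mul, integral_stepDens_delta hv0 hw hL h1 hS hfg,
      integral_stepDens_delta hv0 hw hL h1 hS hf, integral_stepDens_delta hv0 hw hL h1 hS hg1]
    simp
  have i0 : Integrable (fun z => M ^ 2 * W z) (gaussPi ι hv) := (gW.const_mul _).integrable hv
  have i1 : Integrable (fun z => 2 * M * (W z * U z)) (gaussPi ι hv) :=
    ((gW.mul gU).const_mul _).integrable hv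
  have i2 : Integrable (fun z => W z * (U z * U z)) (gaussPi ι hv) :=
    (gW.mul (gU.mul gU)).integrable hv
  have i01 : Integrable (fun z => M ^ 2 * W z + 2 * M * (W z * U z)) (gaussPi ι hv) := i0.add i1
  have e : ∀ z, W z * cov (tilt w (stepXi L hv S z) 1) f g ^ 2 =
      M ^ 2 * W z + 2 * M * (W z * U z) + W z * (U z * U z) := fun z => by
    rw [hU]; ring
  simp only [e]
  rw [integral_add i01 i2, integral_add i0 i1, integral_const_mul, integral_const_mul, hWU]
  have hone : ∫ z, W z ∂gaussPi ι hv = 1 := integral_stepDens hv0 hw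
  rw [hone]
  have e1 : ∑ a, cf a * cg a =
      L ^ 2 * ∑ a, cov w f (fun x => S x a) * cov w g (fun x => S x a) := by
    rw [Finset.mul_sum]; exact Finset.sum_congr rfl fun a _ => by simp only [cf, cg]; ring
  have e2 : ∑ a, cu a * cu a = L ^ 2 * ∑ a, cum3 w f g (fun x => S x a) ^ 2 := by
    rw [Finset.mul_sum]; exact Finset.sum_congr rfl fun a _ => by simp only [cu]; ring
  rw [e1] at h1st
  rw [e2] at h2nd
  have hh : 0 ≤ C1 * ((hv : ℝ) * Real.sqrt hv) := mul_nonneg hC1 (by positivity)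
  have hc : |M * (∫ z, W z * (df z * dg z) ∂gaussPi ι hv - (hv : ℝ) * (L ^ 2 *
      ∑ a, cov w f (fun x => S x a) * cov w g (fun x => S x a)))| ≤
      2 * B1 * (C1 * ((hv : ℝ) * Real.sqrt hv)) := by
    rw [abs_mul]; exact mul_le_mul hM h1st (abs_nonneg _) (by linarith)
  nlinarith [(abs_le.mp hc).1, (abs_le.mp h2nd).2]

/-- A tilted variance does not increase in mean. -/
theorem cov_self_step_le (hv0 : hv ≠ 0) (hw : ∀ x, 0 < w x) (hL : 0 ≤ L) (h1 : (hv : ℝ) ≤ 1)
    (hS : ∀ x a, |S x a| ≤ 2) {g : Ω → ℝ} (hg : ∀ x, |g x| ≤ B) :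
    ∫ z, stepDens L hv S w z * cov (tilt w (stepXi L hv S z) 1) g g ∂gaussPi ι hv ≤ cov w g g := by
  have hgg : ∀ x, |g x * g x| ≤ B * B := fun x => by
    rw [abs_mul]; exact mul_le_mul (hg x) (hg x) (abs_nonneg _) ((abs_nonneg _).trans (hg x))
  set n := avg w g with hn
  set W := stepDens L hv S w with hW
  set dg := stepDelta L hv S w g with hdg
  set d2 := stepDelta L hv S w (fun x => g x * g x) with hd2
  have gW : ExpGrowth W := expGrowth_stepDens hw hL h1 hS
  have gdg : ExpGrowth dg := expGrowth_stepDelta hw hg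
  have gd2 : ExpGrowth d2 := expGrowth_stepDelta hw hgg
  have i0 : Integrable (fun z => cov w g g * W z) (gaussPi ι hv) :=
    (gW.const_mul _).integrable hv
  have i1 : Integrable (fun z => W z * d2 z) (gaussPi ι hv) := (gW.mul gd2).integrable hv
  have i2 : Integrable (fun z => 2 * n * (W z * dg z)) (gaussPi ι hv) :=
    ((gW.mul gdg).const_mul _).integrable hv
  have i3 : Integrable (fun z => W z * dg z ^ 2) (gaussPi ι hv) := (gW.mul gdg.sq).integrable hv
  have i01 : Integrable (fun z => cov w g g * W z + W z * d2 z) (gaussPi ι hv) := i0.add i1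
  have i012 : Integrable (fun z => cov w g g * W z + W z * d2 z - 2 * n * (W z * dg z))
      (gaussPi ι hv) := i01.sub i2
  have e : ∀ z, W z * cov (tilt w (stepXi L hv S z) 1) g g =
      cov w g g * W z + W z * d2 z - 2 * n * (W z * dg z) - W z * dg z ^ 2 := fun z => by
    simp only [hdg, hd2, stepDelta, stepAvg, cov, hn]; ring
  simp only [e]
  rw [integral_sub i012 i3, integral_sub i01 i2, integral_add i0 i1, integral_const_mul,
    integral_const_mul, integral_stepDens hv0 hw, hW, hd2, hdg,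
    integral_stepDens_delta hv0 hw hL h1 hS hgg, integral_stepDens_delta hv0 hw hL h1 hS hg]
  have h0 : 0 ≤ ∫ z, stepDens L hv S w z * stepDelta L hv S w g z ^ 2 ∂gaussPi ι hv :=
    integral_nonneg fun z => mul_nonneg (by
      rw [stepDens, ← avg_const hw (0 : ℝ)]
      exact avg_mono hw fun x => (Real.exp_pos _).le) (sq_nonneg _)
  linarith

end Vale.Agent.P161
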