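import Vale.Agent.P161.Crit.Propag
import Vale.Agent.P161.Crit.Step

/-!
# One step of a linear statistic moved along its own covariances
-/

namespace Vale.Agent.P161

open MeasureTheory ProbabilityTheory
open scoped NNReal Classical

variable {Ω : Type*} [Fintype Ω] [Nonempty Ω] {ι : Type*} [Fintype ι]

/-- The statistic after one step. -/
noncomputable def linNext (L h : ℝ) (S : Ω → ι → ℝ) (w X : Ω → ℝ) : Ω → ℝ :=
  fun η => X η + h * L ^ 2 * ∑ a, cov w X (fun x => S x a) * S η a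

theorem cum3_swap (w f g k : Ω → ℝ) : cum3 w f g k = cum3 w f k g := by
  have e : (fun x => f x * g x * k x) = fun x => f x * k x * g x := funext fun x => by ring
  have e' : (fun x => g x * k x) = fun x => k x * g x := funext fun x => mul_comm _ _
  simp only [cum3, cov, e, e']
  ring

theorem cum3_add_right (w f g k k' : Ω → ℝ) :
    cum3 w f g (fun x => k x + k' x) = cum3 w f g k + cum3 w f g k' := by
  simp only [cum3, cov_add_right]; ring

theorem cum3_mul_right (w f g : Ω → ℝ) (c : ℝ) (k : Ω → ℝ) :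
    cum3 w f g (fun x => c * k x) = c * cum3 w f g k := by
  simp only [cum3, cov_mul_right]; ring

theorem cum3_sum_right {κ : Type*} (w f g : Ω → ℝ) (s : Finset κ) (k : κ → Ω → ℝ) :
    cum3 w f g (fun x => ∑ j ∈ s, k j x) = ∑ j ∈ s, cum3 w f g (k j) := by
  simp only [cum3, cov_sum_right, Finset.mul_sum, Finset.sum_sub_distrib]

theorem abs_sum_mul_le {u v : ι → ℝ} {A B : ℝ} (hA : 0 ≤ A) (hu : ∀ a, |u a| ≤ A)
    (hv : ∀ a, |v a| ≤ B) : |∑ a, u a * v a| ≤ (Fintype.card ι : ℝ) * (A * B) := by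
  refine (Finset.abs_sum_le_sum_abs _ _).trans ((Finset.sum_le_sum (g := fun _ => A * B)
    fun a _ => ?_).trans (le_of_eq (by simp)))
  rw [abs_mul]
  exact mul_le_mul (hu a) (hv a) (abs_nonneg _) hA

theorem step_algebra {h M a c C1 : ℝ} (hh : 0 ≤ h) (hh1 : h ≤ 1) (ha : |a| ≤ C1) (hc : |c| ≤ C1)
    (hM : |M| ≤ C1) :
    (M + h * a) ^ 2 - 2 * (M + h * a) * (h * (a + h * c)) ≤
      M ^ 2 + 6 * C1 ^ 2 * (h * Real.sqrt h) := by
  have hC : 0 ≤ C1 := (abs_nonneg _).trans ha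
  have h1 : |M * c| ≤ C1 ^ 2 := by
    rw [abs_mul, sq]; exact mul_le_mul hM hc (abs_nonneg _) hC
  have h2 : |a * c| ≤ C1 ^ 2 := by
    rw [abs_mul, sq]; exact mul_le_mul ha hc (abs_nonneg _) hC
  have hs : h * h ≤ h * Real.sqrt h :=
    mul_le_mul_of_nonneg_left (Real.le_sqrt_of_sq_le (by nlinarith)) hh
  have hh3 : h * h * h ≤ h * h := mul_le_of_le_one_right (by positivity) hh1
  have e : (M + h * a) ^ 2 - 2 * (M + h * a) * (h * (a + h * c)) =
      M ^ 2 - h * h * a ^ 2 - 2 * (h * h) * (M * c) - 2 * (h * h * h) * (a * c) := by ring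
  rw [e]
  nlinarith [mul_le_mul_of_nonneg_left (abs_le.mp h1).1 (mul_nonneg hh hh),
    mul_le_mul_of_nonneg_left (abs_le.mp h2).1 (mul_nonneg (mul_nonneg hh hh) hh),
    mul_le_mul_of_nonneg_right hh3 (sq_nonneg C1), mul_le_mul_of_nonneg_right hs (sq_nonneg C1),
    mul_nonneg (mul_nonneg hh hh) (sq_nonneg a)]

variable {L B : ℝ}

theorem cum3_next_sq_le {h C1 B0 : ℝ} {w f X : Ω → ℝ} {S : Ω → ι → ℝ} {c : ι → ℝ}
    (hw : ∀ x, 0 < w x) (hh0 : 0 ≤ h) (h1 : h ≤ 1) (hS : ∀ x a, |S x a| ≤ 2)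
    (hf : ∀ x, |f x| ≤ 1) (hX : ∀ x, |X x| ≤ B0) (hc : ∀ a, |c a| ≤ 4 * B0) (a : ι)
    (hC12 : 1 * (1 * (12 * B0)) ≤ C1)
    (hC96 : L ^ 2 * ((Fintype.card ι : ℝ) * (4 * B0 * 24)) ≤ C1) :
    cum3 w f (fun x => X x + h * L ^ 2 * ∑ b, c b * S x b) (fun x => S x a) ^ 2 ≤
      cum3 w f X (fun x => S x a) ^ 2 + h * (3 * C1 ^ 2) := by
  obtain ⟨x0⟩ := ‹Nonempty Ω›
  have hB0 : 0 ≤ B0 := (abs_nonneg _).trans (hX x0)
  set T0 := cum3 w f X (fun x => S x a) with hT0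
  set R0 := L ^ 2 * ∑ b, c b * cum3 w f (fun x => S x b) (fun x => S x a) with hR0
  have he : cum3 w f (fun x => X x + h * L ^ 2 * ∑ b, c b * S x b) (fun x => S x a) =
      T0 + h * R0 := by
    rw [cum3_swap, cum3_add_right, cum3_mul_right, cum3_sum_right, cum3_swap, hT0, hR0,
      mul_assoc]
    congr 3
    refine Finset.sum_congr rfl fun b _ => ?_
    rw [cum3_mul_right, cum3_swap]
  have hT : |T0| ≤ C1 :=
    ((abs_cum3_le hw hf hX fun x => hS x a).trans (le_of_eq (by ring))).trans hC12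
  have hR0B : |R0| ≤ C1 := by
    rw [hR0, abs_mul, abs_of_nonneg (sq_nonneg L)]
    refine (mul_le_mul_of_nonneg_left (abs_sum_mul_le (by positivity) hc fun b =>
      abs_cum3_le hw hf (fun x => hS x b) fun x => hS x a) (sq_nonneg L)).trans ?_
    exact le_of_eq_of_le (by ring) hC96
  rw [he]
  have hC10 : 0 ≤ C1 := (abs_nonneg _).trans hT
  have hTR : |T0 * R0| ≤ C1 ^ 2 := by
    rw [abs_mul, sq]; exact mul_le_mul hT hR0B (abs_nonneg _) hC10
  have hR2 : R0 ^ 2 ≤ C1 ^ 2 := by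
    rw [← sq_abs R0]; exact pow_le_pow_left₀ (abs_nonneg _) hR0B 2
  nlinarith [mul_le_mul_of_nonneg_left (abs_le.mp hTR).2 hh0,
    mul_le_mul_of_nonneg_left (mul_le_mul h1 hR2 (sq_nonneg _) zero_le_one) hh0]

theorem le_one_add_sq {x : ℝ} (hx : 0 ≤ x) : x ≤ (1 + x) ^ 2 ∧ x * x ≤ (1 + x) ^ 2 :=
  ⟨by nlinarith, by nlinarith⟩

theorem mul_self_le_mul_sqrt {h : ℝ} (h0 : 0 ≤ h) (h1 : h ≤ 1) : h * h ≤ h * Real.sqrt h :=
  mul_le_mul_of_nonneg_left (Real.le_sqrt_of_sq_le (by nlinarith)) h0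

/-- The squared covariance with the moved statistic is a martingale up to the cumulants. -/
theorem exists_lin_U_step (hL : 0 ≤ L) (B : ℝ) :
    ∃ C : ℝ, 0 ≤ C ∧ ∀ (hv : ℝ≥0), hv ≠ 0 → (hv : ℝ) ≤ 1 → ∀ (w : Ω → ℝ), (∀ x, 0 < w x) →
      ∀ S : Ω → ι → ℝ, (∀ x a, |S x a| ≤ 2) → ∀ f X : Ω → ℝ, (∀ x, |f x| ≤ 1) → (∀ x, |X x| ≤ B) →
      ∫ z, stepDens L hv S w z *
          cov (tilt w (stepXi L hv S z) 1) f (linNext L hv S w X) ^ 2 ∂gaussPi ι hv ≤
        cov w f X ^ 2 + (hv : ℝ) * L ^ 2 * ∑ a, cum3 w f X (fun x => S x a) ^ 2 +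
          C * ((hv : ℝ) * Real.sqrt hv) := by
  set n := (Fintype.card ι : ℝ) with hn
  set B0 := |B| + 1 with hB0
  set B1 := B0 + L ^ 2 * (n * (4 * B0 * 2)) with hB1
  obtain ⟨C0, hC0, hstep⟩ := exists_cov_sq_step (Ω := Ω) (ι := ι) hL B1
  set C1 := (1 + L ^ 2) ^ 2 * ((1 + n) ^ 2 * (200 * B0)) with hC1
  have hn0 : 0 ≤ n := Nat.cast_nonneg _
  have hl0 : 0 ≤ L ^ 2 := sq_nonneg _
  refine ⟨C0 + 6 * C1 ^ 2 + L ^ 2 * (n * (3 * C1 ^ 2)), by positivity, ?_⟩
  intro hv hv0 h1 w hw S hS f X hf hX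
  have hh0 : 0 ≤ (hv : ℝ) := NNReal.coe_nonneg hv
  have hB00 : 1 ≤ B0 := le_add_of_nonneg_left (abs_nonneg B)
  have hX0 : ∀ x, |X x| ≤ B0 := fun x => (hX x).trans (by rw [hB0]; linarith [le_abs_self B])
  set c := fun a => cov w X (fun x => S x a) with hc
  have hcB : ∀ a, |c a| ≤ 4 * B0 := fun a =>
    (abs_cov_le hw hX0 fun x => hS x a).trans (le_of_eq (by ring))
  set X' := linNext L hv S w X with hX'
  have hX'B : ∀ x, |X' x| ≤ B1 := by
    intro x
    refine (abs_add_le _ _).trans (add_le_add (hX0 x) ?_)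
    rw [abs_mul, abs_of_nonneg (mul_nonneg hh0 hl0)]
    exact mul_le_mul (mul_le_of_le_one_left hl0 h1) (abs_sum_mul_le (by positivity) hcB (hS x))
      (abs_nonneg _) hl0
  refine (hstep hv hv0 h1 w hw S hS f X' hf hX'B).trans ?_
  set P := fun a => cov w f (fun x => S x a) with hP
  set R := fun a b => cov w (fun x => S x b) (fun x => S x a) with hR
  set a1 := L ^ 2 * ∑ a, P a * c a with ha1
  set c1 := L ^ 2 * L ^ 2 * ∑ a, P a * ∑ b, c b * R a b with hc1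
  have hPB : ∀ a, |P a| ≤ 4 := fun a =>
    (abs_cov_le hw hf fun x => hS x a).trans (le_of_eq (by norm_num))
  have hRB : ∀ a b, |R a b| ≤ 8 := fun a b =>
    (abs_cov_le hw (fun x => hS x b) fun x => hS x a).trans (le_of_eq (by norm_num))
  have o1 : (1 : ℝ) ≤ (1 + L ^ 2) ^ 2 := one_le_pow₀ (le_add_of_nonneg_right hl0)
  have o2 : (1 : ℝ) ≤ (1 + n) ^ 2 := one_le_pow₀ (le_add_of_nonneg_right hn0)
  obtain ⟨hn1, hn2⟩ := le_one_add_sq hn0
  obtain ⟨hl1, hl2⟩ := le_one_add_sq hl0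
  have hb : ∀ x y k : ℝ, 0 ≤ y → 0 ≤ x → x ≤ (1 + L ^ 2) ^ 2 → y ≤ (1 + n) ^ 2 → 0 ≤ k → k ≤ 200 →
      x * (y * (k * B0)) ≤ C1 := fun x y k hy hx hx' hy' hk hk' => by
    rw [hC1]
    exact mul_le_mul hx' (mul_le_mul hy' (mul_le_mul_of_nonneg_right hk' (by linarith))
      (by positivity) (by positivity)) (by positivity) (by positivity)
  have ha1B : |a1| ≤ C1 := by
    rw [ha1, abs_mul, abs_of_nonneg hl0]
    refine (mul_le_mul_of_nonneg_left (abs_sum_mul_le (by norm_num) hPB hcB) hl0).trans ?_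
    exact le_of_eq_of_le (by ring) (hb (L ^ 2) n 16 hn0 hl0 hl1 hn1 (by norm_num) (by norm_num))
  have hc1B : |c1| ≤ C1 := by
    rw [hc1, abs_mul, abs_of_nonneg (by positivity : 0 ≤ L ^ 2 * L ^ 2)]
    refine (mul_le_mul_of_nonneg_left (abs_sum_mul_le (by norm_num) hPB
      fun a => abs_sum_mul_le (by positivity) hcB (hRB a)) (by positivity)).trans ?_
    exact le_of_eq_of_le (by ring)
      (hb (L ^ 2 * L ^ 2) (n * n) 128 (by positivity) (by positivity) hl2 hn2 (by norm_num)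
        (by norm_num))
  have hMB : |cov w f X| ≤ C1 := ((abs_cov_le hw hf hX0).trans (le_of_eq (by ring))).trans
    (hb 1 1 2 zero_le_one zero_le_one o1 o2 (by norm_num) (by norm_num))
  have hXeq : X' = fun x => X x + (hv : ℝ) * L ^ 2 * ∑ a, c a * S x a := rfl
  have hM : cov w f X' = cov w f X + (hv : ℝ) * a1 := by
    rw [hXeq, cov_add_right, cov_mul_right, cov_sum_right]
    simp only [cov_mul_right, ha1, hP, Finset.mul_sum]
    congr 1
    exact Finset.sum_congr rfl fun a _ => by ring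
  have hQ : ∀ a, cov w X' (fun x => S x a) = c a + (hv : ℝ) * L ^ 2 * ∑ b, c b * R a b := by
    intro a
    rw [hXeq, cov_add_left, cov_mul_left, cov_sum_left]
    simp only [cov_mul_left, hR, hc]
  have hS2 : (hv : ℝ) * L ^ 2 * ∑ a, cov w f (fun x => S x a) * cov w X' (fun x => S x a) =
      (hv : ℝ) * (a1 + (hv : ℝ) * c1) := by
    simp only [hQ, mul_add, Finset.sum_add_distrib, ha1, hc1, Finset.mul_sum, hP]
    congr 1
    · exact Finset.sum_congr rfl fun a _ => by ring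
    · exact Finset.sum_congr rfl fun a _ => Finset.sum_congr rfl fun b _ => by ring
  rw [hS2, hM]
  have halg := step_algebra hh0 h1 ha1B hc1B hMB
  have hcubic : ∀ a, cum3 w f X' (fun x => S x a) ^ 2 ≤
      cum3 w f X (fun x => S x a) ^ 2 + (hv : ℝ) * (3 * C1 ^ 2) := fun a =>
    cum3_next_sq_le hw hh0 h1 hS hf hX0 hcB a
      (hb 1 1 12 zero_le_one zero_le_one o1 o2 (by norm_num) (by norm_num))
      (le_of_eq_of_le (by ring) (hb (L ^ 2) n 96 hn0 hl0 hl1 hn1 (by norm_num) (by norm_num)))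
  have hsum3 : (hv : ℝ) * L ^ 2 * ∑ a, cum3 w f X' (fun x => S x a) ^ 2 ≤
      (hv : ℝ) * L ^ 2 * ∑ a, cum3 w f X (fun x => S x a) ^ 2 +
        L ^ 2 * (n * (3 * C1 ^ 2)) * ((hv : ℝ) * hv) := by
    refine (mul_le_mul_of_nonneg_left (Finset.sum_le_sum fun a _ => hcubic a)
      (mul_nonneg hh0 hl0)).trans (le_of_eq ?_)
    rw [Finset.sum_add_distrib, Finset.sum_const, Finset.card_univ, nsmul_eq_mul, hn]
    ring
  have hsq : (hv : ℝ) * hv ≤ hv * Real.sqrt hv := mul_self_le_mul_sqrt hh0 h1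
  have := mul_le_mul_of_nonneg_left hsq (show 0 ≤ L ^ 2 * (n * (3 * C1 ^ 2)) by positivity)
  linarith

/-- The variance of the moved statistic grows at most by twice its squared covariances. -/
theorem exists_lin_N_step (hL : 0 ≤ L) (B : ℝ) :
    ∃ C : ℝ, 0 ≤ C ∧ ∀ (hv : ℝ≥0), hv ≠ 0 → (hv : ℝ) ≤ 1 → ∀ (w : Ω → ℝ), (∀ x, 0 < w x) →
      ∀ S : Ω → ι → ℝ, (∀ x a, |S x a| ≤ 2) → ∀ X : Ω → ℝ, (∀ x, |X x| ≤ B) →
      ∫ z, stepDens L hv S w z *
          cov (tilt w (stepXi L hv S z) 1) (linNext L hv S w X) (linNext L hv S w X)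
          ∂gaussPi ι hv ≤
        cov w X X + 2 * ((hv : ℝ) * L ^ 2) * ∑ a, cov w X (fun x => S x a) ^ 2 +
          C * ((hv : ℝ) * Real.sqrt hv) := by
  set n := (Fintype.card ι : ℝ) with hn
  set B0 := |B| + 1 with hB0
  refine ⟨L ^ 2 * L ^ 2 * (n * (4 * B0 * (n * (4 * B0 * 8)))), by positivity, ?_⟩
  intro hv hv0 h1 w hw S hS X hX
  have hh0 : 0 ≤ (hv : ℝ) := NNReal.coe_nonneg hv
  have hl0 : 0 ≤ L ^ 2 := sq_nonneg _
  have hX0 : ∀ x, |X x| ≤ B0 := fun x => (hX x).trans (by rw [hB0]; linarith [le_abs_self B])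
  set c := fun a => cov w X (fun x => S x a) with hc
  have hcB : ∀ a, |c a| ≤ 4 * B0 := fun a =>
    (abs_cov_le hw hX0 fun x => hS x a).trans (le_of_eq (by ring))
  have hX'B : ∀ x, |linNext L hv S w X x| ≤ B0 + L ^ 2 * (n * (4 * B0 * 2)) := by
    intro x
    refine (abs_add_le _ _).trans (add_le_add (hX0 x) ?_)
    rw [abs_mul, abs_of_nonneg (mul_nonneg hh0 hl0)]
    exact mul_le_mul (mul_le_of_le_one_left hl0 h1) (abs_sum_mul_le (by positivity) hcB (hS x))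
      (abs_nonneg _) hl0
  refine (cov_self_step_le hv0 hw hL h1 hS hX'B).trans ?_
  set T := fun x => ∑ a, c a * S x a with hT
  have e1 : linNext L hv S w X = fun x => X x + (hv : ℝ) * L ^ 2 * T x := rfl
  have hXT : cov w X T = ∑ a, c a ^ 2 := by
    rw [hT, cov_sum_right]
    exact Finset.sum_congr rfl fun a _ => by rw [cov_mul_right, sq]
  have hTT : |cov w T T| ≤ n * (4 * B0 * (n * (4 * B0 * 8))) := by
    rw [hT, cov_sum_left]
    simp only [cov_mul_left]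
    refine abs_sum_mul_le (by positivity) hcB fun a => ?_
    rw [cov_sum_right]
    simp only [cov_mul_right]
    refine abs_sum_mul_le (by positivity) hcB fun b => ?_
    exact (abs_cov_le hw (fun x => hS x a) fun x => hS x b).trans (le_of_eq (by norm_num))
  have hsq : (hv : ℝ) * hv ≤ hv * Real.sqrt hv := mul_self_le_mul_sqrt hh0 h1
  rw [e1, cov_add_left, cov_add_right, cov_mul_left, cov_mul_right, cov_add_right, cov_mul_right,
    cov_comm w T X, hXT]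
  have hK : (L ^ 2 * L ^ 2) * ((hv : ℝ) * hv * cov w T T) ≤
      L ^ 2 * L ^ 2 * (n * (4 * B0 * (n * (4 * B0 * 8)))) * ((hv : ℝ) * Real.sqrt hv) := by
    rw [mul_assoc (L ^ 2 * L ^ 2)]
    refine mul_le_mul_of_nonneg_left ?_ (by positivity)
    calc (hv : ℝ) * hv * cov w T T
        ≤ (hv : ℝ) * hv * (n * (4 * B0 * (n * (4 * B0 * 8)))) :=
          mul_le_mul_of_nonneg_left ((le_abs_self _).trans hTT) (by positivity)
      _ ≤ (hv : ℝ) * Real.sqrt hv * (n * (4 * B0 * (n * (4 * B0 * 8)))) :=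
          mul_le_mul_of_nonneg_right hsq (by positivity)
      _ = _ := mul_comm _ _
  linarith [show ((hv : ℝ) * L ^ 2) * ((hv : ℝ) * L ^ 2 * cov w T T) =
    (L ^ 2 * L ^ 2) * ((hv : ℝ) * hv * cov w T T) by ring]

end Vale.Agent.P161
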