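import Vale.Agent.P161.Crit.Obs
import Vale.Agent.P161.Crit.StepLin

/-!
# One step of the energies of the linearised scheme
-/

namespace Vale.Agent.P161

open SimpleGraph MeasureTheory ProbabilityTheory
open scoped Classical NNReal

variable {V : Type*}

/-- The linearised scheme along observations. -/
noncomputable def obsAlpha (G : SimpleGraph V) (β h : ℝ) (D : Finset V) (i₀ : ℕ) (a : V × V)
    (i : ℕ) (b : ℕ → V × V → ℝ) : V → ℝ :=
  alphaPath G β h D (obsH G β D b) i₀ a i

/-- The linear statistic of the perturbation. -/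
noncomputable def obsStat (D : Finset V) (α : V → ℝ) (η : D → Bool) : ℝ :=
  ∑ u ∈ D, α u * sp u (extCfg η)

/-- The perturbation of the magnetisation. -/
noncomputable def obsM (G : SimpleGraph V) (β h : ℝ) (D : Finset V) (i₀ : ℕ) (a : V × V)
    (i : ℕ) (v : V) (b : ℕ → V × V → ℝ) : ℝ :=
  sigMul G (chTh β ((i : ℝ) * h)) D (obsH G β D b i) (obsAlpha G β h D i₀ a i b) v

/-- The energy of the perturbation. -/
noncomputable def obsU (G : SimpleGraph V) (β h : ℝ) (D : Finset V) (i₀ : ℕ) (a : V × V)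
    (i : ℕ) (b : ℕ → V × V → ℝ) : ℝ :=
  ∑ v ∈ D, obsM G β h D i₀ a i v b ^ 2

/-- The variance of the perturbation. -/
noncomputable def obsN (G : SimpleGraph V) (β h : ℝ) (D : Finset V) (i₀ : ℕ) (a : V × V)
    (i : ℕ) (b : ℕ → V × V → ℝ) : ℝ :=
  linVar G (chTh β ((i : ℝ) * h)) D (obsH G β D b i) (obsAlpha G β h D i₀ a i b)

/-- The size of the perturbation. -/
noncomputable def obsA2 (G : SimpleGraph V) (β h : ℝ) (D : Finset V) (i₀ : ℕ) (a : V × V)
    (i : ℕ) (b : ℕ → V × V → ℝ) : ℝ :=
  ∑ v ∈ D, obsAlpha G β h D i₀ a i b v ^ 2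

/-- The quadratic variation of the energy. -/
noncomputable def obsQV (G : SimpleGraph V) (β h : ℝ) (D : Finset V) (i₀ : ℕ) (a : V × V)
    (i : ℕ) (b : ℕ → V × V → ℝ) : ℝ :=
  ∑ v ∈ D, ∑ w ∈ D,
    cumLin G (chTh β ((i : ℝ) * h)) D (obsH G β D b i) (obsAlpha G β h D i₀ a i b) v w ^ 2

variable {G : SimpleGraph V} {β : ℝ} {hv : ℝ≥0} {D : Finset V} {d K : ℕ} {i₀ i : ℕ} {a : V × V}

theorem cov_sp_obsStat (θ : ℝ) (H α : V → ℝ) (v : V) :
    cov (fieldWeight G θ D H) (fun η => sp v (extCfg η)) (obsStat D α) =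
      sigMul G θ D H α v := by
  unfold obsStat
  rw [cov_sum_right]
  refine Finset.sum_congr rfl fun u _ => ?_
  rw [cov_mul_right, cov_comm]
  rfl

theorem cov_obsStat_self (θ : ℝ) (H α : V → ℝ) :
    cov (fieldWeight G θ D H) (obsStat D α) (obsStat D α) = linVar G θ D H α := by
  conv_lhs => arg 2; unfold obsStat
  rw [cov_sum_left]
  exact Finset.sum_congr rfl fun u _ => by rw [cov_mul_left, cov_sp_obsStat]

theorem abs_obsStat_le (α : V → ℝ) {B : ℝ} (hα : ∑ u ∈ D, |α u| ≤ B) (η : D → Bool) :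
    |obsStat D α η| ≤ B :=
  ((Finset.abs_sum_le_sum_abs _ _).trans (le_of_eq (Finset.sum_congr rfl fun u _ => by
    rw [abs_mul, sp, abs_spin, mul_one]))).trans hα

theorem cum3_feat (θ : ℝ) (H α : V → ℝ) (v : V) (e : dirE G D) :
    cum3 (fieldWeight G θ D H) (fun η => sp v (extCfg η)) (obsStat D α)
        (fun η => chFeat G D η e) =
      cumLin G θ D H α v (e : V × V).1 + cumLin G θ D H α v (e : V × V).2 := by
  have key : ∀ w : V, cum3 (fieldWeight G θ D H) (fun η => sp v (extCfg η)) (obsStat D α)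
      (fun η => sp w (extCfg η)) = cumLin G θ D H α v w := by
    intro w
    rw [cum3_swap]
    unfold obsStat
    rw [cum3_sum_right]
    exact Finset.sum_congr rfl fun u _ => cum3_mul_right _ _ _ _ _
  rw [show (fun η => chFeat G D η e) = fun η =>
      sp (e : V × V).1 (extCfg η) + sp (e : V × V).2 (extCfg η) from rfl,
    cum3_add_right, key, key]

theorem cov_stat_feat (θ : ℝ) (H α : V → ℝ) (e : dirE G D) :
    cov (fieldWeight G θ D H) (obsStat D α) (fun η => chFeat G D η e) =
      sigMul G θ D H α (e : V × V).1 + sigMul G θ D H α (e : V × V).2 := by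
  rw [cov_comm, show (fun η => chFeat G D η e) = fun η =>
      sp (e : V × V).1 (extCfg η) + sp (e : V × V).2 (extCfg η) from rfl,
    cov_add_left, cov_sp_obsStat, cov_sp_obsStat]

theorem stepA_stat (h : ℝ) (i : ℕ) (H α : V → ℝ) (η : D → Bool) :
    obsStat D (stepA G β h D i H α) η = obsStat D α η + h * chLam β ^ 2 *
      ∑ e : dirE G D, cov (fieldWeight G (chTh β ((i : ℝ) * h)) D H) (obsStat D α)
        (fun η => chFeat G D η e) * chFeat G D η e := by
  simp only [cov_stat_feat]
  simp only [obsStat, stepA, add_mul, Finset.sum_add_distrib]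
  congr 1
  simp only [chQ, Finset.mul_sum, Finset.sum_mul]
  rw [Finset.sum_comm, ← Finset.sum_coe_sort (dirE G D), ← Finset.sum_add_distrib, Finset.mul_sum]
  refine Finset.sum_congr rfl fun e _ => ?_
  have := sum_chInc_mul (fun v => sp v (extCfg η)) e.2
  simp only [chFeat, edgeSpin]
  rw [← add_mul, ← this, Finset.mul_sum, Finset.mul_sum]
  exact Finset.sum_congr rfl fun v _ => by ring

theorem obsAlpha_joinStep (hi : i₀ < i) (x : CIdx G D i → ℝ) (z : dirE G D → ℝ) :
    obsAlpha G β hv D i₀ a (i + 1) (drv (joinStep x z)) =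
      stepA G β hv D i (obsH G β D (drv x) i) (obsAlpha G β hv D i₀ a i (drv x)) := by
  have hcongr : ∀ n ≤ i, alphaPath G β hv D (obsH G β D (drv (joinStep x z))) i₀ a n =
      alphaPath G β hv D (obsH G β D (drv x)) i₀ a n := by
    intro n
    induction n with
    | zero => intro _; rfl
    | succ n ih =>
      intro hn
      funext v
      simp only [alphaPath, ih (Nat.le_of_succ_le hn),
        obsH_joinStep x z (Nat.le_of_succ_le hn)]
  funext v
  simp only [obsAlpha, alphaPath, hcongr i le_rfl, obsH_joinStep x z le_rfl, if_neg hi.ne']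
  ring

theorem linNext_stat (h : ℝ) (i : ℕ) (H α : V → ℝ) :
    obsStat D (stepA G β h D i H α) = linNext (chLam β) h (chFeat G D)
      (fieldWeight G (chTh β ((i : ℝ) * h)) D H) (obsStat D α) :=
  funext fun η => stepA_stat h i H α η

/-- One step of the energy and of the variance. -/
theorem exists_energy_step (hd : 3 ≤ d) (hreg : ∀ v, (G.neighborSet v).ncard = d) (D : Finset V)
    (β : ℝ) (B : ℝ) :
    ∃ C : ℝ, 0 ≤ C ∧ ∀ (hv : ℝ≥0) (i₀ i : ℕ) (a : V × V), ChOk β hv (i + 1) → i₀ < i →
      ∀ x : CIdx G D i → ℝ, ∑ v ∈ D, |obsAlpha G β hv D i₀ a i (drv x) v| ≤ B →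
      (∫ z, stepDens (chLam β) hv (chFeat G D) (chPost G β hv D (drv x) i) z *
          obsU G β hv D i₀ a (i + 1) (drv (joinStep x z)) ∂gaussPi (dirE G D) hv ≤
        obsU G β hv D i₀ a i (drv x) +
          (hv : ℝ) * chLam β ^ 2 * (4 * d * obsQV G β hv D i₀ a i (drv x)) +
          C * ((hv : ℝ) * Real.sqrt hv)) ∧
      (∫ z, stepDens (chLam β) hv (chFeat G D) (chPost G β hv D (drv x) i) z *
          obsN G β hv D i₀ a (i + 1) (drv (joinStep x z)) ∂gaussPi (dirE G D) hv ≤
        obsN G β hv D i₀ a i (drv x) +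
          (hv : ℝ) * chLam β ^ 2 * (8 * d * obsU G β hv D i₀ a i (drv x)) +
          C * ((hv : ℝ) * Real.sqrt hv)) := by
  obtain ⟨CU, hCU, hU⟩ := exists_lin_U_step (Ω := D → Bool) (ι := dirE G D)
    (chLam_nonneg β) B
  obtain ⟨CN, hCN, hN⟩ := exists_lin_N_step (Ω := D → Bool) (ι := dirE G D)
    (chLam_nonneg β) B
  refine ⟨max ((D.card : ℝ) * CU) CN, le_max_of_le_right hCN, ?_⟩
  intro hv i₀ i a ok hi x hBx
  have hh0 : 0 ≤ (hv : ℝ) := NNReal.coe_nonneg hv
  have hh1 : (hv : ℝ) ≤ 1 :=
    (le_mul_of_one_le_left hh0 (by exact_mod_cast Nat.succ_pos i)).trans ok.time_le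
  have th0 : 0 ≤ chTh β ((i : ℝ) * hv) := ok.th_nonneg (Nat.le_succ i)
  have hwpos : ∀ η, 0 < chPost G β hv D (drv x) i η :=
    fieldWeight_pos th0 (chTh_lt_one _ _) D _
  set th := chTh β ((i : ℝ) * hv)
  set H := obsH G β D (drv x) i
  set α := obsAlpha G β hv D i₀ a i (drv x) with hα
  set w := chPost G β hv D (drv x) i with hw
  have hS : ∀ η (e : dirE G D), |chFeat G D η e| ≤ 2 := abs_chFeat_le
  have hXB : ∀ η, |obsStat D α η| ≤ B := abs_obsStat_le α hBx
  have hα' : ∀ z, obsStat D (obsAlpha G β hv D i₀ a (i + 1) (drv (joinStep x z))) =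
      linNext (chLam β) hv (chFeat G D) w (obsStat D α) := by
    intro z
    rw [obsAlpha_joinStep hi]; exact linNext_stat _ _ _ _
  have hM' : ∀ z v, obsM G β hv D i₀ a (i + 1) v (drv (joinStep x z)) =
      cov (tilt w (stepXi (chLam β) hv (chFeat G D) z) 1) (fun η => sp v (extCfg η))
        (linNext (chLam β) hv (chFeat G D) w (obsStat D α)) := by
    intro z v
    rw [obsM, ← cov_sp_obsStat, hα']
    exact (stepCov_eq_post ok.beta_nonneg x z _ _).symm
  have hN' : ∀ z, obsN G β hv D i₀ a (i + 1) (drv (joinStep x z)) =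
      cov (tilt w (stepXi (chLam β) hv (chFeat G D) z) 1)
        (linNext (chLam β) hv (chFeat G D) w (obsStat D α))
        (linNext (chLam β) hv (chFeat G D) w (obsStat D α)) := by
    intro z
    rw [obsN, ← cov_obsStat_self, hα']
    exact (stepCov_eq_post ok.beta_nonneg x z _ _).symm
  constructor
  · simp only [obsU, hM', Finset.mul_sum]
    obtain ⟨B', hB'⟩ : ∃ B' : ℝ, ∀ η,
        |linNext (chLam β) hv (chFeat G D) w (obsStat D α) η| ≤ B' :=
      ⟨∑ η, |linNext (chLam β) hv (chFeat G D) w (obsStat D α) η|, fun η =>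
        Finset.single_le_sum (f := fun η => |linNext (chLam β) hv (chFeat G D) w (obsStat D α) η|)
          (fun _ _ => abs_nonneg _) (Finset.mem_univ η)⟩
    rw [integral_finsetSum _ fun v _ => ?_]
    · refine (Finset.sum_le_sum fun v _ => hU hv ok.step_ne hh1 w hwpos _ hS
        (fun η => sp v (extCfg η)) (obsStat D α) (fun η => (abs_spin _).le) hXB).trans ?_
      rw [Finset.sum_add_distrib, Finset.sum_add_distrib]
      refine add_le_add (add_le_add (le_of_eq ?_) ?_) ?_
      · exact Finset.sum_congr rfl fun v _ => by rw [hw, chPost, cov_sp_obsStat]; rfl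
      · rw [← Finset.mul_sum]
        refine mul_le_mul_of_nonneg_left ?_ (mul_nonneg hh0 (sq_nonneg _))
        rw [obsQV, Finset.mul_sum]
        refine Finset.sum_le_sum fun v _ => ?_
        simp only [hw, chPost, cum3_feat]
        rw [Finset.sum_coe_sort (dirE G D)
          (fun e => (cumLin G th D H α v e.1 + cumLin G th D H α v e.2) ^ 2)]
        refine (Finset.sum_le_sum (g := fun e : V × V =>
          2 * (cumLin G th D H α v e.1 ^ 2 + cumLin G th D H α v e.2 ^ 2))
          fun e _ => add_sq_le).trans ?_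
        rw [← Finset.mul_sum]
        refine (mul_le_mul_of_nonneg_left (sum_dirE_ends_le hd hreg D
          (g := fun u => cumLin G th D H α v u ^ 2) fun u => sq_nonneg _) zero_le_two).trans
          (le_of_eq ?_)
        show _ = 4 * (d : ℝ) * ∑ w ∈ D, cumLin G th D H α v w ^ 2
        ring
      · rw [Finset.sum_const, nsmul_eq_mul, ← mul_assoc]
        exact mul_le_mul_of_nonneg_right (le_max_left _ _) (by positivity)
    · exact ((expGrowth_stepDens hwpos (chLam_nonneg β) hh1 hS).mul
        (ExpGrowth.sq (((expGrowth_stepAvg hwpos (B := B')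
          (f := fun η => sp v (extCfg η) * linNext (chLam β) hv (chFeat G D) w (obsStat D α) η)
          fun η => by rw [abs_mul, sp, abs_spin, one_mul]; exact hB' η).sub
          ((expGrowth_stepAvg hwpos (B := 1) fun η => (abs_spin _).le).mul
            (expGrowth_stepAvg hwpos hB')))))).integrable hv
  · simp only [hN']
    refine (hN hv ok.step_ne hh1 w hwpos _ hS (obsStat D α) hXB).trans ?_
    refine add_le_add (add_le_add (le_of_eq ?_) ?_)
      (mul_le_mul_of_nonneg_right (le_max_right _ _) (by positivity))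
    · rw [hw, chPost]; exact cov_obsStat_self _ _ _
    · rw [mul_comm 2 ((hv : ℝ) * chLam β ^ 2), mul_assoc ((hv : ℝ) * chLam β ^ 2)]
      refine mul_le_mul_of_nonneg_left ?_ (mul_nonneg hh0 (sq_nonneg _))
      simp only [hw, chPost, cov_stat_feat]
      rw [Finset.sum_coe_sort (dirE G D)
        (fun e => (sigMul G th D H α e.1 + sigMul G th D H α e.2) ^ 2)]
      refine (mul_le_mul_of_nonneg_left ((Finset.sum_le_sum (g := fun e : V × V =>
        2 * (sigMul G th D H α e.1 ^ 2 + sigMul G th D H α e.2 ^ 2))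
        fun e _ => add_sq_le).trans (le_of_eq_of_le (Finset.mul_sum _ _ _).symm
        (mul_le_mul_of_nonneg_left (sum_dirE_ends_le hd hreg D
          (g := fun u => sigMul G th D H α u ^ 2) fun u => sq_nonneg _) zero_le_two)))
        zero_le_two).trans (le_of_eq ?_)
      show _ = 8 * (d : ℝ) * ∑ u ∈ D, sigMul G th D H α u ^ 2
      ring

end Vale.Agent.P161
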