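import Vale.Agent.P161.Crit.Law
import Vale.Agent.P161.Main

/-!
# The free Ising measure at the reconstruction threshold is a factor of IID
-/

namespace Vale.Agent.P161

open SimpleGraph MeasureTheory ProbabilityTheory Filter
open scoped Classical NNReal Topology

variable {V : Type*} {G : SimpleGraph V} {d : ℕ} {t β β₀ θ : ℝ}

/-- The properties required of the volume and of the level at one coupling. -/
structure GoodLevel (hG : G.IsTree) (hd : 3 ≤ d) (hreg : ∀ v, (G.neighborSet v).ncard = d)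
    (β C : ℝ) (o : V) (k n j : ℕ) : Prop where
  vol : k + 1 ≤ n
  lev : k ≤ j
  row : ∀ m ≤ k, blockVar (stepLen j) (earlyAll G (ballSet hG hd hreg o n) (2 ^ j) (2 ^ (j - m)))
      (finalT G β (stepLen j) (ballSet hG hd hreg o n) (2 ^ j) o) ≤
        C * Real.sqrt ((1 / 2 : ℝ) ^ m) + 1 / ((k : ℝ) + 1)
  law : ∀ R ≤ k, ∀ η : V → Bool,
    |∫ ω, cylProd (ballSet hG hd hreg o R) η (fun v => critT hG hd hreg β n j v ω) ∂eLaw V -
      cylF G (ballSet hG hd hreg o R) η (Real.tanh β)| ≤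
        (((ballSet hG hd hreg o R).card : ℝ) + 1) / ((k : ℝ) + 1)

theorem pow_sub_mul_stepLen {m j : ℕ} (h : m ≤ j) :
    ((2 ^ (j - m) : ℕ) : ℝ) * (stepLen j : ℝ) = (1 / 2 : ℝ) ^ m := by
  obtain ⟨e, rfl⟩ := Nat.exists_eq_add_of_le h
  rw [Nat.add_sub_cancel_left, stepLen_coe]
  push_cast
  rw [pow_add, ← mul_assoc, mul_comm ((2 : ℝ) ^ e) ((1 / 2 : ℝ) ^ m), mul_assoc, ← mul_pow]
  norm_num

/-- Good volumes and levels exist at every subcritical coupling. -/
theorem exists_good (hG : G.IsTree) (hd : 3 ≤ d) (hreg : ∀ v, (G.neighborSet v).ncard = d)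
    (ht0 : 0 < t) (hbt : ((d : ℝ) - 1) * t ^ 2 = 1) (hβ₀ : 0 < β₀) :
    ∃ C : ℝ, 0 ≤ C ∧ ∀ β, CritPar G d t β₀ β → Real.tanh β < t →
      ∀ μ : Measure (V → Bool), IsFreeIsing G (Real.tanh β) μ → ∀ (o : V) (k : ℕ),
        ∃ n j : ℕ, GoodLevel hG hd hreg β C o k n j := by
  obtain ⟨C, hC, hrow⟩ := exists_row hG hd hreg ht0 hbt hβ₀
  refine ⟨C, hC, fun β cp hlt μ hμ o k => ?_⟩
  have hβ := cp.beta_nonneg
  set δ := 1 / ((k : ℝ) + 1) with hδ
  have hδ0 : 0 < δ := by positivity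
  obtain ⟨n₀, hn₀⟩ := hrow β cp hlt μ hμ o δ hδ0
  choose nv hnv using fun v : V => exists_stab hG hd hreg hbt hβ hlt hμ v (pow_pos hδ0 2)
  set Bk := ballSet hG hd hreg o k with hBk
  set n := max (max n₀ (k + 1)) (Bk.sup nv) with hn
  set D' := ballSet hG hd hreg o (n + k) with hD'
  have hsub : ∀ v ∈ Bk, ballSet hG hd hreg v n ⊆ D' := fun v hv =>
    ball_sub hG hd hreg (by have := mem_ballSet.mp hv; omega)
  have hvn : ∀ v ∈ Bk, ballSet hG hd hreg v (nv v) ⊆ ballSet hG hd hreg v n := fun v hv =>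
    ball_sub hG hd hreg (by
      have := Finset.le_sup (f := nv) hv
      simp only [SimpleGraph.dist_self]; omega)
  have hev1 : ∀ᶠ j in atTop, ∀ v : Bk,
      ∫ x, (finalT G β (stepLen j) (ballSet hG hd hreg (v : V) n) (2 ^ j) (v : V)
          (fun q => x (resIdx (hsub v v.2) q)) - finalT G β (stepLen j) D' (2 ^ j) (v : V) x) ^ 2
            ∂gaussPi (CIdx G D' (2 ^ j)) (stepLen j) ≤ δ ^ 2 :=
    eventually_all.mpr fun v => hnv v _ D' (isVol_ballSet hG hd hreg (v : V) n)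
      (isVol_ballSet hG hd hreg o _) (hvn v v.2) (hsub v v.2)
  have hev2 : ∀ᶠ j in atTop, ∀ R : Fin (k + 1), ∀ η : V → Bool,
      |∫ x, cylProd (ballSet hG hd hreg o R) η (fun v => finalT G β (stepLen j) D' (2 ^ j) v x)
          ∂gaussPi (CIdx G D' (2 ^ j)) (stepLen j) -
        cylF G (ballSet hG hd hreg o R) η (Real.tanh β)| ≤ δ := by
    refine eventually_all.mpr fun R => ?_
    obtain ⟨C', -, h⟩ := exists_cyl_close hβ hμ
      (ball_sub hG hd hreg (show G.dist o o + (R : ℕ) ≤ n + k by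
        have := R.2; simp only [SimpleGraph.dist_self]; omega))
      (ballSet_connected hG hd hreg o (n + k)) (ballSet_connected hG hd hreg o R)
    filter_upwards [h, eventually_small C' hδ0] with j hj hs η
    exact (hj η).trans hs.1
  obtain ⟨j, hj1, hj2, hjk, hjr⟩ := (hev1.and (hev2.and ((eventually_ge_atTop k).and
    (hn₀ n (le_max_of_le_left (le_max_left _ _)))))).exists
  refine ⟨n, j, le_max_of_le_left (le_max_right _ _), hjk, fun m hm => ?_, fun R hR η => ?_⟩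
  · have h := hjr (2 ^ (j - m)) (Nat.pow_le_pow_right (by norm_num) (Nat.sub_le j m))
    rwa [pow_sub_mul_stepLen (hm.trans hjk)] at h
  · set S := ballSet hG hd hreg o R with hS
    have hSk : S ⊆ Bk := ball_sub hG hd hreg (by simp only [SimpleGraph.dist_self]; omega)
    have hgm : Measurable fun x : CIdx G D' (2 ^ j) → ℝ =>
        cylProd S η fun v => finalT G β (stepLen j) D' (2 ^ j) v x :=
      Finset.measurable_prod _ fun v _ =>
        (((measurable_finalT β _ D' _ v).const_mul _).const_add _).div_const _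
    have h2 := hj2 ⟨R, by omega⟩ η
    rw [← integral_nIn D' j hgm] at h2
    have hterm : ∀ v ∈ S, ∫ ω, |critT hG hd hreg β n j v ω -
        finalT G β (stepLen j) D' (2 ^ j) v (nIn G D' j ω)| ∂eLaw V ≤ δ := by
      intro v hv
      have hvB := hSk hv
      set f := fun x : CIdx G D' (2 ^ j) → ℝ =>
        finalT G β (stepLen j) (ballSet hG hd hreg v n) (2 ^ j) v
          (fun q => x (resIdx (hsub v hvB) q)) - finalT G β (stepLen j) D' (2 ^ j) v x with hf
      have hfm : Measurable f := ((measurable_finalT β _ _ _ v).comp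
        (measurable_pi_lambda _ fun q => measurable_pi_apply _)).sub (measurable_finalT β _ D' _ v)
      have e : ∀ ω, |critT hG hd hreg β n j v ω -
          finalT G β (stepLen j) D' (2 ^ j) v (nIn G D' j ω)| = |f (nIn G D' j ω)| := fun ω => rfl
      simp only [e]
      rw [integral_nIn D' j (f := fun x => |f x|) hfm.abs]
      have hb : ∀ x, |f x| ≤ 1 + 1 := fun x =>
        (abs_sub _ _).trans (add_le_add (abs_finalT_le β _ _ _ v _) (abs_finalT_le β _ _ _ v _))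
      refine integral_abs_le_of_sq (integrable_of_abs_le hfm hb)
        (integrable_of_abs_le (hfm.pow_const 2) (B := (1 + 1) ^ 2) fun x => by
          rw [abs_pow]; exact pow_le_pow_left₀ (abs_nonneg _) (hb x) 2) hδ0.le (hj1 ⟨v, hvB⟩)
    have hm1 : ∀ v, Measurable fun ω => critT hG hd hreg β n j v ω :=
      fun v => measurable_critT hG hd hreg β n j v
    have hm2 : ∀ v, Measurable fun ω : ENoise V =>
        finalT G β (stepLen j) D' (2 ^ j) v (nIn G D' j ω) :=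
      fun v => (measurable_finalT β _ D' _ v).comp (measurable_nIn D' j)
    set A := fun ω => cylProd S η fun v => critT hG hd hreg β n j v ω
    set A' := fun ω : ENoise V =>
      cylProd S η fun v => finalT G β (stepLen j) D' (2 ^ j) v (nIn G D' j ω)
    have iA : Integrable A (eLaw V) := Integrable.of_bound
      (Finset.measurable_prod _ fun v _ =>
        (((hm1 v).const_mul _).const_add _).div_const _).aestronglyMeasurable 1
      (ae_of_all _ fun ω => (Real.norm_eq_abs _).le.trans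
        (abs_cylProd_le S η fun v _ => abs_critT_le hG hd hreg β n j v ω))
    have iA' : Integrable A' (eLaw V) := Integrable.of_bound
      (hgm.comp (measurable_nIn D' j)).aestronglyMeasurable 1
      (ae_of_all _ fun ω => (Real.norm_eq_abs _).le.trans
        (abs_cylProd_le S η fun v _ => abs_finalT_le β _ D' _ v _))
    have iv : ∀ v ∈ S, Integrable (fun ω => |critT hG hd hreg β n j v ω -
        finalT G β (stepLen j) D' (2 ^ j) v (nIn G D' j ω)|) (eLaw V) := fun v _ =>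
      Integrable.of_bound ((hm1 v).sub (hm2 v)).abs.aestronglyMeasurable (1 + 1)
        (ae_of_all _ fun ω => by
          rw [Real.norm_eq_abs, abs_abs]
          exact (abs_sub _ _).trans (add_le_add (abs_critT_le hG hd hreg β n j v ω)
            (abs_finalT_le β _ D' _ v _)))
    have hdiff : |(∫ ω, A ω ∂eLaw V) - ∫ ω, A' ω ∂eLaw V| ≤ (S.card : ℝ) * δ := by
      rw [← integral_sub iA iA']
      refine (abs_integral_le_integral_abs).trans ((integral_mono (iA.sub iA').abs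
        (integrable_finsetSum _ iv) fun ω => abs_cylProd_sub_le η S
          (fun v _ => abs_critT_le hG hd hreg β n j v ω)
          (fun v _ => abs_finalT_le β _ D' _ v _)).trans ?_)
      rw [integral_finsetSum _ iv]
      refine (Finset.sum_le_sum hterm).trans ?_
      rw [Finset.sum_const, nsmul_eq_mul]
    have e2 : ((S.card : ℝ) + 1) / ((k : ℝ) + 1) = (S.card : ℝ) * δ + δ := by rw [hδ]; ring
    rw [e2]
    refine (abs_sub_le _ (∫ ω, A' ω ∂eLaw V) _).trans (add_le_add hdiff h2)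

theorem dyad_block (ℓ k : ℕ) (x : NIdx → ℝ) : ∀ e,
    ∑ r ∈ Finset.range (2 ^ e), dyadInc (ℓ + e) (k * 2 ^ e + r) x = dyadInc ℓ k x
  | 0 => by simp
  | e + 1 => by
    rw [pow_succ', sum_pairs, ← dyad_block ℓ k x e]
    refine Finset.sum_congr rfl fun r _ => ?_
    rw [← dyadInc_split (ℓ + e) (k * 2 ^ e + r) x]
    congr 1 <;> · congr 1; ring

theorem late_approx_at (hG : G.IsTree) (hd : 3 ≤ d) (hreg : ∀ v, (G.neighborSet v).ncard = d)
    {hv : ℝ≥0} {D : Finset V} {K J M N L : ℕ} {a cs : ℝ} (hK : K = N * L) (hJ : J = M * L)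
    (hL : 0 < L) (hMN : M ≤ N) (lp : LipPar G d β hv J K a θ cs)
    (hD : IsConvexSet G D) {v : V} {R : ℕ} (hball : ballSet hG hd hreg v (R + 1) ⊆ D) {η : ℝ}
    (hη : 0 ≤ η) (hvar : blockVar hv (dropSet G D K J v R) (finalT G β hv D K v) ≤ η ^ 2)
    {c : ℝ} (hc : 0 ≤ c) (hc2 : (L : ℝ) * hv ≤ c ^ 2) :
    ∃ Gf : (V × V → ℕ → ℝ) → ℝ, (∀ X, |Gf X| ≤ 1) ∧
      (∀ X X', |Gf X - Gf X'| ≤ (1 + lipC d β a cs) * (2 * chLam β) *
        ∑ e ∈ nearE hG hd hreg v R, ∑ k ∈ Finset.range N, |X e k - X' e k|) ∧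
      ∫ x, |finalT G β hv D K v x - Gf (crsInc L x)| ∂gaussPi (CIdx G D K) hv ≤
        η + lipC d β a cs * (2 * chLam β) * (2 * c) * (nearE hG hd hreg v R).card := by
  subst hK hJ
  exact late_approx hG hd hreg hL hMN lp hD hball hη hvar hc hc2

theorem crsInc_nIn {D : Finset V} {e : V × V} (he : e ∈ dirE G D) (ℓ p k : ℕ) (hk : k < 2 ^ ℓ)
    (ω : ENoise V) : crsInc (2 ^ p) (nIn G D (ℓ + p) ω) e k = dyadInc ℓ k (ω e) := by
  rw [← dyad_block ℓ k (ω e) p]
  refine Finset.sum_congr rfl fun r hr => ?_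
  have hr' := Finset.mem_range.mp hr
  have hlt : k * 2 ^ p + r < 2 ^ (ℓ + p) := by
    have h2 := Nat.mul_le_mul_right (2 ^ p) (Nat.succ_le_of_lt hk)
    rw [Nat.succ_mul, ← pow_add] at h2
    omega
  rw [drv_apply _ hlt he]
  rfl

theorem lipC_mono {a cs Λ : ℝ} (hΛ : chLam β ^ 2 ≤ Λ) (ha : 0 ≤ a) (hcs : 0 ≤ cs) :
    lipC d β a cs ≤ Λ * (4 * d / a) * Real.exp (Λ * (4 * d / a) * cs) := by
  have h1 : lipRate d β a ≤ Λ * (4 * d / a) := mul_le_mul_of_nonneg_right hΛ (by positivity)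
  exact mul_le_mul h1 (Real.exp_le_exp.mpr (mul_le_mul_of_nonneg_right h1 hcs)) (Real.exp_pos _).le
    ((lipRate_nonneg ha).trans h1)

/-- The variance outside the near late increments is small. -/
theorem drop_small (hG : G.IsTree) (hd : 3 ≤ d) (hreg : ∀ v, (G.neighborSet v).ncard = d)
    {hv : ℝ≥0} {K J R : ℕ} {n : ℕ} {a y cs Cl lam CF : ℝ} {o : V}
    (lp : LipPar G d β hv J K a θ cs) (hsq : a ^ 2 < y) (hy : ((d : ℝ) - 1) * y < 1)
    (hl : chLam β ≤ lam) (hCl : lipC d β a cs ≤ Cl)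
    (hCF : CF = ((1 + Cl) * lam * (1 + 1 / a)) ^ 2 * d * (1 + d * y / (1 - ((d : ℝ) - 1) * y)))
    {e₁ e₂ η : ℝ}
    (h1 : blockVar hv (earlyAll G (ballSet hG hd hreg o n) K J)
      (finalT G β hv (ballSet hG hd hreg o n) K o) ≤ e₁)
    (h2 : CF * (a ^ 2 / y) ^ R ≤ e₂) (h3 : e₁ + e₂ ≤ η) :
    blockVar hv (dropSet G (ballSet hG hd hreg o n) K J o R)
      (finalT G β hv (ballSet hG hd hreg o n) K o) ≤ η := by
  set D := ballSet hG hd hreg o n
  refine (drop_blockVar_le o R (measurable_finalT β _ D _ o) (abs_finalT_le β _ D _ o)).trans ?_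
  refine le_trans (add_le_add h1 ?_) h3
  refine (far_blockVar_le lp (ballSet_convex hG hd hreg o n) (mem_ballSet.mpr (by simp))
    hsq hy R).trans (le_trans (mul_le_mul_of_nonneg_right ?_ ?_) h2)
  · have ha := lp.a_pos
    have hC0 := lipC_nonneg (d := d) (β := β) (cs := cs) ha.le
    have hl0 := chLam_nonneg β
    have hy0 : 0 < y := (sq_nonneg a).trans_lt hsq
    have h4 : 0 ≤ 1 + (d : ℝ) * y / (1 - ((d : ℝ) - 1) * y) := by
      have : 0 < 1 - ((d : ℝ) - 1) * y := by linarith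
      positivity
    have h5 : (1 + lipC d β a cs) * chLam β * (1 + 1 / a) ≤ (1 + Cl) * lam * (1 + 1 / a) :=
      mul_le_mul_of_nonneg_right (mul_le_mul (by linarith) hl hl0 (by linarith)) (by positivity)
    rw [hCF]
    exact mul_le_mul_of_nonneg_right (mul_le_mul_of_nonneg_right
      (pow_le_pow_left₀ (by positivity) h5 2) (Nat.cast_nonneg d)) h4
  · have hy0 : 0 < y := (sq_nonneg a).trans_lt hsq
    positivity

theorem lipL_le {a cs Cl lam : ℝ} (ha : 0 ≤ a) (hl : chLam β ≤ lam)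
    (hCl : lipC d β a cs ≤ Cl) :
    (1 + lipC d β a cs) * (2 * chLam β) ≤ (1 + Cl) * (2 * lam) := by
  have hC0 := lipC_nonneg (d := d) (β := β) (cs := cs) ha
  exact mul_le_mul (by linarith) (by linarith) (by linarith [chLam_nonneg β]) (by linarith)

theorem lipE_le {a cs Cl lam η s c : ℝ} (ha : 0 ≤ a) (hl : chLam β ≤ lam)
    (hCl : lipC d β a cs ≤ Cl) (hs : 0 ≤ s) (hc : 0 ≤ c)
    (h : Cl * (2 * lam) * 2 * c * s ≤ η) :
    lipC d β a cs * (2 * chLam β) * (2 * s) * c ≤ η := by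
  have hC0 := lipC_nonneg (d := d) (β := β) (cs := cs) ha
  have h1 : lipC d β a cs * (2 * chLam β) ≤ Cl * (2 * lam) :=
    mul_le_mul hCl (by linarith) (by linarith [chLam_nonneg β]) (hC0.trans hCl)
  have h2 := mul_le_mul_of_nonneg_right h1 (by positivity : 0 ≤ 2 * s * c)
  calc lipC d β a cs * (2 * chLam β) * (2 * s) * c
      = lipC d β a cs * (2 * chLam β) * (2 * s * c) := by ring
    _ ≤ Cl * (2 * lam) * (2 * s * c) := h2
    _ = Cl * (2 * lam) * 2 * c * s := by ring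
    _ ≤ η := h

/-- Functions of the coarse increments on finitely many edges as functions on `Fin M → ℝ`. -/
theorem exists_coord {D : Finset V} {E : Finset (V × V)} (hE : E ⊆ dirE G D) {ℓ p M : ℕ}
    (eqv : (E × Fin (2 ^ ℓ)) ≃ Fin M) {Gf : (V × V → ℕ → ℝ) → ℝ} {Lb : ℝ} (hLb : 0 ≤ Lb)
    (hGb : ∀ X, |Gf X| ≤ 1)
    (hGl : ∀ X X', |Gf X - Gf X'| ≤
      Lb * ∑ e ∈ E, ∑ k ∈ Finset.range (2 ^ ℓ), |X e k - X' e k|) :
    ∃ F : (Fin M → ℝ) → ℝ, (∀ y, |F y| ≤ 1) ∧
      (∀ y y', |F y - F y'| ≤ Lb * ∑ i, |y i - y' i|) ∧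
      (Measurable fun x : CIdx G D (2 ^ (ℓ + p)) → ℝ => Gf (crsInc (2 ^ p) x)) ∧
      ∀ ω : ENoise V, F (fun i => dyadInc ℓ ((eqv.symm i).2 : ℕ) (ω ((eqv.symm i).1 : V × V))) =
        Gf (crsInc (2 ^ p) (nIn G D (ℓ + p) ω)) := by
  set Y : (Fin M → ℝ) → V × V → ℕ → ℝ := fun y e k =>
    if h : e ∈ E ∧ k < 2 ^ ℓ then y (eqv (⟨e, h.1⟩, ⟨k, h.2⟩)) else 0 with hY
  have key : ∀ X : V × V → ℕ → ℝ,
      Gf (Y fun i => X ((eqv.symm i).1 : V × V) ((eqv.symm i).2 : ℕ)) = Gf X := by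
    intro X
    refine eq_of_abs_sub_nonpos ((hGl _ _).trans (le_of_eq ?_))
    refine mul_eq_zero_of_right _ (Finset.sum_eq_zero fun e he => Finset.sum_eq_zero fun k hk => ?_)
    simp only [hY, dif_pos (And.intro he (Finset.mem_range.mp hk)), Equiv.symm_apply_apply,
      sub_self, abs_zero]
  have hlip : ∀ y y', |Gf (Y y) - Gf (Y y')| ≤ Lb * ∑ i, |y i - y' i| := by
    intro y y'
    refine (hGl _ _).trans (le_of_eq ?_)
    congr 1
    rw [← eqv.sum_comp (fun i => |y i - y' i|),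
      Fintype.sum_prod_type (f := fun q => |y (eqv q) - y' (eqv q)|), ← Finset.sum_coe_sort E]
    refine Finset.sum_congr rfl fun e _ => ?_
    rw [← Fin.sum_univ_eq_sum_range]
    exact Finset.sum_congr rfl fun k _ => by simp [hY]
  have hcont : Continuous fun y => Gf (Y y) := by
    refine (LipschitzWith.of_dist_le_mul (K := Real.toNNReal (Lb * M)) fun y y' => ?_).continuous
    rw [Real.dist_eq, Real.coe_toNNReal _ (by positivity), mul_assoc]
    refine (hlip y y').trans (mul_le_mul_of_nonneg_left ?_ hLb)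
    refine (Finset.sum_le_sum (g := fun _ => dist y y') fun i _ =>
      (Real.dist_eq (y i) (y' i)).ge.trans (dist_le_pi_dist y y' i)).trans (le_of_eq ?_)
    simp
  refine ⟨fun y => Gf (Y y), fun y => hGb _, hlip, ?_, fun ω => ?_⟩
  · have h := hcont.measurable.comp (measurable_pi_lambda
      (fun (x : CIdx G D (2 ^ (ℓ + p)) → ℝ) i =>
        crsInc (2 ^ p) x ((eqv.symm i).1 : V × V) ((eqv.symm i).2 : ℕ))
      fun i => Finset.measurable_sum _ fun r _ => measurable_drv _ _)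
    simpa only [Function.comp_def, key] using h
  · rw [← key (crsInc (2 ^ p) (nIn G D (ℓ + p) ω))]
    dsimp only
    have h' : (fun i => dyadInc ℓ ((eqv.symm i).2 : ℕ) (ω ((eqv.symm i).1 : V × V))) = fun i =>
        crsInc (2 ^ p) (nIn G D (ℓ + p) ω) ((eqv.symm i).1 : V × V) ((eqv.symm i).2 : ℕ) :=
      funext fun i => (crsInc_nIn (hE (eqv.symm i).1.2) ℓ p _ (eqv.symm i).2.2 ω).symm
    rw [h']

/-- The approximation at one level, in terms of coarse increments. -/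
theorem approx_level (hG : G.IsTree) (hd : 3 ≤ d) (hreg : ∀ v, (G.neighborSet v).ncard = d)
    (o : V) {n ℓ m p R M : ℕ} {a cs Cl lam η : ℝ} (hm : m ≤ ℓ) (hn : R + 1 ≤ n)
    (lp : LipPar G d β (stepLen (ℓ + p)) (2 ^ (ℓ + p - m)) (2 ^ (ℓ + p)) a θ cs)
    (hl : chLam β ≤ lam) (hCl : lipC d β a cs ≤ Cl) (hη : 0 ≤ η)
    (hvar : blockVar (stepLen (ℓ + p))
      (dropSet G (ballSet hG hd hreg o n) (2 ^ (ℓ + p)) (2 ^ (ℓ + p - m)) o R)
      (finalT G β (stepLen (ℓ + p)) (ballSet hG hd hreg o n) (2 ^ (ℓ + p)) o) ≤ η ^ 2)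
    (hsmall : Cl * (2 * lam) * 2 * (nearE hG hd hreg o R).card * Real.sqrt (stepLen ℓ : ℝ) ≤ η)
    (eqv : (nearE hG hd hreg o R × Fin (2 ^ ℓ)) ≃ Fin M) :
    ∃ F : (Fin M → ℝ) → ℝ, (∀ y, |F y| ≤ 1) ∧
      (∀ y y', |F y - F y'| ≤ (1 + Cl) * (2 * lam) * ∑ i, |y i - y' i|) ∧
      ∫ ω, |critT hG hd hreg β n (ℓ + p) o ω -
        F (fun i => dyadInc ℓ ((eqv.symm i).2 : ℕ) (ω ((eqv.symm i).1 : V × V)))| ∂eLaw V ≤
          η + η := by
  have hball : ballSet hG hd hreg o (R + 1) ⊆ ballSet hG hd hreg o n := ball_sub hG hd hreg (by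
    simp only [SimpleGraph.dist_self]; omega)
  have hc2 : ((2 ^ p : ℕ) : ℝ) * (stepLen (ℓ + p) : ℝ) ≤ Real.sqrt (stepLen ℓ : ℝ) ^ 2 := by
    rw [Real.sq_sqrt (NNReal.coe_nonneg _), stepLen_coe ℓ]
    have := pow_sub_mul_stepLen (m := ℓ) (j := ℓ + p) (Nat.le_add_right ℓ p)
    rw [Nat.add_sub_cancel_left] at this
    exact this.le
  obtain ⟨Gf, hGb, hGl, hGi⟩ := late_approx_at hG hd hreg (M := 2 ^ (ℓ - m)) (N := 2 ^ ℓ)
    (L := 2 ^ p) (pow_add 2 ℓ p) (by rw [← pow_add]; congr 1; omega) (Nat.two_pow_pos p)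
    (Nat.pow_le_pow_right (by norm_num) (Nat.sub_le ℓ m)) lp (ballSet_convex hG hd hreg o n)
    hball hη hvar (Real.sqrt_nonneg _) hc2
  have ha := lp.a_pos.le
  have hLb := lipL_le (d := d) (cs := cs) ha hl hCl
  have hLb0 : 0 ≤ (1 + Cl) * (2 * lam) := le_trans (mul_nonneg
    (by linarith [lipC_nonneg (d := d) (β := β) (cs := cs) ha]) (by linarith [chLam_nonneg β])) hLb
  have hE : nearE hG hd hreg o R ⊆ dirE G (ballSet hG hd hreg o n) :=
    fun e he => dirE_mono hball (Finset.mem_filter.mp he).1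
  obtain ⟨F, hF1, hF2, hFm, hF3⟩ := exists_coord (p := p) hE eqv hLb0 hGb fun X X' =>
    (hGl X X').trans (mul_le_mul_of_nonneg_right hLb
      (Finset.sum_nonneg fun _ _ => Finset.sum_nonneg fun _ _ => abs_nonneg _))
  refine ⟨F, hF1, hF2, ?_⟩
  simp only [hF3]
  have hfm : Measurable fun x : CIdx G (ballSet hG hd hreg o n) (2 ^ (ℓ + p)) → ℝ =>
      |finalT G β (stepLen (ℓ + p)) (ballSet hG hd hreg o n) (2 ^ (ℓ + p)) o x -
        Gf (crsInc (2 ^ p) x)| := ((measurable_finalT β _ _ _ o).sub hFm).abs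
  refine le_trans (le_of_eq (integral_nIn (ballSet hG hd hreg o n) (ℓ + p) hfm)) (hGi.trans ?_)
  exact add_le_add le_rfl (lipE_le ha hl hCl (Real.sqrt_nonneg _) (Nat.cast_nonneg _) hsmall)

theorem th_late (cp : CritPar G d t β₀ β) {m j : ℕ} (hmj : m ≤ j) :
    ∀ i : ℕ, 2 ^ (j - m) ≤ i → i < 2 ^ j →
      chTh β ((i : ℝ) * stepLen j) ≤ max 0 (t - gapRate t β₀ * (1 / 2 : ℝ) ^ m) := by
  intro i h1 h2
  have ok := chOk_stepLen cp.beta_nonneg j (K := 2 ^ j) le_rfl
  have h0 : (0 : ℝ) ≤ (i : ℝ) * stepLen j := mul_nonneg (Nat.cast_nonneg i) (NNReal.coe_nonneg _)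
  refine (cp.th_le h0 (ok.mono h2.le).time_le).trans (le_max_of_le_right ?_)
  have h3 : (1 / 2 : ℝ) ^ m ≤ (i : ℝ) * stepLen j := by
    rw [← pow_sub_mul_stepLen hmj]
    exact mul_le_mul_of_nonneg_right (by exact_mod_cast h1) (NNReal.coe_nonneg _)
  linarith [mul_le_mul_of_nonneg_left h3 cp.rate_pos.le]

/-- Lipschitz approximations by finitely many coarse increments, uniformly along good levels. -/
theorem exists_approx (hG : G.IsTree) (hd : 3 ≤ d) (hreg : ∀ v, (G.neighborSet v).ncard = d)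
    (ht0 : 0 < t) (hbt : ((d : ℝ) - 1) * t ^ 2 = 1) {C : ℝ}
    (o : V) (βs : ℕ → ℝ) (hcp : ∀ k, CritPar G d t β₀ (βs k)) (ns js : ℕ → ℕ)
    (hgood : ∀ k, GoodLevel hG hd hreg (βs k) C o k (ns k) (js k)) {ε : ℝ} (hε : 0 < ε) :
    ∃ (m : ℕ) (X : ENoise V → Fin m → ℝ), Measurable X ∧
      ∃ L : ℝ, ∀ᶠ k in atTop, ∃ F : (Fin m → ℝ) → ℝ, (∀ y, |F y| ≤ 1) ∧
        (∀ y y', |F y - F y'| ≤ L * ∑ i, |y i - y' i|) ∧
        ∫ ω, |critT hG hd hreg (βs k) (ns k) (js k) o ω - F (X ω)| ∂eLaw V ≤ ε := by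
  have ht1 : t < 1 := (hcp 0).t_lt_one
  have hκ : 0 < gapRate t β₀ := (hcp 0).rate_pos
  set η := ε / 2 with hη
  have hη0 : 0 < η := by positivity
  have hη3 : 0 < η ^ 2 / 3 := by positivity
  have hm0 : Tendsto (fun m : ℕ => C * Real.sqrt ((1 / 2 : ℝ) ^ m)) atTop (𝓝 0) := by
    have h := (Real.continuous_sqrt.tendsto 0).comp
      (tendsto_pow_atTop_nhds_zero_of_lt_one (by norm_num : (0 : ℝ) ≤ 1 / 2) (by norm_num))
    simpa [Function.comp_def] using h.const_mul C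
  obtain ⟨m, hm⟩ := (hm0.eventually (eventually_le_nhds hη3)).exists
  set θs := max 0 (t - gapRate t β₀ * (1 / 2 : ℝ) ^ m) with hθs
  have hθt : θs < t := max_lt ht0 (by
    have : 0 < gapRate t β₀ * (1 / 2 : ℝ) ^ m := by positivity
    linarith)
  obtain ⟨a, y, cs, wt⟩ := exists_weights hG hd hreg hbt (le_max_left 0 _) hθt
  set Λ := 1 / (1 - t) with hΛ
  set Cl := Λ * (4 * d / a) * Real.exp (Λ * (4 * d / a) * cs) with hCl
  have ha := wt.a_pos
  set lam := Real.sqrt Λ with hlam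
  set CF := ((1 + Cl) * lam * (1 + 1 / a)) ^ 2 * d *
        (1 + d * y / (1 - ((d : ℝ) - 1) * y)) with hCF
  have hy0 : 0 < y := (sq_nonneg a).trans_lt wt.sq_lt
  have hrho : Tendsto (fun R : ℕ => CF * (a ^ 2 / y) ^ R) atTop (𝓝 0) := by
    simpa using (tendsto_pow_atTop_nhds_zero_of_lt_one (div_nonneg (sq_nonneg a) hy0.le)
      ((div_lt_one hy0).mpr wt.sq_lt)).const_mul CF
  obtain ⟨R, hR⟩ := (hrho.eventually (eventually_le_nhds hη3)).exists
  obtain ⟨ℓ, hℓs, hℓm⟩ := ((eventually_small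
    (Cl * (2 * lam) * 2 * ((nearE hG hd hreg o R).card : ℝ)) hη0).and
      (eventually_ge_atTop m)).exists
  refine ⟨_, fun ω i => dyadInc ℓ (((Fintype.equivFin (nearE hG hd hreg o R × Fin (2 ^ ℓ))).symm i).2 : ℕ)
      (ω (((Fintype.equivFin (nearE hG hd hreg o R × Fin (2 ^ ℓ))).symm i).1 : V × V)),
    measurable_pi_lambda _ fun i => (measurable_dyadInc ℓ _).comp (measurable_pi_apply _),
    (1 + Cl) * (2 * lam), ?_⟩
  filter_upwards [eventually_ge_atTop (max m (max R ℓ)),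
    tendsto_one_div_add_atTop_nhds_zero_nat.eventually (eventually_le_nhds hη3)] with k hk hk3
  have cp := hcp k
  have gl := hgood k
  have hmk : m ≤ k := (le_max_left m _).trans hk
  have hRk : R ≤ k := ((le_max_left R ℓ).trans (le_max_right m _)).trans hk
  obtain ⟨p, hp⟩ := Nat.exists_eq_add_of_le
    ((((le_max_right R ℓ).trans (le_max_right m _)).trans hk).trans gl.lev)
  have hrow := gl.row m hmk
  rw [hp] at hrow ⊢
  have ok := chOk_stepLen cp.beta_nonneg (ℓ + p) (K := 2 ^ (ℓ + p)) le_rfl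
  have hth := th_late cp (hℓm.trans (Nat.le_add_right ℓ p))
  have lp := wt.lipPar hG hd hreg ok hth
  have hl : chLam (βs k) ≤ lam := Real.le_sqrt_of_sq_le cp.lam_sq_le
  have hCk : lipC d (βs k) a cs ≤ Cl := lipC_mono cp.lam_sq_le ha.le wt.cs_nonneg
  have hvar := drop_small hG hd hreg lp wt.sq_lt wt.y_lt hl hCk hCF hrow hR
    (show _ ≤ η ^ 2 by linarith)
  obtain ⟨F, hF1, hF2, hF3⟩ := approx_level hG hd hreg o hℓm
    (le_trans (by omega) gl.vol) lp hl hCk hη0.le hvar hℓs.1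
    (Fintype.equivFin (nearE hG hd hreg o R × Fin (2 ^ ℓ)))
  exact ⟨F, hF1, hF2, hF3.trans (le_of_eq (by rw [hη]; ring))⟩

/-- At the threshold the free Ising measure is a factor of IID. -/
theorem isFactorOfIID_critical [Countable V] (hG : G.IsTree) (hd : 3 ≤ d)
    (hreg : ∀ v, (G.neighborSet v).ncard = d) (h0 : 0 ≤ θ) (hθ : ((d : ℝ) - 1) * θ ^ 2 = 1)
    {μ : Measure (V → Bool)} (hμ : IsFreeIsing G θ μ) : IsFactorOfIID G μ := by
  have hd3 : (3 : ℝ) ≤ d := by exact_mod_cast hd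
  have hθ0 : 0 < θ := by
    rcases h0.lt_or_eq with h | h
    · exact h
    · rw [← h] at hθ; simp at hθ
  have hθ1 : θ < 1 := by nlinarith
  obtain ⟨o⟩ := hG.connected.nonempty
  set th : ℕ → ℝ := fun k => θ * (1 - 1 / ((k : ℝ) + 2)) with hth
  have hk2 : ∀ k : ℕ, 1 / ((k : ℝ) + 2) ≤ 1 / 2 := fun k => by
    rw [div_le_div_iff₀ (by positivity) (by norm_num)]; linarith [Nat.cast_nonneg (α := ℝ) k]
  have hlo : ∀ k, θ / 2 ≤ th k := fun k => by
    have := mul_le_mul_of_nonneg_left (hk2 k) hθ0.le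
    simp only [hth]; linarith
  have hhi : ∀ k, th k < θ := fun k => by
    have : 0 < θ * (1 / ((k : ℝ) + 2)) := by positivity
    simp only [hth]; linarith
  have hmem : ∀ k, th k ∈ Set.Ioo (-1 : ℝ) 1 := fun k =>
    ⟨by linarith [hlo k], (hhi k).trans hθ1⟩
  set βs : ℕ → ℝ := fun k => Real.artanh (th k) with hβs
  have htanh : ∀ k, Real.tanh (βs k) = th k := fun k => Real.tanh_artanh (hmem k)
  set β₀ := Real.artanh (θ / 2) with hβ₀def
  have hβ₀ : 0 < β₀ := Real.artanh_pos ⟨by positivity, by linarith⟩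
  have hcp : ∀ k, CritPar G d θ β₀ (βs k) := fun k =>
    ⟨hG, hd, hreg, hθ0, hθ, hβ₀,
      Real.artanh_le_artanh (by linarith) (hmem k).2 (hlo k), by rw [htanh]; exact (hhi k).le⟩
  obtain ⟨C, -, hex⟩ := exists_good hG hd hreg hθ0 hθ hβ₀
  have hgood : ∀ k, ∃ n j, GoodLevel hG hd hreg (βs k) C o k n j := fun k => by
    obtain ⟨ν, hν⟩ := exists_isFreeIsing hG hd hreg (θ := th k) (by linarith [hlo k])
      ((hhi k).trans hθ1)
    exact hex (βs k) (hcp k) (by rw [htanh]; exact hhi k) ν (by rwa [htanh]) o k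
  choose ns js hgl using hgood
  refine isFactorOfIID_of_approx hG hd hreg h0 hθ1 hμ
    (fun k v ω => critT hG hd hreg (βs k) (ns k) (js k) v ω)
    (fun k v => measurable_critT hG hd hreg _ _ _ v) (fun k v ω => abs_critT_le hG hd hreg _ _ _ v ω)
    (fun k v ω ω' h => critT_local hG hd hreg _ _ _ v ω ω' h)
    (fun k g v ω => critT_equiv hG hd hreg _ _ _ g v ω) o
    (fun ε hε => exists_approx hG hd hreg hθ0 hθ o βs hcp ns js hgl hε) fun R η => ?_
  set S := ballSet hG hd hreg o R with hS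
  show Tendsto (fun k => ∫ ω, cylProd S η (fun v => critT hG hd hreg (βs k) (ns k) (js k) v ω)
    ∂eLaw V) atTop (𝓝 (cylF G S η θ))
  have h1k : Tendsto (fun k : ℕ => ((S.card : ℝ) + 1) / ((k : ℝ) + 1)) atTop (𝓝 0) := by
    have h := (tendsto_one_div_add_atTop_nhds_zero_nat (𝕜 := ℝ)).const_mul ((S.card : ℝ) + 1)
    rw [mul_zero] at h
    exact h.congr fun k => by ring
  have h2k : Tendsto th atTop (𝓝 θ) := by
    have h : Tendsto (fun k : ℕ => 1 / ((k : ℝ) + 2)) atTop (𝓝 0) :=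
      squeeze_zero (fun k => by positivity) (fun k => div_le_div_of_nonneg_left zero_le_one
        (by positivity) (by linarith : (k : ℝ) + 1 ≤ (k : ℝ) + 2))
        (tendsto_one_div_add_atTop_nhds_zero_nat (𝕜 := ℝ))
    simpa [hth] using (h.const_sub 1).const_mul θ
  refine Tendsto.congr_dist (((continuous_cylF S η).tendsto θ).comp h2k)
    (squeeze_zero' (Eventually.of_forall fun k => dist_nonneg) ?_ h1k)
  filter_upwards [eventually_ge_atTop R] with k hk
  rw [Function.comp_apply, _root_.dist_comm, Real.dist_eq, ← htanh k]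
  exact (hgl k).law R hk η

/-- Up to and including the threshold the free Ising measure is a factor of IID. -/
theorem isFactorOfIID_upto_threshold [Countable V] (hG : G.IsTree) (hd : 3 ≤ d)
    (hreg : ∀ v, (G.neighborSet v).ncard = d) (h0 : 0 ≤ θ) (hθ : ((d : ℝ) - 1) * θ ^ 2 ≤ 1)
    {μ : Measure (V → Bool)} (hμ : IsFreeIsing G θ μ) : IsFactorOfIID G μ :=
  hθ.lt_or_eq.elim (fun h => isFactorOfIID_of_below hG hd hreg h0 h hμ)
    fun h => isFactorOfIID_critical hG hd hreg h0 h hμ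

end Vale.Agent.P161
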