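import Vale.Agent.P161.Crit.DecayStep

/-!
# The subtree weights are small with overwhelming probability
-/

namespace Vale.Agent.P161

open SimpleGraph MeasureTheory ProbabilityTheory
open scoped Classical NNReal

variable {V : Type*} {G : SimpleGraph V} {θ β t : ℝ} {d : ℕ} {D : Finset V} {ν : V → ℝ}

theorem pair_bound {a₁ a₂ A k : ℝ} (ha : 0 ≤ a₁) (ha' : 0 ≤ a₂) (h : a₁ ≤ A) (h' : a₂ ≤ A)
    (hA : A ≤ 1) (hk : 0 ≤ k) (hk3 : k ≤ 1 / 3) :
    a₁ + a₂ - k * (a₂ ^ 2 * a₁ + a₁ ^ 2 * a₂) ≤ 2 * A - 2 * k * A ^ 3 := by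
  have hA0 : 0 ≤ A := ha.trans h
  have hA2 : k * (3 * A ^ 2) ≤ 1 := by
    have : A ^ 2 ≤ 1 := pow_le_one₀ hA0 hA
    nlinarith
  have e1 : A ^ 3 - a₁ ^ 2 * a₂ ≤ A ^ 2 * (2 * (A - a₁) + (A - a₂)) := by
    nlinarith [mul_nonneg (sq_nonneg (A - a₁)) hA0, mul_nonneg (mul_nonneg ha ha') (sub_nonneg.mpr h),
      mul_nonneg (mul_nonneg hA0 hA0) (sub_nonneg.mpr h'),
      mul_nonneg (mul_nonneg ha ha) (sub_nonneg.mpr h'),
      mul_nonneg (sub_nonneg.mpr (mul_self_le_mul_self ha h)) (sub_nonneg.mpr h'),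
      mul_nonneg hA0 (mul_nonneg (sub_nonneg.mpr h) ha)]
  have e2 : A ^ 3 - a₂ ^ 2 * a₁ ≤ A ^ 2 * (2 * (A - a₂) + (A - a₁)) := by
    nlinarith [mul_nonneg (sq_nonneg (A - a₂)) hA0, mul_nonneg (mul_nonneg ha ha') (sub_nonneg.mpr h'),
      mul_nonneg (mul_nonneg hA0 hA0) (sub_nonneg.mpr h),
      mul_nonneg (mul_nonneg ha' ha') (sub_nonneg.mpr h),
      mul_nonneg (sub_nonneg.mpr (mul_self_le_mul_self ha' h')) (sub_nonneg.mpr h),
      mul_nonneg hA0 (mul_nonneg (sub_nonneg.mpr h') ha')]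
  have e3 := mul_le_mul_of_nonneg_left (add_le_add e1 e2) hk
  have e4 : k * (3 * A ^ 2) * ((A - a₁) + (A - a₂)) ≤ 1 * ((A - a₁) + (A - a₂)) :=
    mul_le_mul_of_nonneg_right hA2 (by linarith)
  nlinarith

/-- One step of the decay of the expected weights. -/
theorem mean_step (hG : G.IsTree) (hd : 3 ≤ d) (hreg : ∀ v, (G.neighborSet v).ncard = d)
    (h0 : 0 ≤ θ) (hθt : θ ≤ t) (ht1 : t < 1) (hbt : ((d : ℝ) - 1) * t ^ 2 ≤ 1)
    (hD : IsConvexSet G D) {τ : ℝ≥0} (hτ : τ ≠ 0) (hlam : 0 < chLam β) {ℓ : ℕ} (hℓ : 0 < ℓ)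
    {k : ℝ} (hk0 : 0 ≤ k) (hk3 : k ≤ 1 / 3)
    (hk : 2 * (1 + ((d : ℝ) - 1) / (chLam β ^ 2 * τ * ℓ)) * k ≤ 1 - t ^ 2)
    {n : ℕ} (hn : ℓ ≤ n) {A : ℝ} (hA0 : 0 ≤ A) (hA1 : A ≤ 1)
    (hA : ∀ p x : V, G.Adj p x → p ∈ D → x ∈ D →
      ∫ z, nWgt G θ β ((d : ℝ) - 1) D ν n p x z ∂gaussPi (dirE G D) τ ≤ A)
    {p x : V} (hpx : G.Adj p x) (hp : p ∈ D) (hx : x ∈ D) :
    ∫ z, nWgt G θ β ((d : ℝ) - 1) D ν (n + 1) p x z ∂gaussPi (dirE G D) τ ≤
      A * (1 - 2 * k / ((d : ℝ) - 1) * A ^ 2) := by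
  have h1 : θ < 1 := lt_of_le_of_lt hθt ht1
  set b : ℝ := (d : ℝ) - 1 with hb
  have hb2 : 2 ≤ b := by
    have : (3 : ℝ) ≤ d := by exact_mod_cast hd
    rw [hb]; linarith
  have hb0 : 0 < b := by linarith
  have hbθ : b * θ ^ 2 ≤ 1 :=
    (mul_le_mul_of_nonneg_left (pow_le_pow_left₀ h0 hθt 2) hb0.le).trans hbt
  set P := gaussPi (dirE G D) τ
  set K := kids G D p x with hK
  set c2 := 1 - t ^ 2 with hc2
  have ht0 : 0 ≤ t := h0.trans hθt
  have hc20 : 0 ≤ c2 := by rw [hc2, sub_nonneg]; exact pow_le_one₀ ht0 ht1.le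
  set g : (dirE G D → ℝ) → ℝ := fun z => cavity G θ D (noisy G β D ν z) p x with hg
  have hgE : ExpGrowth g := .of_bounded
    ((continuous_magn_fields h0 h1 _ _).comp continuous_noisy).measurable
    (B := 1) fun z => abs_magn_le h0 h1 _ _ _
  set W : V → (dirE G D → ℝ) → ℝ := fun q => nWgt G θ β b D ν n x q with hW
  have hWE : ∀ q ∈ K, ExpGrowth (W q) := fun q hq =>
    expGrowth_nWgt hG hd hreg h0 h1 hbθ n (mem_kids.mp hq).2.1 hx (mem_kids.mp hq).1
  have hW0 : ∀ q z, 0 ≤ W q z := fun q z => wgt_nonneg hb0.le D _ n x q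
  have hEW : ∀ q ∈ K, ∫ z, W q z ∂P ≤ A := fun q hq =>
    hA x q (mem_kids.mp hq).2.1 hx (mem_kids.mp hq).1
  have hpt : ∀ z, nWgt G θ β b D ν (n + 1) p x z ≤
      1 / b * ((1 - c2 * g z ^ 2) * ∑ q ∈ K, W q z) := by
    intro z
    show regr G θ D (noisy G β D ν z) x p ^ 2 * ∑ q ∈ K, W q z ≤ _
    rw [← mul_assoc]
    refine mul_le_mul_of_nonneg_right ?_ (Finset.sum_nonneg fun q _ => hW0 q z)
    refine (regr_adj_sq_le hG h0 hθt ht1 hpx hp hx _).trans ?_
    refine mul_le_mul_of_nonneg_right (by rw [le_div_iff₀ hb0, mul_comm]; exact hbt) ?_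
    have hg1 : g z ^ 2 ≤ 1 := (sq_le_one_iff_abs_le_one _).mpr (abs_magn_le h0 h1 _ _ _)
    have : 0 ≤ t ^ 2 := sq_nonneg t
    simp only [hg] at hg1
    nlinarith
  have hint : ∫ z, nWgt G θ β b D ν (n + 1) p x z ∂P ≤
      1 / b * ((∑ q ∈ K, ∫ z, W q z ∂P) - c2 * ∑ q ∈ K, ∫ z, g z ^ 2 * W q z ∂P) := by
    have hG2 : ExpGrowth fun z => 1 / b * ((1 - c2 * g z ^ 2) * ∑ q ∈ K, W q z) :=
      ((((expGrowth_const (1 : ℝ)).sub (hgE.sq.const_mul c2))).mul (.sum _ hWE)).const_mul _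
    refine (integral_mono ((expGrowth_nWgt hG hd hreg h0 h1 hbθ (n + 1) hpx hp hx).integrable τ)
      (hG2.integrable τ) hpt).trans (le_of_eq ?_)
    rw [integral_const_mul]
    congr 1
    rw [← integral_finsetSum _ fun q hq => (hWE q hq).integrable τ,
      ← integral_finsetSum _ fun q hq => (hgE.sq.mul (hWE q hq)).integrable τ,
      ← integral_const_mul, ← integral_sub ((ExpGrowth.sum _ hWE).integrable τ)
        (((ExpGrowth.sum _ fun q hq => hgE.sq.mul (hWE q hq)).const_mul c2).integrable τ)]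
    refine integral_congr_ae (ae_of_all _ fun z => ?_)
    simp only [← Finset.mul_sum]
    ring
  refine hint.trans ?_
  rw [one_div, inv_mul_le_iff₀ hb0]
  have hX0 : ∀ q, 0 ≤ ∫ z, g z ^ 2 * W q z ∂P := fun q =>
    integral_nonneg fun z => mul_nonneg (sq_nonneg _) (hW0 q z)
  have hA2 : 2 * k * A ^ 2 ≤ 1 := by
    have : A ^ 2 ≤ 1 := pow_le_one₀ hA0 hA1
    nlinarith
  have eR : b * (A * (1 - 2 * k / b * A ^ 2)) = b * A - 2 * k * A ^ 3 := by field_simp
  rw [eR]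
  by_cases hcard : K.card + 1 ≤ d - 1
  · have hc' : (K.card : ℝ) + 1 ≤ b := by
      rw [hb, ← Nat.cast_one, ← Nat.cast_sub (by omega)]
      exact_mod_cast hcard
    calc (∑ q ∈ K, ∫ z, W q z ∂P) - c2 * ∑ q ∈ K, ∫ z, g z ^ 2 * W q z ∂P
        ≤ ∑ q ∈ K, A := (sub_le_self _ (mul_nonneg hc20 (Finset.sum_nonneg fun q _ => hX0 q))).trans
          (Finset.sum_le_sum hEW)
      _ = (K.card : ℝ) * A := by rw [Finset.sum_const, nsmul_eq_mul]
      _ ≤ (b - 1) * A := mul_le_mul_of_nonneg_right (by linarith) hA0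
      _ ≤ _ := by
          have := mul_le_mul_of_nonneg_left hA2 hA0
          linarith
  · obtain ⟨q₁, hq₁, q₂, hq₂, hne⟩ := Finset.one_lt_card.mp (show 1 < K.card by omega)
    set a := fun q => ∫ z, W q z ∂P with ha
    have ha0 : ∀ q, 0 ≤ a q := fun q => integral_nonneg (hW0 q)
    have key : ∀ q q', q ∈ K → q' ∈ K → q ≠ q' →
        k * (a q' ^ 2 * a q) ≤ c2 * ∫ z, g z ^ 2 * W q z ∂P := by
      intro q q' hq hq' hne'
      obtain ⟨hqD', hxq', -⟩ := mem_kids.mp hq'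
      have h := cavity_moment_ge (ν := ν) (n := n) hG hd hreg h0 hθt ht1 hbt hD hτ hlam hpx hp hx
        hq hq' hne' hℓ
      have hmono : a q' ≤ ∫ z, nWgt G θ β b D ν ℓ x q' z ∂P :=
        integral_mono ((hWE q' hq').integrable τ)
          ((expGrowth_nWgt hG hd hreg h0 h1 hbθ ℓ hxq' hx hqD').integrable τ)
          fun z => wgt_antitone hG hd hreg h0 h1 hbθ hxq' hx hqD' hn
      calc k * (a q' ^ 2 * a q)
          ≤ k * ((∫ z, nWgt G θ β b D ν ℓ x q' z ∂P) ^ 2 * a q) :=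
            mul_le_mul_of_nonneg_left (mul_le_mul_of_nonneg_right
              (pow_le_pow_left₀ (ha0 q') hmono 2) (ha0 q)) hk0
        _ ≤ k * (2 * (1 + b / (chLam β ^ 2 * τ * ℓ)) * ∫ z, g z ^ 2 * W q z ∂P) :=
            mul_le_mul_of_nonneg_left h hk0
        _ ≤ c2 * ∫ z, g z ^ 2 * W q z ∂P := by
            rw [← mul_assoc, mul_comm k]
            exact mul_le_mul_of_nonneg_right hk (hX0 q)
    have hsub : ({q₁, q₂} : Finset V) ⊆ K := by
      intro q hq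
      rcases Finset.mem_insert.mp hq with rfl | hq
      · exact hq₁
      · rw [Finset.mem_singleton.mp hq]; exact hq₂
    have hsum : ∑ q ∈ K, a q ≤ a q₁ + a q₂ + (b - 2) * A := by
      rw [← Finset.sum_sdiff hsub, Finset.sum_pair hne, add_comm]
      refine add_le_add le_rfl ?_
      refine (Finset.sum_le_sum fun q hq => hEW q (Finset.mem_sdiff.mp hq).1).trans ?_
      rw [Finset.sum_const, nsmul_eq_mul]
      refine mul_le_mul_of_nonneg_right ?_ hA0
      rw [Finset.card_sdiff_of_subset hsub, Finset.card_pair hne,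
        Nat.cast_sub (by omega : 2 ≤ K.card), Nat.cast_ofNat]
      linarith [kids_card_le hd hreg hpx (D := D)]
    have hXsum : (∫ z, g z ^ 2 * W q₁ z ∂P) + (∫ z, g z ^ 2 * W q₂ z ∂P) ≤
        ∑ q ∈ K, ∫ z, g z ^ 2 * W q z ∂P := by
      rw [← Finset.sum_pair hne (f := fun q => ∫ z, g z ^ 2 * W q z ∂P)]
      exact Finset.sum_le_sum_of_subset_of_nonneg hsub fun q _ _ => hX0 q
    have := pair_bound (ha0 q₁) (ha0 q₂) (hEW q₁ hq₁) (hEW q₂ hq₂) hA1 hk0 hk3
    have k1 := key q₁ q₂ hq₁ hq₂ hne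
    have k2 := key q₂ q₁ hq₂ hq₁ (Ne.symm hne)
    have := mul_le_mul_of_nonneg_left hXsum hc20
    linarith

/-- Iterating the step. -/
theorem mean_decay (hG : G.IsTree) (hd : 3 ≤ d) (hreg : ∀ v, (G.neighborSet v).ncard = d)
    (h0 : 0 ≤ θ) (hθt : θ ≤ t) (ht1 : t < 1) (hbt : ((d : ℝ) - 1) * t ^ 2 ≤ 1)
    (hD : IsConvexSet G D) {τ : ℝ≥0} (hτ : τ ≠ 0) (hlam : 0 < chLam β) {ℓ : ℕ} (hℓ : 0 < ℓ)
    {k : ℝ} (hk0 : 0 ≤ k) (hk3 : k ≤ 1 / 3)
    (hk : 2 * (1 + ((d : ℝ) - 1) / (chLam β ^ 2 * τ * ℓ)) * k ≤ 1 - t ^ 2) :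
    ∀ (n : ℕ) (p x : V), G.Adj p x → p ∈ D → x ∈ D →
      ∫ z, nWgt G θ β ((d : ℝ) - 1) D ν (ℓ + n) p x z ∂gaussPi (dirE G D) τ ≤
        max (1 / 4) (1 - n * (k / (32 * ((d : ℝ) - 1)))) := by
  have h1 : θ < 1 := lt_of_le_of_lt hθt ht1
  have hb2 : 2 ≤ (d : ℝ) - 1 := by
    have : (3 : ℝ) ≤ d := by exact_mod_cast hd
    linarith
  set b : ℝ := (d : ℝ) - 1 with hb
  have hbθ : b * θ ^ 2 ≤ 1 :=
    (mul_le_mul_of_nonneg_left (pow_le_pow_left₀ h0 hθt 2) (by linarith)).trans hbt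
  intro n
  induction n with
  | zero =>
    intro p x hpx hp hx
    refine (integral_mono ((expGrowth_nWgt hG hd hreg h0 h1 hbθ _ hpx hp hx).integrable τ)
      (integrable_const (1 : ℝ)) fun z => wgt_le_one hG hd hreg h0 h1 hbθ _ hpx hp hx).trans ?_
    simp
  | succ n ih =>
    intro p x hpx hp hx
    set κ₀ := k / (32 * b) with hκ
    have hκ0 : 0 ≤ κ₀ := by positivity
    set A := max (1 / 4 : ℝ) (1 - n * κ₀) with hA
    have hA4 : 1 / 4 ≤ A := le_max_left _ _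
    have hA0 : 0 ≤ A := le_trans (by norm_num) hA4
    have hA1 : A ≤ 1 := max_le (by norm_num) (by linarith [mul_nonneg (Nat.cast_nonneg (α := ℝ) n) hκ0])
    refine (mean_step hG hd hreg h0 hθt ht1 hbt hD hτ hlam hℓ hk0 hk3 hk (Nat.le_add_right ℓ n)
      hA0 hA1 (fun p x h hp hx => ih p x h hp hx) hpx hp hx).trans ?_
    have hA3 : (1 / 4 : ℝ) ^ 3 ≤ A ^ 3 := pow_le_pow_left₀ (by norm_num) hA4 3
    have h2 : 0 ≤ 2 * k / b := by positivity
    have e : κ₀ ≤ 2 * k / b * A ^ 3 := by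
      calc κ₀ = 2 * k / b * (1 / 4) ^ 3 := by rw [hκ]; field_simp; ring
        _ ≤ _ := mul_le_mul_of_nonneg_left hA3 h2
    have e2 : A * (1 - 2 * k / b * A ^ 2) ≤ A - κ₀ := by linarith
    refine e2.trans ?_
    push_cast
    rcases le_total (1 / 4 : ℝ) (1 - n * κ₀) with h | h
    · rw [hA, max_eq_right h]
      exact le_max_of_le_right (by linarith)
    · rw [hA, max_eq_left h]
      exact le_max_of_le_left (by linarith)

theorem exp_le_chord {z : ℝ} (h0 : 0 ≤ z) (h1 : z ≤ 1) :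
    Real.exp z ≤ 1 + (Real.exp 1 - 1) * z := by
  have := convexOn_exp.2 (Set.mem_univ (0 : ℝ)) (Set.mem_univ (1 : ℝ)) (sub_nonneg.mpr h1) h0
    (by ring)
  simp only [smul_eq_mul, mul_zero, mul_one, zero_add, Real.exp_zero] at this
  linarith

theorem gaussPi_integral_prod {ι κ : Type*} [Fintype ι] (τ : ℝ≥0) (s : Finset κ)
    (S : κ → Set ι) (f : κ → (ι → ℝ) → ℝ)
    (hdep : ∀ j ∈ s, ∀ x y, (∀ i ∈ S j, x i = y i) → f j x = f j y)
    (hdisj : ∀ j ∈ s, ∀ j' ∈ s, j ≠ j' → ∀ i ∈ S j, i ∉ S j') :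
    ∫ x, ∏ j ∈ s, f j x ∂gaussPi ι τ = ∏ j ∈ s, ∫ x, f j x ∂gaussPi ι τ := by
  induction s using Finset.induction_on with
  | empty => simp
  | @insert j s hj ih =>
    simp only [Finset.prod_insert hj]
    rw [gaussPi_integral_mul τ (S j) (hdep j (Finset.mem_insert_self j s)) fun x y hxy => ?_,
      ih (fun i hi => hdep i (Finset.mem_insert_of_mem hi))
        (fun i hi i' hi' => hdisj i (Finset.mem_insert_of_mem hi) i' (Finset.mem_insert_of_mem hi'))]
    refine Finset.prod_congr rfl fun i hi => hdep i (Finset.mem_insert_of_mem hi) x y fun a ha => ?_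
    exact hxy a (hdisj i (Finset.mem_insert_of_mem hi) j (Finset.mem_insert_self j s)
      (fun e => hj (e ▸ hi)) a ha)

/-- Exponential moments spread over many independent subtrees. -/
theorem mgf_decay (hG : G.IsTree) (hd : 3 ≤ d) (hreg : ∀ v, (G.neighborSet v).ncard = d)
    (h0 : 0 ≤ θ) (h1 : θ < 1) (hbθ : ((d : ℝ) - 1) * θ ^ 2 ≤ 1) {τ : ℝ≥0} {n : ℕ}
    (hn : ∀ p x : V, G.Adj p x → p ∈ D → x ∈ D →
      ∫ z, nWgt G θ β ((d : ℝ) - 1) D ν n p x z ∂gaussPi (dirE G D) τ ≤ 1 / 4) :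
    ∀ (m : ℕ) (p x : V), G.Adj p x → p ∈ D → x ∈ D →
      ∫ z, Real.exp (((d : ℝ) - 1) ^ m * nWgt G θ β ((d : ℝ) - 1) D ν (n + m) p x z)
        ∂gaussPi (dirE G D) τ ≤ Real.exp ((Real.exp 1 - 1) / 4 * ((d : ℝ) - 1) ^ m) := by
  set b : ℝ := (d : ℝ) - 1 with hb
  have hb0 : 0 ≤ b := by
    have : (3 : ℝ) ≤ d := by exact_mod_cast hd
    rw [hb]; linarith
  have he : 0 ≤ Real.exp 1 - 1 := by linarith [Real.add_one_le_exp (1 : ℝ)]
  have hEG : ∀ (j : ℕ) (c : ℝ) {p x : V}, G.Adj p x → p ∈ D → x ∈ D →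
      ExpGrowth fun z => Real.exp (c * nWgt G θ β b D ν j p x z) := by
    intro j c p x h hp hx
    refine .of_bounded (Real.measurable_exp.comp
      ((expGrowth_nWgt hG hd hreg h0 h1 hbθ j h hp hx).measurable.const_mul c))
      (B := Real.exp |c|) fun z => ?_
    rw [abs_of_pos (Real.exp_pos _), Real.exp_le_exp]
    calc c * nWgt G θ β b D ν j p x z ≤ |c| * nWgt G θ β b D ν j p x z :=
          mul_le_mul_of_nonneg_right (le_abs_self c) (wgt_nonneg hb0 D _ j p x)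
      _ ≤ |c| := mul_le_of_le_one_right (abs_nonneg c) (wgt_le_one hG hd hreg h0 h1 hbθ j h hp hx)
  intro m
  induction m with
  | zero =>
    intro p x h hp hx
    simp only [pow_zero, one_mul, mul_one, Nat.add_zero]
    have hW := expGrowth_nWgt (β := β) (ν := ν) hG hd hreg h0 h1 hbθ n h hp hx
    calc ∫ z, Real.exp (nWgt G θ β b D ν n p x z) ∂gaussPi (dirE G D) τ
        ≤ ∫ z, (1 + (Real.exp 1 - 1) * nWgt G θ β b D ν n p x z) ∂gaussPi (dirE G D) τ := by
          have h1' := hEG n 1 h hp hx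
          simp only [one_mul] at h1'
          exact integral_mono (h1'.integrable τ)
            (((expGrowth_const 1).add (hW.const_mul _)).integrable τ)
            fun z => exp_le_chord (wgt_nonneg hb0 D _ n p x)
              (wgt_le_one hG hd hreg h0 h1 hbθ n h hp hx)
      _ ≤ 1 + (Real.exp 1 - 1) * (1 / 4) := by
          rw [integral_add (integrable_const _) ((hW.const_mul _).integrable τ), integral_const_mul]
          simp only [integral_const, probReal_univ, one_smul]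
          exact add_le_add le_rfl (mul_le_mul_of_nonneg_left (hn p x h hp hx) he)
      _ ≤ _ := by
          have := Real.add_one_le_exp ((Real.exp 1 - 1) / 4)
          linarith
  | succ m ih =>
    intro p x h hp hx
    have hpt : ∀ z, Real.exp (b ^ (m + 1) * nWgt G θ β b D ν (n + (m + 1)) p x z) ≤
        ∏ q ∈ kids G D p x, Real.exp (b ^ m * nWgt G θ β b D ν (n + m) x q z) := by
      intro z
      rw [← Real.exp_sum, ← Finset.mul_sum, Real.exp_le_exp]
      set H := noisy G β D ν z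
      show b ^ (m + 1) * (regr G θ D H x p ^ 2 * ∑ q ∈ kids G D p x, wgt G θ b D H (n + m) x q) ≤ _
      rw [pow_succ, show b ^ m * b * (regr G θ D H x p ^ 2 *
        ∑ q ∈ kids G D p x, wgt G θ b D H (n + m) x q) = b ^ m * ((b * regr G θ D H x p ^ 2) *
          ∑ q ∈ kids G D p x, wgt G θ b D H (n + m) x q) by ring]
      exact mul_le_mul_of_nonneg_left (mul_le_of_le_one_left
        (Finset.sum_nonneg fun q _ => wgt_nonneg hb0 D H _ x q)
        (regr_sq_le hb0 hbθ hG h0 h1 h hp hx)) (pow_nonneg hb0 m)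
    have hprodG : ExpGrowth fun z =>
        ∏ q ∈ kids G D p x, Real.exp (b ^ m * nWgt G θ β b D ν (n + m) x q z) := by
      refine .of_bounded (Finset.measurable_prod _ fun q hq =>
        (hEG (n + m) (b ^ m) (mem_kids.mp hq).2.1 hx (mem_kids.mp hq).1).measurable)
        (B := ∏ q ∈ kids G D p x, Real.exp (b ^ m)) fun z => ?_
      rw [Finset.abs_prod]
      refine Finset.prod_le_prod (fun q _ => abs_nonneg _) fun q hq => ?_
      rw [abs_of_pos (Real.exp_pos _), Real.exp_le_exp]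
      exact mul_le_of_le_one_right (pow_nonneg hb0 m)
        (wgt_le_one hG hd hreg h0 h1 hbθ _ (mem_kids.mp hq).2.1 hx (mem_kids.mp hq).1)
    refine (integral_mono ((hEG _ _ h hp hx).integrable τ) (hprodG.integrable τ) hpt).trans ?_
    rw [gaussPi_integral_prod τ (kids G D p x) (fun q => coordsBelow G D x q)
      (fun q z => Real.exp (b ^ m * nWgt G θ β b D ν (n + m) x q z))
      (fun q hq u v huv => by
        rw [nWgt_congr hG h0 h1 _ (mem_kids.mp hq).2.1 hx (mem_kids.mp hq).1 huv])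
      (fun q hq q' hq' hne => coordsBelow_disjoint hG (mem_kids.mp hq).2.1
        (mem_kids.mp hq').2.1 hne)]
    refine (Finset.prod_le_prod (fun q _ => integral_nonneg fun z => (Real.exp_pos _).le)
      fun q hq => ih x q (mem_kids.mp hq).2.1 hx (mem_kids.mp hq).1).trans ?_
    rw [Finset.prod_const, ← Real.exp_nat_mul, Real.exp_le_exp]
    calc ((kids G D p x).card : ℝ) * ((Real.exp 1 - 1) / 4 * b ^ m)
        ≤ b * ((Real.exp 1 - 1) / 4 * b ^ m) :=
          mul_le_mul_of_nonneg_right (kids_card_le hd hreg h) (by positivity)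
      _ = _ := by ring

/-- A subtree weight exceeds one half only with tiny probability. -/
theorem tail_decay (hG : G.IsTree) (hd : 3 ≤ d) (hreg : ∀ v, (G.neighborSet v).ncard = d)
    (h0 : 0 ≤ θ) (h1 : θ < 1) (hbθ : ((d : ℝ) - 1) * θ ^ 2 ≤ 1) {τ : ℝ≥0} {n : ℕ}
    (hn : ∀ p x : V, G.Adj p x → p ∈ D → x ∈ D →
      ∫ z, nWgt G θ β ((d : ℝ) - 1) D ν n p x z ∂gaussPi (dirE G D) τ ≤ 1 / 4) (m : ℕ)
    {p x : V} (h : G.Adj p x) (hp : p ∈ D) (hx : x ∈ D) :
    (gaussPi (dirE G D) τ).real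
        {z | 1 / 2 < nWgt G θ β ((d : ℝ) - 1) D ν (n + m) p x z} ≤
      Real.exp (-((3 - Real.exp 1) / 4 * ((d : ℝ) - 1) ^ m)) := by
  set b : ℝ := (d : ℝ) - 1 with hb
  set W := nWgt G θ β b D ν (n + m) p x
  have hb0 : 0 ≤ b := by
    have : (3 : ℝ) ≤ d := by exact_mod_cast hd
    rw [hb]; linarith
  have hW : Measurable W := (expGrowth_nWgt hG hd hreg h0 h1 hbθ _ h hp hx).measurable
  have hm : MeasurableSet {z | 1 / 2 < W z} := measurableSet_lt measurable_const hW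
  have hE : ExpGrowth fun z => Real.exp (b ^ m * W z) := by
    refine .of_bounded (Real.measurable_exp.comp (hW.const_mul _))
      (B := Real.exp (b ^ m)) fun z => ?_
    rw [abs_of_pos (Real.exp_pos _), Real.exp_le_exp]
    exact mul_le_of_le_one_right (pow_nonneg hb0 m) (wgt_le_one hG hd hreg h0 h1 hbθ _ h hp hx)
  calc (gaussPi (dirE G D) τ).real {z | 1 / 2 < W z}
      = ∫ z, {z | 1 / 2 < W z}.indicator (fun _ => (1 : ℝ)) z ∂gaussPi (dirE G D) τ := by
        rw [integral_indicator_const _ hm, smul_eq_mul, mul_one]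
    _ ≤ ∫ z, Real.exp (-(b ^ m / 2)) * Real.exp (b ^ m * W z) ∂gaussPi (dirE G D) τ := by
        refine integral_mono ((integrable_const (1 : ℝ)).indicator hm)
          ((hE.const_mul _).integrable τ) fun z => ?_
        by_cases hz : z ∈ {z | 1 / 2 < W z}
        · rw [Set.indicator_of_mem hz, ← Real.exp_add]
          refine Real.one_le_exp ?_
          have := mul_le_mul_of_nonneg_left (le_of_lt (show 1 / 2 < W z from hz))
            (pow_nonneg hb0 m)
          linarith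
        · rw [Set.indicator_of_notMem hz]; positivity
    _ ≤ Real.exp (-(b ^ m / 2)) * Real.exp ((Real.exp 1 - 1) / 4 * b ^ m) := by
        rw [integral_const_mul]
        exact mul_le_mul_of_nonneg_left (mgf_decay hG hd hreg h0 h1 hbθ hn m p x h hp hx)
          (Real.exp_pos _).le
    _ = _ := by rw [← Real.exp_add]; congr 1; ring

end Vale.Agent.P161
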