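import Vale.Agent.P161.Variance
import Vale.Agent.P161.Noise

/-!
# Functions of at most exponential growth under product Gaussians
-/

namespace Vale.Agent.P161

open MeasureTheory ProbabilityTheory
open scoped NNReal

variable {ι : Type*} [Fintype ι]

/-- A measurable function bounded by `C exp (C ∑ |x i|)`. -/
def ExpGrowth (f : (ι → ℝ) → ℝ) : Prop :=
  Measurable f ∧ ∃ C : ℝ, 0 ≤ C ∧ ∀ x, |f x| ≤ C * Real.exp (C * ∑ i, |x i|)

theorem ExpGrowth.measurable {f : (ι → ℝ) → ℝ} (h : ExpGrowth f) : Measurable f := h.1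

theorem exp_sum_abs_mono {C D : ℝ} (hCD : C ≤ D) (x : ι → ℝ) :
    Real.exp (C * ∑ i, |x i|) ≤ Real.exp (D * ∑ i, |x i|) :=
  Real.exp_le_exp.mpr (mul_le_mul_of_nonneg_right hCD (Finset.sum_nonneg fun _ _ => abs_nonneg _))

theorem ExpGrowth.of_bound {f : (ι → ℝ) → ℝ} (hf : Measurable f) {B C : ℝ}
    (h : ∀ x, |f x| ≤ B * Real.exp (C * ∑ i, |x i|)) : ExpGrowth f := by
  refine ⟨hf, max (max B C) 0, le_max_right _ _, fun x => (h x).trans ?_⟩
  have h1 : B ≤ max (max B C) 0 := le_max_of_le_left (le_max_left _ _)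
  have h2 : C ≤ max (max B C) 0 := le_max_of_le_left (le_max_right _ _)
  calc B * Real.exp (C * ∑ i, |x i|)
      ≤ max (max B C) 0 * Real.exp (C * ∑ i, |x i|) :=
        mul_le_mul_of_nonneg_right h1 (Real.exp_pos _).le
    _ ≤ _ := mul_le_mul_of_nonneg_left (exp_sum_abs_mono h2 x) (le_max_right _ _)

theorem ExpGrowth.of_bounded {f : (ι → ℝ) → ℝ} (hf : Measurable f) {B : ℝ}
    (h : ∀ x, |f x| ≤ B) : ExpGrowth f :=
  .of_bound hf (B := B) (C := 0) fun x => by simpa using h x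

theorem expGrowth_const (c : ℝ) : ExpGrowth (fun _ : ι → ℝ => c) :=
  .of_bounded measurable_const (B := |c|) fun _ => le_rfl

theorem ExpGrowth.add {f g : (ι → ℝ) → ℝ} (hf : ExpGrowth f) (hg : ExpGrowth g) :
    ExpGrowth (fun x => f x + g x) := by
  obtain ⟨C, hC, hCb⟩ := hf.2
  obtain ⟨D, hD, hDb⟩ := hg.2
  refine .of_bound (hf.1.add hg.1) (B := C + D) (C := C + D) fun x => ?_
  refine (abs_add_le _ _).trans ((add_le_add (hCb x) (hDb x)).trans ?_)
  rw [add_mul C D (Real.exp _)]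
  exact add_le_add (mul_le_mul_of_nonneg_left (exp_sum_abs_mono (by linarith) x) hC)
    (mul_le_mul_of_nonneg_left (exp_sum_abs_mono (by linarith) x) hD)

theorem ExpGrowth.mul {f g : (ι → ℝ) → ℝ} (hf : ExpGrowth f) (hg : ExpGrowth g) :
    ExpGrowth (fun x => f x * g x) := by
  obtain ⟨C, hC, hCb⟩ := hf.2
  obtain ⟨D, hD, hDb⟩ := hg.2
  refine .of_bound (hf.1.mul hg.1) (B := C * D) (C := C + D) fun x => ?_
  rw [abs_mul]
  refine (mul_le_mul (hCb x) (hDb x) (abs_nonneg _) (by positivity)).trans (le_of_eq ?_)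
  rw [add_mul C D (∑ i, |x i|), Real.exp_add]
  ring

theorem ExpGrowth.const_mul {f : (ι → ℝ) → ℝ} (hf : ExpGrowth f) (c : ℝ) :
    ExpGrowth (fun x => c * f x) := (expGrowth_const c).mul hf

theorem ExpGrowth.sub {f g : (ι → ℝ) → ℝ} (hf : ExpGrowth f) (hg : ExpGrowth g) :
    ExpGrowth (fun x => f x - g x) := by
  simpa [sub_eq_add_neg] using hf.add (hg.const_mul (-1))

theorem ExpGrowth.sum {κ : Type*} (s : Finset κ) {f : κ → (ι → ℝ) → ℝ}
    (hf : ∀ k ∈ s, ExpGrowth (f k)) : ExpGrowth (fun x => ∑ k ∈ s, f k x) := by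
  classical
  induction s using Finset.induction_on with
  | empty => simpa using expGrowth_const 0
  | @insert k s hk ih =>
    simp only [Finset.sum_insert hk]
    exact (hf k (Finset.mem_insert_self k s)).add
      (ih fun j hj => hf j (Finset.mem_insert_of_mem hj))

theorem ExpGrowth.abs {f : (ι → ℝ) → ℝ} (hf : ExpGrowth f) : ExpGrowth (fun x => |f x|) := by
  obtain ⟨C, _, hCb⟩ := hf.2
  exact .of_bound hf.1.abs fun x => by rw [abs_abs]; exact hCb x

theorem ExpGrowth.sq {f : (ι → ℝ) → ℝ} (hf : ExpGrowth f) : ExpGrowth (fun x => f x ^ 2) := by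
  simpa [pow_two] using hf.mul hf

theorem expGrowth_exp {e : (ι → ℝ) → ℝ} (he : Measurable e) {A B : ℝ}
    (h : ∀ x, e x ≤ A + B * ∑ i, |x i|) : ExpGrowth (fun x => Real.exp (e x)) :=
  .of_bound he.exp (B := Real.exp A) (C := B) fun x => by
    rw [abs_of_pos (Real.exp_pos _), ← Real.exp_add]
    exact Real.exp_le_exp.mpr (h x)

theorem expGrowth_coord (i : ι) : ExpGrowth (fun x : ι → ℝ => x i) := by
  refine .of_bound (measurable_pi_apply i) (B := 1) (C := 1) fun x => ?_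
  have h1 : |x i| ≤ ∑ k, |x k| :=
    Finset.single_le_sum (f := fun k => |x k|) (fun k _ => abs_nonneg _) (Finset.mem_univ i)
  have h2 := Real.add_one_le_exp (∑ k, |x k|)
  rw [one_mul, one_mul]
  linarith

theorem integrable_exp_abs (C : ℝ) (v : ℝ≥0) :
    Integrable (fun z : ℝ => Real.exp (C * |z|)) (gaussianReal 0 v) := by
  refine ((integrable_exp_mul_gaussianReal C).add (integrable_exp_mul_gaussianReal (-C))).mono'
    (by fun_prop) (ae_of_all _ fun z => ?_)
  rw [Real.norm_eq_abs, abs_of_pos (Real.exp_pos _)]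
  simp only [Pi.add_apply]
  rcases abs_choice z with e | e <;> rw [e]
  · linarith [Real.exp_pos (-C * z)]
  · rw [mul_neg, ← neg_mul]; linarith [Real.exp_pos (C * z)]

theorem integrable_exp_sum_abs (C : ℝ) (v : ℝ≥0) :
    Integrable (fun x : ι → ℝ => Real.exp (C * ∑ i, |x i|)) (gaussPi ι v) := by
  simp only [Finset.mul_sum, Real.exp_sum]
  exact Integrable.fintype_prod (f := fun (_ : ι) (z : ℝ) => Real.exp (C * |z|))
    fun _ => integrable_exp_abs C v

theorem ExpGrowth.integrable {f : (ι → ℝ) → ℝ} (hf : ExpGrowth f) (v : ℝ≥0) :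
    Integrable f (gaussPi ι v) := by
  obtain ⟨C, _, hCb⟩ := hf.2
  exact ((integrable_exp_sum_abs C v).const_mul C).mono' hf.1.aestronglyMeasurable
    (ae_of_all _ fun x => (Real.norm_eq_abs _).le.trans (hCb x))

theorem IsCoordLip.expGrowth {L : ι → ℝ} {F : (ι → ℝ) → ℝ} (h : IsCoordLip L F) : ExpGrowth F := by
  have hsum : ExpGrowth (fun x : ι → ℝ => |F 0| + ∑ i, |L i| * |x i|) :=
    (expGrowth_const _).add (.sum _ fun i _ => (expGrowth_coord i).abs.const_mul _)
  obtain ⟨C, _, hC⟩ := hsum.2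
  refine .of_bound h.continuous.measurable (B := C) (C := C) fun x => ?_
  refine le_trans ?_ ((le_abs_self _).trans (hC x))
  have h1 := h x 0
  have h2 := abs_sub_abs_le_abs_sub (F x) (F 0)
  have h3 : ∑ i, L i * |x i - (0 : ι → ℝ) i| ≤ ∑ i, |L i| * |x i| :=
    Finset.sum_le_sum fun i _ => by
      simpa using mul_le_mul_of_nonneg_right (le_abs_self (L i)) (abs_nonneg (x i))
  linarith

theorem ExpGrowth.comp {κ : Type*} [Fintype κ] {f : (ι → ℝ) → ℝ} (hf : ExpGrowth f)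
    {φ : (κ → ℝ) → ι → ℝ} (hφ : Measurable φ) {A B : ℝ}
    (hb : ∀ x, ∑ i, |φ x i| ≤ A + B * ∑ k, |x k|) : ExpGrowth (fun x => f (φ x)) := by
  obtain ⟨C, hC, hCb⟩ := hf.2
  refine .of_bound (hf.1.comp hφ) (B := C * Real.exp (C * A)) (C := C * B) fun x => ?_
  refine (hCb (φ x)).trans ?_
  rw [mul_assoc, mul_assoc, ← Real.exp_add, ← mul_add]
  exact mul_le_mul_of_nonneg_left (Real.exp_le_exp.mpr (mul_le_mul_of_nonneg_left (hb x) hC)) hC

/-- The shift formula for real functions. -/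
theorem gaussPi_shift (c : ι → ℝ) {v : ℝ≥0} (hv : v ≠ 0) {F : (ι → ℝ) → ℝ} (hF : Measurable F) :
    ∫ x, F (fun i => c i + x i) ∂gaussPi ι v =
      ∫ x, Real.exp (∑ i, (c i * x i - c i ^ 2 / 2) / v) * F x ∂gaussPi ι v := by
  have h := pi_gaussian_shift c hv (fun x => (F x : ℂ)) (Complex.measurable_ofReal.comp hF)
  simp only [← Complex.ofReal_mul, integral_complex_ofReal, Complex.ofReal_inj] at h
  exact h

theorem integral_exp_tilt (c : ι → ℝ) {v : ℝ≥0} (hv : v ≠ 0) :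
    ∫ x, Real.exp (∑ i, (c i * x i - c i ^ 2 / 2) / v) ∂gaussPi ι v = 1 := by
  have h := gaussPi_shift c hv (F := fun _ => (1 : ℝ)) measurable_const
  simpa using h.symm

/-- The moment generating function of a product of centred Gaussians. -/
theorem integral_exp_linear (q : ι → ℝ) {v : ℝ≥0} (hv : v ≠ 0) :
    ∫ x, Real.exp (∑ i, q i * x i) ∂gaussPi ι v = Real.exp ((v : ℝ) / 2 * ∑ i, q i ^ 2) := by
  have hv' : (v : ℝ) ≠ 0 := by exact_mod_cast hv
  have h := integral_exp_tilt (fun i => (v : ℝ) * q i) hv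
  have e : ∀ x : ι → ℝ, Real.exp (∑ i, ((v : ℝ) * q i * x i - ((v : ℝ) * q i) ^ 2 / 2) / v) =
      Real.exp (-((v : ℝ) / 2 * ∑ i, q i ^ 2)) * Real.exp (∑ i, q i * x i) := by
    intro x
    rw [← Real.exp_add, Finset.mul_sum, ← Finset.sum_neg_distrib, ← Finset.sum_add_distrib]
    congr 1
    exact Finset.sum_congr rfl fun i _ => by field_simp; ring
  simp only [e, integral_const_mul, Real.exp_neg] at h
  field_simp at h
  rw [h, div_mul_eq_mul_div]

end Vale.Agent.P161
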