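import Vale.Agent.P161.Crit.DecayTree
import Vale.Agent.P161.Crit.Chan
import Vale.Agent.P161.Crit.Growth

/-!
# Expected weights of the subtrees under Gaussian observations on the edges
-/

namespace Vale.Agent.P161

open SimpleGraph MeasureTheory ProbabilityTheory
open scoped Classical NNReal

variable {V : Type*}

/-- Functions of disjoint coordinates of a Gaussian vector are uncorrelated. -/
theorem gaussPi_integral_mul {ι : Type*} [Fintype ι] (τ : ℝ≥0) (S : Set ι) {f g : (ι → ℝ) → ℝ}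
    (hf : ∀ x y, (∀ i ∈ S, x i = y i) → f x = f y)
    (hg : ∀ x y, (∀ i, i ∉ S → x i = y i) → g x = g y) :
    ∫ x, f x * g x ∂gaussPi ι τ = (∫ x, f x ∂gaussPi ι τ) * ∫ x, g x ∂gaussPi ι τ := by
  have he := measurePreserving_piEquivPiSubtypeProd (fun _ : ι => gaussianReal 0 τ) (fun i => i ∈ S)
  set e := MeasurableEquiv.piEquivPiSubtypeProd (fun _ : ι => ℝ) (fun i => i ∈ S) with hedef
  set μ₁ : Measure ({i // i ∈ S} → ℝ) := Measure.pi fun _ => gaussianReal 0 τ
  set μ₂ : Measure ({i // i ∉ S} → ℝ) := Measure.pi fun _ => gaussianReal 0 τ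
  let f' : ({i // i ∈ S} → ℝ) → ℝ := fun u => f fun i => if h : i ∈ S then u ⟨i, h⟩ else 0
  let g' : ({i // i ∉ S} → ℝ) → ℝ := fun u => g fun i => if h : i ∉ S then u ⟨i, h⟩ else 0
  have ef : ∀ x, f x = f' (e x).1 := fun x => hf _ _ fun i hi => by
    simp [hedef, hi, MeasurableEquiv.piEquivPiSubtypeProd, Equiv.piEquivPiSubtypeProd]
  have eg : ∀ x, g x = g' (e x).2 := fun x => hg _ _ fun i hi => by
    simp [hedef, hi, MeasurableEquiv.piEquivPiSubtypeProd, Equiv.piEquivPiSubtypeProd]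
  have key : ∀ F : ({i // i ∈ S} → ℝ) × ({i // i ∉ S} → ℝ) → ℝ,
      ∫ x, F (e x) ∂gaussPi ι τ = ∫ p, F p ∂μ₁.prod μ₂ := fun F => he.integral_comp' F
  simp only [ef, eg]
  rw [key fun p => f' p.1 * g' p.2, key fun p => f' p.1, key fun p => g' p.2,
    integral_prod_mul, integral_fun_fst, integral_fun_snd]
  simp

/-- The vector of observations extended by zero. -/
noncomputable def noisy (G : SimpleGraph V) (β : ℝ) (D : Finset V) (ν : V → ℝ)
    (x : dirE G D → ℝ) : V → ℝ :=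
  fun v => ν v + fieldOf G β D (fun a => if h : a ∈ dirE G D then x ⟨a, h⟩ else 0) v

/-- The observations which affect the fields below an edge. -/
def coordsBelow (G : SimpleGraph V) (D : Finset V) (p q : V) : Set (dirE G D) :=
  {a | a.1.1 ∈ branch G D p q ∨ a.1.2 ∈ branch G D p q}

/-- The weight below an edge as a function of the observations. -/
noncomputable def nWgt (G : SimpleGraph V) (θ β b : ℝ) (D : Finset V) (ν : V → ℝ) (n : ℕ)
    (p q : V) (x : dirE G D → ℝ) : ℝ :=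
  wgt G θ b D (noisy G β D ν x) n p q

variable {G : SimpleGraph V} {θ β t : ℝ} {d : ℕ} {D : Finset V} {ν : V → ℝ}

theorem noisy_congr {p q : V} {x y : dirE G D → ℝ}
    (h : ∀ a ∈ coordsBelow G D p q, x a = y a) :
    ∀ u ∈ branch G D p q, noisy G β D ν x u = noisy G β D ν y u := by
  intro u hu
  simp only [noisy, fieldOf]
  congr 2
  refine Finset.sum_congr rfl fun a ha => ?_
  simp only [dif_pos ha]
  by_cases h1 : u = a.1
  · rw [h ⟨a, ha⟩ (Or.inl (h1 ▸ hu))]
  · by_cases h2 : u = a.2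
    · rw [h ⟨a, ha⟩ (Or.inr (h2 ▸ hu))]
    · simp [chInc, h1, h2]

theorem nWgt_congr (hG : G.IsTree) (h0 : 0 ≤ θ) (h1 : θ < 1) {b : ℝ} (n : ℕ) {p q : V}
    (h : G.Adj p q) (hp : p ∈ D) (hq : q ∈ D) {x y : dirE G D → ℝ}
    (hxy : ∀ a ∈ coordsBelow G D p q, x a = y a) :
    nWgt G θ β b D ν n p q x = nWgt G θ β b D ν n p q y :=
  wgt_congr hG h0 h1 n h hp hq (noisy_congr hxy)

theorem coordsBelow_disjoint (hG : G.IsTree) {x q q' : V} (h : G.Adj x q) (h' : G.Adj x q')
    (hne : q ≠ q') : ∀ a ∈ coordsBelow G D x q, a ∉ coordsBelow G D x q' := by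
  intro a ha ha'
  have hadj : G.Adj a.1.1 a.1.2 := (mem_dirE.mp a.2).2.2
  have same : ∀ z, z ∈ branch G D x q → z ∈ branch G D x q' → False := fun z hz hz' =>
    hne (kids_disjoint hG h h' (mem_branch.mp hz).2 (mem_branch.mp hz').2)
  have cross : ∀ z z', G.Adj z z' → z ∈ branch G D x q → z' ∈ branch G D x q' → False := by
    intro z z' hzz hz hz'
    by_cases hs : z' ∈ edgeSide G x q
    · exact same z' (mem_branch.mpr ⟨(mem_branch.mp hz').1, hs⟩) hz'
    · obtain ⟨-, rfl⟩ := crossing_edge hG h hzz (mem_branch.mp hz).2 hs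
      exact not_mem_edgeSide_left h' (mem_branch.mp hz').2
  rcases ha with ha | ha <;> rcases ha' with ha' | ha'
  · exact same _ ha ha'
  · exact cross _ _ hadj ha ha'
  · exact cross _ _ hadj.symm ha ha'
  · exact same _ ha ha'

theorem continuous_noisy : Continuous (noisy G β D ν) := by
  refine continuous_pi fun v => ?_
  simp only [noisy, fieldOf]
  refine continuous_const.add (continuous_const.mul (continuous_finsetSum _ fun a ha => ?_))
  simp only [dif_pos ha]
  exact continuous_const.mul (continuous_apply _)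

theorem continuous_magn_fields (h0 : 0 ≤ θ) (h1 : θ < 1) (B : Finset V) (v : V) :
    Continuous fun H : V → ℝ => magn G θ B v H := by
  unfold magn fieldWeight
  refine Continuous.div ?_ ?_ (fun y => ne_of_gt (fieldSum_pos h0 h1 B y))
  all_goals fun_prop

theorem continuous_regr_fields (hG : G.IsTree) (h0 : 0 ≤ θ) (h1 : θ < 1) {p q : V}
    (h : G.Adj p q) (hp : p ∈ D) (hq : q ∈ D) :
    Continuous fun H : V → ℝ => regr G θ D H q p := by
  simp only [regr_adj hG h0 h1 h hp hq]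
  have hc : Continuous fun H : V → ℝ => cavity G θ D H p q := continuous_magn_fields h0 h1 _ _
  exact Continuous.div (by fun_prop) (by fun_prop)
    fun H => ne_of_gt (cavity_sq_lt h0 h1 D H p q)

theorem continuous_wgt (hG : G.IsTree) (h0 : 0 ≤ θ) (h1 : θ < 1) {b : ℝ} :
    ∀ (n : ℕ) {p q : V}, G.Adj p q → p ∈ D → q ∈ D →
      Continuous fun H : V → ℝ => wgt G θ b D H n p q := by
  intro n
  induction n with
  | zero =>
    intro p q h hp hq
    simp only [wgt]
    exact continuous_const.mul ((continuous_regr_fields hG h0 h1 h hp hq).pow 2)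
  | succ n ih =>
    intro p q h hp hq
    simp only [wgt]
    exact ((continuous_regr_fields hG h0 h1 h hp hq).pow 2).mul (continuous_finsetSum _
      fun z hz => ih (mem_kids.mp hz).2.1 hq (mem_kids.mp hz).1)

theorem expGrowth_nWgt (hG : G.IsTree) (hd : 3 ≤ d) (hreg : ∀ v, (G.neighborSet v).ncard = d)
    (h0 : 0 ≤ θ) (h1 : θ < 1) (hbθ : ((d : ℝ) - 1) * θ ^ 2 ≤ 1) (n : ℕ) {p q : V}
    (h : G.Adj p q) (hp : p ∈ D) (hq : q ∈ D) :
    ExpGrowth (nWgt G θ β ((d : ℝ) - 1) D ν n p q) := by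
  have hb : 0 ≤ (d : ℝ) - 1 := by
    have : (3 : ℝ) ≤ d := by exact_mod_cast hd
    linarith
  refine .of_bounded ((continuous_wgt hG h0 h1 n h hp hq).comp continuous_noisy).measurable
    (B := 1) fun x => ?_
  simp only [nWgt, abs_of_nonneg (wgt_nonneg hb D _ n p q)]
  exact wgt_le_one hG hd hreg h0 h1 hbθ n h hp hq

/-- The second moment of a likelihood ratio. -/
theorem integral_tilt_sub_one_sq {ι : Type*} [Fintype ι] (c : ι → ℝ) {τ : ℝ≥0} (hτ : τ ≠ 0) :
    ∫ x, (Real.exp (∑ i, (c i * x i - c i ^ 2 / 2) / τ) - 1) ^ 2 ∂gaussPi ι τ =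
      Real.exp ((∑ i, c i ^ 2) / τ) - 1 := by
  have hτ' : (τ : ℝ) ≠ 0 := by exact_mod_cast hτ
  set Z : (ι → ℝ) → ℝ := fun x => Real.exp (∑ i, (c i * x i - c i ^ 2 / 2) / τ) with hZ
  have hsq : ∀ x, Z x ^ 2 = Real.exp (-((∑ i, c i ^ 2) / τ)) *
      Real.exp (∑ i, (2 * c i / τ) * x i) := by
    intro x
    simp only [hZ]
    rw [sq, ← Real.exp_add, ← Real.exp_add, Finset.sum_div, ← Finset.sum_neg_distrib,
      ← Finset.sum_add_distrib, ← Finset.sum_add_distrib]
    congr 1
    exact Finset.sum_congr rfl fun i _ => by field_simp; ring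
  have hZg : ExpGrowth Z := by
    have h := expGrowth_exp (e := fun x : ι → ℝ => ∑ i, (c i * x i - c i ^ 2 / 2) / τ)
      (by fun_prop) (A := 0) (B := ∑ i, |c i| / τ) (fun x => ?_)
    · exact h
    · rw [zero_add, Finset.sum_mul]
      refine Finset.sum_le_sum fun i _ => ?_
      have h1 : c i * x i - c i ^ 2 / 2 ≤ |c i| * |x i| := by
        rw [← abs_mul]; linarith [le_abs_self (c i * x i), sq_nonneg (c i)]
      have h2 : |x i| ≤ ∑ k, |x k| :=
        Finset.single_le_sum (f := fun k => |x k|) (fun k _ => abs_nonneg _) (Finset.mem_univ i)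
      rw [div_mul_eq_mul_div, div_le_div_iff_of_pos_right (by positivity)]
      exact h1.trans (mul_le_mul_of_nonneg_left h2 (abs_nonneg _))
  have hEsq : ∫ x, Z x ^ 2 ∂gaussPi ι τ = Real.exp ((∑ i, c i ^ 2) / τ) := by
    simp only [hsq, integral_const_mul]
    rw [integral_exp_linear (fun i => 2 * c i / τ) hτ, ← Real.exp_add]
    congr 1
    rw [Finset.mul_sum, Finset.sum_div, ← Finset.sum_neg_distrib, ← Finset.sum_add_distrib]
    exact Finset.sum_congr rfl fun i _ => by field_simp; ring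
  have e : ∀ x, (Z x - 1) ^ 2 = Z x ^ 2 - 2 * Z x + 1 := fun x => by ring
  show ∫ x, (Z x - 1) ^ 2 ∂gaussPi ι τ = _
  simp only [e]
  rw [integral_add ((hZg.sq.sub (hZg.const_mul 2)).integrable τ) (integrable_const _),
    integral_sub (hZg.sq.integrable τ) ((hZg.const_mul 2).integrable τ), integral_const_mul, hEsq,
    integral_exp_tilt c hτ]
  simp
  ring

/-- The correlation of the derivative of `g` with a function which does not see the shift is
controlled by the second moment of `g`. -/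
theorem shift_moment_le {ι : Type*} [Fintype ι] {τ : ℝ≥0} (hτ : τ ≠ 0) (c : ι → ℝ) (K : Set ι)
    {g F Dg : (ι → ℝ) → ℝ} {S : ℝ} (hgm : ExpGrowth g) (hg1 : ∀ z, |g z| ≤ 1) (hFg : ExpGrowth F)
    (hF0 : ∀ z, 0 ≤ F z) (hDgg : ExpGrowth Dg) (hc0 : ∀ i, i ∉ K → c i = 0)
    (hFdep : ∀ u v, (∀ i, i ∉ K → u i = v i) → F u = F v)
    (htaylor : ∀ z (ε : ℝ), |g (fun a => ε * c a + z a) - g z - ε * Dg z| ≤ 6 * (ε * S) ^ 2)
    {μ : ℝ} (hμ : 0 < μ) :
    ∫ z, Dg z * F z ∂gaussPi ι τ ≤ μ / 2 * (∫ z, g z ^ 2 * F z ∂gaussPi ι τ) +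
      (∑ i, c i ^ 2) / (τ : ℝ) / μ * ∫ z, F z ∂gaussPi ι τ := by
  set P := gaussPi ι τ
  have hτ0 : (0 : ℝ) < τ := by positivity
  set s := (∑ i, c i ^ 2) / (τ : ℝ) with hs
  have hs0 : 0 ≤ s := by positivity
  set X := ∫ z, g z ^ 2 * F z ∂P
  set EF := ∫ z, F z ∂P
  have hEF0 : 0 ≤ EF := integral_nonneg hF0
  refine le_of_forall_pos_le_add fun δ hδ => ?_
  obtain ⟨ε, hε0, hε1, hε2⟩ : ∃ ε : ℝ, 0 < ε ∧ ε ^ 2 * s ≤ 1 ∧ ε * (6 * S ^ 2 * EF) ≤ δ := by
    refine ⟨min (1 / (1 + s)) (δ / (1 + 6 * S ^ 2 * EF)), lt_min (by positivity) (by positivity),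
      ?_, ?_⟩
    · set ε := min (1 / (1 + s)) (δ / (1 + 6 * S ^ 2 * EF))
      have h1' : ε ≤ 1 / (1 + s) := min_le_left _ _
      have h0' : 0 ≤ ε := le_min (by positivity) (by positivity)
      rw [le_div_iff₀ (by positivity)] at h1'
      nlinarith [mul_nonneg h0' hs0]
    · refine (mul_le_mul_of_nonneg_right (min_le_right _ _) (by positivity)).trans ?_
      rw [div_mul_eq_mul_div, div_le_iff₀ (by positivity)]
      linarith
  set Z : (ι → ℝ) → ℝ :=
    fun z => Real.exp (∑ a, (ε * c a * z a - (ε * c a) ^ 2 / 2) / τ) with hZ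
  have hZg : ExpGrowth Z := by
    have h := expGrowth_exp (e := fun z : ι → ℝ =>
      ∑ a, (ε * c a * z a - (ε * c a) ^ 2 / 2) / τ)
      (by fun_prop) (A := 0) (B := ∑ a, |ε * c a| / τ) (fun z => ?_)
    · exact h
    · rw [zero_add, Finset.sum_mul]
      refine Finset.sum_le_sum fun i _ => ?_
      have h1' : ε * c i * z i - (ε * c i) ^ 2 / 2 ≤ |ε * c i| * |z i| := by
        rw [← abs_mul]; linarith [le_abs_self (ε * c i * z i), sq_nonneg (ε * c i)]
      have h2' : |z i| ≤ ∑ k, |z k| :=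
        Finset.single_le_sum (f := fun k => |z k|) (fun k _ => abs_nonneg _) (Finset.mem_univ i)
      rw [div_mul_eq_mul_div, div_le_div_iff_of_pos_right hτ0]
      exact h1'.trans (mul_le_mul_of_nonneg_left h2' (abs_nonneg _))
  have hFs : ∀ z, F (fun a => ε * c a + z a) = F z := fun z =>
    hFdep _ _ fun a ha => by rw [hc0 a ha]; ring
  have hgs : ExpGrowth fun z => g (fun a => ε * c a + z a) := .of_bounded
    (hgm.measurable.comp (measurable_pi_lambda _ fun a =>
      (measurable_pi_apply a).const_add _)) (B := 1) fun z => hg1 _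
  have e1 : ∫ z, g (fun a => ε * c a + z a) * F z ∂P = ∫ z, Z z * (g z * F z) ∂P := by
    have := gaussPi_shift (fun a => ε * c a) hτ (hgm.mul hFg).measurable
    simp only [hFs] at this
    exact this
  have eL : ε * ∫ z, Dg z * F z ∂P - 6 * (ε * S) ^ 2 * EF ≤
      ∫ z, g (fun a => ε * c a + z a) * F z ∂P - ∫ z, g z * F z ∂P := by
    rw [← integral_sub ((hgs.mul hFg).integrable τ) ((hgm.mul hFg).integrable τ),
      ← integral_const_mul, ← integral_const_mul,
      ← integral_sub (((hDgg.mul hFg).const_mul ε).integrable τ)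
        ((hFg.const_mul _).integrable τ)]
    refine integral_mono ((((hDgg.mul hFg).const_mul ε).sub (hFg.const_mul _)).integrable τ)
      (((hgs.mul hFg).sub (hgm.mul hFg)).integrable τ) fun z => ?_
    have := mul_le_mul_of_nonneg_right (neg_le_of_abs_le (htaylor z ε)) (hF0 z)
    linarith
  have eR : ∫ z, Z z * (g z * F z) ∂P - ∫ z, g z * F z ∂P ≤
      ε * μ / 2 * X + ε * s / μ * EF := by
    have hZ1 : ExpGrowth fun z => (Z z - 1) ^ 2 := (hZg.sub (expGrowth_const 1)).sq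
    have esplit : ∫ z, (Z z - 1) ^ 2 * F z ∂P = (∫ z, (Z z - 1) ^ 2 ∂P) * EF := by
      refine gaussPi_integral_mul τ (K) (fun u v huv => ?_) hFdep
      simp only [hZ]
      congr 3
      refine Finset.sum_congr rfl fun a _ => ?_
      by_cases ha : a ∈ K
      · rw [huv a ha]
      · simp [hc0 a ha]
    have esq : ∫ z, (Z z - 1) ^ 2 ∂P ≤ 2 * (ε ^ 2 * s) := by
      simp only [hZ]
      rw [integral_tilt_sub_one_sq _ hτ]
      have e : (∑ a, (ε * c a) ^ 2) / (τ : ℝ) = ε ^ 2 * s := by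
        rw [hs, ← mul_div_assoc, Finset.mul_sum]
        congr 1
        exact Finset.sum_congr rfl fun a _ => by ring
      rw [e]
      have hnn : 0 ≤ ε ^ 2 * s := by positivity
      have := Real.abs_exp_sub_one_le (x := ε ^ 2 * s) (by rw [abs_of_nonneg hnn]; exact hε1)
      rw [abs_of_nonneg hnn] at this
      exact (abs_le.mp this).2
    calc ∫ z, Z z * (g z * F z) ∂P - ∫ z, g z * F z ∂P
        = ∫ z, (Z z - 1) * g z * F z ∂P := by
          rw [← integral_sub ((hZg.mul (hgm.mul hFg)).integrable τ) ((hgm.mul hFg).integrable τ)]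
          exact integral_congr_ae (ae_of_all _ fun z => by ring)
      _ ≤ ∫ z, (ε * μ / 2 * (g z ^ 2 * F z) + 1 / (2 * (ε * μ)) * ((Z z - 1) ^ 2 * F z)) ∂P := by
          refine integral_mono ((((hZg.sub (expGrowth_const 1)).mul hgm).mul hFg).integrable τ)
            ((((hgm.sq.mul hFg).const_mul _).add ((hZ1.mul hFg).const_mul _)).integrable τ)
            fun z => ?_
          have hεμ : 0 < ε * μ := by positivity
          have h2 : 0 ≤ (ε * μ * g z - (Z z - 1)) ^ 2 / (2 * (ε * μ)) * F z :=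
            mul_nonneg (by positivity) (hF0 z)
          have e : ε * μ / 2 * (g z ^ 2 * F z) + 1 / (2 * (ε * μ)) * ((Z z - 1) ^ 2 * F z) -
              (Z z - 1) * g z * F z =
              (ε * μ * g z - (Z z - 1)) ^ 2 / (2 * (ε * μ)) * F z := by
            field_simp; ring
          linarith
      _ = ε * μ / 2 * X + 1 / (2 * (ε * μ)) * ((∫ z, (Z z - 1) ^ 2 ∂P) * EF) := by
          rw [integral_add (((hgm.sq.mul hFg).const_mul _).integrable τ)
            (((hZ1.mul hFg).const_mul _).integrable τ), integral_const_mul, integral_const_mul,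
            esplit]
      _ ≤ ε * μ / 2 * X + 1 / (2 * (ε * μ)) * ((2 * (ε ^ 2 * s)) * EF) := by
          refine add_le_add le_rfl (mul_le_mul_of_nonneg_left
            (mul_le_mul_of_nonneg_right esq hEF0) (by positivity))
      _ = _ := by field_simp
  rw [e1] at eL
  have hmain := eL.trans eR
  have hδε := mul_le_mul_of_nonneg_left hε2 hε0.le
  have : ε * ∫ z, Dg z * F z ∂P ≤ ε * (μ / 2 * X + s / μ * EF + δ) := by
    have e : ε * (μ / 2 * X + s / μ * EF + δ) = ε * μ / 2 * X + ε * s / μ * EF + ε * δ := by ring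
    have e' : 6 * (ε * S) ^ 2 * EF = ε * (ε * (6 * S ^ 2 * EF)) := by ring
    linarith
  exact le_of_mul_le_mul_left this hε0

/-- The direction of the shift: weights on the edges pointing towards `x`. -/
noncomputable def shiftDir (G : SimpleGraph V) (D : Finset V) (t : ℝ) (ℓ : ℕ) (x cs : V)
    (a : V × V) : ℝ :=
  if a.1 ∈ branch G D x cs ∧ G.dist x a.1 ≤ ℓ ∧ G.dist x a.2 + 1 = G.dist x a.1
  then t ^ G.dist x a.1 else 0

/-- The vertices reached by the shift. -/
noncomputable def shiftTop (G : SimpleGraph V) (D : Finset V) (ℓ : ℕ) (x cs : V) : Finset V :=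
  (Finset.range ℓ).biUnion fun j => below G D x cs j

theorem below_pairwise (ℓ : ℕ) (x cs : V) :
    (Finset.range ℓ : Set ℕ).PairwiseDisjoint fun j => below G D x cs j := by
  intro i _ j _ hij
  refine Finset.disjoint_left.mpr fun u hu hu' => hij ?_
  have := (Finset.mem_filter.mp hu).2
  have := (Finset.mem_filter.mp hu').2
  omega

theorem shiftDir_nonneg (ht0 : 0 ≤ t) (ℓ : ℕ) (x cs : V) (a : V × V) :
    0 ≤ shiftDir G D t ℓ x cs a := by
  unfold shiftDir; split_ifs <;> positivity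

theorem shiftDir_norm_le (hG : G.IsTree) (hd : 3 ≤ d) (hreg : ∀ v, (G.neighborSet v).ncard = d)
    (ht0 : 0 ≤ t) (hbt : ((d : ℝ) - 1) * t ^ 2 ≤ 1) (hD : IsConvexSet G D) {x cs : V}
    (hxc : G.Adj x cs) (hcD : cs ∈ D) (ℓ : ℕ) :
    ∑ a : dirE G D, shiftDir G D t ℓ x cs a.1 ^ 2 ≤ ℓ / ((d : ℝ) - 1) := by
  set b : ℝ := (d : ℝ) - 1 with hb
  have hb0 : 0 < b := by
    have : (3 : ℝ) ≤ d := by exact_mod_cast hd
    rw [hb]; linarith
  set w := shiftDir G D t ℓ x cs with hw'
  have hw : ∀ a : V × V, w a =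
      if a.1 ∈ branch G D x cs ∧ G.dist x a.1 ≤ ℓ ∧ G.dist x a.2 + 1 = G.dist x a.1
      then t ^ G.dist x a.1 else 0 := fun a => rfl
  set U := shiftTop G D ℓ x cs with hU
  have hdisjU := below_pairwise (G := G) (D := D) ℓ x cs
  have hbelow : ∀ a : V × V, w a ≠ 0 →
      a.1 ∈ U ∧ G.dist x a.2 + 1 = G.dist x a.1 ∧ w a = t ^ G.dist x a.1 := by
    intro a ha
    rw [hw] at ha
    simp only [ne_eq, ite_eq_right_iff, Classical.not_imp] at ha
    obtain ⟨hc, -⟩ := ha
    refine ⟨Finset.mem_biUnion.mpr ⟨G.dist x a.1 - 1, Finset.mem_range.mpr ?_,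
      Finset.mem_filter.mpr ⟨hc.1, ?_⟩⟩, hc.2.2, by rw [hw, if_pos hc]⟩ <;> omega
  calc ∑ a : dirE G D, w a.1 ^ 2 = ∑ a ∈ dirE G D, w a ^ 2 := Finset.sum_coe_sort (dirE G D) fun a => w a ^ 2
    _ = ∑ a ∈ (dirE G D).filter (fun a => w a ≠ 0), w a ^ 2 := by
        rw [Finset.sum_filter]
        refine Finset.sum_congr rfl fun a _ => ?_
        split_ifs with hh'
        · rfl
        · rw [not_not.mp hh']; ring
    _ = ∑ a ∈ (dirE G D).filter (fun a => w a ≠ 0), (t ^ G.dist x a.1) ^ 2 :=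
        Finset.sum_congr rfl fun a ha => by rw [(hbelow a (Finset.mem_filter.mp ha).2).2.2]
    _ = ∑ u ∈ ((dirE G D).filter (fun a => w a ≠ 0)).image Prod.fst, (t ^ G.dist x u) ^ 2 := by
        rw [Finset.sum_image]
        intro a ha a' ha' he
        rw [Finset.mem_coe, Finset.mem_filter] at ha ha'
        have e1 := (hbelow a ha.2).2.1
        have e2 := (hbelow a' ha'.2).2.1
        refine Prod.ext he (toward_unique hG (mem_dirE.mp ha.1).2.2
          (he ▸ (mem_dirE.mp ha'.1).2.2) (x := x) ?_ ?_)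
        · rw [SimpleGraph.dist_comm, e1, SimpleGraph.dist_comm]
        · rw [he, SimpleGraph.dist_comm, e2, SimpleGraph.dist_comm]
    _ ≤ ∑ u ∈ U, (t ^ G.dist x u) ^ 2 := by
        refine Finset.sum_le_sum_of_subset_of_nonneg ?_ fun u _ _ => sq_nonneg _
        intro u hu
        obtain ⟨a, ha, rfl⟩ := Finset.mem_image.mp hu
        exact (hbelow a (Finset.mem_filter.mp ha).2).1
    _ ≤ ∑ j ∈ Finset.range ℓ, 1 / b := by
        rw [hU, shiftTop, Finset.sum_biUnion hdisjU]
        refine Finset.sum_le_sum fun j _ => ?_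
        rw [Finset.sum_congr rfl fun u hu => by rw [(Finset.mem_filter.mp hu).2], Finset.sum_const,
          nsmul_eq_mul, le_div_iff₀ hb0]
        calc ((below G D x cs j).card : ℝ) * (t ^ (j + 1)) ^ 2 * b
            ≤ b ^ j * (t ^ (j + 1)) ^ 2 * b := by
              refine mul_le_mul_of_nonneg_right (mul_le_mul_of_nonneg_right
                (below_card_le hG hd hreg hD j hxc hcD) (sq_nonneg _)) hb0.le
          _ = (b * t ^ 2) ^ (j + 1) := by rw [mul_pow, ← pow_mul]; ring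
          _ ≤ 1 := pow_le_one₀ (by positivity) hbt
    _ = _ := by simp [div_eq_mul_inv]

/-- The derivative of the cavity field along the shift is large. -/
theorem shift_deriv_ge (hG : G.IsTree) (hd : 3 ≤ d) (hreg : ∀ v, (G.neighborSet v).ncard = d)
    (h0 : 0 ≤ θ) (hθt : θ ≤ t) (ht1 : t < 1) (hbt : ((d : ℝ) - 1) * t ^ 2 ≤ 1)
    (hD : IsConvexSet G D) {lam : ℝ} (hlam : 0 < lam) {p x cs : V} (hpx : G.Adj p x) (hx : x ∈ D)
    (hcs : cs ∈ kids G D p x) (ℓ : ℕ) (H h : V → ℝ) (hh0 : ∀ u, 0 ≤ h u)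
    (hhU : ∀ j < ℓ, ∀ u ∈ below G D x cs j, lam * t ^ (j + 1) ≤ h u) {F : ℝ} (hF : 0 ≤ F) :
    lam / ((d : ℝ) - 1) * (ℓ * wgt G θ ((d : ℝ) - 1) D H ℓ x cs * F) -
        lam * ℓ / ((d : ℝ) - 1) * (cavity G θ D H p x ^ 2 * F) ≤
      (∑ u ∈ branch G D p x, h u * sig G θ (branch G D p x) H x u) * F := by
  have h1 : θ < 1 := lt_of_le_of_lt hθt ht1
  set b : ℝ := (d : ℝ) - 1 with hb
  have hb0 : 0 < b := by
    have : (3 : ℝ) ≤ d := by exact_mod_cast hd
    rw [hb]; linarith
  have hbθ : b * θ ^ 2 ≤ 1 :=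
    (mul_le_mul_of_nonneg_left (pow_le_pow_left₀ h0 hθt 2) hb0.le).trans hbt
  obtain ⟨hcD, hxc, hcp⟩ := mem_kids.mp hcs
  set B := branch G D p x with hB
  have hBc : IsConvexSet G B := convex_branch hG hD hpx
  have hxB : x ∈ B := mem_branch_self hpx hx
  set U := shiftTop G D ℓ x cs with hU
  have hdisjU := below_pairwise (G := G) (D := D) ℓ x cs
  have hUB : U ⊆ B := by
    intro u hu
    obtain ⟨j, -, hj⟩ := Finset.mem_biUnion.mp hu
    exact branch_kid_subset hG hpx hcs (Finset.mem_filter.mp hj).1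
  set g := cavity G θ D H p x
  set Wc := wgt G θ b D H ℓ x cs
  set DgF := ∑ u ∈ B, h u * sig G θ B H x u
  have hsig : ∀ u ∈ B, 0 ≤ sig G θ B H x u := fun u hu => sig_nonneg hG h0 h1 hBc H hxB hu
  set Pz := ∑ j ∈ Finset.range ℓ, t ^ (j + 1) * ∑ u ∈ below G D x cs j, regr G θ D H u x
  have hD1 : lam * (1 - g ^ 2) * Pz ≤ DgF := by
    calc lam * (1 - g ^ 2) * Pz
        = ∑ j ∈ Finset.range ℓ, ∑ u ∈ below G D x cs j,
            lam * t ^ (j + 1) * sig G θ B H x u := by
          simp only [Pz, Finset.mul_sum]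
          refine Finset.sum_congr rfl fun j hj => Finset.sum_congr rfl fun u hu => ?_
          have huB : u ∈ B := hUB (Finset.mem_biUnion.mpr ⟨j, hj, hu⟩)
          rw [sig_comm B H x u, sig_eq_regr h0 h1 H u hxB, regr_branch hG h0 h1 hD hpx hx huB,
            sig_self h0 h1]
          show lam * (1 - magn G θ B x H ^ 2) * _ = _
          ring
      _ ≤ ∑ j ∈ Finset.range ℓ, ∑ u ∈ below G D x cs j, h u * sig G θ B H x u :=
          Finset.sum_le_sum fun j hj => Finset.sum_le_sum fun u hu =>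
            mul_le_mul_of_nonneg_right (hhU j (Finset.mem_range.mp hj) u hu)
              (hsig u (hUB (Finset.mem_biUnion.mpr ⟨j, hj, hu⟩)))
      _ = ∑ u ∈ U, h u * sig G θ B H x u := (Finset.sum_biUnion hdisjU).symm
      _ ≤ DgF := Finset.sum_le_sum_of_subset_of_nonneg hUB fun u hu _ =>
          mul_nonneg (hh0 u) (hsig u hu)
  have hP1 : (ℓ : ℝ) * Wc ≤ b * Pz := by
    calc (ℓ : ℝ) * Wc = ∑ j ∈ Finset.range ℓ, Wc := by simp
      _ ≤ ∑ j ∈ Finset.range ℓ,
          b * (t ^ (j + 1) * ∑ u ∈ below G D x cs j, regr G θ D H u x) :=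
          Finset.sum_le_sum fun j hj =>
            (wgt_antitone hG hd hreg h0 h1 hbθ hxc hx hcD (Finset.mem_range.mp hj).le).trans
              (wgt_le_below hG hd h0 hθt ht1 hD j hxc hx hcD)
      _ = b * Pz := (Finset.mul_sum ..).symm
  have hP2 : b * Pz ≤ ℓ := by
    simp only [Pz, Finset.mul_sum]
    calc _ ≤ ∑ j ∈ Finset.range ℓ, (1 : ℝ) := Finset.sum_le_sum fun j _ => by
          rw [← Finset.mul_sum, ← Finset.mul_sum]
          exact below_sum_le_one hG hd hreg h0 hθt ht1 hbt hD j hxc hx hcD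
      _ = ℓ := by simp
  refine le_trans ?_ (mul_le_mul_of_nonneg_right hD1 (hF))
  have e : lam / b * (ℓ * Wc * F) - lam * ℓ / b * (g ^ 2 * F) =
      lam / b * ((ℓ * Wc) * F - (ℓ : ℝ) * (g ^ 2 * F)) := by ring
  rw [e, show lam * (1 - g ^ 2) * Pz * F =
    lam / b * ((b * Pz) * F - (b * Pz) * (g ^ 2 * F)) by field_simp]
  exact mul_le_mul_of_nonneg_left (sub_le_sub (mul_le_mul_of_nonneg_right hP1 (hF))
    (mul_le_mul_of_nonneg_right hP2 (mul_nonneg (sq_nonneg _) (hF))))
    (div_nonneg hlam.le hb0.le)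

/-- A shift inside one branch makes the cavity field of the parent fluctuate. -/
theorem cavity_moment_ge (hG : G.IsTree) (hd : 3 ≤ d) (hreg : ∀ v, (G.neighborSet v).ncard = d)
    (h0 : 0 ≤ θ) (hθt : θ ≤ t) (ht1 : t < 1) (hbt : ((d : ℝ) - 1) * t ^ 2 ≤ 1)
    (hD : IsConvexSet G D) {τ : ℝ≥0} (hτ : τ ≠ 0) (hlam : 0 < chLam β) {p x q cs : V}
    (hpx : G.Adj p x) (hp : p ∈ D) (hx : x ∈ D) (hq : q ∈ kids G D p x)
    (hcs : cs ∈ kids G D p x) (hne : q ≠ cs) {ℓ n : ℕ} (hℓ : 0 < ℓ) :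
    (∫ z, nWgt G θ β ((d : ℝ) - 1) D ν ℓ x cs z ∂gaussPi (dirE G D) τ) ^ 2 *
        (∫ z, nWgt G θ β ((d : ℝ) - 1) D ν n x q z ∂gaussPi (dirE G D) τ) ≤
      2 * (1 + ((d : ℝ) - 1) / (chLam β ^ 2 * τ * ℓ)) *
        ∫ z, cavity G θ D (noisy G β D ν z) p x ^ 2 * nWgt G θ β ((d : ℝ) - 1) D ν n x q z
          ∂gaussPi (dirE G D) τ := by
  have h1 : θ < 1 := lt_of_le_of_lt hθt ht1
  set b : ℝ := (d : ℝ) - 1 with hb
  have hb0 : 0 < b := by
    have : (3 : ℝ) ≤ d := by exact_mod_cast hd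
    rw [hb]; linarith
  have ht0 : 0 ≤ t := h0.trans hθt
  have hbθ : b * θ ^ 2 ≤ 1 :=
    (mul_le_mul_of_nonneg_left (pow_le_pow_left₀ h0 hθt 2) hb0.le).trans hbt
  obtain ⟨hqD, hxq, hqp⟩ := mem_kids.mp hq
  obtain ⟨hcD, hxc, hcp⟩ := mem_kids.mp hcs
  set B := branch G D p x with hB
  have hBc : IsConvexSet G B := convex_branch hG hD hpx
  have hxB : x ∈ B := mem_branch_self hpx hx
  set P := gaussPi (dirE G D) τ with hP
  set F := nWgt G θ β b D ν n x q with hF
  set Wc := nWgt G θ β b D ν ℓ x cs with hWc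
  set g : (dirE G D → ℝ) → ℝ := fun z => cavity G θ D (noisy G β D ν z) p x with hg
  set lam := chLam β
  -- the direction of the shift
  set w : V × V → ℝ := shiftDir G D t ℓ x cs with hw
  have hw0 : ∀ a, 0 ≤ w a := shiftDir_nonneg ht0 ℓ x cs
  set h : V → ℝ := fieldOf G β D w with hh
  have hh0 : ∀ u, 0 ≤ h u := fun u => mul_nonneg (chLam_nonneg β)
    (Finset.sum_nonneg fun a _ => mul_nonneg (chInc_nonneg u a) (hw0 a))
  have hhU : ∀ j < ℓ, ∀ u ∈ below G D x cs j, lam * t ^ (j + 1) ≤ h u := by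
    intro j hj u hu
    obtain ⟨hub, hud⟩ := Finset.mem_filter.mp hu
    obtain ⟨huD, hus⟩ := mem_branch.mp hub
    have hne : u ≠ x := by rintro rfl; simp at hud
    obtain ⟨v, huv, hv⟩ := exists_toward hG hne
    have hvD : v ∈ D := hD u huD x hx v huv hv
    have ha : (u, v) ∈ dirE G D := mem_dirE.mpr ⟨huD, hvD, huv⟩
    have hd' : G.dist x v + 1 = j + 1 := by
      rw [SimpleGraph.dist_comm, hv, SimpleGraph.dist_comm, hud]
    refine mul_le_mul_of_nonneg_left ?_ (chLam_nonneg β)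
    refine le_trans ?_ (Finset.single_le_sum
      (fun a _ => mul_nonneg (chInc_nonneg u a) (hw0 a)) ha)
    have hwa : w (u, v) = t ^ (j + 1) := by
      simp only [hw, shiftDir]
      rw [if_pos ⟨hub, by omega, by omega⟩, hud]
    rw [hwa]
    refine le_mul_of_one_le_left (by positivity) ?_
    simp only [chInc, if_true]
    split_ifs <;> norm_num
  set cE : dirE G D → ℝ := fun a => w a with hcE
  have hnorm : ∑ a, cE a ^ 2 ≤ ℓ / b := shiftDir_norm_le hG hd hreg ht0 hbt hD hxc hcD ℓ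
  -- supports
  have hcE0 : ∀ a : dirE G D, a ∉ coordsBelow G D x cs → cE a = 0 := by
    intro a ha
    simp only [hcE, hw, shiftDir]
    rw [if_neg]
    exact fun hc => ha (Or.inl hc.1)
  have hFdep : ∀ u v : dirE G D → ℝ,
      (∀ a, a ∉ coordsBelow G D x cs → u a = v a) → F u = F v := fun u v huv =>
    nWgt_congr hG h0 h1 n hxq hx hqD fun a ha =>
      huv a (coordsBelow_disjoint hG hxq hxc hne a ha)
  have hFg : ExpGrowth F := expGrowth_nWgt hG hd hreg h0 h1 hbθ n hxq hx hqD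
  have hWg : ExpGrowth Wc := expGrowth_nWgt hG hd hreg h0 h1 hbθ ℓ hxc hx hcD
  have hF0 : ∀ z, 0 ≤ F z := fun z => wgt_nonneg hb0.le D _ n x q
  have hgm : ExpGrowth g := .of_bounded
    ((continuous_magn_fields h0 h1 _ _).comp continuous_noisy).measurable
    (B := 1) fun z => abs_magn_le h0 h1 _ _ _
  have hsplitFW : ∫ z, Wc z * F z ∂P = (∫ z, Wc z ∂P) * ∫ z, F z ∂P :=
    gaussPi_integral_mul τ (coordsBelow G D x cs)
      (fun u v huv => nWgt_congr hG h0 h1 ℓ hxc hx hcD huv) hFdep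
  -- the derivative of the cavity field along the shift
  set Dg : (dirE G D → ℝ) → ℝ := fun z =>
    ∑ u ∈ B, h u * sig G θ B (noisy G β D ν z) x u with hDg
  set S := ∑ u ∈ B, |h u| with hS
  have hDgg : ExpGrowth Dg := by
    refine .sum _ fun u hu => ExpGrowth.const_mul (.of_bounded ?_ (B := 1) fun z => ?_) _
    · have hc : Continuous fun H : V → ℝ => sig G θ B H x u := by
        simp only [sig, mCov, cov, avg]
        have hne' : ∀ H : V → ℝ, (∑ η : B → Bool, fieldWeight G θ B H η) ≠ 0 := fun H =>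
          ne_of_gt (fieldSum_pos h0 h1 B H)
        unfold fieldWeight at hne' ⊢
        fun_prop (disch := assumption)
      exact (hc.comp continuous_noisy).measurable
    · rw [abs_of_nonneg (sig_nonneg hG h0 h1 hBc _ hxB hu)]
      exact (sig_le hG h0 h1 hBc _ hxB hu).trans (pow_le_one₀ h0 h1.le)
  have htaylor : ∀ z (ε : ℝ), |g (fun a => ε * cE a + z a) - g z - ε * Dg z| ≤ 6 * (ε * S) ^ 2 := by
    intro z ε
    set H := noisy G β D ν z
    have hshift : noisy G β D ν (fun a => ε * cE a + z a) = fun v => H v + ε * h v := by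
      funext v
      simp only [H, hh, noisy, fieldOf]
      have e : ∀ a ∈ dirE G D, chInc v a * (if ha : a ∈ dirE G D then
          ε * cE ⟨a, ha⟩ + z ⟨a, ha⟩ else 0) = chInc v a * (if ha : a ∈ dirE G D then z ⟨a, ha⟩
            else 0) + ε * (chInc v a * w a) := by
        intro a ha
        simp only [dif_pos ha, hcE]
        ring
      rw [Finset.sum_congr rfl e, Finset.sum_add_distrib, ← Finset.mul_sum]
      ring
    set ξ : (B → Bool) → ℝ := fun η => ∑ u ∈ B, ε * h u * sp u (extCfg η) with hξ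
    have htilt : fieldWeight G θ B (fun v => H v + ε * h v) =
        tilt (fieldWeight G θ B H) ξ 1 := by
      funext η
      simp only [tilt, fieldWeight, one_mul, hξ]
      rw [← Finset.sum_coe_sort B, Real.exp_sum, mul_assoc, ← Finset.prod_mul_distrib]
      congr 1
      refine Finset.prod_congr rfl fun u _ => ?_
      rw [← Real.exp_add, sp, extCfg_of_mem _ u.2]
      congr 1
      ring
    have hT := (avg_tilt_taylor (fieldWeight_pos (G := G) h0 h1 B H) (ξ := ξ)
      (f := fun η => sp x (extCfg η)) (B := 1) (S := |ε| * S)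
      (fun η => le_of_eq (abs_spin _)) (fun η => by
        simp only [hξ, hS, Finset.mul_sum]
        refine (Finset.abs_sum_le_sum_abs _ _).trans (le_of_eq ?_)
        exact Finset.sum_congr rfl fun u _ => by rw [abs_mul, abs_mul, sp, abs_spin, mul_one])).1
    have e1 : cov (fieldWeight G θ B H) (fun η => sp x (extCfg η)) ξ = ε * Dg z := by
      simp only [hξ]
      rw [cov_sum_right, hDg, Finset.mul_sum]
      refine Finset.sum_congr rfl fun u _ => ?_
      rw [cov_mul_right]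
      show _ * sig G θ B H x u = _
      ring
    rw [e1, one_mul, mul_pow, sq_abs, ← mul_pow] at hT
    have e2 : g (fun a => ε * cE a + z a) =
        avg (tilt (fieldWeight G θ B H) ξ 1) fun η => sp x (extCfg η) := by
      simp only [hg, cavity, hshift]
      rw [← htilt]
      rfl
    rw [e2]
    exact hT
  have hlow : ∀ z, lam / b * (ℓ * Wc z * F z) - lam * ℓ / b * (g z ^ 2 * F z) ≤ Dg z * F z :=
    fun z => shift_deriv_ge hG hd hreg h0 hθt ht1 hbt hD hlam hpx hx hcs ℓ _ h hh0 hhU (hF0 z)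
  set EF := ∫ z, F z ∂P
  set η := ∫ z, Wc z ∂P
  set X := ∫ z, g z ^ 2 * F z ∂P with hX
  have hX0 : 0 ≤ X := integral_nonneg fun z => mul_nonneg (sq_nonneg _) (hF0 z)
  have hEF0 : 0 ≤ EF := integral_nonneg hF0
  have hlowI : lam * ℓ / b * (η * EF) - lam * ℓ / b * X ≤ ∫ z, Dg z * F z ∂P := by
    have e : lam * ℓ / b * (η * EF) - lam * ℓ / b * X =
        ∫ z, (lam / b * (ℓ * Wc z * F z) - lam * ℓ / b * (g z ^ 2 * F z)) ∂P := by
      rw [integral_sub ((((hWg.const_mul (ℓ : ℝ)).mul hFg).const_mul (lam / b)).integrable τ)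
        (((hgm.sq.mul hFg).const_mul (lam * ℓ / b)).integrable τ), integral_const_mul,
        integral_const_mul, ← hX]
      simp only [mul_assoc, integral_const_mul]
      rw [hsplitFW]
      ring
    rw [e]
    exact integral_mono (((((hWg.const_mul (ℓ : ℝ)).mul hFg).const_mul (lam / b)).sub
      ((hgm.sq.mul hFg).const_mul (lam * ℓ / b))).integrable τ) ((hDgg.mul hFg).integrable τ) hlow
  have hτ0 : (0 : ℝ) < τ := by positivity
  set s := (∑ a, cE a ^ 2) / (τ : ℝ) with hs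
  have hs0 : 0 ≤ s := by positivity
  have hCM : ∀ μ : ℝ, 0 < μ → ∫ z, Dg z * F z ∂P ≤ μ / 2 * X + s / μ * EF := fun μ hμ =>
    shift_moment_le hτ cE (coordsBelow G D x cs) hgm (fun z => abs_magn_le h0 h1 _ _ _) hFg hF0
      hDgg hcE0 hFdep htaylor hμ
  -- optimise
  have hη0 : 0 ≤ η := integral_nonneg fun z => wgt_nonneg hb0.le D _ ℓ x cs
  have hη1 : η ≤ 1 := by
    refine (integral_mono (hWg.integrable τ) (integrable_const (1 : ℝ))
      fun z => wgt_le_one hG hd hreg h0 h1 hbθ ℓ hxc hx hcD).trans (le_of_eq ?_)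
    simp
  have hℓ0 : (0 : ℝ) < ℓ := Nat.cast_pos.mpr hℓ
  set L := lam ^ 2 * τ * ℓ with hL
  have hL0 : 0 < L := by positivity
  show η ^ 2 * EF ≤ 2 * (1 + b / L) * X
  rcases hη0.eq_or_lt with hη | hη
  · rw [← hη]
    have : 0 ≤ 2 * (1 + b / L) * X := by positivity
    simpa using this
  have key := hlowI.trans (hCM (2 / (lam * τ * η)) (by positivity))
  have hsle : s ≤ ℓ / b / τ := div_le_div_of_nonneg_right hnorm hτ0.le
  have key2 : lam * ℓ / b * (η * EF) - lam * ℓ / b * X ≤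
      2 / (lam * τ * η) / 2 * X + ℓ / b / τ / (2 / (lam * τ * η)) * EF :=
    key.trans (add_le_add le_rfl (mul_le_mul_of_nonneg_right
      (div_le_div_of_nonneg_right hsle (by positivity)) hEF0))
  have k3 := mul_le_mul_of_nonneg_left key2 (show 0 ≤ 2 * b * η / (lam * ℓ) by positivity)
  have e1 : 2 * b * η / (lam * ℓ) * (lam * ℓ / b * (η * EF) - lam * ℓ / b * X) =
      2 * η ^ 2 * EF - 2 * η * X := by field_simp
  have e2 : 2 * b * η / (lam * ℓ) * (2 / (lam * τ * η) / 2 * X +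
      ℓ / b / τ / (2 / (lam * τ * η)) * EF) = 2 * (b / L) * X + η ^ 2 * EF := by
    rw [hL]; field_simp
  rw [e1, e2] at k3
  have : η * X ≤ X := mul_le_of_le_one_left hX0 hη1
  linarith

end Vale.Agent.P161
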