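import Vale.Agent.P161.Crit.Energy

/-!
# Weights of the subtrees below an edge
-/

namespace Vale.Agent.P161

open SimpleGraph
open scoped Classical

variable {V : Type*}

/-- The children of `x` when the parent is `p`. -/
noncomputable def kids (G : SimpleGraph V) (D : Finset V) (p x : V) : Finset V :=
  D.filter fun q => G.Adj x q ∧ q ≠ p

/-- `b` times the total squared regression onto `p` of the depth `n` descendants of `x`. -/
noncomputable def wgt (G : SimpleGraph V) (θ b : ℝ) (D : Finset V) (H : V → ℝ) : ℕ → V → V → ℝ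
  | 0, p, x => b * regr G θ D H x p ^ 2
  | n + 1, p, x => regr G θ D H x p ^ 2 * ∑ q ∈ kids G D p x, wgt G θ b D H n x q

/-- The vertices below the edge from x to q at distance `j + 1` from `x`. -/
noncomputable def below (G : SimpleGraph V) (D : Finset V) (x q : V) (j : ℕ) : Finset V :=
  (branch G D x q).filter fun u => G.dist x u = j + 1

/-- The sphere around `c` inside `D`. -/
noncomputable def sphIn (G : SimpleGraph V) (D : Finset V) (c : V) (n : ℕ) : Finset V :=
  D.filter fun v => G.dist c v = n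

variable {G : SimpleGraph V} {θ : ℝ} {d : ℕ} {D : Finset V} {H : V → ℝ}

theorem side_sub (hG : G.IsTree) {p x u v z : V} (h : G.Adj p x) (hu : u ∈ edgeSide G p x)
    (hv : G.Adj v u) (hd : G.dist u x = G.dist v x + 1) (hz : z ∈ edgeSide G v u) :
    z ∈ edgeSide G p x := by
  by_contra hzp
  have hxs : x ∉ edgeSide G v u := by rw [mem_edgeSide]; omega
  have e1 := dist_across hG hv hz x hxs
  have e2 := dist_across hG h hu z hzp
  have e3 := hG.connected.dist_triangle (u := x) (v := p) (w := z)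
  rw [dist_eq_one_iff_adj.mpr h.symm] at e3
  rw [SimpleGraph.dist_comm (u := z) (v := u)] at e2
  rw [SimpleGraph.dist_comm (u := x) (v := u)] at e2
  omega

theorem mem_kids {p x q : V} : q ∈ kids G D p x ↔ q ∈ D ∧ G.Adj x q ∧ q ≠ p := by
  simp [kids]

theorem kid_side (hG : G.IsTree) {p x q : V} (h : G.Adj p x) (hxq : G.Adj x q) (hqp : q ≠ p) :
    q ∈ edgeSide G p x := by
  by_contra hq
  exact hqp (crossing_edge hG h hxq (edgeSide_self h) hq).2

theorem branch_kid_subset (hG : G.IsTree) {p x q : V} (h : G.Adj p x) (hq : q ∈ kids G D p x) :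
    branch G D x q ⊆ branch G D p x := by
  obtain ⟨-, hxq, hqp⟩ := mem_kids.mp hq
  intro z hz
  obtain ⟨hzD, hzs⟩ := mem_branch.mp hz
  refine mem_branch.mpr ⟨hzD, side_sub hG h (kid_side hG h hxq hqp) hxq ?_ hzs⟩
  rw [SimpleGraph.dist_self, dist_eq_one_iff_adj.mpr hxq.symm]

theorem kids_card_le (hd : 3 ≤ d) (hreg : ∀ v, (G.neighborSet v).ncard = d) {p x : V}
    (h : G.Adj p x) : ((kids G D p x).card : ℝ) ≤ (d : ℝ) - 1 := by
  have hsub : (kids G D p x : Set V) ⊆ G.neighborSet x \ {p} := by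
    intro q hq
    obtain ⟨-, hxq, hqp⟩ := mem_kids.mp hq
    exact ⟨hxq, hqp⟩
  have := Set.ncard_le_ncard hsub ((nbr_finite hd hreg x).sdiff)
  have hp : p ∈ G.neighborSet x := h.symm
  rw [Set.ncard_coe_finset, Set.ncard_sdiff_singleton_of_mem hp, hreg] at this
  rw [← Nat.cast_one, ← Nat.cast_sub (by omega)]
  exact_mod_cast this

theorem kids_disjoint (hG : G.IsTree) {x q q' z : V} (hq : G.Adj x q) (hq' : G.Adj x q')
    (hz : z ∈ edgeSide G x q) (hz' : z ∈ edgeSide G x q') : q = q' :=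
  toward_unique hG hq hq' (dist_of_mem_side hG hq hz).symm (dist_of_mem_side hG hq' hz').symm

theorem below_zero (hG : G.IsTree) {x q : V} (h : G.Adj x q) (hq : q ∈ D) :
    below G D x q 0 = {q} := by
  ext u
  simp only [below, Finset.mem_filter, Finset.mem_singleton, mem_branch]
  constructor
  · rintro ⟨⟨-, hs⟩, hu⟩
    have := dist_of_mem_side hG h hs
    exact (hG.connected.dist_eq_zero_iff.mp (show G.dist q u = 0 by omega)).symm
  · rintro rfl
    exact ⟨⟨hq, edgeSide_self h⟩, dist_eq_one_iff_adj.mpr h⟩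

theorem sum_below_succ (hG : G.IsTree) (hD : IsConvexSet G D) {x q : V} (h : G.Adj x q)
    (hq : q ∈ D) (j : ℕ) (f : V → ℝ) :
    ∑ u ∈ below G D x q (j + 1), f u = ∑ q' ∈ kids G D x q, ∑ u ∈ below G D q q' j, f u := by
  rw [← Finset.sum_biUnion]
  · refine Finset.sum_congr ?_ fun _ _ => rfl
    ext u
    simp only [below, Finset.mem_filter, Finset.mem_biUnion, mem_branch]
    constructor
    · rintro ⟨⟨huD, hs⟩, hu⟩
      have e := dist_of_mem_side hG h hs
      have hne : q ≠ u := by rintro rfl; rw [SimpleGraph.dist_self] at e; omega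
      obtain ⟨q', hadj, hq'⟩ := exists_toward hG hne
      refine ⟨q', mem_kids.mpr ⟨hD q hq u huD q' hadj hq', hadj, ?_⟩, ⟨huD, ?_⟩, by omega⟩
      · rintro rfl; omega
      · rw [mem_edgeSide]; omega
    · rintro ⟨q', hk, hu', hj⟩
      have hsub := branch_kid_subset hG h hk (mem_branch.mpr hu')
      obtain ⟨huD, hs⟩ := mem_branch.mp hsub
      exact ⟨⟨huD, hs⟩, by rw [dist_of_mem_side hG h hs, hj]⟩
  · intro q1 h1 q2 h2 hne
    refine Finset.disjoint_left.mpr fun u hu hu' => hne ?_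
    simp only [below, Finset.mem_filter, mem_branch] at hu hu'
    exact kids_disjoint hG (mem_kids.mp h1).2.1 (mem_kids.mp h2).2.1 hu.1.2 hu'.1.2

theorem below_card_le (hG : G.IsTree) (hd : 3 ≤ d) (hreg : ∀ v, (G.neighborSet v).ncard = d)
    (hD : IsConvexSet G D) : ∀ (j : ℕ) {x q : V}, G.Adj x q → q ∈ D →
      ((below G D x q j).card : ℝ) ≤ ((d : ℝ) - 1) ^ j := by
  intro j
  induction j with
  | zero => intro x q h hq; simp [below_zero hG h hq]
  | succ j ih =>
    intro x q h hq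
    have hb : 0 ≤ (d : ℝ) - 1 := by
      have : (3 : ℝ) ≤ d := by exact_mod_cast hd
      linarith
    have e := sum_below_succ hG hD h hq j (fun _ => (1 : ℝ))
    simp only [Finset.sum_const, nsmul_eq_mul, mul_one] at e
    rw [e, pow_succ']
    calc ∑ q' ∈ kids G D x q, ((below G D q q' j).card : ℝ)
        ≤ ∑ q' ∈ kids G D x q, ((d : ℝ) - 1) ^ j :=
          Finset.sum_le_sum fun q' hq' => ih (mem_kids.mp hq').2.1 (mem_kids.mp hq').1
      _ = ((kids G D x q).card : ℝ) * ((d : ℝ) - 1) ^ j := by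
          rw [Finset.sum_const, nsmul_eq_mul]
      _ ≤ _ := mul_le_mul_of_nonneg_right (kids_card_le hd hreg h) (by positivity)

theorem regr_congr_branch (hG : G.IsTree) (h0 : 0 ≤ θ) (h1 : θ < 1) {p x : V} (h : G.Adj p x)
    (hp : p ∈ D) (hx : x ∈ D) {H' : V → ℝ} (hH : ∀ u ∈ branch G D p x, H u = H' u) :
    regr G θ D H x p = regr G θ D H' x p := by
  have e : cavity G θ D H p x = cavity G θ D H' p x := magn_congr _ _ hH
  rw [regr_adj hG h0 h1 h hp hx, regr_adj hG h0 h1 h hp hx, e]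

theorem wgt_congr (hG : G.IsTree) (h0 : 0 ≤ θ) (h1 : θ < 1) {b : ℝ} {H' : V → ℝ} :
    ∀ (n : ℕ) {p x : V}, G.Adj p x → p ∈ D → x ∈ D → (∀ u ∈ branch G D p x, H u = H' u) →
      wgt G θ b D H n p x = wgt G θ b D H' n p x := by
  intro n
  induction n with
  | zero =>
    intro p x h hp hx hH
    rw [wgt, wgt, regr_congr_branch hG h0 h1 h hp hx hH]
  | succ n ih =>
    intro p x h hp hx hH
    rw [wgt, wgt, regr_congr_branch hG h0 h1 h hp hx hH]
    congr 1
    refine Finset.sum_congr rfl fun q hq => ih (mem_kids.mp hq).2.1 hx (mem_kids.mp hq).1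
      fun u hu => hH u (branch_kid_subset hG h hq hu)

theorem wgt_nonneg {b : ℝ} (hb : 0 ≤ b) (D : Finset V) (H : V → ℝ) :
    ∀ (n : ℕ) (p x : V), 0 ≤ wgt G θ b D H n p x := by
  intro n
  induction n with
  | zero => intro p x; rw [wgt]; positivity
  | succ n ih =>
    intro p x; rw [wgt]
    exact mul_nonneg (sq_nonneg _) (Finset.sum_nonneg fun q _ => ih x q)

theorem regr_sq_le {b : ℝ} (hb : 0 ≤ b) (hbθ : b * θ ^ 2 ≤ 1) (hG : G.IsTree) (h0 : 0 ≤ θ)
    (h1 : θ < 1) {p x : V} (h : G.Adj p x) (hp : p ∈ D) (hx : x ∈ D) :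
    b * regr G θ D H x p ^ 2 ≤ 1 := by
  obtain ⟨e1, e2⟩ := regr_adj_bounds hG h0 h1 h hp hx H
  exact (mul_le_mul_of_nonneg_left (pow_le_pow_left₀ e1 e2 2) hb).trans hbθ

theorem wgt_le_one (hG : G.IsTree) (hd : 3 ≤ d) (hreg : ∀ v, (G.neighborSet v).ncard = d)
    (h0 : 0 ≤ θ) (h1 : θ < 1) (hbθ : ((d : ℝ) - 1) * θ ^ 2 ≤ 1) :
    ∀ (n : ℕ) {p x : V}, G.Adj p x → p ∈ D → x ∈ D →
      wgt G θ ((d : ℝ) - 1) D H n p x ≤ 1 := by
  have hb : 0 ≤ (d : ℝ) - 1 := by
    have : (3 : ℝ) ≤ d := by exact_mod_cast hd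
    linarith
  intro n
  induction n with
  | zero => intro p x h hp hx; rw [wgt]; exact regr_sq_le hb hbθ hG h0 h1 h hp hx
  | succ n ih =>
    intro p x h hp hx
    rw [wgt]
    calc regr G θ D H x p ^ 2 * ∑ q ∈ kids G D p x, wgt G θ ((d : ℝ) - 1) D H n x q
        ≤ regr G θ D H x p ^ 2 * ((kids G D p x).card : ℝ) := by
          refine mul_le_mul_of_nonneg_left ?_ (sq_nonneg _)
          rw [← nsmul_one (kids G D p x).card, ← Finset.sum_const]
          exact Finset.sum_le_sum fun q hq => ih (mem_kids.mp hq).2.1 hx (mem_kids.mp hq).1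
      _ ≤ regr G θ D H x p ^ 2 * ((d : ℝ) - 1) :=
          mul_le_mul_of_nonneg_left (kids_card_le hd hreg h) (sq_nonneg _)
      _ ≤ 1 := by rw [mul_comm]; exact regr_sq_le hb hbθ hG h0 h1 h hp hx

theorem wgt_succ_le (hG : G.IsTree) (hd : 3 ≤ d) (hreg : ∀ v, (G.neighborSet v).ncard = d)
    (h0 : 0 ≤ θ) (h1 : θ < 1) (hbθ : ((d : ℝ) - 1) * θ ^ 2 ≤ 1) :
    ∀ (n : ℕ) {p x : V}, G.Adj p x → p ∈ D → x ∈ D →
      wgt G θ ((d : ℝ) - 1) D H (n + 1) p x ≤ wgt G θ ((d : ℝ) - 1) D H n p x := by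
  have hb : 0 ≤ (d : ℝ) - 1 := by
    have : (3 : ℝ) ≤ d := by exact_mod_cast hd
    linarith
  intro n
  induction n with
  | zero =>
    intro p x h hp hx
    rw [wgt, wgt, mul_comm ((d : ℝ) - 1)]
    refine mul_le_mul_of_nonneg_left ?_ (sq_nonneg _)
    refine le_trans ?_ (kids_card_le hd hreg h (D := D))
    rw [← nsmul_one (kids G D p x).card, ← Finset.sum_const]
    exact Finset.sum_le_sum fun q hq =>
      wgt_le_one hG hd hreg h0 h1 hbθ 0 (mem_kids.mp hq).2.1 hx (mem_kids.mp hq).1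
  | succ n ih =>
    intro p x h hp hx
    rw [wgt.eq_def G θ ((d : ℝ) - 1) D H (n + 1 + 1), wgt.eq_def G θ ((d : ℝ) - 1) D H (n + 1)]
    exact mul_le_mul_of_nonneg_left (Finset.sum_le_sum fun q hq =>
      ih (mem_kids.mp hq).2.1 hx (mem_kids.mp hq).1) (sq_nonneg _)

theorem wgt_antitone (hG : G.IsTree) (hd : 3 ≤ d) (hreg : ∀ v, (G.neighborSet v).ncard = d)
    (h0 : 0 ≤ θ) (h1 : θ < 1) (hbθ : ((d : ℝ) - 1) * θ ^ 2 ≤ 1) {p x : V} (h : G.Adj p x)
    (hp : p ∈ D) (hx : x ∈ D) {m n : ℕ} (hmn : m ≤ n) :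
    wgt G θ ((d : ℝ) - 1) D H n p x ≤ wgt G θ ((d : ℝ) - 1) D H m p x :=
  antitone_nat_of_succ_le (f := fun k => wgt G θ ((d : ℝ) - 1) D H k p x)
    (fun k => wgt_succ_le hG hd hreg h0 h1 hbθ k h hp hx) hmn

/-- The regression to the root of a branch can be computed inside the branch. -/
theorem regr_branch (hG : G.IsTree) (h0 : 0 ≤ θ) (h1 : θ < 1) (hD : IsConvexSet G D) {p x : V}
    (h : G.Adj p x) (hx : x ∈ D) : ∀ {u : V}, u ∈ branch G D p x →
      regr G θ (branch G D p x) H u x = regr G θ D H u x := by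
  intro u
  induction hn : G.dist u x generalizing u with
  | zero =>
    intro hu
    obtain rfl := hG.connected.dist_eq_zero_iff.mp hn
    rw [regr_self h0 h1 H hu, regr_self h0 h1 H hx]
  | succ n ih =>
    intro hu
    obtain ⟨huD, hus⟩ := mem_branch.mp hu
    have hxB := mem_branch_self h hx
    have hBc := convex_branch hG hD h
    have hne : u ≠ x := by rintro rfl; simp at hn
    obtain ⟨v, huv, hv⟩ := exists_toward hG hne
    have hvB : v ∈ branch G D p x := hBc u hu x hxB v huv hv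
    have hvD := (mem_branch.mp hvB).1
    have hsplit : G.dist u x = G.dist u v + G.dist v x := by
      rw [dist_eq_one_iff_adj.mpr huv]; omega
    have hbr : branch G (branch G D p x) v u = branch G D v u := by
      ext z
      simp only [mem_branch]
      exact ⟨fun hz => ⟨hz.1.1, hz.2⟩,
        fun hz => ⟨⟨hz.1, side_sub hG h hus huv.symm (by omega) hz.2⟩, hz.2⟩⟩
    have e : regr G θ (branch G D p x) H u v = regr G θ D H u v := by
      rw [regr_adj hG h0 h1 huv.symm hvB hu, regr_adj hG h0 h1 huv.symm hvD huD]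
      simp only [cavity, hbr]
    rw [regr_mul hG h0 h1 hBc H hu hvB hxB hsplit, regr_mul hG h0 h1 hD H huD hvD hx hsplit,
      ih (by omega) hvB, e]

theorem regr_below (hG : G.IsTree) (h0 : 0 ≤ θ) (h1 : θ < 1) (hD : IsConvexSet G D) {x q u : V}
    (h : G.Adj x q) (hx : x ∈ D) (hq : q ∈ D) (hu : u ∈ branch G D x q) :
    regr G θ D H u x = regr G θ D H u q * regr G θ D H q x := by
  obtain ⟨huD, hs⟩ := mem_branch.mp hu
  refine regr_mul hG h0 h1 hD H huD hq hx ?_
  rw [SimpleGraph.dist_comm, dist_of_mem_side hG h hs, SimpleGraph.dist_comm (u := q) (v := u),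
    dist_eq_one_iff_adj.mpr h.symm]

/-- The weights are bounded by the linear sums. -/
theorem wgt_le_below (hG : G.IsTree) (hd : 3 ≤ d) (h0 : 0 ≤ θ)
    {t : ℝ} (hθt : θ ≤ t) (ht1 : t < 1) (hD : IsConvexSet G D) :
    ∀ (j : ℕ) {x q : V}, G.Adj x q → x ∈ D → q ∈ D →
      wgt G θ ((d : ℝ) - 1) D H j x q ≤
        ((d : ℝ) - 1) * (t ^ (j + 1) * ∑ u ∈ below G D x q j, regr G θ D H u x) := by
  have hb : 0 ≤ (d : ℝ) - 1 := by
    have : (3 : ℝ) ≤ d := by exact_mod_cast hd
    linarith
  have h1 : θ < 1 := lt_of_le_of_lt hθt ht1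
  intro j
  induction j with
  | zero =>
    intro x q h hx hq
    obtain ⟨e1, e2⟩ := regr_adj_bounds hG h0 h1 h hx hq H
    rw [wgt, below_zero hG h hq, Finset.sum_singleton, pow_one, sq]
    exact mul_le_mul_of_nonneg_left (mul_le_mul_of_nonneg_right (e2.trans hθt) e1) hb
  | succ j ih =>
    intro x q h hx hq
    obtain ⟨e1, e2⟩ := regr_adj_bounds hG h0 h1 h hx hq H
    rw [wgt, sum_below_succ hG hD h hq]
    calc regr G θ D H q x ^ 2 * ∑ q' ∈ kids G D x q, wgt G θ ((d : ℝ) - 1) D H j q q'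
        ≤ (t * regr G θ D H q x) * ∑ q' ∈ kids G D x q,
            ((d : ℝ) - 1) * (t ^ (j + 1) * ∑ u ∈ below G D q q' j, regr G θ D H u q) := by
          refine mul_le_mul ?_ (Finset.sum_le_sum fun q' hq' =>
            ih (mem_kids.mp hq').2.1 hq (mem_kids.mp hq').1)
            (Finset.sum_nonneg fun q' _ => wgt_nonneg hb D H j q q')
            (mul_nonneg (h0.trans hθt) e1)
          rw [sq]; exact mul_le_mul_of_nonneg_right (e2.trans hθt) e1
      _ = _ := by
          simp only [Finset.mul_sum]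
          refine Finset.sum_congr rfl fun q' hq' => Finset.sum_congr rfl fun u hu => ?_
          rw [regr_below hG h0 h1 hD h hx hq
            (branch_kid_subset hG h hq' (Finset.mem_filter.mp hu).1), pow_succ t (j + 1)]
          ring

/-- The linear sums are bounded by one. -/
theorem below_sum_le_one (hG : G.IsTree) (hd : 3 ≤ d) (hreg : ∀ v, (G.neighborSet v).ncard = d)
    (h0 : 0 ≤ θ) {t : ℝ} (hθt : θ ≤ t) (ht1 : t < 1) (hbt : ((d : ℝ) - 1) * t ^ 2 ≤ 1)
    (hD : IsConvexSet G D) (j : ℕ) {x q : V} (h : G.Adj x q) (hx : x ∈ D) (hq : q ∈ D) :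
    ((d : ℝ) - 1) * (t ^ (j + 1) * ∑ u ∈ below G D x q j, regr G θ D H u x) ≤ 1 := by
  have hb : 0 ≤ (d : ℝ) - 1 := by
    have : (3 : ℝ) ≤ d := by exact_mod_cast hd
    linarith
  have h1 : θ < 1 := lt_of_le_of_lt hθt ht1
  have ht0 : 0 ≤ t := h0.trans hθt
  have hsum : ∑ u ∈ below G D x q j, regr G θ D H u x ≤ ((d : ℝ) - 1) ^ j * t ^ (j + 1) := by
    calc ∑ u ∈ below G D x q j, regr G θ D H u x ≤ ∑ u ∈ below G D x q j, t ^ (j + 1) := by
          refine Finset.sum_le_sum fun u hu => ?_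
          obtain ⟨hub, hud⟩ := Finset.mem_filter.mp hu
          refine ((regr_bounds hG h0 h1 hD H hx (mem_branch.mp hub).1).2).trans ?_
          rw [SimpleGraph.dist_comm, hud]
          exact pow_le_pow_left₀ h0 hθt _
      _ = ((below G D x q j).card : ℝ) * t ^ (j + 1) := by rw [Finset.sum_const, nsmul_eq_mul]
      _ ≤ _ := mul_le_mul_of_nonneg_right (below_card_le hG hd hreg hD j h hq) (by positivity)
  calc ((d : ℝ) - 1) * (t ^ (j + 1) * ∑ u ∈ below G D x q j, regr G θ D H u x)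
      ≤ ((d : ℝ) - 1) * (t ^ (j + 1) * (((d : ℝ) - 1) ^ j * t ^ (j + 1))) :=
        mul_le_mul_of_nonneg_left (mul_le_mul_of_nonneg_left hsum (by positivity)) hb
    _ = (((d : ℝ) - 1) * t ^ 2) ^ (j + 1) := by
        rw [mul_pow, ← pow_mul]; ring
    _ ≤ 1 := pow_le_one₀ (by positivity) hbt

/-- Spheres around the root split according to an inner sphere. -/
theorem sphere_identity (hG : G.IsTree) (h0 : 0 ≤ θ) (h1 : θ < 1) (hD : IsConvexSet G D) {c : V}
    (hc : c ∈ D) (b : ℝ) : ∀ (j n : ℕ),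
      b * ∑ v ∈ sphIn G D c (n + 1 + j), regr G θ D H v c ^ 2 =
        ∑ q ∈ sphIn G D c (n + 1),
          regr G θ D H (parentOf G c q) c ^ 2 * wgt G θ b D H j (parentOf G c q) q := by
  have hpar : ∀ {n q}, q ∈ sphIn G D c (n + 1) → q ∈ D ∧ parentOf G c q ∈ D ∧
      G.Adj (parentOf G c q) q ∧ G.dist c (parentOf G c q) = n ∧
      regr G θ D H q c = regr G θ D H q (parentOf G c q) * regr G θ D H (parentOf G c q) c := by
    intro n q hq
    obtain ⟨hqD, hdq⟩ := Finset.mem_filter.mp hq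
    have hqc : q ≠ c := by rintro rfl; simp at hdq
    obtain ⟨hadj, hd1⟩ := parentOf_spec hG hqc
    have hpD := parentOf_mem hG hD hc hqD hqc
    rw [SimpleGraph.dist_comm (u := q), hdq, SimpleGraph.dist_comm] at hd1
    refine ⟨hqD, hpD, hadj.symm, by omega, regr_mul hG h0 h1 hD H hqD hpD hc ?_⟩
    rw [dist_eq_one_iff_adj.mpr hadj, SimpleGraph.dist_comm (u := q), hdq,
      SimpleGraph.dist_comm (u := parentOf G c q)]
    omega
  intro j
  induction j with
  | zero =>
    intro n
    rw [Finset.mul_sum, Nat.add_zero]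
    refine Finset.sum_congr rfl fun q hq => ?_
    rw [wgt, (hpar hq).2.2.2.2]
    ring
  | succ j ih =>
    intro n
    rw [show n + 1 + (j + 1) = n + 1 + 1 + j by omega, ih (n + 1)]
    have hmaps : ∀ w ∈ sphIn G D c (n + 1 + 1), parentOf G c w ∈ sphIn G D c (n + 1) := fun w hw =>
      Finset.mem_filter.mpr ⟨(hpar hw).2.1, (hpar hw).2.2.2.1⟩
    rw [← Finset.sum_fiberwise_of_maps_to hmaps]
    refine Finset.sum_congr rfl fun u hu => ?_
    obtain ⟨huD, hpuD, hadj, hdu, hmul⟩ := hpar hu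
    rw [wgt, ← mul_assoc, ← mul_pow, mul_comm (regr G θ D H (parentOf G c u) c), ← hmul,
      Finset.mul_sum]
    refine Finset.sum_congr ?_ fun w hw => ?_
    · ext w
      simp only [Finset.mem_filter, mem_kids, sphIn]
      have hdu' : G.dist c u = n + 1 := (Finset.mem_filter.mp hu).2
      constructor
      · rintro ⟨⟨hwD, hdw⟩, hpw⟩
        have hwc : w ≠ c := by rintro rfl; simp at hdw
        have hs := (parentOf_spec hG hwc).1
        rw [hpw] at hs
        refine ⟨hwD, hs.symm, ?_⟩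
        rintro rfl
        omega
      · rintro ⟨hwD, huw, hne⟩
        have hdw : G.dist c w = n + 1 + 1 := by
          rcases dist_succ_or hG huw c with e | e
          · exfalso
            refine hne (toward_unique hG huw hadj.symm e.symm ?_)
            rw [SimpleGraph.dist_comm (u := u), hdu', SimpleGraph.dist_comm, hdu]
          · rw [SimpleGraph.dist_comm (u := w), SimpleGraph.dist_comm (u := u), hdu'] at e
            omega
        have hwc : w ≠ c := by rintro rfl; simp at hdw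
        refine ⟨⟨hwD, hdw⟩, ?_⟩
        obtain ⟨ha, hb'⟩ := parentOf_spec hG hwc
        refine toward_unique hG ha huw.symm hb' ?_
        rw [SimpleGraph.dist_comm (u := w), hdw, SimpleGraph.dist_comm, hdu']
    · have hw' := mem_kids.mp hw
      have e : parentOf G c w = u := by
        obtain ⟨hwD, huw, hne⟩ := hw'
        have hdu' : G.dist c u = n + 1 := (Finset.mem_filter.mp hu).2
        have hdw : G.dist c w = n + 1 + 1 := by
          rcases dist_succ_or hG huw c with e | e
          · exfalso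
            refine hne (toward_unique hG huw hadj.symm e.symm ?_)
            rw [SimpleGraph.dist_comm (u := u), hdu', SimpleGraph.dist_comm, hdu]
          · rw [SimpleGraph.dist_comm (u := w), SimpleGraph.dist_comm (u := u), hdu'] at e
            omega
        have hwc : w ≠ c := by rintro rfl; simp at hdw
        obtain ⟨ha, hb'⟩ := parentOf_spec hG hwc
        refine toward_unique hG ha huw.symm hb' ?_
        rw [SimpleGraph.dist_comm (u := w), hdw, SimpleGraph.dist_comm, hdu']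
      rw [e]

theorem sphIn_card_le (hG : G.IsTree) (hd : 3 ≤ d) (hreg : ∀ v, (G.neighborSet v).ncard = d)
    (c : V) (n : ℕ) : ((sphIn G D c (n + 1)).card : ℝ) ≤ d * ((d : ℝ) - 1) ^ n := by
  refine le_trans ?_ (sphere_ncard_le hG hd hreg c n)
  rw [← Set.ncard_coe_finset]
  exact_mod_cast Set.ncard_le_ncard (fun v hv => (Finset.mem_filter.mp hv).2)
    (sphere_finite hG hd hreg c (n + 1))

theorem sphere_mass_le (hG : G.IsTree) (hd : 3 ≤ d) (hreg : ∀ v, (G.neighborSet v).ncard = d)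
    (h0 : 0 ≤ θ) (h1 : θ < 1) (hD : IsConvexSet G D) {c : V} (hc : c ∈ D) (n : ℕ) :
    ∑ v ∈ sphIn G D c n, regr G θ D H v c ^ 2 ≤ 2 * (((d : ℝ) - 1) * θ ^ 2) ^ n := by
  have hb : 2 ≤ (d : ℝ) - 1 := by
    have : (3 : ℝ) ≤ d := by exact_mod_cast hd
    linarith
  calc ∑ v ∈ sphIn G D c n, regr G θ D H v c ^ 2
      ≤ ∑ v ∈ sphIn G D c n, (θ ^ n) ^ 2 := by
        refine Finset.sum_le_sum fun v hv => ?_
        obtain ⟨hvD, hdv⟩ := Finset.mem_filter.mp hv
        obtain ⟨e1, e2⟩ := regr_bounds hG h0 h1 hD H hc hvD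
        rw [SimpleGraph.dist_comm, hdv] at e2
        exact pow_le_pow_left₀ e1 e2 2
    _ = ((sphIn G D c n).card : ℝ) * (θ ^ 2) ^ n := by
        rw [Finset.sum_const, nsmul_eq_mul, ← pow_mul, ← pow_mul, mul_comm n]
    _ ≤ (2 * ((d : ℝ) - 1) ^ n) * (θ ^ 2) ^ n := by
        refine mul_le_mul_of_nonneg_right ?_ (by positivity)
        cases n with
        | zero =>
          have : (sphIn G D c 0).card ≤ 1 := by
            refine Finset.card_le_one.mpr fun a ha a' ha' => ?_
            rw [← hG.connected.dist_eq_zero_iff.mp (Finset.mem_filter.mp ha).2,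
              ← hG.connected.dist_eq_zero_iff.mp (Finset.mem_filter.mp ha').2]
          have : ((sphIn G D c 0).card : ℝ) ≤ 1 := by exact_mod_cast this
          simp only [pow_zero]
          linarith
        | succ n =>
          refine (sphIn_card_le hG hd hreg c n).trans ?_
          rw [pow_succ', ← mul_assoc]
          exact mul_le_mul_of_nonneg_right (by linarith) (by positivity)
    _ = _ := by rw [mul_pow]; ring

/-- Good subtrees halve the spheres. -/
theorem sphere_halve (hG : G.IsTree) (hd : 3 ≤ d) (hreg : ∀ v, (G.neighborSet v).ncard = d)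
    (h0 : 0 ≤ θ) (h1 : θ < 1) (hD : IsConvexSet G D) {c : V} (hc : c ∈ D) {i M : ℕ}
    (hgood : ∀ q ∈ sphIn G D c (i + 1 + 1),
      wgt G θ ((d : ℝ) - 1) D H M (parentOf G c q) q ≤ 1 / 2) :
    ∑ v ∈ sphIn G D c (i + 1 + (M + 1)), regr G θ D H v c ^ 2 ≤
      (1 / 2) * ∑ v ∈ sphIn G D c (i + 1), regr G θ D H v c ^ 2 := by
  have hb : 0 < (d : ℝ) - 1 := by
    have : (3 : ℝ) ≤ d := by exact_mod_cast hd
    linarith
  set b := (d : ℝ) - 1 with hbdef
  refine le_of_mul_le_mul_left ?_ hb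
  rw [show i + 1 + (M + 1) = i + 1 + 1 + M by omega, sphere_identity hG h0 h1 hD hc b M (i + 1)]
  set R := fun u => regr G θ D H u c ^ 2 with hR
  calc ∑ q ∈ sphIn G D c (i + 1 + 1), R (parentOf G c q) * wgt G θ b D H M (parentOf G c q) q
      ≤ ∑ q ∈ sphIn G D c (i + 1 + 1), R (parentOf G c q) * (1 / 2) :=
        Finset.sum_le_sum fun q hq => mul_le_mul_of_nonneg_left (hgood q hq) (sq_nonneg _)
    _ = (1 / 2) * ∑ q ∈ sphIn G D c (i + 1 + 1), R (parentOf G c q) := by
        rw [Finset.mul_sum]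
        exact Finset.sum_congr rfl fun q _ => by ring
    _ ≤ (1 / 2) * (b * ∑ v ∈ sphIn G D c (i + 1), R v) := by
        refine mul_le_mul_of_nonneg_left ?_ (by norm_num)
        have hmaps : ∀ w ∈ sphIn G D c (i + 1 + 1), parentOf G c w ∈ sphIn G D c (i + 1) := by
          intro w hw
          obtain ⟨hwD, hdw⟩ := Finset.mem_filter.mp hw
          have hwc : w ≠ c := by rintro rfl; simp at hdw
          have h2 := (parentOf_spec hG hwc).2
          rw [SimpleGraph.dist_comm (u := w), hdw, SimpleGraph.dist_comm] at h2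
          exact Finset.mem_filter.mpr ⟨parentOf_mem hG hD hc hwD hwc, by omega⟩
        rw [← Finset.sum_fiberwise_of_maps_to hmaps, Finset.mul_sum]
        refine Finset.sum_le_sum fun u hu => ?_
        obtain ⟨huD, hdu⟩ := Finset.mem_filter.mp hu
        have huc : u ≠ c := by rintro rfl; simp at hdu
        obtain ⟨hadj, hd1⟩ := parentOf_spec hG huc
        rw [Finset.sum_congr rfl fun w hw => by rw [(Finset.mem_filter.mp hw).2],
          Finset.sum_const, nsmul_eq_mul]
        refine mul_le_mul_of_nonneg_right ?_ (sq_nonneg _)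
        refine le_trans ?_ (kids_card_le hd hreg hadj.symm (D := D))
        gcongr
        intro w hw
        obtain ⟨hw1, hw2⟩ := Finset.mem_filter.mp hw
        obtain ⟨hwD, hdw⟩ := Finset.mem_filter.mp hw1
        have hwc : w ≠ c := by rintro rfl; simp at hdw
        have hs := (parentOf_spec hG hwc).1
        rw [hw2] at hs
        refine mem_kids.mpr ⟨hwD, hs.symm, ?_⟩
        intro he
        rw [← he, SimpleGraph.dist_comm (u := w), hdw, SimpleGraph.dist_comm, hdu] at hd1
        omega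
    _ = b * ((1 / 2) * ∑ v ∈ sphIn G D c (i + 1), regr G θ D H v c ^ 2) := by simp only [hR]; ring

/-- Summing a sequence which halves at a fixed lag up to `R`. -/
theorem sum_lag_le {s : ℕ → ℝ} {q : ℝ} {N R : ℕ} (hs : ∀ n, 0 ≤ s n) (h2 : ∀ n, s n ≤ 2)
    (hq0 : 0 ≤ q) (hq1 : q < 1) (hsq : ∀ n, s n ≤ 2 * q ^ n)
    (hhalf : ∀ i < R, s (i + 1 + N) ≤ s (i + 1) / 2) (X : ℕ) :
    ∑ i ∈ Finset.range X, s i ≤ 2 + 4 * N + 2 * q ^ R / (1 - q) := by
  set T := ∑ i ∈ Finset.range (N + R), s (i + 1) with hT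
  have hsplit : T = ∑ i ∈ Finset.range N, s (i + 1) + ∑ i ∈ Finset.range R, s (N + i + 1) :=
    Finset.sum_range_add _ N R
  have hT4 : T ≤ 4 * N := by
    have e1 : ∑ i ∈ Finset.range N, s (i + 1) ≤ N * 2 := by
      refine (Finset.sum_le_sum fun i _ => h2 (i + 1)).trans (le_of_eq ?_)
      simp
    have e2 : ∑ i ∈ Finset.range R, s (N + i + 1) ≤ T / 2 := by
      calc ∑ i ∈ Finset.range R, s (N + i + 1) ≤ ∑ i ∈ Finset.range R, s (i + 1) / 2 :=
            Finset.sum_le_sum fun i hi => by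
              rw [show N + i + 1 = i + 1 + N by omega]
              exact hhalf i (Finset.mem_range.mp hi)
        _ ≤ ∑ i ∈ Finset.range (N + R), s (i + 1) / 2 :=
            Finset.sum_le_sum_of_subset_of_nonneg (Finset.range_mono (by omega))
              fun i _ _ => div_nonneg (hs _) zero_le_two
        _ = T / 2 := (Finset.sum_div ..).symm
    linarith
  calc ∑ i ∈ Finset.range X, s i ≤ ∑ i ∈ Finset.range (N + R + 1 + X), s i :=
        Finset.sum_le_sum_of_subset_of_nonneg (Finset.range_mono (by omega)) fun i _ _ => hs i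
    _ = (T + s 0) + ∑ i ∈ Finset.range X, s (N + R + 1 + i) := by
        rw [Finset.sum_range_add, Finset.sum_range_succ']
    _ ≤ (4 * N + 2) + 2 * q ^ R / (1 - q) := by
        refine add_le_add (add_le_add hT4 (h2 0)) ?_
        calc ∑ i ∈ Finset.range X, s (N + R + 1 + i)
            ≤ ∑ i ∈ Finset.range X, 2 * q ^ R * q ^ i := by
              refine Finset.sum_le_sum fun i _ => (hsq _).trans ?_
              rw [mul_assoc, ← pow_add]
              exact mul_le_mul_of_nonneg_left (pow_le_pow_of_le_one hq0 hq1.le (by omega)) zero_le_two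
          _ = 2 * q ^ R * ∑ i ∈ Finset.range X, q ^ i := (Finset.mul_sum ..).symm
          _ ≤ 2 * q ^ R * (1 - q)⁻¹ := by
              refine mul_le_mul_of_nonneg_left ?_ (by positivity)
              rw [← tsum_geometric_of_lt_one hq0 hq1]
              exact (summable_geometric_of_lt_one hq0 hq1).sum_le_tsum _ fun i _ => by positivity
          _ = _ := (div_eq_mul_inv _ _).symm
    _ = _ := by ring

end Vale.Agent.P161
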