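import Vale.Agent.P161.Crit.TreeCov

/-!
# The energy inequalities on a subtree
-/

namespace Vale.Agent.P161

open SimpleGraph
open scoped Classical

variable {V : Type*}

/-- The covariance of the spin at `v` with the linear statistic with coefficients `α`. -/
noncomputable def sigMul (G : SimpleGraph V) (θ : ℝ) (D : Finset V) (h α : V → ℝ) (v : V) : ℝ :=
  ∑ u ∈ D, α u * sig G θ D h u v

/-- The variance of the linear statistic with coefficients `α`. -/
noncomputable def linVar (G : SimpleGraph V) (θ : ℝ) (D : Finset V) (h α : V → ℝ) : ℝ :=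
  ∑ v ∈ D, α v * sigMul G θ D h α v

/-- The total squared regression onto the spin at `c`. -/
noncomputable def regrSum (G : SimpleGraph V) (θ : ℝ) (D : Finset V) (h : V → ℝ) (c : V) : ℝ :=
  ∑ v ∈ D, regr G θ D h v c ^ 2

/-- The third cumulant of two spins and the linear statistic with coefficients `α`. -/
noncomputable def cumLin (G : SimpleGraph V) (θ : ℝ) (D : Finset V) (h α : V → ℝ) (v w : V) : ℝ :=
  ∑ u ∈ D, α u * cum3 (fieldWeight G θ D h) (fun η => sp v (extCfg η))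
    (fun η => sp w (extCfg η)) (fun η => sp u (extCfg η))

variable {G : SimpleGraph V} {θ : ℝ} {d : ℕ}

theorem regrSum_nonneg (D : Finset V) (h : V → ℝ) (c : V) : 0 ≤ regrSum G θ D h c :=
  Finset.sum_nonneg fun _ _ => sq_nonneg _

theorem sigMul_nonneg (hG : G.IsTree) (h0 : 0 ≤ θ) (h1 : θ < 1) {D : Finset V}
    (hD : IsConvexSet G D) (y : V → ℝ) {α : V → ℝ} (hα : ∀ u ∈ D, 0 ≤ α u) {v : V} (hv : v ∈ D) :
    0 ≤ sigMul G θ D y α v :=
  Finset.sum_nonneg fun u hu => mul_nonneg (hα u hu) (sig_nonneg hG h0 h1 hD y hu hv)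

/-- The parent of a vertex with respect to a root. -/
noncomputable def parentOf (G : SimpleGraph V) (o v : V) : V :=
  if h : ∃ w, G.Adj v w ∧ G.dist w o + 1 = G.dist v o then h.choose else v

theorem parentOf_spec (hG : G.IsTree) {o v : V} (h : v ≠ o) :
    G.Adj v (parentOf G o v) ∧ G.dist (parentOf G o v) o + 1 = G.dist v o := by
  have he := exists_toward hG h
  simp only [parentOf, dif_pos he]
  exact he.choose_spec

theorem parentOf_mem (hG : G.IsTree) {D : Finset V} (hD : IsConvexSet G D) {o v : V} (ho : o ∈ D)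
    (hv : v ∈ D) (h : v ≠ o) : parentOf G o v ∈ D :=
  hD v hv o ho _ (parentOf_spec hG h).1 (parentOf_spec hG h).2

theorem root_not_mem_side (hG : G.IsTree) {o v : V} (h : v ≠ o) :
    o ∉ edgeSide G (parentOf G o v) v := by
  have := (parentOf_spec hG h).2
  rw [mem_edgeSide]; omega

/-- A sum over parents costs the branching number. -/
theorem sum_parent_le (hG : G.IsTree) (hd : 3 ≤ d) (hreg : ∀ v, (G.neighborSet v).ncard = d)
    {D : Finset V} (hD : IsConvexSet G D) {o : V} (ho : o ∈ D) (f : V → ℝ)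
    (hf : ∀ p, 0 ≤ f p) :
    ∑ v ∈ D.erase o, f (parentOf G o v) ≤ ((d : ℝ) - 1) * ∑ p ∈ D, f p + f o := by
  have hmaps : ∀ v ∈ D.erase o, parentOf G o v ∈ D := fun v hv =>
    parentOf_mem hG hD ho (Finset.mem_of_mem_erase hv) (Finset.ne_of_mem_erase hv)
  rw [← Finset.sum_fiberwise_of_maps_to hmaps]
  have hb : ∀ p ∈ D, ∑ v ∈ (D.erase o).filter (fun v => parentOf G o v = p), f (parentOf G o v) ≤
      ((d : ℝ) - 1) * f p + if p = o then f o else 0 := by
    intro p _
    rw [Finset.sum_congr rfl fun v hv => by rw [(Finset.mem_filter.mp hv).2], Finset.sum_const,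
      nsmul_eq_mul]
    set S := (D.erase o).filter (fun v => parentOf G o v = p)
    have hsub : (S : Set V) ⊆ G.neighborSet p := by
      intro v hv
      obtain ⟨hv, hp⟩ := Finset.mem_filter.mp hv
      exact hp ▸ ((parentOf_spec hG (Finset.ne_of_mem_erase hv)).1).symm
    have hcard : (S.card : ℝ) ≤ d := by
      have := Set.ncard_le_ncard hsub (nbr_finite hd hreg p)
      rw [Set.ncard_coe_finset, hreg] at this
      exact_mod_cast this
    by_cases hpo : p = o
    · rw [if_pos hpo, ← hpo]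
      nlinarith [hf p]
    · rw [if_neg hpo, add_zero]
      refine mul_le_mul_of_nonneg_right ?_ (hf p)
      obtain ⟨q, hq, hqd⟩ := exists_toward hG hpo
      have hsub' : (S : Set V) ⊆ G.neighborSet p \ {q} := by
        intro v hv
        refine ⟨hsub hv, ?_⟩
        obtain ⟨hv, hp⟩ := Finset.mem_filter.mp hv
        have := (parentOf_spec hG (Finset.ne_of_mem_erase hv)).2
        rw [hp] at this
        rintro rfl
        omega
      have := Set.ncard_le_ncard hsub' ((nbr_finite hd hreg p).sdiff)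
      have hq' : q ∈ G.neighborSet p := hq
      rw [Set.ncard_coe_finset, Set.ncard_sdiff_singleton_of_mem hq', hreg] at this
      rw [← Nat.cast_one, ← Nat.cast_sub (by omega)]
      exact_mod_cast this
  refine (Finset.sum_le_sum hb).trans (le_of_eq ?_)
  rw [Finset.sum_add_distrib, ← Finset.mul_sum, Finset.sum_ite_eq', if_pos ho]

section Bessel

variable (G θ) in
/-- The innovation of the spin at `v` given its parent. -/
noncomputable def spinInnov (D : Finset V) (y : V → ℝ) (o v : V) (η : D → Bool) : ℝ :=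
  if v = o then sp o (extCfg η)
  else sp v (extCfg η) - regr G θ D y v (parentOf G o v) * sp (parentOf G o v) (extCfg η)

variable (G θ) in
/-- The part of `M` not explained by the parent. -/
noncomputable def energyStep (D : Finset V) (y α : V → ℝ) (o v : V) : ℝ :=
  if v = o then sigMul G θ D y α o
  else sigMul G θ D y α v -
    regr G θ D y v (parentOf G o v) * sigMul G θ D y α (parentOf G o v)

theorem cov_sub_left {Ω : Type*} [Fintype Ω] (w f g k : Ω → ℝ) :
    cov w (fun x => f x - g x) k = cov w f k - cov w g k := by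
  simp only [cov, sub_mul, avg_sub]; ring

theorem cov_sub_right {Ω : Type*} [Fintype Ω] (w f g k : Ω → ℝ) :
    cov w k (fun x => f x - g x) = cov w k f - cov w k g := by
  rw [cov_comm w k, cov_sub_left, cov_comm w f, cov_comm w g]

theorem cov_spinInnov_out (hG : G.IsTree) (h0 : 0 ≤ θ) (h1 : θ < 1) {D : Finset V}
    (hD : IsConvexSet G D) (y : V → ℝ) {o v u : V} (ho : o ∈ D) (hv : v ∈ D) (hu : u ∈ D)
    (hvo : v ≠ o) (hus : u ∉ edgeSide G (parentOf G o v) v) :
    cov (fieldWeight G θ D y) (spinInnov G θ D y o v) (fun η => sp u (extCfg η)) = 0 := by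
  have hp := parentOf_mem hG hD ho hv hvo
  have hadj := (parentOf_spec hG hvo).1.symm
  have he : G.dist v u = G.dist v (parentOf G o v) + G.dist (parentOf G o v) u := by
    rw [dist_eq_one_iff_adj.mpr hadj.symm, dist_of_not_mem_side hG hadj hus]; omega
  have e := mCov_between hG h0 h1 hD y hv hp (S := {u})
    (fun x hx => by rw [Set.mem_singleton_iff] at hx; subst hx; exact ⟨hu, he⟩)
    (H := sp u) (fun a b hab => by simp only [sp, hab u rfl])
  simp only [mCov] at e
  unfold spinInnov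
  simp only [if_neg hvo]
  rw [cov_sub_left, cov_mul_left, e, sub_self]

theorem cov_spinInnov_ne (hG : G.IsTree) (h0 : 0 ≤ θ) (h1 : θ < 1) {D : Finset V}
    (hD : IsConvexSet G D) (y : V → ℝ) {o : V} (ho : o ∈ D) :
    ∀ v ∈ D, ∀ w ∈ D, v ≠ w →
      cov (fieldWeight G θ D y) (spinInnov G θ D y o v) (spinInnov G θ D y o w) = 0 := by
  have main : ∀ v ∈ D, ∀ w ∈ D, v ≠ o → v ≠ w → w ∉ edgeSide G (parentOf G o v) v →
      cov (fieldWeight G θ D y) (spinInnov G θ D y o v) (spinInnov G θ D y o w) = 0 := by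
    intro v hv w hw hvo hvw hws
    by_cases hwo : w = o
    · subst hwo
      rw [show spinInnov G θ D y w w = fun η => sp w (extCfg η) from
        funext fun η => if_pos rfl]
      exact cov_spinInnov_out hG h0 h1 hD y ho hv ho hvo hws
    · have hps : parentOf G o w ∉ edgeSide G (parentOf G o v) v := by
        intro hps
        obtain ⟨hwadj, hwd⟩ := parentOf_spec hG hwo
        obtain ⟨e1, e2⟩ := crossing_edge hG (parentOf_spec hG hvo).1.symm hwadj.symm hps hws
        have := (parentOf_spec hG hvo).2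
        rw [e1] at hwd
        rw [← e2] at this
        omega
      rw [show spinInnov G θ D y o w = fun η => sp w (extCfg η) -
          regr G θ D y w (parentOf G o w) * sp (parentOf G o w) (extCfg η) from
        funext fun η => if_neg hwo, cov_sub_right, cov_mul_right,
        cov_spinInnov_out hG h0 h1 hD y ho hv hw hvo hws,
        cov_spinInnov_out hG h0 h1 hD y ho hv (parentOf_mem hG hD ho hw hwo) hvo hps]
      ring
  intro v hv w hw hvw
  by_cases hvo : v = o
  · subst hvo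
    rw [cov_comm]
    exact main w hw v hv (Ne.symm hvw) (Ne.symm hvw) (root_not_mem_side hG (Ne.symm hvw))
  · by_cases hws : w ∈ edgeSide G (parentOf G o v) v
    · have hwo : w ≠ o := fun h => root_not_mem_side hG hvo (h ▸ hws)
      rw [cov_comm]
      refine main w hw v hv hwo (Ne.symm hvw) fun hvs => hvw ?_
      obtain ⟨hadj, hd1⟩ := parentOf_spec hG hvo
      obtain ⟨hadj', hd2⟩ := parentOf_spec hG hwo
      have e1 := dist_across hG hadj.symm hws o (root_not_mem_side hG hvo)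
      have e2 := dist_across hG hadj'.symm hvs o (root_not_mem_side hG hwo)
      rw [dist_comm (u := o) (v := w)] at e1
      rw [dist_comm (u := o) (v := v)] at e2
      rw [dist_comm (u := parentOf G o v) (v := o)] at hd1 e1
      rw [dist_comm (u := parentOf G o w) (v := o)] at hd2 e2
      rw [dist_comm (u := o) (v := parentOf G o v)] at hd1 e1
      rw [dist_comm (u := o) (v := parentOf G o w)] at hd2 e2
      exact (hG.connected.dist_eq_zero_iff).mp (by omega)
    · exact main v hv w hw hvo hvw hws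

theorem cov_spinInnov_self (hG : G.IsTree) (h0 : 0 ≤ θ) (h1 : θ < 1) {D : Finset V}
    (hD : IsConvexSet G D) (y : V → ℝ) {o : V} (ho : o ∈ D) {v : V} (hv : v ∈ D) :
    cov (fieldWeight G θ D y) (spinInnov G θ D y o v) (spinInnov G θ D y o v) ≤ 1 := by
  by_cases hvo : v = o
  · subst hvo
    rw [show spinInnov G θ D y v v = fun η => sp v (extCfg η) from funext fun η => if_pos rfl]
    exact sig_self_le_one h0 h1 D y v
  · set p := parentOf G o v
    have hp : p ∈ D := parentOf_mem hG hD ho hv hvo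
    rw [show spinInnov G θ D y o v = fun η => sp v (extCfg η) -
          regr G θ D y v p * sp p (extCfg η) from funext fun η => if_neg hvo,
      cov_sub_left, cov_mul_left, cov_sub_right, cov_sub_right, cov_mul_right, cov_mul_right]
    show sig G θ D y v v - regr G θ D y v p * sig G θ D y v p -
      regr G θ D y v p * (sig G θ D y p v - regr G θ D y v p * sig G θ D y p p) ≤ 1
    rw [sig_comm D y p v, sig_eq_regr h0 h1 y v hp, sub_self, mul_zero, sub_zero]
    nlinarith [sig_self_le_one h0 h1 D y v (G := G), mul_nonneg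
      (sq_nonneg (regr G θ D y v p)) (sig_self_pos h0 h1 y hp (G := G)).le]

theorem sum_energyStep_le (hG : G.IsTree) (h0 : 0 ≤ θ) (h1 : θ < 1) {D : Finset V}
    (hD : IsConvexSet G D) (y α : V → ℝ) {o : V} (ho : o ∈ D) :
    ∑ v ∈ D, energyStep G θ D y α o v ^ 2 ≤ linVar G θ D y α := by
  set W := fieldWeight G θ D y with hW
  set X : (D → Bool) → ℝ := fun η => ∑ u ∈ D, α u * sp u (extCfg η) with hX
  set ξ := fun v => spinInnov G θ D y o v with hξ
  set z := fun v => energyStep G θ D y α o v with hz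
  have hsX : ∀ v, cov W (fun η => sp v (extCfg η)) X = sigMul G θ D y α v := by
    intro v
    rw [hX, cov_sum_right]
    refine Finset.sum_congr rfl fun u _ => ?_
    rw [cov_mul_right, cov_comm]
    rfl
  have hξX : ∀ v, cov W (ξ v) X = z v := by
    intro v
    simp only [hξ, hz, energyStep]
    by_cases hvo : v = o
    · rw [show spinInnov G θ D y o v = fun η => sp o (extCfg η) from
        funext fun η => if_pos hvo, hsX, if_pos hvo]
    · rw [show spinInnov G θ D y o v = fun η => sp v (extCfg η) -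
          regr G θ D y v (parentOf G o v) * sp (parentOf G o v) (extCfg η) from
        funext fun η => if_neg hvo, cov_sub_left, cov_mul_left, hsX, hsX, if_neg hvo]
  have hXX : cov W X X = linVar G θ D y α := by
    rw [show cov W X X = cov W (fun η => ∑ u ∈ D, α u * sp u (extCfg η)) X from rfl, cov_sum_left]
    exact Finset.sum_congr rfl fun u _ => by rw [cov_mul_left, hsX]
  set Zs : (D → Bool) → ℝ := fun η => ∑ v ∈ D, z v * ξ v η with hZs
  have hXZ : cov W X Zs = ∑ v ∈ D, z v ^ 2 := by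
    rw [hZs, cov_sum_right]
    exact Finset.sum_congr rfl fun v _ => by rw [cov_mul_right, cov_comm, hξX, sq]
  have hZZ : cov W Zs Zs ≤ ∑ v ∈ D, z v ^ 2 := by
    rw [hZs, cov_sum_left]
    refine Finset.sum_le_sum fun v hv => ?_
    rw [cov_mul_left, cov_sum_right, Finset.sum_eq_single v (fun w hw hwv => ?_)
      (fun h => absurd hv h)]
    · rw [cov_mul_right, ← mul_assoc, ← sq]
      exact mul_le_of_le_one_right (sq_nonneg _) (cov_spinInnov_self hG h0 h1 hD y ho hv)
    · rw [cov_mul_right, cov_spinInnov_ne hG h0 h1 hD y ho v hv w hw (Ne.symm hwv), mul_zero]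
  have key := cov_self_nonneg (fieldWeight_pos (G := G) h0 h1 D y) (fun η => X η - Zs η)
  rw [cov_sub_left, cov_sub_right, cov_sub_right, cov_comm W Zs X, ← hW, hXX, hXZ] at key
  linarith

end Bessel

theorem magn_adj_bound (hG : G.IsTree) (h0 : 0 ≤ θ) (h1 : θ < 1) {p w : V} (h : G.Adj p w)
    {D : Finset V} (hp : p ∈ D) (hw : w ∈ D) (y : V → ℝ) :
    |magn G θ D w y| ≤ |cavity G θ D y p w| + regr G θ D y w p * |magn G θ D p y| := by
  have hN := cavity_sq_lt (G := G) h0 h1 D y p w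
  have hg2 : cavity G θ D y p w ^ 2 ≤ 1 :=
    (sq_le_one_iff_abs_le_one _).mpr (abs_magn_le h0 h1 _ _ _)
  have hr := (regr_adj_bounds hG h0 h1 h hp hw y).1
  rw [magn_adj hG h0 h1 h hp hw]
  refine (abs_add_le _ _).trans (add_le_add ?_ (le_of_eq (by rw [abs_mul, abs_of_nonneg hr])))
  rw [abs_div, abs_mul, abs_of_pos hN, abs_of_nonneg (by nlinarith : (0 : ℝ) ≤ 1 - θ ^ 2),
    div_le_iff₀ hN]
  refine mul_le_mul_of_nonneg_left ?_ (abs_nonneg _)
  nlinarith [mul_le_mul_of_nonneg_left hg2 (sq_nonneg θ)]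

theorem regr_adj_sq_le (hG : G.IsTree) (h0 : 0 ≤ θ) {t : ℝ} (ht : θ ≤ t) (ht1 : t < 1) {p w : V}
    (h : G.Adj p w) {D : Finset V} (hp : p ∈ D) (hw : w ∈ D) (y : V → ℝ) :
    regr G θ D y w p ^ 2 ≤ t ^ 2 * (1 - (1 - t ^ 2) * cavity G θ D y p w ^ 2) := by
  have h1 : θ < 1 := lt_of_le_of_lt ht ht1
  set g := cavity G θ D y p w with hg
  have hg2 : g ^ 2 ≤ 1 := (sq_le_one_iff_abs_le_one _).mpr (abs_magn_le h0 h1 _ _ _)
  have hN : 0 < 1 - θ ^ 2 * g ^ 2 := cavity_sq_lt h0 h1 D y p w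
  have hK : 0 ≤ 1 - (1 - t ^ 2) * g ^ 2 := by nlinarith [sq_nonneg t, sq_nonneg g]
  have ht2 : t ^ 2 ≤ 1 := pow_le_one₀ (h0.trans ht) ht1.le
  have hKl : 1 - (1 - t ^ 2) * g ^ 2 ≤ 1 := by
    linarith [mul_nonneg (sub_nonneg.mpr ht2) (sq_nonneg g)]
  have hb : regr G θ D y w p ≤ t * (1 - (1 - t ^ 2) * g ^ 2) := by
    rw [regr_adj hG h0 h1 h hp hw, div_le_iff₀ hN]
    have e1 : 1 - g ^ 2 ≤ (1 - (1 - t ^ 2) * g ^ 2) * (1 - θ ^ 2 * g ^ 2) := by
      have hθt : θ ^ 2 ≤ t ^ 2 := pow_le_pow_left₀ h0 ht 2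
      have : θ ^ 2 * (g ^ 2 * (1 - (1 - t ^ 2) * g ^ 2)) ≤ t ^ 2 * (g ^ 2 * 1) :=
        mul_le_mul hθt (mul_le_mul_of_nonneg_left hKl (sq_nonneg g))
          (mul_nonneg (sq_nonneg g) hK) (sq_nonneg t)
      nlinarith
    calc θ * (1 - g ^ 2) ≤ t * ((1 - (1 - t ^ 2) * g ^ 2) * (1 - θ ^ 2 * g ^ 2)) :=
          mul_le_mul ht e1 (by linarith) (h0.trans ht)
      _ = _ := by ring
  calc regr G θ D y w p ^ 2 ≤ (t * (1 - (1 - t ^ 2) * g ^ 2)) ^ 2 :=
        pow_le_pow_left₀ (regr_adj_bounds hG h0 h1 h hp hw y).1 hb 2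
    _ = t ^ 2 * ((1 - (1 - t ^ 2) * g ^ 2) * (1 - (1 - t ^ 2) * g ^ 2)) := by ring
    _ ≤ _ := mul_le_mul_of_nonneg_left (mul_le_of_le_one_right hK hKl) (sq_nonneg t)

theorem step_le {t ρ m mp g M Mp z : ℝ} (ht0 : 0 < t) (ht1 : t < 1) (hρ0 : 0 ≤ ρ) (hρt : ρ ≤ t)
    (hmv : |m| ≤ |g| + ρ * |mp|) (hm1 : |m| ≤ 1) (hM : M = ρ * Mp + z) :
    m ^ 2 * M ^ 2 ≤ t⁻¹ * (t ^ 4 * (mp ^ 2 * Mp ^ 2)) +
      2 / (1 - t) * (g ^ 2 * Mp ^ 2 + z ^ 2) := by
  set A := t ^ 2 * (|mp| * |Mp|) with hA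
  set B := |g| * |Mp| + |z| with hB
  have hρ1 : ρ ≤ 1 := hρt.trans ht1.le
  have hab : |m| * |M| ≤ A + B := by
    have e1 : |g| * (ρ * |Mp|) ≤ |g| * |Mp| :=
      mul_le_mul_of_nonneg_left (mul_le_of_le_one_left (abs_nonneg _) hρ1) (abs_nonneg _)
    have e2 : ρ ^ 2 * (|mp| * |Mp|) ≤ A :=
      mul_le_mul_of_nonneg_right (pow_le_pow_left₀ hρ0 hρt 2) (by positivity)
    calc |m| * |M| ≤ |m| * (ρ * |Mp| + |z|) := by
          refine mul_le_mul_of_nonneg_left ?_ (abs_nonneg _)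
          rw [hM]
          refine (abs_add_le _ _).trans (le_of_eq ?_)
          rw [abs_mul, abs_of_nonneg hρ0]
      _ ≤ (|g| + ρ * |mp|) * (ρ * |Mp|) + 1 * |z| := by
          rw [mul_add]
          exact add_le_add (mul_le_mul_of_nonneg_right hmv (mul_nonneg hρ0 (abs_nonneg _)))
            (mul_le_mul_of_nonneg_right hm1 (abs_nonneg _))
      _ ≤ A + B := by rw [hB]; linarith
  have h1t : 0 < 1 - t := by linarith
  have hAB : (A + B) ^ 2 ≤ t⁻¹ * A ^ 2 + (1 - t)⁻¹ * B ^ 2 := by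
    have : 0 ≤ ((1 - t) * A - t * B) ^ 2 / (t * (1 - t)) := by positivity
    have e : t⁻¹ * A ^ 2 + (1 - t)⁻¹ * B ^ 2 - (A + B) ^ 2 =
        ((1 - t) * A - t * B) ^ 2 / (t * (1 - t)) := by field_simp; ring
    linarith
  calc m ^ 2 * M ^ 2 = (|m| * |M|) ^ 2 := by rw [mul_pow, sq_abs, sq_abs]
    _ ≤ (A + B) ^ 2 := pow_le_pow_left₀ (by positivity) hab 2
    _ ≤ _ := hAB
    _ ≤ _ := by
        refine add_le_add (le_of_eq ?_) ?_
        · rw [hA, mul_pow, mul_pow, sq_abs, sq_abs]; ring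
        · rw [show 2 / (1 - t) = (1 - t)⁻¹ * 2 by ring, mul_assoc]
          refine mul_le_mul_of_nonneg_left ?_ (inv_nonneg.mpr h1t.le)
          rw [hB]
          nlinarith [sq_nonneg (|g| * |Mp| - |z|), sq_abs g, sq_abs Mp, sq_abs z]

theorem ysum_le (hG : G.IsTree) (hd : 3 ≤ d) (hreg : ∀ v, (G.neighborSet v).ncard = d)
    {t : ℝ} (ht0 : 0 < t) (ht1 : t < 1) (hbt : ((d : ℝ) - 1) * t ^ 2 ≤ 1) {D : Finset V}
    (hD : IsConvexSet G D) {o : V} (ho : o ∈ D) (f : V → ℝ) (hf : ∀ v, 0 ≤ f v) {N : ℝ}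
    (hfo : f o ≤ N) (b : V → ℝ)
    (hstep : ∀ v ∈ D.erase o, f v ≤ t⁻¹ * (t ^ 4 * f (parentOf G o v)) + b v) :
    ∑ v ∈ D, f v ≤ N + (t * ∑ v ∈ D, f v + t⁻¹ * N) + ∑ v ∈ D.erase o, b v := by
  set Y := ∑ v ∈ D, f v
  have hY0 : 0 ≤ Y := Finset.sum_nonneg fun v _ => hf v
  have h1 : Y ≤ f o + (t⁻¹ * (t ^ 4 * ∑ v ∈ D.erase o, f (parentOf G o v)) +
      ∑ v ∈ D.erase o, b v) := by
    rw [Finset.mul_sum, Finset.mul_sum, ← Finset.sum_add_distrib]
    calc Y = f o + ∑ v ∈ D.erase o, f v := (Finset.add_sum_erase D f ho).symm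
      _ ≤ _ := add_le_add le_rfl (Finset.sum_le_sum hstep)
  have h2 := mul_le_mul_of_nonneg_left
    (mul_le_mul_of_nonneg_left (sum_parent_le hG hd hreg hD ho f hf)
      (pow_nonneg ht0.le 4)) (inv_nonneg.mpr ht0.le)
  have h3 : t⁻¹ * (t ^ 4 * (((d : ℝ) - 1) * Y + f o)) =
      t * Y * (((d : ℝ) - 1) * t ^ 2) + t ^ 4 * (t⁻¹ * f o) := by
    field_simp
  have h4 : t * Y * (((d : ℝ) - 1) * t ^ 2) ≤ t * Y :=
    mul_le_of_le_one_right (mul_nonneg ht0.le hY0) hbt
  have h5 : t ^ 4 * (t⁻¹ * f o) ≤ t⁻¹ * N :=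
    (mul_le_of_le_one_left (mul_nonneg (inv_nonneg.mpr ht0.le) (hf o))
      (pow_le_one₀ ht0.le ht1.le)).trans
      (mul_le_mul_of_nonneg_left hfo (inv_nonneg.mpr ht0.le))
  linarith

theorem energy_combine {t U Mo R S n Xi P N W Y Q : ℝ} (ht0 : 0 < t) (ht1 : t < 1)
    (hQ : 2 / (1 - t) * (5 / ((1 - t ^ 2) * t ^ 2) + 1) ≤ Q)
    (hsum : U ≤ Mo + (R + 2 * S + n)) (hRb : R + (1 - t ^ 2) * t ^ 2 * Xi ≤ t ^ 2 * P)
    (hP : t ^ 2 * P ≤ U + t ^ 2 * Mo) (hMo0 : 0 ≤ Mo) (hMo : Mo ≤ N) (hn0 : 0 ≤ n) (hn : n ≤ N)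
    (hXi0 : 0 ≤ Xi) (hS : S ≤ 2 * W) (hW : 0 ≤ W)
    (hY : Y ≤ N + (t * Y + t⁻¹ * N) + 2 / (1 - t) * (Xi + n)) :
    Y ≤ (1 + 1 / t + Q) / (1 - t) * (N + W) := by
  have h2 : 0 < 1 - t ^ 2 := by nlinarith
  have hc : 0 < (1 - t ^ 2) * t ^ 2 := by positivity
  have ht2 : t ^ 2 * Mo ≤ Mo := mul_le_of_le_one_left hMo0 (pow_le_one₀ ht0.le ht1.le)
  have hXiE : Xi ≤ 5 / ((1 - t ^ 2) * t ^ 2) * (N + W) := by
    rw [div_mul_eq_mul_div, le_div_iff₀ hc]
    linarith
  have hnE : Xi + n ≤ (5 / ((1 - t ^ 2) * t ^ 2) + 1) * (N + W) := by linarith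
  have hQE : 2 / (1 - t) * (Xi + n) ≤ Q * (N + W) := by
    refine (mul_le_mul_of_nonneg_left hnE (div_nonneg zero_le_two (by linarith))).trans ?_
    rw [← mul_assoc]
    exact mul_le_mul_of_nonneg_right hQ (by linarith)
  have hti : t⁻¹ * N ≤ t⁻¹ * (N + W) :=
    mul_le_mul_of_nonneg_left (by linarith) (inv_nonneg.mpr ht0.le)
  rw [div_mul_eq_mul_div, le_div_iff₀ (by linarith), one_div]
  linarith

/-- The magnetisation-weighted energy is bounded by the mixed energy. -/
theorem weighted_energy_le (hG : G.IsTree) (hd : 3 ≤ d) (hreg : ∀ v, (G.neighborSet v).ncard = d)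
    {t : ℝ} (ht0 : 0 < t) (hbt : ((d : ℝ) - 1) * t ^ 2 ≤ 1) :
    ∃ C : ℝ, 0 ≤ C ∧ ∀ (θ : ℝ), 0 ≤ θ → θ ≤ t → ∀ (D : Finset V), IsConvexSet G D →
      ∀ (y α : V → ℝ),
      ∑ v ∈ D, magn G θ D v y ^ 2 * sigMul G θ D y α v ^ 2 ≤
        C * (linVar G θ D y α +
          Real.sqrt ((∑ v ∈ D, sigMul G θ D y α v ^ 2) * linVar G θ D y α)) := by
  have hd3 : (3 : ℝ) ≤ d := by exact_mod_cast hd
  have ht1 : t < 1 := by nlinarith
  set Q := 2 / (1 - t) * (5 / ((1 - t ^ 2) * t ^ 2) + 1) with hQ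
  have h2 : 0 < 1 - t ^ 2 := by nlinarith
  have hQ0 : 0 ≤ Q := by
    have h5 : 0 ≤ 5 / ((1 - t ^ 2) * t ^ 2) := by positivity
    have : (0:ℝ) < 1 - t := by linarith
    positivity
  refine ⟨(1 + 1 / t + Q) / (1 - t), div_nonneg (by positivity) (by linarith), ?_⟩
  intro θ h0 hθt D hD y α
  have h1 : θ < 1 := lt_of_le_of_lt hθt ht1
  rcases D.eq_empty_or_nonempty with rfl | ⟨o, ho⟩
  · simp [linVar]
  set M := fun v => sigMul G θ D y α v with hM
  set m := fun v => magn G θ D v y with hm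
  set p := fun v => parentOf G o v with hp
  set g := fun v => cavity G θ D y (p v) v with hg
  set ρ := fun v => regr G θ D y v (p v) with hρ
  set z := fun v => energyStep G θ D y α o v with hz
  set N := linVar G θ D y α with hN
  set U := ∑ v ∈ D, M v ^ 2 with hU
  set Y := ∑ v ∈ D, m v ^ 2 * M v ^ 2 with hY
  set n' := ∑ v ∈ D.erase o, z v ^ 2 with hn'
  have hsz : n' + M o ^ 2 ≤ N := by
    refine le_trans (le_of_eq ?_) (sum_energyStep_le hG h0 h1 hD y α ho)
    rw [← Finset.add_sum_erase D _ ho, add_comm, hn']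
    simp [hz, energyStep, hM]
  have hn0 : 0 ≤ n' := Finset.sum_nonneg fun v _ => sq_nonneg _
  have hMo : M o ^ 2 ≤ N := by linarith
  have hN0 : 0 ≤ N := le_trans (sq_nonneg _) hMo
  have hU0 : 0 ≤ U := Finset.sum_nonneg fun v _ => sq_nonneg _
  have hMoU : M o ^ 2 ≤ U := Finset.single_le_sum (f := fun v => M v ^ 2) (fun v _ => sq_nonneg _) ho
  have hm2 : ∀ v, m v ^ 2 ≤ 1 := fun v =>
    (sq_le_one_iff_abs_le_one _).mpr (abs_magn_le h0 h1 _ _ _)
  have hvd : ∀ v ∈ D.erase o, G.Adj (p v) v ∧ p v ∈ D ∧ v ∈ D := fun v hv =>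
    ⟨(parentOf_spec hG (Finset.ne_of_mem_erase hv)).1.symm,
      parentOf_mem hG hD ho (Finset.mem_of_mem_erase hv) (Finset.ne_of_mem_erase hv),
      Finset.mem_of_mem_erase hv⟩
  have hMv : ∀ v ∈ D.erase o, M v = ρ v * M (p v) + z v := fun v hv => by
    simp [hz, energyStep, hM, hρ, hp, Finset.ne_of_mem_erase hv]
  set Xi := ∑ v ∈ D.erase o, g v ^ 2 * M (p v) ^ 2 with hXi
  set R := ∑ v ∈ D.erase o, ρ v ^ 2 * M (p v) ^ 2 with hR
  have hP : t ^ 2 * ∑ v ∈ D.erase o, M (p v) ^ 2 ≤ U + t ^ 2 * M o ^ 2 := by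
    have := mul_le_mul_of_nonneg_left
      (sum_parent_le hG hd hreg hD ho (fun x => M x ^ 2) (fun _ => sq_nonneg _)) (sq_nonneg t)
    nlinarith
  have hRb : R + (1 - t ^ 2) * t ^ 2 * Xi ≤ t ^ 2 * ∑ v ∈ D.erase o, M (p v) ^ 2 := by
    rw [hR, hXi, Finset.mul_sum, Finset.mul_sum, ← Finset.sum_add_distrib]
    refine Finset.sum_le_sum fun v hv => ?_
    obtain ⟨hadj, hpD, hvD⟩ := hvd v hv
    have := mul_le_mul_of_nonneg_right
      (regr_adj_sq_le hG h0 hθt ht1 hadj hpD hvD y) (sq_nonneg (M (p v)))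
    simp only [hρ, hg]
    linarith
  set S := ∑ v ∈ D.erase o, (ρ v * M (p v)) * z v with hS
  have hsum : U = M o ^ 2 + (R + 2 * S + n') := by
    rw [hU, ← Finset.add_sum_erase D _ ho, hR, hS, hn', Finset.mul_sum, ← Finset.sum_add_distrib,
      ← Finset.sum_add_distrib]
    congr 1
    exact Finset.sum_congr rfl fun v hv => by rw [hMv v hv]; ring
  have ht21 : t ^ 2 ≤ 1 := pow_le_one₀ ht0.le ht1.le
  have hXi0 : 0 ≤ Xi := Finset.sum_nonneg fun v _ => by positivity
  have hMoU' : t ^ 2 * M o ^ 2 ≤ U := (mul_le_of_le_one_left (sq_nonneg _) ht21).trans hMoU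
  have hcX : 0 ≤ (1 - t ^ 2) * t ^ 2 * Xi := by positivity
  have hR2 : R ≤ 2 * U := by linarith
  have hSb : S ≤ 2 * Real.sqrt (U * N) := by
    have hcs : S ^ 2 ≤ R * n' := by
      refine (Finset.sum_mul_sq_le_sq_mul_sq _ _ _).trans (le_of_eq ?_)
      simp only [mul_pow, hR, hn']
    have : S ^ 2 ≤ (2 * Real.sqrt (U * N)) ^ 2 := by
      rw [mul_pow, Real.sq_sqrt (mul_nonneg hU0 hN0)]
      nlinarith [mul_le_mul hR2 (show n' ≤ N by nlinarith [sq_nonneg (M o)]) hn0 (by linarith)]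
    exact (abs_le.mp ((sq_le_sq.mp this).trans_eq (abs_of_nonneg (by positivity)))).2
  set E := N + Real.sqrt (U * N) with hE
  have hsq0 : 0 ≤ Real.sqrt (U * N) := Real.sqrt_nonneg _
  have hstep : ∀ v ∈ D.erase o, m v ^ 2 * M v ^ 2 ≤
      t⁻¹ * (t ^ 4 * (m (p v) ^ 2 * M (p v) ^ 2)) +
        2 / (1 - t) * (g v ^ 2 * M (p v) ^ 2 + z v ^ 2) := fun v hv => by
    obtain ⟨hadj, hpD, hvD⟩ := hvd v hv
    have hb := regr_adj_bounds hG h0 h1 hadj hpD hvD y
    exact step_le ht0 ht1 hb.1 (hb.2.trans hθt) (magn_adj_bound hG h0 h1 hadj hpD hvD y)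
      (abs_magn_le h0 h1 _ _ _) (hMv v hv)
  have hYo : m o ^ 2 * M o ^ 2 ≤ N := (mul_le_of_le_one_left (sq_nonneg _) (hm2 o)).trans hMo
  have hYb := ysum_le hG hd hreg ht0 ht1 hbt hD ho (fun v => m v ^ 2 * M v ^ 2)
    (fun v => mul_nonneg (sq_nonneg _) (sq_nonneg _)) hYo _ hstep
  rw [← Finset.mul_sum, Finset.sum_add_distrib, ← hXi, ← hn', ← hY] at hYb
  exact energy_combine ht0 ht1 (le_refl Q) (le_of_eq hsum) hRb hP (sq_nonneg _) hMo hn0
    (by linarith only [hsz, sq_nonneg (M o)]) hXi0 hSb hsq0 hYb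

theorem between_two (hG : G.IsTree) {v w a b : V} (ha : G.dist v w = G.dist v a + G.dist a w)
    (hb : G.dist v w = G.dist v b + G.dist b w) :
    (G.dist v b = G.dist v a + G.dist a b ∧ G.dist w a = G.dist w b + G.dist b a) ∨
    (G.dist v a = G.dist v b + G.dist b a ∧ G.dist w b = G.dist w a + G.dist a b) := by
  have c0 : G.dist b a = G.dist a b := dist_comm
  have c1 : G.dist w a = G.dist a w := dist_comm
  have c2 : G.dist w b = G.dist b w := dist_comm
  by_cases hab : a = b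
  · subst hab; left; simp
  · obtain ⟨x, hax, hxd⟩ := exists_toward hG hab
    have hbs : b ∈ edgeSide G a x := by rw [mem_edgeSide]; omega
    by_cases hvs : v ∈ edgeSide G a x
    · right
      have hws : w ∉ edgeSide G a x := by
        intro hws
        have h1 := dist_of_mem_side hG hax hvs
        have h2 := dist_of_mem_side hG hax hws
        have h3 := hG.connected.dist_triangle (u := v) (v := x) (w := w)
        have c3 : G.dist v x = G.dist x v := dist_comm
        have c4 : G.dist v a = G.dist a v := dist_comm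
        omega
      have e := dist_across hG hax hbs w hws
      exact ⟨by omega, by omega⟩
    · left
      have e := dist_across hG hax hbs v hvs
      have c4 : G.dist v a = G.dist a v := dist_comm
      exact ⟨by omega, by omega⟩

theorem abs_cumLin_le (hG : G.IsTree) (h0 : 0 ≤ θ) (h1 : θ < 1) {D : Finset V}
    (hD : IsConvexSet G D) (y : V → ℝ) {α : V → ℝ} (hα : ∀ u ∈ D, 0 ≤ α u) {v w : V} (hv : v ∈ D)
    (hw : w ∈ D) :
    |cumLin G θ D y α v w| ≤ 2 * ∑ c ∈ D.filter (fun c => G.dist v w = G.dist v c + G.dist c w),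
      |magn G θ D c y| * sigMul G θ D y α c * (regr G θ D y v c * regr G θ D y w c) := by
  set P := D.filter (fun c => G.dist v w = G.dist v c + G.dist c w) with hP
  refine (Finset.abs_sum_le_sum_abs _ _).trans ?_
  have hterm : ∀ u ∈ D, |α u * cum3 (fieldWeight G θ D y) (fun η => sp v (extCfg η))
      (fun η => sp w (extCfg η)) (fun η => sp u (extCfg η))| ≤
      2 * ∑ c ∈ P, |magn G θ D c y| * (α u * sig G θ D y u c) *
        (regr G θ D y v c * regr G θ D y w c) := by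
    intro u hu
    obtain ⟨c, hc, e1, e2, e3⟩ := exists_median hG hD (u := u) hv hw
    rw [cum3_median hG h0 h1 hD y hv hw hu hc e1 e2 e3, abs_mul, abs_of_nonneg (hα u hu)]
    have hr1 := (regr_bounds hG h0 h1 hD y hc hv).1
    have hr2 := (regr_bounds hG h0 h1 hD y hc hw).1
    have hs := sig_nonneg hG h0 h1 hD y hu hc
    rw [abs_mul, abs_mul, abs_of_nonneg (mul_nonneg hr1 (mul_nonneg hr2 hs)),
      show |(-2 : ℝ)| = 2 by norm_num]
    have hnn : ∀ x ∈ P, 0 ≤ |magn G θ D x y| * (α u * sig G θ D y u x) *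
        (regr G θ D y v x * regr G θ D y w x) := by
      intro x hx
      have hxD := (Finset.mem_filter.mp hx).1
      exact mul_nonneg (mul_nonneg (abs_nonneg _) (mul_nonneg (hα u hu)
        (sig_nonneg hG h0 h1 hD y hu hxD))) (mul_nonneg (regr_bounds hG h0 h1 hD y hxD hv).1
          (regr_bounds hG h0 h1 hD y hxD hw).1)
    have hsingle := Finset.single_le_sum hnn
      (show c ∈ P from Finset.mem_filter.mpr ⟨hc, e1⟩)
    nlinarith
  refine (Finset.sum_le_sum hterm).trans (le_of_eq ?_)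
  rw [← Finset.mul_sum, Finset.sum_comm]
  congr 1
  refine Finset.sum_congr rfl fun c _ => ?_
  rw [sigMul, Finset.mul_sum, Finset.sum_mul]

/-- The quadratic variation of `M` is bounded by the weighted energy. -/
theorem cumLin_sq_le (hG : G.IsTree) (hd : 3 ≤ d) (hreg : ∀ v, (G.neighborSet v).ncard = d)
    {t : ℝ} (ht0 : 0 < t) (hbt : ((d : ℝ) - 1) * t ^ 2 ≤ 1) :
    ∃ C : ℝ, 0 ≤ C ∧ ∀ (θ : ℝ), 0 ≤ θ → θ ≤ t → ∀ (D : Finset V), IsConvexSet G D →
      ∀ (y α : V → ℝ), (∀ u ∈ D, 0 ≤ α u) →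
      ∑ v ∈ D, ∑ w ∈ D, cumLin G θ D y α v w ^ 2 ≤
        C * ∑ c ∈ D, regrSum G θ D y c ^ 2 * (magn G θ D c y ^ 2 * sigMul G θ D y α c ^ 2) := by
  have hd3 : (3 : ℝ) ≤ d := by exact_mod_cast hd
  have ht1 : t < 1 := by nlinarith
  have htt : t ^ 2 < t := by nlinarith
  obtain ⟨c0, hc0, hs⟩ := exists_schur_const hG hd hreg (θ := t ^ 2) (a := t) (sq_nonneg t) htt
    (show ((d : ℝ) - 1) * (t ^ 2 * t) < 1 by nlinarith [sq_nonneg t])
  refine ⟨8 * c0, by positivity, ?_⟩
  intro θ h0 hθt D hD y α hα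
  have h1 : θ < 1 := lt_of_le_of_lt hθt ht1
  set r := fun v c => regr G θ D y v c with hr
  have hr0 : ∀ {v c}, v ∈ D → c ∈ D → 0 ≤ r v c :=
    fun hv hc => (regr_bounds hG h0 h1 hD y hc hv).1
  set Dv := fun c => |magn G θ D c y| * sigMul G θ D y α c with hDv
  set A := fun c => regrSum G θ D y c with hA
  have hDv0 : ∀ c ∈ D, 0 ≤ Dv c := fun c hc =>
    mul_nonneg (abs_nonneg _) (sigMul_nonneg hG h0 h1 hD y hα hc)
  set chi : V → V → V → ℝ := fun v w c =>
    if G.dist v w = G.dist v c + G.dist c w then 1 else 0 with hchi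
  have hchi0 : ∀ v w c, 0 ≤ chi v w c := fun v w c => by simp only [hchi]; split_ifs <;> norm_num
  have hpair : ∀ a ∈ D, ∀ b ∈ D, ∑ v ∈ D, ∑ w ∈ D,
      chi v w a * chi v w b * ((r v a * r w a) * (r v b * r w b)) ≤
        2 * ((t ^ 2) ^ G.dist a b * (A a * A b)) := by
    intro a ha b hb
    have hab : r a b * r b a ≤ (t ^ 2) ^ G.dist a b := by
      have e1 := (regr_bounds hG h0 h1 hD y hb ha).2
      have e2 := (regr_bounds hG h0 h1 hD y ha hb).2
      rw [dist_comm (u := b) (v := a)] at e2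
      rw [← pow_mul, two_mul, pow_add]
      exact mul_le_mul (e1.trans (pow_le_pow_left₀ h0 hθt _))
        (e2.trans (pow_le_pow_left₀ h0 hθt _)) (hr0 hb ha) (by positivity)
    have hk : 0 ≤ (t ^ 2) ^ G.dist a b := by positivity
    have hterm : ∀ v ∈ D, ∀ w ∈ D,
        chi v w a * chi v w b * ((r v a * r w a) * (r v b * r w b)) ≤
          (t ^ 2) ^ G.dist a b * (r v a ^ 2 * r w b ^ 2 + r v b ^ 2 * r w a ^ 2) := by
      intro v hv w hw
      have hnn : 0 ≤ r v a ^ 2 * r w b ^ 2 + r v b ^ 2 * r w a ^ 2 := by positivity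
      by_cases hca : G.dist v w = G.dist v a + G.dist a w
      · by_cases hcb : G.dist v w = G.dist v b + G.dist b w
        · simp only [hchi, if_pos hca, if_pos hcb, one_mul]
          rcases between_two hG hca hcb with ⟨e1, e2⟩ | ⟨e1, e2⟩
          · calc r v a * r w a * (r v b * r w b)
                = (r a b * r b a) * (r v a ^ 2 * r w b ^ 2) := by
                  simp only [hr]
                  rw [regr_mul hG h0 h1 hD y hv ha hb e1, regr_mul hG h0 h1 hD y hw hb ha e2]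
                  ring
              _ ≤ _ := mul_le_mul hab (le_add_of_nonneg_right (by positivity)) (by positivity) hk
          · calc r v a * r w a * (r v b * r w b)
                = (r a b * r b a) * (r v b ^ 2 * r w a ^ 2) := by
                  simp only [hr]
                  rw [regr_mul hG h0 h1 hD y hv hb ha e1, regr_mul hG h0 h1 hD y hw ha hb e2]
                  ring
              _ ≤ _ := mul_le_mul hab (le_add_of_nonneg_left (by positivity)) (by positivity) hk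
        · simp only [hchi, if_neg hcb, mul_zero, zero_mul]; positivity
      · simp only [hchi, if_neg hca, zero_mul]; positivity
    refine (Finset.sum_le_sum fun v hv => Finset.sum_le_sum (hterm v hv)).trans (le_of_eq ?_)
    simp only [← Finset.mul_sum, Finset.sum_add_distrib, ← Finset.sum_mul, hA, regrSum, hr]
    ring
  have hone : ∀ v ∈ D, ∀ w ∈ D, cumLin G θ D y α v w ^ 2 ≤ 4 * ∑ a ∈ D, ∑ b ∈ D,
      (Dv a * Dv b) * (chi v w a * chi v w b * ((r v a * r w a) * (r v b * r w b))) := by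
    intro v hv w hw
    have hb := abs_cumLin_le hG h0 h1 hD y hα hv hw
    have e : ∑ c ∈ D.filter (fun c => G.dist v w = G.dist v c + G.dist c w),
        |magn G θ D c y| * sigMul G θ D y α c * (regr G θ D y v c * regr G θ D y w c) =
        ∑ c ∈ D, chi v w c * (Dv c * (r v c * r w c)) := by
      rw [Finset.sum_filter]
      refine Finset.sum_congr rfl fun c _ => ?_
      simp only [hchi, hDv, hr]
      split_ifs <;> ring
    rw [e] at hb
    calc cumLin G θ D y α v w ^ 2 = |cumLin G θ D y α v w| ^ 2 := (sq_abs _).symm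
      _ ≤ (2 * ∑ c ∈ D, chi v w c * (Dv c * (r v c * r w c))) ^ 2 :=
          pow_le_pow_left₀ (abs_nonneg _) hb 2
      _ = _ := by
          rw [mul_pow, sq (∑ c ∈ D, chi v w c * (Dv c * (r v c * r w c))), Finset.sum_mul_sum,
            show (2 : ℝ) ^ 2 = 4 by norm_num]
          congr 1
          exact Finset.sum_congr rfl fun a _ => Finset.sum_congr rfl fun b _ => by ring
  refine (Finset.sum_le_sum fun v hv => Finset.sum_le_sum (hone v hv)).trans ?_
  simp only [← Finset.mul_sum]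
  rw [show (∑ v ∈ D, ∑ w ∈ D, ∑ a ∈ D, ∑ b ∈ D, (Dv a * Dv b) *
      (chi v w a * chi v w b * ((r v a * r w a) * (r v b * r w b)))) =
      ∑ a ∈ D, ∑ b ∈ D, (Dv a * Dv b) * ∑ v ∈ D, ∑ w ∈ D,
        chi v w a * chi v w b * ((r v a * r w a) * (r v b * r w b)) by
    simp only [Finset.mul_sum]
    rw [Finset.sum_congr rfl fun v _ => Finset.sum_comm]
    rw [Finset.sum_comm]
    refine Finset.sum_congr rfl fun a _ => ?_
    rw [Finset.sum_congr rfl fun v _ => Finset.sum_comm]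
    rw [Finset.sum_comm]]
  set u := fun c => A c * Dv c with hu
  have hbound : ∑ a ∈ D, ∑ b ∈ D, (Dv a * Dv b) * ∑ v ∈ D, ∑ w ∈ D,
      chi v w a * chi v w b * ((r v a * r w a) * (r v b * r w b)) ≤
      2 * ∑ a ∈ D, ∑ b ∈ D, (t ^ 2) ^ G.dist a b * (u a * u b) := by
    rw [Finset.mul_sum]
    refine Finset.sum_le_sum fun a ha => ?_
    rw [Finset.mul_sum]
    refine Finset.sum_le_sum fun b hb => ?_
    refine (mul_le_mul_of_nonneg_left (hpair a ha b hb)
      (mul_nonneg (hDv0 a ha) (hDv0 b hb))).trans (le_of_eq ?_)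
    simp only [hu]; ring
  have hsch : ∑ a ∈ D, ∑ b ∈ D, (t ^ 2) ^ G.dist a b * (u a * u b) ≤
      c0 * ∑ a ∈ D, u a ^ 2 := by
    rcases D.eq_empty_or_nonempty with rfl | ⟨z, hz⟩
    · simp
    set φ := fun a => t ^ G.dist a z with hφ
    have hφ0 : ∀ a, 0 < φ a := fun a => pow_pos ht0 _
    have hamgm : ∀ a b, u a * u b ≤ (u a ^ 2 * (φ b / φ a) + u b ^ 2 * (φ a / φ b)) / 2 := by
      intro a b
      have e : (u a ^ 2 * (φ b / φ a) + u b ^ 2 * (φ a / φ b)) / 2 - u a * u b =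
          (u a * φ b - u b * φ a) ^ 2 / (2 * (φ a * φ b)) := by
        have := hφ0 a; have := hφ0 b
        field_simp; ring
      have : 0 ≤ (u a * φ b - u b * φ a) ^ 2 / (2 * (φ a * φ b)) :=
        div_nonneg (sq_nonneg _) (by have := hφ0 a; have := hφ0 b; positivity)
      linarith
    calc _ ≤ ∑ a ∈ D, ∑ b ∈ D, (t ^ 2) ^ G.dist a b *
          ((u a ^ 2 * (φ b / φ a) + u b ^ 2 * (φ a / φ b)) / 2) :=
          Finset.sum_le_sum fun a _ => Finset.sum_le_sum fun b _ =>
            mul_le_mul_of_nonneg_left (hamgm a b) (by positivity)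
      _ = ∑ a ∈ D, u a ^ 2 / φ a * ∑ b ∈ D, (t ^ 2) ^ G.dist a b * φ b := by
          have hsym : ∑ a ∈ D, ∑ b ∈ D, (t ^ 2) ^ G.dist a b * (u b ^ 2 * (φ a / φ b)) =
              ∑ a ∈ D, ∑ b ∈ D, (t ^ 2) ^ G.dist a b * (u a ^ 2 * (φ b / φ a)) := by
            rw [Finset.sum_comm]
            exact Finset.sum_congr rfl fun a _ => Finset.sum_congr rfl fun b _ => by
              rw [SimpleGraph.dist_comm]
          simp only [mul_div_assoc', mul_add, add_div, Finset.sum_add_distrib] at hsym ⊢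
          simp only [← Finset.sum_div] at hsym ⊢
          rw [hsym, add_halves]
          refine Finset.sum_congr rfl fun a _ => ?_
          rw [Finset.sum_div, Finset.mul_sum]
          exact Finset.sum_congr rfl fun b _ => by ring
      _ ≤ ∑ a ∈ D, u a ^ 2 / φ a * (c0 * φ a) :=
          Finset.sum_le_sum fun a _ => mul_le_mul_of_nonneg_left (hs D a z)
            (div_nonneg (sq_nonneg _) (hφ0 a).le)
      _ = _ := by
          rw [Finset.mul_sum]
          exact Finset.sum_congr rfl fun a _ => by have := (hφ0 a).ne'; field_simp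
  have husq : ∀ c, u c ^ 2 = regrSum G θ D y c ^ 2 *
      (magn G θ D c y ^ 2 * sigMul G θ D y α c ^ 2) := fun c => by
    simp only [hu, hA, hDv, mul_pow, sq_abs]
  simp only [husq] at hsch
  linarith

end Vale.Agent.P161
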