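import Vale.Agent.P161.Crit.Row

/-!
# Approximation by finitely many coarse increments
-/

namespace Vale.Agent.P161

open SimpleGraph MeasureTheory ProbabilityTheory
open scoped Classical NNReal

variable {V : Type*} {G : SimpleGraph V} {β : ℝ} {hv : ℝ≥0} {D : Finset V} {d K J : ℕ}
  {a θ cs : ℝ}

/-- The increments of the blocks of `L` steps. -/
noncomputable def crsInc (L : ℕ) (x : CIdx G D K → ℝ) (e : V × V) (k : ℕ) : ℝ :=
  ∑ r ∈ Finset.range L, drv x (k * L + r) e

/-- The input spreading block increments evenly. -/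
noncomputable def interpInc (G : SimpleGraph V) (D : Finset V) (K L : ℕ) (X : V × V → ℕ → ℝ) :
    CIdx G D K → ℝ :=
  fun q => X (q.1 : V × V) ((q.2 : ℕ) / L) / L

/-- The coordinates kept by the approximation are those outside this set. -/
noncomputable def dropSet (G : SimpleGraph V) (D : Finset V) (K J : ℕ) (v : V) (R : ℕ) :
    Finset (CIdx G D K) :=
  Finset.univ.filter fun q => (q.2 : ℕ) < J ∨ R < G.dist v (q.1 : V × V).1

/-- The near edges in a fixed ball. -/
noncomputable def nearE (hG : G.IsTree) (hd : 3 ≤ d) (hreg : ∀ v, (G.neighborSet v).ncard = d)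
    (v : V) (R : ℕ) : Finset (V × V) :=
  (dirE G (ballSet hG hd hreg v (R + 1))).filter fun e => ¬ R < G.dist v e.1

theorem nearE_eq (hG : G.IsTree) (hd : 3 ≤ d) (hreg : ∀ v, (G.neighborSet v).ncard = d) {v : V}
    {R : ℕ} (hball : ballSet hG hd hreg v (R + 1) ⊆ D) :
    (dirE G D).filter (fun e => ¬ R < G.dist v e.1) = nearE hG hd hreg v R := by
  ext e
  simp only [nearE, Finset.mem_filter]
  refine ⟨fun ⟨he, hR⟩ => ⟨?_, hR⟩, fun ⟨he, hR⟩ => ⟨dirE_mono hball he, hR⟩⟩
  obtain ⟨-, -, hadj⟩ := mem_dirE.mp he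
  have h4 := hG.connected.dist_triangle (u := v) (v := e.1) (w := e.2)
  rw [SimpleGraph.dist_eq_one_iff_adj.mpr hadj] at h4
  exact mem_dirE.mpr ⟨mem_ballSet.mpr (by omega), mem_ballSet.mpr (by omega), hadj⟩

theorem drop_blockVar_le (v : V) (R : ℕ) {F : (CIdx G D K → ℝ) → ℝ} (hF : Measurable F)
    (hB : ∀ x, |F x| ≤ 1) :
    blockVar hv (dropSet G D K J v R) F ≤
      blockVar hv (earlyAll G D K J) F + blockVar hv (farSet G D K J v R) F := by
  have hdisj : Disjoint (earlyAll G D K J) (farSet G D K J v R) := by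
    rw [Finset.disjoint_left]
    intro q h1 h2
    have := (Finset.mem_filter.mp h1).2
    have := (Finset.mem_filter.mp h2).2.1
    omega
  refine (blockVar_mono ?_ hF hB).trans (blockVar_union_le' hF hB hdisj)
  intro q hq
  by_cases h : (q.2 : ℕ) < J
  · exact Finset.mem_union_left _ (by simp [earlyAll, h])
  · exact Finset.mem_union_right _ (by
      simp only [dropSet, Finset.mem_filter, Finset.mem_univ, true_and] at hq
      simp [farSet, not_lt.mp h, hq.resolve_left h])

theorem avgSet_dist_le {ι : Type*} [Fintype ι] (v : ℝ≥0) (S : Finset ι) {F : (ι → ℝ) → ℝ}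
    (hF : Measurable F) {B c : ℝ} (hB : ∀ x, |F x| ≤ B) (u u' : ι → ℝ)
    (hc : ∀ x x' : ι → ℝ, (∀ q ∈ S, x q = x' q) → (∀ q ∉ S, x q = u q ∧ x' q = u' q) →
      |F x - F x'| ≤ c) : |avgSet v S F u - avgSet v S F u'| ≤ c := by
  have hm : ∀ z : ι → ℝ, Measurable fun y : ι → ℝ => F (S.piecewise y z) := fun z =>
    hF.comp (Measurable.comp (measurable_piecewise S)
      (f := fun y : ι → ℝ => (y, z)) (measurable_id.prodMk measurable_const))
  unfold avgSet
  rw [← integral_sub (integrable_of_abs_le (hm u) fun y => hB _)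
    (integrable_of_abs_le (hm u') fun y => hB _), ← Real.norm_eq_abs]
  refine (norm_integral_le_of_norm_le_const (C := c)
    (ae_of_all _ fun y => ?_)).trans (by rw [probReal_univ, mul_one])
  rw [Real.norm_eq_abs]
  exact hc _ _ (fun q hq => by simp [hq]) fun q hq => by simp [hq]

theorem integral_coord {ι : Type*} [Fintype ι] (i : ι) (v : ℝ≥0) :
    ∫ x : ι → ℝ, x i ∂gaussPi ι v = 0 := by
  have h1 : ∫ x : ι → ℝ, x i ∂gaussPi ι v = ∫ y : ℝ, y ∂gaussianReal 0 v := by
    conv_rhs => rw [← (measurePreserving_eval (fun _ : ι => gaussianReal 0 v) i).map_eq]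
    rw [integral_map (measurable_pi_apply i).aemeasurable (by fun_prop)]
    rfl
  rw [h1, integral_id_gaussianReal]

theorem integral_sq_sum {ι : Type*} [Fintype ι] (T : Finset ι) (v : ℝ≥0) :
    ∫ x : ι → ℝ, (∑ q ∈ T, x q) ^ 2 ∂gaussPi ι v = (T.card : ℝ) * v := by
  have hpq : ∀ p q : ι, ∫ x : ι → ℝ, x p * x q ∂gaussPi ι v = if p = q then (v : ℝ) else 0 := by
    intro p q
    rcases eq_or_ne p q with rfl | hpq
    · simp only [if_true, ← sq]; exact integral_coord_sq p v
    · rw [if_neg hpq, integral_mul_free v {p} (f := fun x : ι → ℝ => x p) (g := fun x => x q)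
        (measurable_pi_apply p) (measurable_pi_apply q)
        (((expGrowth_coord p).mul (expGrowth_coord q)).integrable v)
        (fun x x' h => h p (Finset.mem_singleton_self p))
        (fun x x' h => h q (by simpa using hpq.symm)), integral_coord, zero_mul]
  simp only [sq, Finset.sum_mul_sum]
  rw [integral_finsetSum _ fun p _ => integrable_finsetSum _ fun q _ =>
    ((expGrowth_coord p).mul (expGrowth_coord q)).integrable v]
  rw [Finset.sum_congr rfl fun p _ =>
    integral_finsetSum _ fun q _ => ((expGrowth_coord p).mul (expGrowth_coord q)).integrable v]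
  simp only [hpq, Finset.sum_ite_eq]
  rw [Finset.sum_congr rfl fun p hp => if_pos hp, Finset.sum_const, nsmul_eq_mul]

theorem integral_abs_le_of_sq {α : Type*} [MeasurableSpace α] {μ : Measure α}
    [IsProbabilityMeasure μ] {f : α → ℝ} (hi : Integrable f μ)
    (hi2 : Integrable (fun x => f x ^ 2) μ) {c : ℝ} (hc : 0 ≤ c)
    (h : ∫ x, f x ^ 2 ∂μ ≤ c ^ 2) : ∫ x, |f x| ∂μ ≤ c := by
  refine le_of_forall_pos_le_add fun ε hε => ?_
  have hp : 0 < c + ε := by linarith
  have hpt : ∀ x, |f x| ≤ (1 / (2 * (c + ε))) * f x ^ 2 + (c + ε) / 2 := by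
    intro x
    have e : (1 / (2 * (c + ε))) * f x ^ 2 + (c + ε) / 2 - |f x| =
        (|f x| - (c + ε)) ^ 2 / (2 * (c + ε)) := by
      field_simp
      rw [← sq_abs (f x)]
      ring
    have : 0 ≤ (|f x| - (c + ε)) ^ 2 / (2 * (c + ε)) := by positivity
    linarith
  refine (integral_mono hi.abs ((hi2.const_mul _).add (integrable_const _)) hpt).trans ?_
  simp only [Pi.add_apply]
  rw [integral_add (hi2.const_mul _) (integrable_const _), integral_const_mul, integral_const,
    probReal_univ, one_smul]
  have h2 : 1 / (2 * (c + ε)) * ∫ x, f x ^ 2 ∂μ ≤ 1 / (2 * (c + ε)) * (c + ε) ^ 2 :=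
    mul_le_mul_of_nonneg_left (h.trans (pow_le_pow_left₀ hc (by linarith) 2)) (by positivity)
  have e2 : 1 / (2 * (c + ε)) * (c + ε) ^ 2 = (c + ε) / 2 := by field_simp
  linarith

theorem integral_abs_drv_sum_le (e : dirE G D) {s n : ℕ} (hn : s + n ≤ K) {c : ℝ} (hc : 0 ≤ c)
    (hle : (n : ℝ) * hv ≤ c ^ 2) :
    ∫ x, |∑ r ∈ Finset.range n, drv x (s + r) (e : V × V)| ∂gaussPi (CIdx G D K) hv ≤ c := by
  set φ : Fin n → CIdx G D K := fun r => (e, ⟨s + r, by omega⟩)
  have hφ : Function.Injective φ := fun r r' h => by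
    simp only [φ, Prod.mk.injEq, true_and, Fin.mk.injEq] at h
    exact Fin.ext (by omega)
  have ex : ∀ x : CIdx G D K → ℝ, ∑ r ∈ Finset.range n, drv x (s + r) (e : V × V) =
      ∑ q ∈ Finset.univ.image φ, x q := by
    intro x
    rw [Finset.sum_image fun a _ b _ h => hφ h, Finset.sum_range]
    exact Finset.sum_congr rfl fun r _ => drv_coord x (φ r)
  simp only [ex]
  refine integral_abs_le_of_sq (integrable_finsetSum _ fun q _ => (expGrowth_coord q).integrable hv)
    ((ExpGrowth.sum _ fun q _ => expGrowth_coord q).sq.integrable hv) hc ?_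
  rw [integral_sq_sum, Finset.card_image_of_injective _ hφ, Finset.card_univ, Fintype.card_fin]
  exact hle

/-- The fluctuation of the increments around the even spreading of the block increments. -/
noncomputable def fluct (g : ℕ → ℝ) (M L : ℕ) (i : ℕ) : ℝ :=
  if M * L ≤ i then g i - (∑ r ∈ Finset.range L, g (i / L * L + r)) / L else 0

theorem fluct_block (g : ℕ → ℝ) (M : ℕ) {L b r : ℕ} (hr : r < L) :
    fluct g M L (b * L + r) =
      if M ≤ b then g (b * L + r) - (∑ r' ∈ Finset.range L, g (b * L + r')) / L else 0 := by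
  have hL : 0 < L := by omega
  have e : (b * L + r) / L = b := by
    rw [Nat.mul_comm, Nat.mul_add_div hL, Nat.div_eq_of_lt hr, Nat.add_zero]
  unfold fluct
  by_cases hb : M ≤ b
  · have : M * L ≤ b * L + r := (Nat.mul_le_mul_right L hb).trans (Nat.le_add_right _ _)
    rw [if_pos this, if_pos hb, e]
  · have : ¬ M * L ≤ b * L + r := by
      have h2 : (b + 1) * L ≤ M * L := Nat.mul_le_mul_right L (by omega)
      rw [Nat.add_mul, one_mul] at h2
      omega
    rw [if_neg this, if_neg hb]

theorem sum_fluct_blocks (g : ℕ → ℝ) (M : ℕ) {L : ℕ} (hL : 0 < L) : ∀ b,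
    ∑ i ∈ Finset.range (b * L), fluct g M L i = 0
  | 0 => by simp
  | b + 1 => by
    rw [Nat.add_mul, one_mul, Finset.sum_range_add, sum_fluct_blocks g M hL b, zero_add,
      Finset.sum_congr rfl fun r hr => fluct_block g M (Finset.mem_range.mp hr)]
    by_cases hb : M ≤ b
    · simp only [if_pos hb, Finset.sum_sub_distrib, Finset.sum_const, Finset.card_range,
        nsmul_eq_mul]
      have : (L : ℝ) ≠ 0 := by exact_mod_cast hL.ne'
      field_simp
      ring
    · simp [if_neg hb]

theorem abs_sum_fluct_le (g : ℕ → ℝ) (M : ℕ) {L : ℕ} (hL : 0 < L) (l : ℕ) :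
    |∑ i ∈ Finset.range l, fluct g M L i| ≤
      |∑ r ∈ Finset.range (l % L), g (l / L * L + r)| +
        |∑ r ∈ Finset.range L, g (l / L * L + r)| := by
  have hl : l = l / L * L + l % L := (Nat.div_add_mod' l L).symm
  conv_lhs => rw [hl]
  rw [Finset.sum_range_add, sum_fluct_blocks g M hL, zero_add,
    Finset.sum_congr rfl fun r hr => fluct_block g M
      ((Finset.mem_range.mp hr).trans (Nat.mod_lt l hL))]
  by_cases hb : M ≤ l / L
  · simp only [if_pos hb, Finset.sum_sub_distrib, Finset.sum_const, Finset.card_range,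
      nsmul_eq_mul]
    refine (abs_sub _ _).trans (add_le_add le_rfl ?_)
    rw [abs_mul, abs_div, Nat.abs_cast, Nat.abs_cast, mul_div_assoc', div_le_iff₀ (by exact_mod_cast hL),
      mul_comm]
    exact mul_le_mul_of_nonneg_left (by exact_mod_cast (Nat.mod_lt l hL).le) (abs_nonneg _)
  · simp only [if_neg hb, Finset.sum_const_zero, abs_zero]
    positivity

theorem sum_div_blocks {L : ℕ} (hL : 0 < L) (f : ℕ → ℝ) : ∀ N,
    ∑ i ∈ Finset.range (N * L), f (i / L) / L = ∑ k ∈ Finset.range N, f k
  | 0 => by simp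
  | N + 1 => by
    rw [Nat.add_mul, one_mul, Finset.sum_range_add, Finset.sum_range_succ, sum_div_blocks hL f N]
    congr 1
    have hq : ∀ r ∈ Finset.range L, f ((N * L + r) / L) / L = f N / L := fun r hr => by
      rw [Nat.mul_comm N L, Nat.mul_add_div hL, Nat.div_eq_of_lt (Finset.mem_range.mp hr),
        Nat.add_zero]
    rw [Finset.sum_congr rfl hq, Finset.sum_const, Finset.card_range, nsmul_eq_mul,
      mul_div_cancel₀ _ (by exact_mod_cast hL.ne')]

/-- The final magnetisation is close to a Lipschitz function of block increments. -/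
theorem late_approx (hG : G.IsTree) (hd : 3 ≤ d) (hreg : ∀ v, (G.neighborSet v).ncard = d)
    {M N L : ℕ} (hL : 0 < L) (hMN : M ≤ N) (lp : LipPar G d β hv (M * L) (N * L) a θ cs)
    (hD : IsConvexSet G D) {v : V} {R : ℕ} (hball : ballSet hG hd hreg v (R + 1) ⊆ D) {η : ℝ}
    (hη : 0 ≤ η)
    (hvar : blockVar hv (dropSet G D (N * L) (M * L) v R) (finalT G β hv D (N * L) v) ≤ η ^ 2)
    {c : ℝ} (hc : 0 ≤ c) (hc2 : (L : ℝ) * hv ≤ c ^ 2) :
    ∃ Gf : (V × V → ℕ → ℝ) → ℝ, (∀ X, |Gf X| ≤ 1) ∧
      (∀ X X', |Gf X - Gf X'| ≤ (1 + lipC d β a cs) * (2 * chLam β) *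
        ∑ e ∈ nearE hG hd hreg v R, ∑ k ∈ Finset.range N, |X e k - X' e k|) ∧
      ∫ x, |finalT G β hv D (N * L) v x - Gf (crsInc L x)| ∂gaussPi (CIdx G D (N * L)) hv ≤
        η + lipC d β a cs * (2 * chLam β) * (2 * c) * (nearE hG hd hreg v R).card := by
  have hv' : v ∈ D := hball (mem_ballSet.mpr (by simp))
  set K := N * L with hK
  set F := finalT G β hv D K v with hF
  set S := dropSet G D K (M * L) v R with hS
  set E := nearE hG hd hreg v R with hE
  have hE' : (dirE G D).filter (fun e => ¬ R < G.dist v e.1) = E := nearE_eq hG hd hreg hball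
  have hFm : Measurable F := measurable_finalT β hv D K v
  have hFb : ∀ x, |F x| ≤ 1 := abs_finalT_le β hv D K v
  have hC := lipC_nonneg (d := d) (β := β) (cs := cs) lp.a_pos.le
  have hlam := chLam_nonneg β
  have hS' : ∀ q : CIdx G D K, q ∉ S → M * L ≤ (q.2 : ℕ) ∧ ¬ R < G.dist v (q.1 : V × V).1 := by
    intro q hq
    simp only [hS, dropSet, Finset.mem_filter, Finset.mem_univ, true_and, not_or] at hq
    exact ⟨not_lt.mp hq.1, hq.2⟩
  refine ⟨fun X => avgSet hv S F (interpInc G D K L X), fun X => abs_avgSet_le hFb _, ?_, ?_⟩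
  · intro X X'
    refine avgSet_dist_le hv S hFm hFb _ _ fun x x' hx hu => ?_
    refine (finalT_lip_from lp hD hv' x x' fun q hq => hx q ?_).trans
      (mul_le_mul_of_nonneg_left ?_ (by positivity))
    · simp [hS, dropSet, hq]
    have hterm : ∀ q : CIdx G D K, |x q - x' q| ≤
        if ¬ R < G.dist v (q.1 : V × V).1 then
          |X (q.1 : V × V) ((q.2 : ℕ) / L) - X' (q.1 : V × V) ((q.2 : ℕ) / L)| / L else 0 := by
      intro q
      by_cases hq : q ∈ S
      · rw [hx q hq, sub_self, abs_zero]; split_ifs <;> positivity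
      · rw [if_pos (hS' q hq).2, (hu q hq).1, (hu q hq).2]
        simp only [interpInc]
        rw [← sub_div, abs_div, Nat.abs_cast]
    refine (Finset.sum_le_sum fun q _ => hterm q).trans (le_of_eq ?_)
    rw [Fintype.sum_prod_type (f := fun q : CIdx G D K =>
      if ¬ R < G.dist v (q.1 : V × V).1 then
        |X (q.1 : V × V) ((q.2 : ℕ) / L) - X' (q.1 : V × V) ((q.2 : ℕ) / L)| / L else 0)]
    have e1 : ∀ e : dirE G D, ∑ i : Fin K, (if ¬ R < G.dist v (e : V × V).1 then
        |X (e : V × V) ((i : ℕ) / L) - X' (e : V × V) ((i : ℕ) / L)| / L else 0) =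
        if ¬ R < G.dist v (e : V × V).1 then
          ∑ k ∈ Finset.range N, |X (e : V × V) k - X' (e : V × V) k| else 0 := by
      intro e
      split_ifs
      · simp
      · rw [Fin.sum_univ_eq_sum_range (fun i => |X (e : V × V) (i / L) - X' (e : V × V) (i / L)| / L)]
        exact sum_div_blocks hL (fun k => |X (e : V × V) k - X' (e : V × V) k|) N
    simp only [e1]
    rw [Finset.sum_coe_sort (dirE G D) (fun e => if ¬ R < G.dist v e.1 then
      ∑ k ∈ Finset.range N, |X e k - X' e k| else 0), ← Finset.sum_filter, hE']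
  · set A := avgSet hv S F with hA
    set B := fun x : CIdx G D K → ℝ => lipC d β a cs * (2 * chLam β) *
      ∑ l ∈ Finset.range K, (hv : ℝ) * ∑ e ∈ E,
        (|∑ r ∈ Finset.range (l % L), drv x (l / L * L + r) e| +
          |∑ r ∈ Finset.range L, drv x (l / L * L + r) e|) with hB
    have hgap : ∀ x, |A x - A (interpInc G D K L (crsInc L x))| ≤ B x := by
      intro x
      refine avgSet_dist_le hv S hFm hFb _ _ fun z z' hz hu => ?_
      refine (abs_tanh_sub_le _ _).trans ?_
      have hdiff : ∀ e ∈ dirE G D, ∀ i < K, drv z i e - drv z' i e =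
          if ¬ R < G.dist v e.1 then fluct (fun i => drv x i e) M L i else 0 := by
        intro e he i hi
        rw [drv_apply _ hi he, drv_apply _ hi he]
        set q : CIdx G D K := (⟨e, he⟩, ⟨i, hi⟩)
        by_cases hq : q ∈ S
        · rw [hz q hq, sub_self]
          simp only [hS, dropSet, Finset.mem_filter, Finset.mem_univ, true_and] at hq
          split_ifs with h
          · rfl
          · exact (if_neg (not_le.mpr (hq.resolve_right (by simpa [q] using h)))).symm
        · obtain ⟨h1, h2⟩ := hS' q hq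
          rw [if_pos h2, (hu q hq).1, (hu q hq).2]
          simp only [fluct, interpInc, crsInc, q] at h1 ⊢
          rw [if_pos h1, drv_apply x hi he]
      refine (lp.eulerH_final_le hD (fun j hj e he => ?_) v).trans ?_
      · have hjK : j < K := hj.trans_le (Nat.mul_le_mul_right L hMN)
        have := hdiff e he j hjK
        rw [fluct, if_neg (not_le.mpr hj), ite_self] at this
        linarith
      have hP : ∀ l ≤ K, ∀ w, |diffP G β D (drv z) (drv z') l w| ≤ chLam β * ∑ e ∈ E,
          chInc w e * |∑ i ∈ Finset.range l, fluct (fun i => drv x i e) M L i| := by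
        intro l hl w
        rw [diffP, fieldOf, abs_mul, abs_of_nonneg hlam]
        refine mul_le_mul_of_nonneg_left ((Finset.abs_sum_le_sum_abs _ _).trans (le_of_eq ?_)) hlam
        rw [← hE', Finset.sum_filter]
        refine Finset.sum_congr rfl fun e he => ?_
        rw [abs_mul, abs_of_nonneg (chInc_nonneg w e), Finset.sum_congr rfl fun i hi =>
          hdiff e he i ((Finset.mem_range.mp hi).trans_le hl)]
        split_ifs <;> simp
      have hPK : |diffP G β D (drv z) (drv z') K v| = 0 := by
        refine le_antisymm ((hP K le_rfl v).trans (le_of_eq ?_)) (abs_nonneg _)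
        simp [hK, sum_fluct_blocks _ _ hL]
      simp only [hB]
      rw [hPK, zero_add, mul_assoc]
      refine mul_le_mul_of_nonneg_left ?_ hC
      rw [Finset.mul_sum]
      refine Finset.sum_le_sum fun l hl => ?_
      rw [mul_left_comm (2 * chLam β)]
      refine mul_le_mul_of_nonneg_left ?_ (NNReal.coe_nonneg hv)
      calc wSum G a D (diffP G β D (drv z) (drv z') l) v
          ≤ ∑ w ∈ D, chLam β * ∑ e ∈ E,
              chInc w e * |∑ i ∈ Finset.range l, fluct (fun i => drv x i e) M L i| :=
            Finset.sum_le_sum fun w _ => (mul_le_of_le_one_left (abs_nonneg _)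
              (pow_le_one₀ lp.a_pos.le lp.a_le)).trans (hP l (Finset.mem_range.mp hl).le w)
        _ = 2 * chLam β * ∑ e ∈ E, |∑ i ∈ Finset.range l, fluct (fun i => drv x i e) M L i| := by
            rw [← Finset.mul_sum, Finset.sum_comm, mul_comm 2 (chLam β), mul_assoc,
              Finset.mul_sum (a := (2 : ℝ))]
            refine congrArg _ (Finset.sum_congr rfl fun e he => ?_)
            rw [← hE'] at he
            rw [← Finset.sum_mul, sum_chInc_vertex (Finset.mem_filter.mp he).1]
        _ ≤ _ := mul_le_mul_of_nonneg_left (Finset.sum_le_sum fun e _ =>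
            abs_sum_fluct_le _ M hL l) (by positivity)
    have hAm : Measurable A := measurable_avgSet hFm
    have hAb : ∀ x, |A x| ≤ 1 := abs_avgSet_le hFb
    have hFA : ∫ x, |F x - A x| ∂gaussPi (CIdx G D K) hv ≤ η := by
      refine integral_abs_le_of_sq (integrable_of_abs_le (hFm.sub hAm) (B := 1 + 1) fun x =>
        (abs_sub _ _).trans (add_le_add (hFb x) (hAb x))) ?_ hη hvar
      refine integrable_of_abs_le ((hFm.sub hAm).pow_const 2) (B := (1 + 1) ^ 2) fun x => ?_
      rw [abs_pow]
      exact pow_le_pow_left₀ (abs_nonneg _) ((abs_sub _ _).trans (add_le_add (hFb x) (hAb x))) 2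
    have hXm : Measurable fun x : CIdx G D K → ℝ => interpInc G D K L (crsInc L x) :=
      measurable_pi_lambda _ fun q =>
        (Finset.measurable_sum _ fun r _ => measurable_drv _ _).div_const _
    have hBg : ∀ (l n : ℕ) (e : V × V), ExpGrowth fun x : CIdx G D K → ℝ =>
        ∑ r ∈ Finset.range n, drv x (l + r) e := by
      intro l n e
      refine .sum _ fun r _ => ?_
      by_cases h : e ∈ dirE G D ∧ l + r < K
      · have e1 : (fun x : CIdx G D K → ℝ => drv x (l + r) e) =
            fun x => x (⟨e, h.1⟩, ⟨l + r, h.2⟩) := funext fun x => drv_apply x h.2 h.1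
        rw [e1]; exact expGrowth_coord _
      · have e1 : (fun x : CIdx G D K → ℝ => drv x (l + r) e) = fun _ => 0 :=
          funext fun x => dif_neg h
        rw [e1]; exact expGrowth_const 0
    have hBi : ExpGrowth B := (ExpGrowth.sum _ fun l _ => (ExpGrowth.sum _ fun e _ =>
      (hBg _ _ e).abs.add (hBg _ _ e).abs).const_mul _).const_mul _
    have hIB : ∫ x, B x ∂gaussPi (CIdx G D K) hv ≤
        lipC d β a cs * (2 * chLam β) * (2 * c) * E.card := by
      simp only [hB]
      rw [integral_const_mul, integral_finsetSum _ fun l _ => ((ExpGrowth.sum _ fun e _ =>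
        (hBg _ _ e).abs.add (hBg _ _ e).abs).const_mul _).integrable hv]
      have hl : ∀ l ∈ Finset.range K, (∫ x, (hv : ℝ) * ∑ e ∈ E,
          (|∑ r ∈ Finset.range (l % L), drv x (l / L * L + r) e| +
            |∑ r ∈ Finset.range L, drv x (l / L * L + r) e|) ∂gaussPi (CIdx G D K) hv) ≤
          (hv : ℝ) * ((E.card : ℝ) * (2 * c)) := by
        intro l hl
        have hlK := Finset.mem_range.mp hl
        rw [integral_const_mul, integral_finsetSum _ fun e _ =>
          ((hBg _ _ e).abs.add (hBg _ _ e).abs).integrable hv]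
        refine mul_le_mul_of_nonneg_left ?_ (NNReal.coe_nonneg hv)
        rw [← nsmul_eq_mul, ← Finset.sum_const]
        refine Finset.sum_le_sum fun e he => ?_
        rw [← hE'] at he
        rw [integral_add ((hBg _ _ e).abs.integrable hv) ((hBg _ _ e).abs.integrable hv), two_mul]
        have hb : l / L * L + L ≤ K := by
          have h1 : l / L < N := by rw [Nat.div_lt_iff_lt_mul hL]; exact hlK
          have h2 := Nat.mul_le_mul_right L (Nat.succ_le_of_lt h1)
          rw [Nat.succ_mul] at h2
          exact h2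
        have hn : ((l % L : ℕ) : ℝ) * hv ≤ c ^ 2 := (mul_le_mul_of_nonneg_right
          (by exact_mod_cast (Nat.mod_lt l hL).le) (NNReal.coe_nonneg hv)).trans hc2
        exact add_le_add (integral_abs_drv_sum_le ⟨e, (Finset.mem_filter.mp he).1⟩
            (by have := Nat.mod_lt l hL; omega) hc hn)
          (integral_abs_drv_sum_le ⟨e, (Finset.mem_filter.mp he).1⟩ hb hc hc2)
      refine (mul_le_mul_of_nonneg_left (Finset.sum_le_sum hl) (by positivity)).trans ?_
      rw [Finset.sum_const, Finset.card_range, nsmul_eq_mul, ← mul_assoc (K : ℝ)]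
      calc lipC d β a cs * (2 * chLam β) * ((K : ℝ) * hv * ((E.card : ℝ) * (2 * c)))
          ≤ lipC d β a cs * (2 * chLam β) * (1 * ((E.card : ℝ) * (2 * c))) :=
            mul_le_mul_of_nonneg_left (mul_le_mul_of_nonneg_right lp.time_le (by positivity))
              (by positivity)
        _ = _ := by ring
    have iFA : Integrable (fun x => |F x - A x|) (gaussPi (CIdx G D K) hv) :=
      (integrable_of_abs_le (hFm.sub hAm) (B := 1 + 1) fun x =>
        (abs_sub _ _).trans (add_le_add (hFb x) (hAb x))).abs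
    refine (integral_mono ((integrable_of_abs_le (hFm.sub (hAm.comp hXm)) (B := 1 + 1) fun x =>
      (abs_sub _ _).trans (add_le_add (hFb x) (hAb _))).abs) (iFA.add (hBi.integrable hv))
      fun x => ?_).trans ?_
    · simp only [Pi.add_apply, Pi.sub_apply, Function.comp_apply]
      exact (abs_sub_le _ (A x) _).trans (add_le_add le_rfl (hgap x))
    · simp only [Pi.add_apply]
      rw [integral_add iFA (hBi.integrable hv)]
      exact add_le_add hFA hIB

end Vale.Agent.P161
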