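import Vale.Agent.P161.Crit.Late
import Vale.Agent.P161.Crit.Assemble

/-!
# The approximating magnetisations on the noise space, and their joint moments
-/

namespace Vale.Agent.P161

open SimpleGraph MeasureTheory ProbabilityTheory Filter
open scoped Classical NNReal Topology

variable {V : Type*} {G : SimpleGraph V} {d : ℕ} {β θ : ℝ}

/-- The increments at level `j` of a noise, on the ordered edges of `D`. -/
noncomputable def nIn (G : SimpleGraph V) (D : Finset V) (j : ℕ) (ω : ENoise V) :
    CIdx G D (2 ^ j) → ℝ :=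
  fun q => dyadInc j (q.2 : ℕ) (ω (q.1 : V × V))

theorem measurable_nIn (D : Finset V) (j : ℕ) : Measurable (nIn G D j) :=
  measurable_pi_lambda _ fun q => (measurable_dyadInc j _).comp (measurable_pi_apply _)

theorem map_nIn (D : Finset V) (j : ℕ) :
    (eLaw V).map (nIn G D j) = gaussPi (CIdx G D (2 ^ j)) (stepLen j) := by
  refine (Measure.pi_eq fun s hs => ?_).symm
  rw [Measure.map_apply (measurable_nIn D j) (.univ_pi hs)]
  set inc := fun x : NIdx → ℝ => fun k : Fin (2 ^ j) => dyadInc j k x
  have hinc : Measurable inc := measurable_pi_lambda _ fun k => measurable_dyadInc j k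
  set box : V × V → Set (NIdx → ℝ) := fun e =>
    if he : e ∈ dirE G D then inc ⁻¹' Set.univ.pi (fun k => s (⟨e, he⟩, k)) else Set.univ
  have hbox : ∀ e : V × V, MeasurableSet (box e) := fun e => by
    simp only [box]; split_ifs
    · exact hinc (.univ_pi fun k => hs _)
    · exact MeasurableSet.univ
  have e1 : nIn G D j ⁻¹' Set.univ.pi s = ((dirE G D : Finset (V × V)) : Set (V × V)).pi box := by
    ext ω
    simp only [Set.mem_preimage, Set.mem_pi, Set.mem_univ, true_implies, Finset.mem_coe, box]
    constructor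
    · intro h e he
      rw [dif_pos he]
      exact fun k _ => h (⟨e, he⟩, k)
    · rintro h ⟨⟨e, he⟩, k⟩
      have := h e he
      rw [dif_pos he] at this
      exact this k (Set.mem_univ k)
  rw [e1, eLaw, Measure.infinitePi_pi _ fun e _ => hbox e, ← Finset.prod_coe_sort (dirE G D),
    Fintype.prod_prod_type (f := fun q : CIdx G D (2 ^ j) => gaussianReal 0 (stepLen j) (s q))]
  refine Finset.prod_congr rfl fun e _ => ?_
  simp only [box, dif_pos e.2]
  rw [← Measure.map_apply hinc (.univ_pi fun k => hs _), stdNoise_map_inc, Measure.pi_pi]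

theorem integral_nIn (D : Finset V) (j : ℕ) {f : (CIdx G D (2 ^ j) → ℝ) → ℝ} (hf : Measurable f) :
    ∫ ω, f (nIn G D j ω) ∂eLaw V = ∫ x, f x ∂gaussPi (CIdx G D (2 ^ j)) (stepLen j) := by
  rw [← map_nIn D j, integral_map (measurable_nIn D j).aemeasurable hf.aestronglyMeasurable]

theorem nIn_res {D D' : Finset V} (hsub : D ⊆ D') (j : ℕ) (ω : ENoise V) :
    (fun q => nIn G D' j ω (resIdx hsub q)) = nIn G D j ω := rfl

/-- The approximating magnetisation. -/
noncomputable def critT (hG : G.IsTree) (hd : 3 ≤ d) (hreg : ∀ v, (G.neighborSet v).ncard = d)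
    (β : ℝ) (n j : ℕ) (v : V) (ω : ENoise V) : ℝ :=
  finalT G β (stepLen j) (ballSet hG hd hreg v n) (2 ^ j) v (nIn G (ballSet hG hd hreg v n) j ω)

variable (hG : G.IsTree) (hd : 3 ≤ d) (hreg : ∀ v, (G.neighborSet v).ncard = d)

theorem measurable_critT (β : ℝ) (n j : ℕ) (v : V) :
    Measurable (critT hG hd hreg β n j v) :=
  (measurable_finalT β _ _ _ v).comp (measurable_nIn _ j)

theorem abs_critT_le (β : ℝ) (n j : ℕ) (v : V) (ω : ENoise V) :
    |critT hG hd hreg β n j v ω| ≤ 1 := abs_finalT_le β _ _ _ v _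

theorem critT_local (β : ℝ) (n j : ℕ) (v : V) (ω ω' : ENoise V)
    (h : ∀ a : V × V, G.Adj a.1 a.2 → ω a = ω' a) :
    critT hG hd hreg β n j v ω = critT hG hd hreg β n j v ω' := by
  unfold critT
  congr 1
  funext q
  simp only [nIn, h _ (mem_dirE.mp q.1.2).2.2]

theorem finalT_moveE (g : G ≃g G) (D E : Finset V) (hE : D.image g = E) (j : ℕ) (v : V)
    (ω : ENoise V) :
    finalT G β (stepLen j) E (2 ^ j) (g v) (nIn G E j (moveE g ω)) =
      finalT G β (stepLen j) D (2 ^ j) v (nIn G D j ω) := by
  subst hE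
  rw [finalT_image g D]
  congr 1
  funext q
  simp [nIn, imgIdx, moveE, edgeMap]

theorem critT_equiv (β : ℝ) (n j : ℕ) (g : G ≃g G) (v : V) (ω : ENoise V) :
    critT hG hd hreg β n j (g v) (moveE g ω) = critT hG hd hreg β n j v ω :=
  finalT_moveE g _ _ (ballSet_image' hG hd hreg g v n) j v ω

/-- The product of the indicators of prescribed spins, in magnetisations. -/
noncomputable def cylProd (S : Finset V) (η : V → Bool) (m : V → ℝ) : ℝ :=
  ∏ v ∈ S, (1 + spin (η v) * m v) / 2

theorem abs_cylTerm_le (b : Bool) {m : ℝ} (hm : |m| ≤ 1) :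
    0 ≤ (1 + spin b * m) / 2 ∧ (1 + spin b * m) / 2 ≤ 1 := by
  obtain ⟨h1, h2⟩ := abs_le.mp hm
  cases b <;> simp [spin] <;> constructor <;> linarith

theorem abs_cylProd_le (S : Finset V) (η : V → Bool) {m : V → ℝ} (hm : ∀ v ∈ S, |m v| ≤ 1) :
    |cylProd S η m| ≤ 1 := by
  rw [cylProd, Finset.abs_prod]
  refine Finset.prod_le_one (fun v _ => abs_nonneg _) fun v hv => ?_
  obtain ⟨h1, h2⟩ := abs_cylTerm_le (η v) (hm v hv)
  rwa [abs_of_nonneg h1]

theorem abs_cylProd_sub_le (η : V → Bool) {m m' : V → ℝ} : ∀ (S : Finset V),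
    (∀ v ∈ S, |m v| ≤ 1) → (∀ v ∈ S, |m' v| ≤ 1) →
    |cylProd S η m - cylProd S η m'| ≤ ∑ v ∈ S, |m v - m' v| := by
  intro S
  induction S using Finset.induction_on with
  | empty => intros; simp [cylProd]
  | @insert u S hu ih =>
    intro h1 h2
    have ih' := ih (fun v hv => h1 v (Finset.mem_insert_of_mem hv))
      (fun v hv => h2 v (Finset.mem_insert_of_mem hv))
    simp only [cylProd, Finset.prod_insert hu, Finset.sum_insert hu] at ih' ⊢
    set a := (1 + spin (η u) * m u) / 2
    set a' := (1 + spin (η u) * m' u) / 2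
    set P := ∏ v ∈ S, (1 + spin (η v) * m v) / 2 with hP
    set P' := ∏ v ∈ S, (1 + spin (η v) * m' v) / 2
    obtain ⟨a0, a1⟩ := abs_cylTerm_le (η u) (h1 u (Finset.mem_insert_self u S))
    have hP' : |P'| ≤ 1 := abs_cylProd_le S η fun v hv => h2 v (Finset.mem_insert_of_mem hv)
    have e : a * P - a' * P' = a * (P - P') + (a - a') * P' := by ring
    have hd' : |a - a'| ≤ |m u - m' u| := by
      rw [show a - a' = spin (η u) * (m u - m' u) / 2 by simp only [a, a']; ring, abs_div, abs_mul,
        abs_spin, one_mul, abs_two]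
      linarith [abs_nonneg (m u - m' u)]
    rw [e]
    refine (abs_add_le _ _).trans ?_
    rw [abs_mul, abs_mul, abs_of_nonneg a0, add_comm (|m u - m' u|)]
    exact add_le_add ((mul_le_of_le_one_left (abs_nonneg _) a1).trans ih')
      ((mul_le_of_le_one_right (abs_nonneg _) hP').trans hd')

/-- With no coupling the spins are independent with means `tanh`. -/
theorem avg_zero_cyl (D : Finset V) (H : V → ℝ) {S : Finset V} (hS : S ⊆ D) (η : V → Bool) :
    avg (fieldWeight G 0 D H) (fun σ => cylProd S η fun v => sp v (extCfg σ)) =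
      cylProd S η fun v => Real.tanh (H v) := by
  set c := (1 / 2 : ℝ) * ∏ _e ∈ edgesWithin G D, (1 / 2 : ℝ) with hc
  have hc0 : c ≠ 0 := by positivity
  set g : D → Bool → ℝ := fun x b => Real.exp (spin b * H x) with hg
  set f : D → Bool → ℝ := fun x b =>
    if (x : V) ∈ S then (1 + spin (η x) * spin b) / 2 else 1 with hf
  have hw : fieldWeight G 0 D H = fun σ => c * ∏ x : D, g x (σ x) := by
    funext σ
    simp only [fieldWeight, freeWeight, hc, hg]
    congr 2
    refine Finset.prod_congr rfl fun e _ => ?_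
    induction e using Sym2.ind with
    | h a b => simp [pairFactor_mk]
  have hcyl : ∀ σ : D → Bool, cylProd S η (fun v => sp v (extCfg σ)) = ∏ x : D, f x (σ x) := by
    intro σ
    have e : ∏ v ∈ S, (1 + spin (η v) * sp v (extCfg σ)) / 2 =
        ∏ v ∈ D, if v ∈ S then (1 + spin (η v) * sp v (extCfg σ)) / 2 else 1 := by
      rw [Finset.prod_ite_mem, Finset.inter_eq_right.mpr hS]
    rw [cylProd, e, ← Finset.prod_coe_sort D]
    exact Finset.prod_congr rfl fun x _ => by
      simp only [hf, sp]; rw [extCfg_of_mem σ x.2]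
  have hnum : ∑ σ : D → Bool, (∏ x : D, g x (σ x)) * ∏ x : D, f x (σ x) =
      ∏ x : D, ∑ b, g x b * f x b := by
    simp only [← Finset.prod_mul_distrib]
    exact (Fintype.prod_sum fun x b => g x b * f x b).symm
  have hden : ∑ σ : D → Bool, ∏ x : D, g x (σ x) = ∏ x : D, ∑ b, g x b :=
    (Fintype.prod_sum g).symm
  rw [hw, avg_smul _ _ hc0, avg]
  simp only [hcyl]
  rw [hnum, hden, ← Finset.prod_div_distrib]
  have hterm : ∀ x : D, (∑ b, g x b * f x b) / ∑ b, g x b =
      if (x : V) ∈ S then (1 + spin (η x) * Real.tanh (H x)) / 2 else 1 := by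
    intro x
    simp only [hg, hf, Fintype.sum_bool, spin_true, spin_false, one_mul, neg_one_mul]
    have hp : 0 < Real.exp (H x) + Real.exp (-H x) := by positivity
    split_ifs
    · rw [Real.tanh_eq]
      field_simp
      ring
    · rw [mul_one, mul_one, div_self hp.ne']
  simp only [hterm]
  rw [Finset.prod_coe_sort D (fun v => if v ∈ S then (1 + spin (η v) * Real.tanh (H v)) / 2 else 1),
    Finset.prod_ite_mem, Finset.inter_eq_right.mpr hS, cylProd]

/-- The probability of a cylinder as a function of the coupling. -/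
noncomputable def cylF (G : SimpleGraph V) (S : Finset V) (η : V → Bool) (θ : ℝ) : ℝ :=
  (1 / 2) * ∏ e ∈ edgesWithin G S, pairFactor θ η e

theorem continuous_cylF (S : Finset V) (η : V → Bool) : Continuous (cylF G S η) := by
  unfold cylF
  refine continuous_const.mul (continuous_finset_prod _ fun e _ => ?_)
  induction e using Sym2.ind with
  | h a b => simp only [pairFactor_mk]; fun_prop

theorem sum_freeWeight_cyl (h0 : 0 ≤ θ) (h1 : θ < 1) {μ : Measure (V → Bool)}
    (hμ : IsFreeIsing G θ μ) {D S : Finset V} (hS : S ⊆ D)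
    (hD : (G.induce (D : Set V)).Connected) (hSc : (G.induce (S : Set V)).Connected)
    (η : V → Bool) :
    ∑ σ : D → Bool, freeWeight G θ D σ * cylProd S η (fun v => sp v (extCfg σ)) =
      cylF G S η θ := by
  set F : (S → Bool) → ℝ := fun τ => cylProd S η fun v => sp v (extCfg τ) with hF
  have e1 := integral_restrict h0 h1 hμ hD (fun σ => cylProd S η fun v => sp v (extCfg σ))
  have e2 := integral_restrict h0 h1 hμ hSc F
  simp only [smul_eq_mul] at e1 e2
  have e3 : ∀ s : V → Bool, cylProd S η (fun v => sp v (extCfg fun x : D => s x)) =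
      F fun x : S => s x := by
    intro s
    simp only [hF, cylProd]
    refine Finset.prod_congr rfl fun v hv => ?_
    simp only [sp]
    rw [extCfg_of_mem _ (hS hv), extCfg_of_mem _ hv]
  rw [← e1, integral_congr_ae (ae_of_all _ e3), e2]
  set τ₀ : S → Bool := fun x => η x with hτ
  rw [Finset.sum_eq_single τ₀]
  · have h01 : F τ₀ = 1 := by
      simp only [hF, cylProd]
      refine Finset.prod_eq_one fun v hv => ?_
      simp only [sp]
      rw [extCfg_of_mem _ hv, hτ]
      have := spin_mul_self (η v)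
      linarith
    rw [h01, mul_one, freeWeight, cylF]
    congr 1
    refine Finset.prod_congr rfl fun e he => pairFactor_congr θ fun x hx => ?_
    simp only [edgesWithin, Finset.mem_filter, Finset.mem_sym2_iff] at he
    rw [extCfg_of_mem _ (he.1 x hx), hτ]
  · intro τ _ hne
    obtain ⟨x, hx⟩ := Function.ne_iff.mp hne
    have hz : F τ = 0 := by
      simp only [hF, cylProd]
      refine Finset.prod_eq_zero x.2 ?_
      simp only [sp]
      rw [extCfg_of_mem _ x.2]
      cases h : η x <;> cases h' : τ x <;> simp_all [spin]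
    rw [hz, mul_zero]
  · exact fun h => absurd (Finset.mem_univ _) h

/-- The joint moments in one volume are those of the free measure, up to the discretisation. -/
theorem exists_cyl_close (hβ : 0 ≤ β) {μ : Measure (V → Bool)}
    (hμ : IsFreeIsing G (Real.tanh β) μ) {D S : Finset V} (hS : S ⊆ D)
    (hD : (G.induce (D : Set V)).Connected) (hSc : (G.induce (S : Set V)).Connected) :
    ∃ C : ℝ, 0 ≤ C ∧ ∀ᶠ j in atTop, ∀ η : V → Bool,
      |∫ x, cylProd S η (fun v => finalT G β (stepLen j) D (2 ^ j) v x)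
          ∂gaussPi (CIdx G D (2 ^ j)) (stepLen j) - cylF G S η (Real.tanh β)| ≤
        C * Real.sqrt (stepLen j : ℝ) := by
  have h0 := tanh_nonneg' hβ
  have hone := sum_freeWeight_eq_one h0 (Real.tanh_lt_one β) hμ hD
  obtain ⟨C, hC, htr⟩ := exists_transfer (G := G) (D := D) hβ hone
  refine ⟨C * 2, by positivity, ?_⟩
  filter_upwards [eventually_fine (G := G) hβ D] with j hj η
  have ok := chOk_stepLen hβ j (K := 2 ^ j) le_rfl
  set g := fun x : CIdx G D (2 ^ j) → ℝ =>
    cylProd S η fun v => finalT G β (stepLen j) D (2 ^ j) v x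
  have hgm : Measurable g := Finset.measurable_prod _ fun v _ =>
    (((measurable_finalT β _ D _ v).const_mul _).const_add _).div_const _
  have hgb : ∀ x, |g x| ≤ 1 := fun x => abs_cylProd_le S η fun v _ => abs_finalT_le β _ D _ v x
  have h := htr _ _ ok hj g 1 hgm hgb
  have hth : chTh β (((2 ^ j : ℕ) : ℝ) * (stepLen j : ℝ)) = 0 := by
    rw [stepLen_mul_pow, chTh, sub_self, mul_zero, Real.tanh_zero]
  set f := fun σ : D → Bool => cylProd S η fun v => sp v (extCfg σ) with hf
  have hg : ∀ x : CIdx G D (2 ^ j) → ℝ, g (innovVec G β (stepLen j) D (2 ^ j) x) =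
      avg (chPost G β (stepLen j) D (drv x) (2 ^ j)) f := by
    intro x
    simp only [g, finalT, eulerH_innovVec x le_rfl, chPost, hth, hf, avg_zero_cyl D _ hS η]
  have hobs : ∫ x, chZ G β (stepLen j) D (2 ^ j) x * g (innovVec G β (stepLen j) D (2 ^ j) x)
      ∂gaussPi (CIdx G D (2 ^ j)) (stepLen j) = cylF G S η (Real.tanh β) := by
    simp only [hg]
    have e := obsExp_avg ok (pathBdd_const (G := G) (D := D) (i := 2 ^ j) 1) f
    simp only [one_mul, obsExp] at e
    rw [e]
    have e2 := spinExp_lift (G := G) (β := β) (hv := stepLen j) (D := D) (n := 0)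
      (g := fun _ => (1 : ℝ)) (fun _ _ _ => rfl) (pathBdd_const 1) f (2 ^ j) (by simpa using ok)
    simp only [zero_add, one_mul] at e2
    rw [e2, ← sum_freeWeight_cyl h0 (Real.tanh_lt_one β) hμ hS hD hSc η]
    simp [spinExp, chExpo, hf]
  rw [hobs, abs_sub_comm] at h
  exact h.trans (le_of_eq (by ring))

end Vale.Agent.P161
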