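import Vale.Agent.P161.Crit.Model
import Vale.Agent.P161.Crit.Energy

/-!
# Propagation of perturbations by the Euler scheme
-/

namespace Vale.Agent.P161

open SimpleGraph MeasureTheory
open scoped Classical NNReal

variable {V : Type*}

/-- Twice the signless Laplacian of the tree inside `D`. -/
noncomputable def chQ (G : SimpleGraph V) (D : Finset V) (f : V → ℝ) (v : V) : ℝ :=
  ∑ a ∈ dirE G D, chInc v a * (f a.1 + f a.2)

/-- The kernel bound of the covariances. -/
noncomputable def kerMul (G : SimpleGraph V) (θ : ℝ) (D : Finset V) (α : V → ℝ) (v : V) : ℝ :=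
  ∑ u ∈ D, α u * θ ^ G.dist u v

/-- One step of the linearised scheme. -/
noncomputable def stepA (G : SimpleGraph V) (β h : ℝ) (D : Finset V) (i : ℕ) (H α : V → ℝ)
    (v : V) : ℝ :=
  α v + h * chLam β ^ 2 * chQ G D (sigMul G (chTh β ((i : ℝ) * h)) D H α) v

/-- The derivative of the fields with respect to the increment of `a` at step `i₀`. -/
noncomputable def alphaPath (G : SimpleGraph V) (β h : ℝ) (D : Finset V) (H : ℕ → V → ℝ)
    (i₀ : ℕ) (a : V × V) : ℕ → V → ℝ
  | 0 => fun _ => 0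
  | i + 1 => fun v => stepA G β h D i (H i) (alphaPath G β h D H i₀ a i) v +
      if i = i₀ then fieldOf G β D (fun b => if b = a then 1 else 0) v else 0

variable {G : SimpleGraph V} {β h : ℝ} {D : Finset V} {d : ℕ}

theorem sum_dirE_fst_le (hd : 3 ≤ d) (hreg : ∀ v, (G.neighborSet v).ncard = d) (D : Finset V)
    {g : V → ℝ} (hg : ∀ v, 0 ≤ g v) :
    ∑ a ∈ dirE G D, g a.1 ≤ d * ∑ v ∈ D, g v := by
  have hmaps : ∀ a ∈ dirE G D, a.1 ∈ D := fun a ha => (mem_dirE.mp ha).1
  rw [← Finset.sum_fiberwise_of_maps_to hmaps, Finset.mul_sum]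
  refine Finset.sum_le_sum fun v _ => ?_
  rw [Finset.sum_congr rfl fun a ha => by rw [(Finset.mem_filter.mp ha).2], Finset.sum_const,
    nsmul_eq_mul]
  refine mul_le_mul_of_nonneg_right ?_ (hg v)
  have hcard : ((dirE G D).filter fun a => a.1 = v).card ≤ d := by
    rw [← hreg v, Set.ncard_eq_toFinset_card _ (nbr_finite hd hreg v)]
    refine Finset.card_le_card_of_injOn Prod.snd (fun a ha => ?_) fun a ha b hb he => ?_
    · obtain ⟨h1, h2⟩ := Finset.mem_filter.mp (Finset.mem_coe.mp ha)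
      exact (Set.Finite.mem_toFinset _).mpr (h2 ▸ (mem_dirE.mp h1).2.2)
    · exact Prod.ext ((Finset.mem_filter.mp (Finset.mem_coe.mp ha)).2.trans
        (Finset.mem_filter.mp (Finset.mem_coe.mp hb)).2.symm) he
  exact_mod_cast hcard

theorem dirE_swap (D : Finset V) (a : V × V) : a.swap ∈ dirE G D ↔ a ∈ dirE G D := by
  simp only [mem_dirE, Prod.fst_swap, Prod.snd_swap, G.adj_comm a.2]
  tauto

theorem sum_dirE_swap (D : Finset V) (f : V × V → ℝ) :
    ∑ a ∈ dirE G D, f a.swap = ∑ a ∈ dirE G D, f a := by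
  refine Finset.sum_bij (fun a _ => a.swap) (fun a ha => (dirE_swap D a).mpr ha)
    (fun a _ b _ he => Prod.swap_injective he) (fun a ha => ⟨a.swap, (dirE_swap D a).mpr ha, by simp⟩)
    fun a _ => rfl

theorem sum_dirE_ends_le (hd : 3 ≤ d) (hreg : ∀ v, (G.neighborSet v).ncard = d) (D : Finset V)
    {g : V → ℝ} (hg : ∀ v, 0 ≤ g v) :
    ∑ a ∈ dirE G D, (g a.1 + g a.2) ≤ 2 * d * ∑ v ∈ D, g v := by
  rw [Finset.sum_add_distrib, ← sum_dirE_swap D (fun a => g a.2)]
  simp only [Prod.snd_swap]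
  have := sum_dirE_fst_le hd hreg D hg
  linarith

theorem sum_chInc_le (hd : 3 ≤ d) (hreg : ∀ v, (G.neighborSet v).ncard = d) (D : Finset V)
    (v : V) : ∑ a ∈ dirE G D, chInc v a ≤ 2 * d := by
  refine le_trans ?_ ((sum_dirE_ends_le hd hreg D (g := fun x => if v = x then 1 else 0)
    fun x => by split_ifs <;> norm_num).trans ?_)
  · exact le_rfl
  · refine mul_le_of_le_one_right (by positivity) ?_
    rw [Finset.sum_ite_eq]; split_ifs <;> norm_num

theorem sum_chInc_vertex {a : V × V} (ha : a ∈ dirE G D) : ∑ v ∈ D, chInc v a = 2 := by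
  simpa using (sum_chInc_mul (fun _ => (1 : ℝ)) ha).trans (by norm_num)

theorem chQ_add (D : Finset V) (f g : V → ℝ) (v : V) :
    chQ G D (fun u => f u + g u) v = chQ G D f v + chQ G D g v := by
  simp only [chQ, ← Finset.sum_add_distrib]
  exact Finset.sum_congr rfl fun a _ => by ring

theorem chQ_sub (D : Finset V) (f g : V → ℝ) (v : V) :
    chQ G D (fun u => f u - g u) v = chQ G D f v - chQ G D g v := by
  simp only [chQ, ← Finset.sum_sub_distrib]
  exact Finset.sum_congr rfl fun a _ => by ring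

theorem chQ_mono (D : Finset V) {f g : V → ℝ} (hfg : ∀ u ∈ D, f u ≤ g u) (v : V) :
    chQ G D f v ≤ chQ G D g v :=
  Finset.sum_le_sum fun a ha => mul_le_mul_of_nonneg_left
    (add_le_add (hfg _ (mem_dirE.mp ha).1) (hfg _ (mem_dirE.mp ha).2.1)) (chInc_nonneg v a)

theorem chQ_nonneg (D : Finset V) {f : V → ℝ} (hf : ∀ u ∈ D, 0 ≤ f u) (v : V) :
    0 ≤ chQ G D f v :=
  Finset.sum_nonneg fun a ha => mul_nonneg (chInc_nonneg v a)
    (add_nonneg (hf _ (mem_dirE.mp ha).1) (hf _ (mem_dirE.mp ha).2.1))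

theorem sum_abs_chQ_le (hd : 3 ≤ d) (hreg : ∀ v, (G.neighborSet v).ncard = d) (D : Finset V)
    (f : V → ℝ) : ∑ v ∈ D, |chQ G D f v| ≤ 4 * d * ∑ v ∈ D, |f v| := by
  calc ∑ v ∈ D, |chQ G D f v|
      ≤ ∑ v ∈ D, ∑ a ∈ dirE G D, chInc v a * (|f a.1| + |f a.2|) := by
        refine Finset.sum_le_sum fun v _ => (Finset.abs_sum_le_sum_abs _ _).trans ?_
        refine Finset.sum_le_sum fun a _ => ?_
        rw [abs_mul, abs_of_nonneg (chInc_nonneg v a)]
        exact mul_le_mul_of_nonneg_left (abs_add_le _ _) (chInc_nonneg v a)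
    _ = 2 * ∑ a ∈ dirE G D, (|f a.1| + |f a.2|) := by
        rw [Finset.sum_comm, Finset.mul_sum]
        refine Finset.sum_congr rfl fun a ha => ?_
        rw [← Finset.sum_mul, sum_chInc_vertex ha]
    _ ≤ 2 * (2 * d * ∑ v ∈ D, |f v|) :=
        mul_le_mul_of_nonneg_left (sum_dirE_ends_le hd hreg D fun v => abs_nonneg _) zero_le_two
    _ = _ := by ring

theorem sum_sq_chQ_le (hd : 3 ≤ d) (hreg : ∀ v, (G.neighborSet v).ncard = d) (D : Finset V)
    (f : V → ℝ) : ∑ v ∈ D, chQ G D f v ^ 2 ≤ (4 * d) ^ 2 * ∑ v ∈ D, f v ^ 2 := by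
  calc ∑ v ∈ D, chQ G D f v ^ 2
      ≤ ∑ v ∈ D, 2 * d * ∑ a ∈ dirE G D, chInc v a * (f a.1 + f a.2) ^ 2 := by
        refine Finset.sum_le_sum fun v _ => ?_
        refine (Finset.sum_sq_le_sum_mul_sum_of_sq_le_mul (dirE G D)
          (f := fun a => chInc v a) (g := fun a => chInc v a * (f a.1 + f a.2) ^ 2)
          (fun a _ => chInc_nonneg v a) (fun a _ => mul_nonneg (chInc_nonneg v a) (sq_nonneg _))
          (fun a _ => le_of_eq (by ring))).trans ?_
        exact mul_le_mul_of_nonneg_right (sum_chInc_le hd hreg D v)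
          (Finset.sum_nonneg fun a _ => mul_nonneg (chInc_nonneg v a) (sq_nonneg _))
    _ = 4 * d * ∑ a ∈ dirE G D, (f a.1 + f a.2) ^ 2 := by
        rw [← Finset.mul_sum, Finset.sum_comm, Finset.mul_sum, Finset.mul_sum]
        refine Finset.sum_congr rfl fun a ha => ?_
        rw [← Finset.sum_mul, sum_chInc_vertex ha]; ring
    _ ≤ 4 * d * (2 * (2 * d * ∑ v ∈ D, f v ^ 2)) := by
        refine mul_le_mul_of_nonneg_left ?_ (by positivity)
        refine le_trans ?_ (mul_le_mul_of_nonneg_left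
          (sum_dirE_ends_le hd hreg D (g := fun x => f x ^ 2) fun x => sq_nonneg _) zero_le_two)
        rw [Finset.mul_sum]
        exact Finset.sum_le_sum fun a _ => by nlinarith [sq_nonneg (f a.1 - f a.2)]
    _ = _ := by ring

theorem fieldOf_ends (D : Finset V) (c : ℝ) (f : V → ℝ) (v : V) :
    fieldOf G β D (fun a => c * (f a.1 + f a.2)) v = c * chLam β * chQ G D f v := by
  simp only [fieldOf, chQ, Finset.mul_sum]
  exact Finset.sum_congr rfl fun a _ => by ring

theorem eulerH_succ (D : Finset V) (z : ℕ → V × V → ℝ) (i : ℕ) (v : V) :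
    eulerH G β h D z (i + 1) v = eulerH G β h D z i v + fieldOf G β D (z i) v +
      h * chLam β ^ 2 * chQ G D
        (fun u => magn G (chTh β ((i : ℝ) * h)) D u (eulerH G β h D z i)) v := by
  show eulerH G β h D z i v + fieldOf G β D (fun a => z i a + chDrift G β h D i _ a) v = _
  rw [fieldOf_add]
  have e : fieldOf G β D (fun a => chDrift G β h D i (eulerH G β h D z i) a) v =
      h * chLam β * chLam β * chQ G D
        (fun u => magn G (chTh β ((i : ℝ) * h)) D u (eulerH G β h D z i)) v :=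
    fieldOf_ends D (h * chLam β)
      (fun u => magn G (chTh β ((i : ℝ) * h)) D u (eulerH G β h D z i)) v
  rw [e]
  ring

theorem hasDerivAt_avg_curve {Ω : Type*} [Fintype Ω] [Nonempty Ω] {W : ℝ → Ω → ℝ} {u : ℝ}
    {ξ f : Ω → ℝ} (hpos : ∀ x, 0 < W u x)
    (hW : ∀ x, HasDerivAt (fun t => W t x) (W u x * ξ x) u) :
    HasDerivAt (fun t => avg (W t) f) (cov (W u) f ξ) u := by
  have hd1 : HasDerivAt (fun t => ∑ x, W t x) (∑ x, W u x * ξ x) u :=
    HasDerivAt.fun_sum fun x _ => hW x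
  have hd2 : HasDerivAt (fun t => ∑ x, W t x * f x) (∑ x, W u x * (f x * ξ x)) u :=
    HasDerivAt.fun_sum fun x _ => ((hW x).mul_const (f x)).congr_deriv (by ring)
  refine (hd2.div hd1 (ne_of_gt (sum_weight_pos hpos))).congr_deriv ?_
  simp only [cov, avg]
  have := ne_of_gt (sum_weight_pos hpos)
  field_simp

theorem hasDerivAt_magn_curve {θ : ℝ} (h0 : 0 ≤ θ) (h1 : θ < 1) (D : Finset V) (v : V)
    {Y : ℝ → V → ℝ} {A : V → ℝ} {u : ℝ} (hY : ∀ x ∈ D, HasDerivAt (fun t => Y t x) (A x) u) :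
    HasDerivAt (fun t => magn G θ D v (Y t)) (sigMul G θ D (Y u) A v) u := by
  set ξ : (D → Bool) → ℝ := fun η => ∑ x ∈ D, A x * sp x (extCfg η) with hξ
  have hW : ∀ η, HasDerivAt (fun t => fieldWeight G θ D (Y t) η)
      (fieldWeight G θ D (Y u) η * ξ η) u := by
    intro η
    have hs : HasDerivAt (fun t => ∑ x : D, spin (η x) * Y t x) (ξ η) u := by
      have := HasDerivAt.fun_sum (u := Finset.univ) fun (x : D) _ =>
        (hY x x.2).const_mul (spin (η x))
      refine this.congr_deriv ?_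
      simp only [hξ]
      rw [← Finset.sum_coe_sort D]
      exact Finset.sum_congr rfl fun x _ => by rw [sp, extCfg_of_mem η x.2]; ring
    unfold fieldWeight
    simp only [← Real.exp_sum]
    exact (hs.exp.const_mul _).congr_deriv (by ring)
  refine (hasDerivAt_avg_curve (f := fun η => sp v (extCfg η)) (fieldWeight_pos h0 h1 D _)
    hW).congr_deriv ?_
  rw [hξ, cov_sum_right]
  refine Finset.sum_congr rfl fun x _ => ?_
  rw [cov_mul_right, cov_comm]
  rfl

theorem abs_sigMul_le (hG : G.IsTree) {θ : ℝ} (h0 : 0 ≤ θ) (h1 : θ < 1)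
    (hD : IsConvexSet G D) (H α : V → ℝ) {v : V} (hv : v ∈ D) :
    |sigMul G θ D H α v| ≤ ∑ u ∈ D, |α u| := by
  refine (Finset.abs_sum_le_sum_abs _ _).trans (Finset.sum_le_sum fun u hu => ?_)
  rw [abs_mul, abs_of_nonneg (sig_nonneg hG h0 h1 hD H hu hv)]
  exact mul_le_of_le_one_right (abs_nonneg _)
    ((sig_le hG h0 h1 hD H hu hv).trans (pow_le_one₀ h0 h1.le))

theorem abs_cum3_le {Ω : Type*} [Fintype Ω] [Nonempty Ω] {w : Ω → ℝ} (hw : ∀ x, 0 < w x)
    {f g k : Ω → ℝ} {A B C : ℝ} (hf : ∀ x, |f x| ≤ A) (hg : ∀ x, |g x| ≤ B)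
    (hk : ∀ x, |k x| ≤ C) : |cum3 w f g k| ≤ 6 * (A * B * C) := by
  obtain ⟨x0⟩ := ‹Nonempty Ω›
  have hA : 0 ≤ A := (abs_nonneg _).trans (hf x0)
  have hB : 0 ≤ B := (abs_nonneg _).trans (hg x0)
  have a1 := abs_cov_le hw (fun x => show |f x * g x| ≤ A * B by
    rw [abs_mul]; exact mul_le_mul (hf x) (hg x) (abs_nonneg _) hA) hk
  have a2 : |avg w f * cov w g k| ≤ A * (2 * (B * C)) := by
    rw [abs_mul]
    exact mul_le_mul (abs_avg_le hw hf) (abs_cov_le hw hg hk) (abs_nonneg _) hA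
  have a3 : |avg w g * cov w f k| ≤ B * (2 * (A * C)) := by
    rw [abs_mul]
    exact mul_le_mul (abs_avg_le hw hg) (abs_cov_le hw hf hk) (abs_nonneg _) hB
  simp only [cum3]
  linarith [abs_sub (cov w (fun x => f x * g x) k - avg w f * cov w g k)
    (avg w g * cov w f k), abs_sub (cov w (fun x => f x * g x) k) (avg w f * cov w g k)]

theorem abs_sig_sub_le {θ : ℝ} (h0 : 0 ≤ θ) (h1 : θ < 1) (D : Finset V) (H H' : V → ℝ)
    (v w : V) : |sig G θ D H v w - sig G θ D H' v w| ≤ 6 * ∑ x ∈ D, |H x - H' x| := by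
  set ξ : (D → Bool) → ℝ := fun η => ∑ x : D, spin (η x) * (H x - H' x) with hξ
  set w0 := fieldWeight G θ D H' with hw0
  have hpos := fieldWeight_pos (G := G) h0 h1 D H'
  have hS : ∀ η, |ξ η| ≤ ∑ x ∈ D, |H x - H' x| := by
    intro η
    rw [hξ, ← Finset.sum_coe_sort D]
    refine (Finset.abs_sum_le_sum_abs _ _).trans (Finset.sum_le_sum fun x _ => ?_)
    rw [abs_mul, abs_spin, one_mul]
  have e1 : tilt w0 ξ 1 = fieldWeight G θ D H := by
    funext η
    simp only [tilt, hw0, fieldWeight, one_mul, hξ, Real.exp_sum, mul_assoc,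
      ← Finset.prod_mul_distrib, ← Real.exp_add]
    exact congrArg _ (Finset.prod_congr rfl fun x _ => by congr 1; ring)
  set F := fun η : D → Bool => sp v (extCfg η)
  set K := fun η : D → Bool => sp w (extCfg η)
  have hb : ∀ u ∈ Set.Icc (0 : ℝ) 1, ‖cum3 (tilt w0 ξ u) F K ξ‖ ≤
      6 * ∑ x ∈ D, |H x - H' x| := by
    intro u _
    rw [Real.norm_eq_abs]
    refine (abs_cum3_le (A := 1) (B := 1) (tilt_pos hpos ξ u) (fun η => (abs_spin _).le)
      (fun η => (abs_spin _).le) hS).trans (le_of_eq (by ring))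
  have h := Convex.norm_image_sub_le_of_norm_hasDerivWithin_le
    (f := fun u => cov (tilt w0 ξ u) F K) (f' := fun u => cum3 (tilt w0 ξ u) F K ξ)
    (s := Set.Icc (0 : ℝ) 1)
    (fun u _ => (hasDerivAt_cov_tilt hpos ξ F K u).hasDerivWithinAt) hb (convex_Icc _ _)
    (Set.left_mem_Icc.mpr zero_le_one) (Set.right_mem_Icc.mpr zero_le_one)
  rw [e1, tilt_zero] at h
  simp only [sub_zero, norm_one, mul_one, Real.norm_eq_abs] at h
  exact h

theorem hasDerivAt_eulerH (ok0 : 0 ≤ β) {K : ℕ} (hh : 0 ≤ h) (hK : (K : ℝ) * h ≤ 1)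
    (z : ℕ → V × V → ℝ) (i₀ : ℕ) (a : V × V) (τ : ℝ) : ∀ i ≤ K, ∀ v,
    HasDerivAt
      (fun t => eulerH G β h D (fun j b => z j b + if j = i₀ ∧ b = a then t else 0) i v)
      (alphaPath G β h D
        (eulerH G β h D fun j b => z j b + if j = i₀ ∧ b = a then τ else 0) i₀ a i v) τ
  | 0 => fun _ v => by simpa [eulerH, alphaPath] using hasDerivAt_const τ (0 : ℝ)
  | i + 1 => fun hi v => by
    have ih := hasDerivAt_eulerH ok0 hh hK z i₀ a τ i (Nat.le_of_succ_le hi)
    set th := chTh β ((i : ℝ) * h)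
    have th0 : 0 ≤ th := chTh_nonneg ok0
      ((mul_le_mul_of_nonneg_right (by exact_mod_cast Nat.le_of_succ_le hi) hh).trans hK)
    have th1 : th < 1 := chTh_lt_one _ _
    simp only [eulerH_succ]
    have hm : ∀ u, HasDerivAt (fun t => magn G th D u
        (eulerH G β h D (fun j b => z j b + if j = i₀ ∧ b = a then t else 0) i))
        (sigMul G th D (eulerH G β h D (fun j b => z j b + if j = i₀ ∧ b = a then τ else 0) i)
          (alphaPath G β h D
            (eulerH G β h D fun j b => z j b + if j = i₀ ∧ b = a then τ else 0) i₀ a i) u) τ :=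
      fun u => hasDerivAt_magn_curve th0 th1 D u fun x _ => ih x
    have hz : ∀ b, HasDerivAt (fun t => z i b + if i = i₀ ∧ b = a then t else 0)
        (if i = i₀ ∧ b = a then 1 else 0) τ := by
      intro b
      split_ifs with hb
      · simpa using (hasDerivAt_id τ).const_add (z i b)
      · simpa using hasDerivAt_const τ (z i b)
    have hfield : HasDerivAt (fun t => fieldOf G β D
        (fun b => z i b + if i = i₀ ∧ b = a then t else 0) v)
        (fieldOf G β D (fun b => if i = i₀ ∧ b = a then 1 else 0) v) τ :=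
      (HasDerivAt.fun_sum fun b _ => (hz b).const_mul _).const_mul _
    have hQ : HasDerivAt (fun t => chQ G D (fun u => magn G th D u
        (eulerH G β h D (fun j b => z j b + if j = i₀ ∧ b = a then t else 0) i)) v) _ τ :=
      HasDerivAt.fun_sum fun b _ => ((hm b.1).add (hm b.2)).const_mul _
    refine (((ih v).add hfield).add (hQ.const_mul (h * chLam β ^ 2))).congr_deriv ?_
    simp only [alphaPath, stepA, chQ]
    rcases eq_or_ne i i₀ with rfl | hne
    · simp only [true_and, if_true, th]; ring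
    · simp only [hne, false_and, if_false, th]
      rw [fieldOf_zero]; ring

theorem alphaPath_nonneg (hG : G.IsTree) (ok0 : 0 ≤ β) {K : ℕ} (hh : 0 ≤ h)
    (hK : (K : ℝ) * h ≤ 1) (hD : IsConvexSet G D) (H : ℕ → V → ℝ) (i₀ : ℕ) (a : V × V) :
    ∀ i ≤ K, ∀ v, 0 ≤ alphaPath G β h D H i₀ a i v
  | 0 => fun _ _ => le_rfl
  | i + 1 => fun hi v => by
    have ih := alphaPath_nonneg hG ok0 hh hK hD H i₀ a i (Nat.le_of_succ_le hi)
    have th0 : 0 ≤ chTh β ((i : ℝ) * h) := chTh_nonneg ok0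
      ((mul_le_mul_of_nonneg_right (by exact_mod_cast Nat.le_of_succ_le hi) hh).trans hK)
    rw [alphaPath]
    refine add_nonneg (add_nonneg (ih v) (mul_nonneg (mul_nonneg hh (sq_nonneg _))
      (chQ_nonneg D (fun u hu => sigMul_nonneg hG th0 (chTh_lt_one _ _) hD _
        (fun x _ => ih x) hu) v))) ?_
    split_ifs
    · refine mul_nonneg (chLam_nonneg β) (Finset.sum_nonneg fun b _ =>
        mul_nonneg (chInc_nonneg v b) ?_)
      simp only
      split_ifs <;> norm_num
    · exact le_rfl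

theorem sum_fieldOf_single_le (D : Finset V) (a : V × V) :
    ∑ v ∈ D, |fieldOf G β D (fun b => if b = a then 1 else 0) v| ≤ 2 * chLam β := by
  simp only [fieldOf, mul_ite, mul_one, mul_zero, Finset.sum_ite_eq']
  split_ifs with ha
  · simp only [abs_mul, abs_of_nonneg (chLam_nonneg β), abs_of_nonneg (chInc_nonneg _ a),
      ← Finset.mul_sum, sum_chInc_vertex ha]
    exact le_of_eq (mul_comm _ _)
  · simpa using chLam_nonneg β

/-- The crude growth rate of the linearised scheme. -/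
noncomputable def crudeRate (d : ℕ) (β : ℝ) (D : Finset V) : ℝ :=
  chLam β ^ 2 * (4 * d * D.card)

theorem crudeRate_nonneg (d : ℕ) (β : ℝ) (D : Finset V) : 0 ≤ crudeRate d β D := by
  unfold crudeRate; positivity

theorem sum_abs_stepQ_le (hd : 3 ≤ d) (hreg : ∀ v, (G.neighborSet v).ncard = d) (hh : 0 ≤ h)
    (f : V → ℝ) {B : ℝ} (hf : ∀ v ∈ D, |f v| ≤ B) :
    ∑ v ∈ D, |h * chLam β ^ 2 * chQ G D f v| ≤ h * crudeRate d β D * B := by
  have hc : 0 ≤ h * chLam β ^ 2 := mul_nonneg hh (sq_nonneg _)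
  simp only [abs_mul (h * chLam β ^ 2), abs_of_nonneg hc, ← Finset.mul_sum]
  refine (mul_le_mul_of_nonneg_left ((sum_abs_chQ_le hd hreg D f).trans
    (mul_le_mul_of_nonneg_left (Finset.sum_le_sum hf) (by positivity))) hc).trans (le_of_eq ?_)
  rw [Finset.sum_const, nsmul_eq_mul, crudeRate]; ring

theorem sum_abs_alphaPath_le (hG : G.IsTree) (hd : 3 ≤ d)
    (hreg : ∀ v, (G.neighborSet v).ncard = d) (ok0 : 0 ≤ β) {K : ℕ} (hh : 0 ≤ h)
    (hK : (K : ℝ) * h ≤ 1) (hD : IsConvexSet G D) (H : ℕ → V → ℝ) (i₀ : ℕ) (a : V × V) :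
    ∀ i ≤ K, ∑ v ∈ D, |alphaPath G β h D H i₀ a i v| ≤
      (if i₀ < i then 2 * chLam β * (1 + h * crudeRate d β D) ^ i else 0)
  | 0 => fun _ => by simp [alphaPath]
  | i + 1 => fun hi => by
    have ih := sum_abs_alphaPath_le hG hd hreg ok0 hh hK hD H i₀ a i (Nat.le_of_succ_le hi)
    have th0 : 0 ≤ chTh β ((i : ℝ) * h) := chTh_nonneg ok0
      ((mul_le_mul_of_nonneg_right (by exact_mod_cast Nat.le_of_succ_le hi) hh).trans hK)
    set C := crudeRate d β D
    have hC : 0 ≤ h * C := mul_nonneg hh (crudeRate_nonneg d β D)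
    set S := ∑ v ∈ D, |alphaPath G β h D H i₀ a i v|
    have hS : 0 ≤ S := Finset.sum_nonneg fun _ _ => abs_nonneg _
    have hstep : ∑ v ∈ D, |alphaPath G β h D H i₀ a (i + 1) v| ≤
        (S + h * C * S) + (if i = i₀ then 2 * chLam β else 0) := by
      refine (Finset.sum_le_sum fun v _ => (abs_add_le _ _).trans
        (add_le_add (abs_add_le _ _) le_rfl)).trans ?_
      rw [Finset.sum_add_distrib, Finset.sum_add_distrib]
      refine add_le_add (add_le_add le_rfl (sum_abs_stepQ_le hd hreg hh _ fun v hv =>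
        abs_sigMul_le hG th0 (chTh_lt_one _ _) hD _ _ hv)) ?_
      split_ifs
      · exact sum_fieldOf_single_le D a
      · simp
    refine hstep.trans ?_
    rcases lt_trichotomy i i₀ with hlt | rfl | hgt
    · rw [if_neg hlt.not_gt] at ih
      rw [if_neg hlt.ne, if_neg (by omega)]
      nlinarith
    · rw [if_neg (lt_irrefl i)] at ih
      rw [if_pos rfl, if_pos (Nat.lt_succ_self i)]
      have h1 : 1 ≤ (1 + h * C) ^ (i + 1) := one_le_pow₀ (le_add_of_nonneg_right hC)
      nlinarith [chLam_nonneg β]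
    · rw [if_pos hgt] at ih
      rw [if_neg hgt.ne', if_pos (by omega), add_zero, pow_succ, ← mul_assoc]
      calc S + h * C * S = S * (1 + h * C) := by ring
        _ ≤ _ := mul_le_mul_of_nonneg_right ih (by linarith)

theorem pow_one_add_le_exp {K i : ℕ} {C : ℝ} (hh : 0 ≤ h) (hC : 0 ≤ C) (hK : (K : ℝ) * h ≤ 1)
    (hi : i ≤ K) : (1 + h * C) ^ i ≤ Real.exp C := by
  refine (pow_le_pow_left₀ (b := Real.exp (h * C)) (by positivity)
    (by linarith [Real.add_one_le_exp (h * C)]) i).trans ?_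
  rw [← Real.exp_nat_mul]
  refine Real.exp_le_exp.mpr ?_
  calc (i : ℝ) * (h * C) ≤ (K : ℝ) * (h * C) :=
        mul_le_mul_of_nonneg_right (by exact_mod_cast hi) (by positivity)
    _ = (K : ℝ) * h * C := by ring
    _ ≤ 1 * C := mul_le_mul_of_nonneg_right hK hC
    _ = C := one_mul C

/-- The crude bound on the linearised scheme. -/
noncomputable def crudeBound (d : ℕ) (β : ℝ) (D : Finset V) : ℝ :=
  2 * chLam β * Real.exp (crudeRate d β D)

theorem crudeBound_nonneg (d : ℕ) (β : ℝ) (D : Finset V) : 0 ≤ crudeBound d β D := by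
  unfold crudeBound; have := chLam_nonneg β; positivity

theorem sum_abs_alphaPath_le' (hG : G.IsTree) (hd : 3 ≤ d)
    (hreg : ∀ v, (G.neighborSet v).ncard = d) (ok0 : 0 ≤ β) {K : ℕ} (hh : 0 ≤ h)
    (hK : (K : ℝ) * h ≤ 1) (hD : IsConvexSet G D) (H : ℕ → V → ℝ) (i₀ : ℕ) (a : V × V)
    {i : ℕ} (hi : i ≤ K) : ∑ v ∈ D, |alphaPath G β h D H i₀ a i v| ≤ crudeBound d β D := by
  refine (sum_abs_alphaPath_le hG hd hreg ok0 hh hK hD H i₀ a i hi).trans ?_
  have := chLam_nonneg β
  split_ifs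
  · exact mul_le_mul_of_nonneg_left (pow_one_add_le_exp hh (crudeRate_nonneg d β D) hK hi)
      (by positivity)
  · exact crudeBound_nonneg d β D

theorem abs_alphaPath_le (hG : G.IsTree) (hd : 3 ≤ d)
    (hreg : ∀ v, (G.neighborSet v).ncard = d) (ok0 : 0 ≤ β) {K : ℕ} (hh : 0 ≤ h)
    (hK : (K : ℝ) * h ≤ 1) (hD : IsConvexSet G D) (H : ℕ → V → ℝ) (i₀ : ℕ) (a : V × V)
    {i : ℕ} (hi : i ≤ K) {v : V} (hv : v ∈ D) :
    |alphaPath G β h D H i₀ a i v| ≤ crudeBound d β D :=
  (Finset.single_le_sum (f := fun v => |alphaPath G β h D H i₀ a i v|)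
    (fun v _ => abs_nonneg _) hv).trans (sum_abs_alphaPath_le' hG hd hreg ok0 hh hK hD H i₀ a hi)

theorem sum_abs_alphaPath_sub_le (hG : G.IsTree) (hd : 3 ≤ d)
    (hreg : ∀ v, (G.neighborSet v).ncard = d) (ok0 : 0 ≤ β) {K : ℕ} (hh : 0 ≤ h)
    (hK : (K : ℝ) * h ≤ 1) (hD : IsConvexSet G D) (H H' : ℕ → V → ℝ) (i₀ : ℕ) (a : V × V)
    {δ : ℝ} (hδ : ∀ j < K, ∑ x ∈ D, |H j x - H' j x| ≤ δ) : ∀ i ≤ K,
    ∑ v ∈ D, |alphaPath G β h D H i₀ a i v - alphaPath G β h D H' i₀ a i v| ≤
      (i : ℝ) * h * (1 + h * crudeRate d β D) ^ i *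
        (crudeRate d β D * (6 * δ) * crudeBound d β D)
  | 0 => fun _ => by simp [alphaPath]
  | i + 1 => fun hi => by
    have ih := sum_abs_alphaPath_sub_le hG hd hreg ok0 hh hK hD H H' i₀ a hδ i
      (Nat.le_of_succ_le hi)
    set th := chTh β ((i : ℝ) * h)
    have th0 : 0 ≤ th := chTh_nonneg ok0
      ((mul_le_mul_of_nonneg_right (by exact_mod_cast Nat.le_of_succ_le hi) hh).trans hK)
    set C := crudeRate d β D
    set B := crudeBound d β D
    set α := alphaPath G β h D H i₀ a i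
    set α' := alphaPath G β h D H' i₀ a i
    set S := ∑ v ∈ D, |α v - α' v|
    have hC : 0 ≤ h * C := mul_nonneg hh (crudeRate_nonneg d β D)
    have hδ0 : 0 ≤ δ := le_trans (Finset.sum_nonneg fun _ _ => abs_nonneg _) (hδ i hi)
    have hsig : ∀ v ∈ D, |sigMul G th D (H i) α v - sigMul G th D (H' i) α' v| ≤
        S + 6 * δ * B := by
      intro v hv
      have e : sigMul G th D (H i) α v - sigMul G th D (H' i) α' v =
          sigMul G th D (H i) (fun u => α u - α' u) v +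
            ∑ u ∈ D, α' u * (sig G th D (H i) u v - sig G th D (H' i) u v) := by
        simp only [sigMul, sub_mul, mul_sub, Finset.sum_sub_distrib]; ring
      rw [e]
      refine (abs_add_le _ _).trans (add_le_add
        (abs_sigMul_le hG th0 (chTh_lt_one _ _) hD _ _ hv)
        ((Finset.abs_sum_le_sum_abs _ _).trans ?_))
      calc ∑ u ∈ D, |α' u * (sig G th D (H i) u v - sig G th D (H' i) u v)|
          ≤ ∑ u ∈ D, |α' u| * (6 * δ) := by
            refine Finset.sum_le_sum fun u _ => ?_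
            rw [abs_mul]
            exact mul_le_mul_of_nonneg_left ((abs_sig_sub_le th0 (chTh_lt_one _ _) D _ _ u v).trans
              (mul_le_mul_of_nonneg_left (hδ i hi) (by norm_num))) (abs_nonneg _)
        _ ≤ B * (6 * δ) := by
            rw [← Finset.sum_mul]
            exact mul_le_mul_of_nonneg_right (sum_abs_alphaPath_le' hG hd hreg ok0 hh hK hD H'
              i₀ a (Nat.le_of_succ_le hi)) (by positivity)
        _ = 6 * δ * B := mul_comm _ _
    have hone : ∑ v ∈ D, |alphaPath G β h D H i₀ a (i + 1) v -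
        alphaPath G β h D H' i₀ a (i + 1) v| ≤ S + h * C * (S + 6 * δ * B) := by
      have e : ∀ v, alphaPath G β h D H i₀ a (i + 1) v - alphaPath G β h D H' i₀ a (i + 1) v =
          (α v - α' v) + h * chLam β ^ 2 * chQ G D
            (fun u => sigMul G th D (H i) α u - sigMul G th D (H' i) α' u) v := by
        intro v
        rw [chQ_sub]
        simp only [alphaPath, stepA]
        ring
      simp only [e]
      refine (Finset.sum_le_sum fun v _ => abs_add_le _ _).trans ?_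
      rw [Finset.sum_add_distrib]
      exact add_le_add le_rfl (sum_abs_stepQ_le hd hreg hh _ hsig)
    refine hone.trans ?_
    have hpow : 1 ≤ (1 + h * C) ^ (i + 1) := one_le_pow₀ (le_add_of_nonneg_right hC)
    have hR : 0 ≤ C * (6 * δ) * B :=
      mul_nonneg (mul_nonneg (crudeRate_nonneg d β D) (by positivity)) (crudeBound_nonneg d β D)
    calc S + h * C * (S + 6 * δ * B) = S * (1 + h * C) + h * (C * (6 * δ) * B) := by ring
      _ ≤ (i : ℝ) * h * (1 + h * C) ^ i * (C * (6 * δ) * B) * (1 + h * C) +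
          h * (1 + h * C) ^ (i + 1) * (C * (6 * δ) * B) := by
          refine add_le_add (mul_le_mul_of_nonneg_right ih (by linarith)) ?_
          exact mul_le_mul_of_nonneg_right (le_mul_of_one_le_right hh hpow) hR
      _ = _ := by push_cast; ring

theorem sum_abs_eulerH_shift_le (hG : G.IsTree) (hd : 3 ≤ d)
    (hreg : ∀ v, (G.neighborSet v).ncard = d) (ok0 : 0 ≤ β) {K : ℕ} (hh : 0 ≤ h)
    (hK : (K : ℝ) * h ≤ 1) (hD : IsConvexSet G D) (z : ℕ → V × V → ℝ) (i₀ : ℕ) (a : V × V)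
    (τ : ℝ) {i : ℕ} (hi : i ≤ K) :
    ∑ v ∈ D, |eulerH G β h D (fun j b => z j b + if j = i₀ ∧ b = a then τ else 0) i v -
      eulerH G β h D z i v| ≤ D.card * crudeBound d β D * |τ| := by
  refine (Finset.sum_le_sum (g := fun _ => crudeBound d β D * |τ|) fun v hv => ?_).trans
    (le_of_eq ?_)
  · have h := Convex.norm_image_sub_le_of_norm_hasDerivWithin_le
      (f := fun t => eulerH G β h D (fun j b => z j b + if j = i₀ ∧ b = a then t else 0) i v)
      (s := Set.univ) (x := 0) (y := τ)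
      (fun t _ => (hasDerivAt_eulerH ok0 hh hK z i₀ a t i hi v).hasDerivWithinAt)
      (fun t _ => (Real.norm_eq_abs _).le.trans
        (abs_alphaPath_le hG hd hreg ok0 hh hK hD _ i₀ a hi hv))
      convex_univ (Set.mem_univ _) (Set.mem_univ _)
    simpa using h
  · rw [Finset.sum_const, nsmul_eq_mul]; ring

/-- The second-order constant of one coordinate. -/
noncomputable def crudeCurv (d : ℕ) (β : ℝ) (D : Finset V) : ℝ :=
  Real.exp (crudeRate d β D) *
    (crudeRate d β D * (6 * (D.card * crudeBound d β D)) * crudeBound d β D)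

theorem abs_alphaPath_shift_le (hG : G.IsTree) (hd : 3 ≤ d)
    (hreg : ∀ v, (G.neighborSet v).ncard = d) (ok0 : 0 ≤ β) {K : ℕ} (hh : 0 ≤ h)
    (hK : (K : ℝ) * h ≤ 1) (hD : IsConvexSet G D) (z : ℕ → V × V → ℝ) (i₀ : ℕ) (a : V × V)
    (τ : ℝ) {v : V} (hv : v ∈ D) :
    |alphaPath G β h D (eulerH G β h D fun j b => z j b + if j = i₀ ∧ b = a then τ else 0)
        i₀ a K v - alphaPath G β h D (eulerH G β h D z) i₀ a K v| ≤
      crudeCurv d β D * |τ| := by
  set H' := eulerH G β h D fun j b => z j b + if j = i₀ ∧ b = a then τ else 0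
  refine (Finset.single_le_sum (f := fun v => |alphaPath G β h D H' i₀ a K v -
    alphaPath G β h D (eulerH G β h D z) i₀ a K v|) (fun v _ => abs_nonneg _) hv).trans
    ((sum_abs_alphaPath_sub_le hG hd hreg ok0 hh hK hD H' _ i₀ a
      (fun j hj => sum_abs_eulerH_shift_le hG hd hreg ok0 hh hK hD z i₀ a τ hj.le) K le_rfl).trans ?_)
  have hC := crudeRate_nonneg d β D
  have hB := crudeBound_nonneg d β D
  refine (mul_le_mul_of_nonneg_right (mul_le_mul hK (pow_one_add_le_exp hh hC hK le_rfl)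
    (by positivity) zero_le_one) (by positivity)).trans (le_of_eq ?_)
  rw [crudeCurv]; ring

theorem abs_eulerH_taylor (hG : G.IsTree) (hd : 3 ≤ d)
    (hreg : ∀ v, (G.neighborSet v).ncard = d) (ok0 : 0 ≤ β) {K : ℕ} (hh : 0 ≤ h)
    (hK : (K : ℝ) * h ≤ 1) (hD : IsConvexSet G D) (z : ℕ → V × V → ℝ) (i₀ : ℕ) (a : V × V)
    (τ : ℝ) {v : V} (hv : v ∈ D) :
    |eulerH G β h D (fun j b => z j b + if j = i₀ ∧ b = a then τ else 0) K v -
        eulerH G β h D z K v - τ * alphaPath G β h D (eulerH G β h D z) i₀ a K v| ≤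
      crudeCurv d β D * τ ^ 2 := by
  set A := alphaPath G β h D (eulerH G β h D z) i₀ a K v
  have h := Convex.norm_image_sub_le_of_norm_hasDerivWithin_le
    (f := fun t => eulerH G β h D (fun j b => z j b + if j = i₀ ∧ b = a then t else 0) K v - t * A)
    (s := Set.uIcc (0 : ℝ) τ) (x := 0) (y := τ) (C := crudeCurv d β D * |τ|)
    (fun t _ => ((hasDerivAt_eulerH ok0 hh hK z i₀ a t K le_rfl v).fun_sub
      ((hasDerivAt_id t).mul_const A)).hasDerivWithinAt)
    (fun t ht => by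
      rw [Real.norm_eq_abs, one_mul]
      refine (abs_alphaPath_shift_le hG hd hreg ok0 hh hK hD z i₀ a t hv).trans ?_
      have hcc : 0 ≤ crudeCurv d β D := by
        unfold crudeCurv
        have := crudeRate_nonneg d β D; have := crudeBound_nonneg d β D
        positivity
      refine mul_le_mul_of_nonneg_left ?_ hcc
      simpa using Set.abs_sub_left_of_mem_uIcc ht)
    (convex_uIcc _ _) Set.left_mem_uIcc Set.right_mem_uIcc
  simp only [ite_self, add_zero, zero_mul, sub_zero, Real.norm_eq_abs] at h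
  rw [mul_assoc, ← sq, sq_abs] at h
  rwa [show eulerH G β _ D (fun j b => z j b + if j = i₀ ∧ b = a then τ else 0) K v -
    eulerH G β _ D z K v - τ * A = eulerH G β _ D
      (fun j b => z j b + if j = i₀ ∧ b = a then τ else 0) K v - τ * A -
      eulerH G β _ D z K v by ring]

theorem sigMul_le_kerMul (hG : G.IsTree) {θ : ℝ} (h0 : 0 ≤ θ) (h1 : θ < 1)
    (hD : IsConvexSet G D) (H : V → ℝ) {α γ : V → ℝ} (hαγ : ∀ u ∈ D, α u ≤ γ u)
    (hα : ∀ u ∈ D, 0 ≤ α u) {v : V} (hv : v ∈ D) :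
    sigMul G θ D H α v ≤ kerMul G θ D γ v :=
  Finset.sum_le_sum fun u hu => mul_le_mul (hαγ u hu) (sig_le hG h0 h1 hD H hu hv)
    (sig_nonneg hG h0 h1 hD H hu hv) ((hα u hu).trans (hαγ u hu))

theorem sum_sq_kerMul_le {θ t c : ℝ} (hθ0 : 0 ≤ θ) (ht : 0 < t) (hc : 0 ≤ c)
    (hs : ∀ (s : Finset V) (v z : V),
      ∑ u ∈ s, θ ^ G.dist v u * t ^ G.dist u z ≤ c * t ^ G.dist v z)
    (D : Finset V) (α : V → ℝ) :
    ∑ v ∈ D, kerMul G θ D α v ^ 2 ≤ c ^ 2 * ∑ u ∈ D, α u ^ 2 := by
  rcases D.eq_empty_or_nonempty with rfl | ⟨z, hz⟩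
  · simp
  set φ := fun u => t ^ G.dist u z with hφ
  have hφ0 : ∀ u, 0 < φ u := fun u => pow_pos ht _
  have h1 : ∀ v, kerMul G θ D α v ^ 2 ≤
      c * φ v * ∑ u ∈ D, θ ^ G.dist u v * (α u ^ 2 / φ u) := by
    intro v
    refine (Finset.sum_sq_le_sum_mul_sum_of_sq_le_mul D
      (f := fun u => θ ^ G.dist u v * φ u) (g := fun u => θ ^ G.dist u v * (α u ^ 2 / φ u))
      (fun u _ => by have := hφ0 u; positivity) (fun u _ => by have := hφ0 u; positivity)
      (fun u _ => le_of_eq (by have := (hφ0 u).ne'; field_simp))).trans ?_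
    refine mul_le_mul_of_nonneg_right ?_
      (Finset.sum_nonneg fun u _ => by have := hφ0 u; positivity)
    refine le_of_eq_of_le (Finset.sum_congr rfl fun u _ => ?_) (hs D v z)
    rw [SimpleGraph.dist_comm]
  calc ∑ v ∈ D, kerMul G θ D α v ^ 2
      ≤ ∑ v ∈ D, c * φ v * ∑ u ∈ D, θ ^ G.dist u v * (α u ^ 2 / φ u) :=
        Finset.sum_le_sum fun v _ => h1 v
    _ = ∑ u ∈ D, c * (α u ^ 2 / φ u) * ∑ v ∈ D, θ ^ G.dist u v * φ v := by
        simp only [Finset.mul_sum]
        rw [Finset.sum_comm]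
        exact Finset.sum_congr rfl fun u _ => Finset.sum_congr rfl fun v _ => by ring
    _ ≤ ∑ u ∈ D, c * (α u ^ 2 / φ u) * (c * φ u) :=
        Finset.sum_le_sum fun u _ => mul_le_mul_of_nonneg_left (hs D u z)
          (by have := hφ0 u; positivity)
    _ = _ := by
        rw [Finset.mul_sum]
        exact Finset.sum_congr rfl fun u _ => by have := (hφ0 u).ne'; field_simp

/-- The subcritical gap at a positive time. -/
theorem chTh_gap {β₀ β t r : ℝ} (hβ₀ : 0 ≤ β₀) (hβ : β₀ ≤ β) (ht : Real.tanh β ≤ t)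
    (ht1 : t ≤ 1) (hr0 : 0 ≤ r) (hr1 : r ≤ 1) : β₀ * (1 - t ^ 2) * r ≤ t - chTh β r := by
  have hb : 0 ≤ β := hβ₀.trans hβ
  set y := β * (1 - r)
  have hy : 0 ≤ y := mul_nonneg hb (by linarith)
  have hyb : y ≤ β := mul_le_of_le_one_right hb (by linarith)
  have hcx := Real.cosh_pos β
  have hcy := Real.cosh_pos y
  have e : Real.tanh β - Real.tanh y = Real.sinh (β - y) / (Real.cosh β * Real.cosh y) := by
    rw [Real.tanh_eq_sinh_div_cosh, Real.tanh_eq_sinh_div_cosh, Real.sinh_sub]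
    field_simp
  have hs : β - y ≤ Real.sinh (β - y) := Real.self_le_sinh_iff.mpr (by linarith)
  have hcc : Real.cosh y ≤ Real.cosh β :=
    Real.cosh_le_cosh.mpr (by rwa [abs_of_nonneg hy, abs_of_nonneg hb])
  have hsech : 1 - Real.tanh β ^ 2 = 1 / Real.cosh β ^ 2 := by
    rw [Real.tanh_eq_sinh_div_cosh]
    field_simp
    linarith [Real.cosh_sq β]
  have h1 : (β - y) * (1 - Real.tanh β ^ 2) ≤ Real.tanh β - Real.tanh y := by
    rw [e, hsech, mul_one_div]
    refine div_le_div₀ ((sub_nonneg.mpr hyb).trans hs) hs (by positivity) ?_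
    rw [sq]; exact mul_le_mul_of_nonneg_left hcc hcx.le
  have ht0 : 0 ≤ Real.tanh β := by
    rw [Real.tanh_eq_sinh_div_cosh]; exact div_nonneg (Real.sinh_nonneg_iff.mpr hb) hcx.le
  have hsq : Real.tanh β ^ 2 ≤ t ^ 2 := pow_le_pow_left₀ ht0 ht 2
  have h2 : β₀ * r * (1 - t ^ 2) ≤ (β - y) * (1 - Real.tanh β ^ 2) := by
    have ey : β - y = β * r := by simp only [y]; ring
    rw [ey]
    exact mul_le_mul (mul_le_mul_of_nonneg_right hβ hr0) (by linarith) (by nlinarith)
      (mul_nonneg hb hr0)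
  have : chTh β r = Real.tanh y := rfl
  linarith

end Vale.Agent.P161
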