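import Vale.Agent.P161.Crit.Block
import Vale.Agent.P161.Crit.Propag

/-!
# Weighted Lipschitz bounds of the Euler scheme below the critical coupling
-/

namespace Vale.Agent.P161

open SimpleGraph MeasureTheory ProbabilityTheory
open scoped Classical NNReal

variable {V : Type*}

theorem abs_tanh_sub_le (x y : ℝ) : |Real.tanh x - Real.tanh y| ≤ |x - y| := by
  have hder : ∀ u : ℝ, HasDerivAt Real.tanh (1 - Real.tanh u ^ 2) u := by
    intro u
    have e : Real.tanh = fun t => Real.sinh t / Real.cosh t :=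
      funext fun t => Real.tanh_eq_sinh_div_cosh t
    have hc := (Real.cosh_pos u).ne'
    rw [e]
    refine ((Real.hasDerivAt_sinh u).div (Real.hasDerivAt_cosh u) hc).congr_deriv ?_
    field_simp
  have h := Convex.norm_image_sub_le_of_norm_hasDerivWithin_le (f := Real.tanh)
    (f' := fun u => 1 - Real.tanh u ^ 2) (s := Set.univ) (x := y) (y := x) (C := 1)
    (fun u _ => (hder u).hasDerivWithinAt) (fun u _ => by
      rw [Real.norm_eq_abs, abs_le]
      have h2 : Real.tanh u ^ 2 ≤ 1 := by
        nlinarith [Real.tanh_lt_one u, Real.neg_one_lt_tanh u]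
      constructor <;> nlinarith [sq_nonneg (Real.tanh u)])
    convex_univ (Set.mem_univ _) (Set.mem_univ _)
  simpa using h

/-- The field of the accumulated difference of two inputs. -/
noncomputable def diffP (G : SimpleGraph V) (β : ℝ) (D : Finset V) (z z' : ℕ → V × V → ℝ)
    (i : ℕ) : V → ℝ :=
  fieldOf G β D (fun e => ∑ j ∈ Finset.range i, (z j e - z' j e))

/-- Weights decaying at rate `a`. -/
noncomputable def wSum (G : SimpleGraph V) (a : ℝ) (D : Finset V) (f : V → ℝ) (v : V) : ℝ :=
  ∑ w ∈ D, a ^ G.dist v w * |f w|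

variable {G : SimpleGraph V} {β h a θ cs : ℝ} {D : Finset V} {d K J : ℕ}

theorem fieldOf_sub (D : Finset V) (y y' : V × V → ℝ) (v : V) :
    fieldOf G β D (fun e => y e - y' e) v = fieldOf G β D y v - fieldOf G β D y' v := by
  simp only [fieldOf, mul_sub, Finset.sum_sub_distrib]

theorem diffP_succ (z z' : ℕ → V × V → ℝ) (i : ℕ) (v : V) :
    diffP G β D z z' (i + 1) v =
      diffP G β D z z' i v + (fieldOf G β D (z i) v - fieldOf G β D (z' i) v) := by
  simp only [diffP, Finset.sum_range_succ, fieldOf_add, fieldOf_sub]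

theorem wSum_nonneg (ha : 0 ≤ a) (f : V → ℝ) (v : V) : 0 ≤ wSum G a D f v :=
  Finset.sum_nonneg fun _ _ => by positivity

theorem wSum_adj_le (hG : G.IsTree) (ha : 0 < a) (ha1 : a ≤ 1) (f : V → ℝ) {u v : V}
    (hadj : G.Adj u v) : wSum G a D f u ≤ wSum G a D f v / a := by
  rw [le_div_iff₀ ha, wSum, Finset.sum_mul]
  refine Finset.sum_le_sum fun w _ => ?_
  rw [mul_right_comm, ← pow_succ]
  refine mul_le_mul_of_nonneg_right (pow_le_pow_of_le_one ha.le ha1 ?_) (abs_nonneg _)
  have h1 := hG.connected.dist_triangle (u := v) (v := u) (w := w)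
  rw [SimpleGraph.dist_eq_one_iff_adj.mpr hadj.symm] at h1
  omega

theorem chQ_wSum_le (hG : G.IsTree) (hd : 3 ≤ d) (hreg : ∀ v, (G.neighborSet v).ncard = d)
    (ha : 0 < a) (ha1 : a ≤ 1) (f : V → ℝ) (v : V) :
    chQ G D (wSum G a D f) v ≤ 4 * d / a * wSum G a D f v := by
  have hW := wSum_nonneg (G := G) (D := D) ha.le f v
  have hle : wSum G a D f v ≤ wSum G a D f v / a := by
    rw [le_div_iff₀ ha]; exact mul_le_of_le_one_right hW ha1
  calc chQ G D (wSum G a D f) v
      ≤ ∑ e ∈ dirE G D, chInc v e * (2 * (wSum G a D f v / a)) := by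
        refine Finset.sum_le_sum fun e he => ?_
        obtain ⟨-, -, hadj⟩ := mem_dirE.mp he
        by_cases h1 : v = e.1
        · refine mul_le_mul_of_nonneg_left ?_ (chInc_nonneg v e)
          subst h1
          linarith [wSum_adj_le (D := D) hG ha ha1 f hadj.symm]
        · by_cases h2 : v = e.2
          · refine mul_le_mul_of_nonneg_left ?_ (chInc_nonneg v e)
            subst h2
            linarith [wSum_adj_le (D := D) hG ha ha1 f hadj]
          · simp [chInc, h1, h2]
    _ ≤ 2 * d * (2 * (wSum G a D f v / a)) := by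
        rw [← Finset.sum_mul]
        exact mul_le_mul_of_nonneg_right (sum_chInc_le hd hreg D v) (by positivity)
    _ = _ := by ring

/-- The hypotheses of the weighted bounds: couplings at most `θ` after step `J`, and a Schur
constant of `θ` against `a`. -/
structure LipPar (G : SimpleGraph V) (d : ℕ) (β h : ℝ) (J K : ℕ) (a θ cs : ℝ) : Prop where
  tree : G.IsTree
  deg : 3 ≤ d
  reg : ∀ v, (G.neighborSet v).ncard = d
  beta_nonneg : 0 ≤ β
  step_nonneg : 0 ≤ h
  time_le : (K : ℝ) * h ≤ 1
  th_le : ∀ i, J ≤ i → i < K → chTh β ((i : ℝ) * h) ≤ θ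
  a_pos : 0 < a
  a_le : a ≤ 1
  th_le_a : θ ≤ a
  th_nonneg : 0 ≤ θ
  cs_nonneg : 0 ≤ cs
  schur : ∀ (s : Finset V) (v z : V),
    ∑ u ∈ s, θ ^ G.dist v u * a ^ G.dist u z ≤ cs * a ^ G.dist v z

/-- The rate of the weighted bound. -/
noncomputable def lipRate (d : ℕ) (β a : ℝ) : ℝ := chLam β ^ 2 * (4 * d / a)

/-- The constant of the weighted bound. -/
noncomputable def lipC (d : ℕ) (β a cs : ℝ) : ℝ :=
  lipRate d β a * Real.exp (lipRate d β a * cs)

theorem lipRate_nonneg (ha : 0 ≤ a) : 0 ≤ lipRate d β a := by unfold lipRate; positivity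

theorem lipC_nonneg (ha : 0 ≤ a) : 0 ≤ lipC d β a cs :=
  mul_nonneg (lipRate_nonneg ha) (Real.exp_pos _).le

theorem LipPar.step_magn_le (lp : LipPar G d β h J K a θ cs) (hD : IsConvexSet G D) {i : ℕ}
    (hiJ : J ≤ i) (hi : i < K) (Y Y' f : V → ℝ) (F : V → ℝ)
    (hY : ∀ w ∈ D, |Y w - Y' w| ≤ |f w| + F w) {x : V} (hx : x ∈ D) :
    |magn G (chTh β ((i : ℝ) * h)) D x Y - magn G (chTh β ((i : ℝ) * h)) D x Y'| ≤
      wSum G a D f x + ∑ w ∈ D, θ ^ G.dist x w * F w := by
  set th := chTh β ((i : ℝ) * h)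
  have hth0 : 0 ≤ th := chTh_nonneg lp.beta_nonneg ((mul_le_mul_of_nonneg_right
    (by exact_mod_cast hi.le) lp.step_nonneg).trans lp.time_le)
  have hthθ : th ≤ θ := lp.th_le i hiJ hi
  refine (magn_lipschitz lp.tree hth0 (chTh_lt_one _ _) hD hx Y Y').trans ?_
  rw [wSum, ← Finset.sum_add_distrib]
  refine Finset.sum_le_sum fun w hw => ?_
  rw [SimpleGraph.dist_comm]
  refine (mul_le_mul (pow_le_pow_left₀ hth0 hthθ _) (hY w hw) (abs_nonneg _)
    (pow_nonneg lp.th_nonneg _)).trans ?_
  rw [mul_add]
  exact add_le_add (mul_le_mul_of_nonneg_right (pow_le_pow_left₀ lp.th_nonneg lp.th_le_a _)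
    (abs_nonneg _)) le_rfl

/-- Two inputs which agree before `J` give nearby fields. -/
theorem LipPar.eulerH_sub_le (lp : LipPar G d β h J K a θ cs) (hD : IsConvexSet G D)
    {z z' : ℕ → V × V → ℝ} (hz : ∀ j < J, ∀ e ∈ dirE G D, z j e = z' j e) :
    ∀ i ≤ K, ∀ v, |eulerH G β h D z i v - eulerH G β h D z' i v - diffP G β D z z' i v| ≤
      lipRate d β a * (1 + h * (lipRate d β a * cs)) ^ i *
        ∑ l ∈ Finset.range i, h * wSum G a D (diffP G β D z z' l) v
  | 0 => fun _ v => by simp [eulerH, diffP, fieldOf]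
  | i + 1 => fun hi v => by
    have ih := LipPar.eulerH_sub_le lp hD hz i (Nat.le_of_succ_le hi)
    set R := lipRate d β a with hR
    have hR0 : 0 ≤ R := lipRate_nonneg lp.a_pos.le
    have hh := lp.step_nonneg
    have hc0 : 0 ≤ h * (R * cs) := mul_nonneg hh (mul_nonneg hR0 lp.cs_nonneg)
    set P := diffP G β D z z'
    set S := fun x => ∑ l ∈ Finset.range i, h * wSum G a D (P l) x with hS
    set M := (1 + h * (R * cs)) ^ i with hM
    have hS0 : ∀ x, 0 ≤ S x := fun x => Finset.sum_nonneg fun l _ =>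
      mul_nonneg hh (wSum_nonneg lp.a_pos.le _ _)
    have hM0 : 0 ≤ M := pow_nonneg (by linarith) _
    rw [eulerH_succ, eulerH_succ]
    set th := chTh β ((i : ℝ) * h)
    set Y := eulerH G β h D z i
    set Y' := eulerH G β h D z' i
    have key : ∀ q : V → ℝ, (∀ x ∈ D, |magn G th D x Y - magn G th D x Y'| ≤ q x) →
        |(Y v + fieldOf G β D (z i) v +
            h * chLam β ^ 2 * chQ G D (fun u => magn G th D u Y) v) -
          (Y' v + fieldOf G β D (z' i) v +
            h * chLam β ^ 2 * chQ G D (fun u => magn G th D u Y') v) - P (i + 1) v| ≤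
          R * M * S v + h * chLam β ^ 2 * chQ G D q v := by
      intro q hq
      have e : (Y v + fieldOf G β D (z i) v +
            h * chLam β ^ 2 * chQ G D (fun u => magn G th D u Y) v) -
          (Y' v + fieldOf G β D (z' i) v +
            h * chLam β ^ 2 * chQ G D (fun u => magn G th D u Y') v) - P (i + 1) v =
          (Y v - Y' v - P i v) + h * chLam β ^ 2 *
            chQ G D (fun u => magn G th D u Y - magn G th D u Y') v := by
        rw [chQ_sub, show P (i + 1) v = _ from diffP_succ z z' i v]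
        ring
      rw [e]
      refine (abs_add_le _ _).trans (add_le_add (ih v) ?_)
      rw [abs_mul, abs_of_nonneg (mul_nonneg hh (sq_nonneg _))]
      refine mul_le_mul_of_nonneg_left ((Finset.abs_sum_le_sum_abs _ _).trans
        (Finset.sum_le_sum fun e he => ?_)) (mul_nonneg hh (sq_nonneg _))
      obtain ⟨h1, h2, -⟩ := mem_dirE.mp he
      rw [abs_mul, abs_of_nonneg (chInc_nonneg v e)]
      exact mul_le_mul_of_nonneg_left ((abs_add_le _ _).trans (add_le_add (hq _ h1) (hq _ h2)))
        (chInc_nonneg v e)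
    rcases lt_or_ge i J with hiJ | hiJ
    · have eY : Y = Y' := eulerH_congr D i fun j hj => hz j (hj.trans hiJ)
      refine (key (fun _ => 0) fun x _ => by rw [eY, sub_self, abs_zero]).trans ?_
      have e0 : chQ G D (fun _ : V => (0 : ℝ)) v = 0 := by simp [chQ]
      rw [e0, mul_zero, add_zero, pow_succ, Finset.sum_range_succ, ← mul_assoc R]
      refine mul_le_mul (le_mul_of_one_le_right (mul_nonneg hR0 hM0) (by linarith))
        (le_add_of_nonneg_right (mul_nonneg hh (wSum_nonneg lp.a_pos.le _ _))) (hS0 v)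
        (mul_nonneg (mul_nonneg hR0 hM0) (by linarith))
    · refine (key (fun x => wSum G a D (P i) x + cs * (R * M * S x)) fun x hx => ?_).trans ?_
      · refine (lp.step_magn_le hD hiJ hi Y Y' (P i) (fun w => R * M * S w) (fun w _ => ?_)
          hx).trans (add_le_add le_rfl ?_)
        · linarith [abs_sub_abs_le_abs_sub (Y w - Y' w) (P i w), ih w]
        · calc ∑ w ∈ D, θ ^ G.dist x w * (R * M * S w)
              = ∑ l ∈ Finset.range i, ∑ u ∈ D, R * M * h * |P l u| *
                  ∑ w ∈ D, θ ^ G.dist x w * a ^ G.dist w u := by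
                simp only [hS, wSum, Finset.mul_sum]
                rw [Finset.sum_comm]
                refine Finset.sum_congr rfl fun l _ => ?_
                rw [Finset.sum_comm]
                exact Finset.sum_congr rfl fun u _ => Finset.sum_congr rfl fun w _ => by ring
            _ ≤ ∑ l ∈ Finset.range i, ∑ u ∈ D, R * M * h * |P l u| * (cs * a ^ G.dist x u) :=
                Finset.sum_le_sum fun l _ => Finset.sum_le_sum fun u _ =>
                  mul_le_mul_of_nonneg_left (lp.schur D x u) (by positivity)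
            _ = cs * (R * M * S x) := by
                simp only [hS, wSum, Finset.mul_sum]
                exact Finset.sum_congr rfl fun l _ => Finset.sum_congr rfl fun u _ => by ring
      · have e0 : chQ G D (fun x => wSum G a D (P i) x + cs * (R * M * S x)) v =
            chQ G D (wSum G a D (P i)) v +
              cs * (R * M) * ∑ l ∈ Finset.range i, h * chQ G D (wSum G a D (P l)) v := by
          rw [chQ_add]
          congr 1
          simp only [chQ, hS, Finset.mul_sum, mul_add, ← Finset.sum_add_distrib]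
          rw [Finset.sum_comm]
          exact Finset.sum_congr rfl fun l _ => Finset.sum_congr rfl fun e _ => by ring
        have hQ := chQ_wSum_le (D := D) lp.tree lp.deg lp.reg lp.a_pos lp.a_le
        have hcRM : 0 ≤ cs * (R * M) := mul_nonneg lp.cs_nonneg (mul_nonneg hR0 hM0)
        rw [e0]
        refine (add_le_add le_rfl (mul_le_mul_of_nonneg_left (add_le_add (hQ (P i) v)
          (mul_le_mul_of_nonneg_left (Finset.sum_le_sum fun l _ =>
            mul_le_mul_of_nonneg_left (hQ (P l) v) hh) hcRM))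
          (mul_nonneg hh (sq_nonneg _)))).trans ?_
        have eR : R = chLam β ^ 2 * (4 * (d : ℝ) / a) := rfl
        have e1 : ∑ l ∈ Finset.range i, h * (4 * (d : ℝ) / a * wSum G a D (P l) v) =
            4 * (d : ℝ) / a * S v := by
          rw [hS, Finset.mul_sum]; exact Finset.sum_congr rfl fun l _ => by ring
        rw [e1, Finset.sum_range_succ]
        set W := wSum G a D (P i) v
        have hW : 0 ≤ W := wSum_nonneg lp.a_pos.le _ _
        calc R * M * S v + h * chLam β ^ 2 * (4 * (d : ℝ) / a * W +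
              cs * (R * M) * (4 * (d : ℝ) / a * S v))
            = R * (M * (1 + h * (R * cs))) * S v + R * 1 * (h * W) := by rw [eR]; ring
          _ ≤ R * (M * (1 + h * (R * cs))) * S v + R * (M * (1 + h * (R * cs))) * (h * W) := by
              refine add_le_add le_rfl (mul_le_mul_of_nonneg_right (mul_le_mul_of_nonneg_left
                ?_ hR0) (mul_nonneg hh hW))
              rw [hM, ← pow_succ]
              exact one_le_pow₀ (by linarith)
          _ = _ := by rw [hM, ← pow_succ]; simp only [hS]; ring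

/-- The weighted Lipschitz bound at the final time. -/
theorem LipPar.eulerH_final_le (lp : LipPar G d β h J K a θ cs) (hD : IsConvexSet G D)
    {z z' : ℕ → V × V → ℝ} (hz : ∀ j < J, ∀ e ∈ dirE G D, z j e = z' j e) (v : V) :
    |eulerH G β h D z K v - eulerH G β h D z' K v| ≤ |diffP G β D z z' K v| +
      lipC d β a cs * ∑ l ∈ Finset.range K, h * wSum G a D (diffP G β D z z' l) v := by
  have h1 := lp.eulerH_sub_le hD hz K le_rfl v
  have hS : 0 ≤ ∑ l ∈ Finset.range K, h * wSum G a D (diffP G β D z z' l) v :=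
    Finset.sum_nonneg fun l _ => mul_nonneg lp.step_nonneg (wSum_nonneg lp.a_pos.le _ _)
  have h2 := h1.trans (mul_le_mul_of_nonneg_right (mul_le_mul_of_nonneg_left
    (pow_one_add_le_exp lp.step_nonneg (mul_nonneg (lipRate_nonneg lp.a_pos.le) lp.cs_nonneg)
      lp.time_le le_rfl) (lipRate_nonneg lp.a_pos.le)) hS)
  have h3 := abs_sub_abs_le_abs_sub (eulerH G β h D z K v - eulerH G β h D z' K v)
    (diffP G β D z z' K v)
  unfold lipC
  linarith

/-- The bound by the largest accumulated differences. -/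
theorem LipPar.eulerH_final_le_sup (lp : LipPar G d β h J K a θ cs) (hD : IsConvexSet G D)
    {z z' : ℕ → V × V → ℝ} (hz : ∀ j < J, ∀ e ∈ dirE G D, z j e = z' j e) {v : V} (hv : v ∈ D)
    {p : V → ℝ} (hp : ∀ l ≤ K, ∀ w ∈ D, |diffP G β D z z' l w| ≤ p w) :
    |eulerH G β h D z K v - eulerH G β h D z' K v| ≤
      (1 + lipC d β a cs) * ∑ w ∈ D, a ^ G.dist v w * p w := by
  have ha := lp.a_pos.le
  have hp0 : ∀ w ∈ D, 0 ≤ p w := fun w hw => (abs_nonneg _).trans (hp 0 (Nat.zero_le K) w hw)
  set sp' := ∑ w ∈ D, a ^ G.dist v w * p w with hsp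
  refine (lp.eulerH_final_le hD hz v).trans ?_
  rw [add_mul, one_mul]
  refine add_le_add ((hp K le_rfl v hv).trans ?_) (mul_le_mul_of_nonneg_left ?_ (lipC_nonneg ha))
  · refine le_trans (le_of_eq ?_) (Finset.single_le_sum (f := fun w => a ^ G.dist v w * p w)
      (fun w hw => mul_nonneg (pow_nonneg ha _) (hp0 w hw)) hv)
    simp
  · refine (Finset.sum_le_sum (g := fun _ => h * sp') fun l hl =>
      mul_le_mul_of_nonneg_left (Finset.sum_le_sum fun w hw => mul_le_mul_of_nonneg_left
        (hp l (Finset.mem_range.mp hl).le w hw) (pow_nonneg ha _)) lp.step_nonneg).trans ?_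
    rw [Finset.sum_const, Finset.card_range, nsmul_eq_mul, ← mul_assoc]
    exact mul_le_of_le_one_left (Finset.sum_nonneg fun w hw =>
      mul_nonneg (pow_nonneg ha _) (hp0 w hw)) lp.time_le

/-- The magnetisation at the final time as a function of the increments. -/
noncomputable def finalT (G : SimpleGraph V) (β h : ℝ) (D : Finset V) (K : ℕ) (v : V)
    (x : CIdx G D K → ℝ) : ℝ :=
  Real.tanh (eulerH G β h D (drv x) K v)

theorem abs_finalT_le (β h : ℝ) (D : Finset V) (K : ℕ) (v : V) (x : CIdx G D K → ℝ) :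
    |finalT G β h D K v x| ≤ 1 :=
  abs_le.mpr ⟨(Real.neg_one_lt_tanh _).le, (Real.tanh_lt_one _).le⟩

theorem measurable_eulerH {α : Type*} [MeasurableSpace α] (β h : ℝ) (D : Finset V)
    {Z : α → ℕ → V × V → ℝ} (hZ : ∀ j e, Measurable fun x => Z x j e) :
    ∀ i v, Measurable fun x => eulerH G β h D (Z x) i v
  | 0 => fun _ => measurable_const
  | i + 1 => fun v => by
    have ih := measurable_eulerH β h D hZ i
    simp only [eulerH, fieldOf]
    exact (ih v).add ((Finset.measurable_sum _ fun e _ => ((hZ i e).add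
      (measurable_chDrift_comp h D i e ih)).const_mul _).const_mul _)

theorem measurable_finalT (β h : ℝ) (D : Finset V) (K : ℕ) (v : V) :
    Measurable (finalT G β h D K v) := by
  have hc : Continuous Real.tanh := by
    rw [show Real.tanh = fun t => Real.sinh t / Real.cosh t from
      funext fun t => Real.tanh_eq_sinh_div_cosh t]
    exact Real.continuous_sinh.div Real.continuous_cosh fun t => (Real.cosh_pos t).ne'
  exact hc.measurable.comp (measurable_eulerH β h D (fun j e => measurable_drv j e) K v)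

theorem drv_update (x : CIdx G D K → ℝ) (q : CIdx G D K) (c : ℝ) (j : ℕ) (e : V × V) :
    drv (Function.update x q c) j e =
      drv x j e + if j = (q.2 : ℕ) ∧ e = (q.1 : V × V) then c - x q else 0 := by
  by_cases hq : j = (q.2 : ℕ) ∧ e = (q.1 : V × V)
  · obtain ⟨rfl, rfl⟩ := hq
    rw [drv_coord, drv_coord, Function.update_self, if_pos ⟨rfl, rfl⟩]; ring
  · rw [if_neg hq, add_zero]
    unfold drv
    split_ifs with h
    · refine Function.update_of_ne (fun he => hq ?_) _ _
      rw [← he]; exact ⟨rfl, rfl⟩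
    · rfl

theorem integral_coord_sq {ι : Type*} [Fintype ι] (i : ι) (v : ℝ≥0) :
    ∫ x : ι → ℝ, x i ^ 2 ∂gaussPi ι v = (v : ℝ) := by
  have h1 : ∫ x : ι → ℝ, x i ^ 2 ∂gaussPi ι v = ∫ y : ℝ, y ^ 2 ∂gaussianReal 0 v := by
    conv_rhs => rw [← (measurePreserving_eval (fun _ : ι => gaussianReal 0 v) i).map_eq]
    rw [integral_map (measurable_pi_apply i).aemeasurable (by fun_prop)]
    rfl
  rw [h1, ← variance_id_gaussianReal (μ := 0) (v := v),
    variance_eq_integral measurable_id.aemeasurable]
  simp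

/-- The fluctuation of the final magnetisation in one coordinate. -/
theorem LipPar.blockVar_finalT_le {hv : ℝ≥0} (lp : LipPar G d β hv J K a θ cs)
    (hD : IsConvexSet G D) {v : V} (hv' : v ∈ D) (q : CIdx G D K) (hq : J ≤ (q.2 : ℕ)) :
    blockVar hv {q} (finalT G β hv D K v) ≤ (hv : ℝ) * (((1 + lipC d β a cs) * chLam β) *
      (a ^ G.dist v (q.1 : V × V).1 + a ^ G.dist v (q.1 : V × V).2)) ^ 2 := by
  set C := ((1 + lipC d β a cs) * chLam β) *
    (a ^ G.dist v (q.1 : V × V).1 + a ^ G.dist v (q.1 : V × V).2) with hC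
  have hC0 : 0 ≤ C := by
    have := lipC_nonneg (d := d) (β := β) (cs := cs) lp.a_pos.le
    have := chLam_nonneg β
    have := lp.a_pos.le
    positivity
  refine (blockVar_coord_le (measurable_finalT β hv D K v) (abs_finalT_le β hv D K v) q).trans ?_
  have hpt : ∀ x : CIdx G D K → ℝ,
      (finalT G β hv D K v x - finalT G β hv D K v (Function.update x q 0)) ^ 2 ≤
        C ^ 2 * x q ^ 2 := by
    intro x
    rw [← mul_pow, ← sq_abs (finalT G β hv D K v x - _), ← sq_abs (C * x q)]
    refine pow_le_pow_left₀ (abs_nonneg _) ?_ 2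
    rw [abs_mul, abs_of_nonneg hC0]
    refine (abs_tanh_sub_le _ _).trans ?_
    refine (lp.eulerH_final_le_sup hD (fun j hj e he => ?_) hv'
      (p := fun w => |x q| * (chLam β * chInc w (q.1 : V × V))) fun l _ w _ => ?_).trans
      (le_of_eq ?_)
    · rw [drv_update, if_neg (fun h => by omega), add_zero]
    · have hl := chLam_nonneg β
      rw [diffP, fieldOf]
      rw [Finset.sum_eq_single (q.1 : V × V)]
      · rw [abs_mul, abs_mul, abs_of_nonneg hl, abs_of_nonneg (chInc_nonneg w _)]
        rw [mul_comm |x q|, mul_assoc]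
        refine mul_le_mul_of_nonneg_left (mul_le_mul_of_nonneg_left ?_ (chInc_nonneg w _)) hl
        simp only [drv_update, and_true, sub_add_cancel_left, Finset.sum_neg_distrib,
          Finset.sum_ite_eq', abs_neg]
        split_ifs <;> simp
      · intro e _ he
        simp only [drv_update, he, and_false, if_false, add_zero, sub_self, Finset.sum_const_zero,
          mul_zero]
      · exact fun h => absurd q.1.2 h
    · rw [show ∑ w ∈ D, a ^ G.dist v w * (|x q| * (chLam β * chInc w (q.1 : V × V))) =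
          |x q| * chLam β * ∑ w ∈ D, chInc w (q.1 : V × V) * a ^ G.dist v w by
        rw [Finset.mul_sum]; exact Finset.sum_congr rfl fun w _ => by ring]
      rw [sum_chInc_mul (fun w => a ^ G.dist v w) q.1.2, hC]
      ring
  refine (integral_mono ?_ (((expGrowth_coord q).sq.const_mul (C ^ 2)).integrable hv) hpt).trans
    (le_of_eq ?_)
  · refine integrable_of_abs_le (((measurable_finalT β hv D K v).sub
      ((measurable_finalT β hv D K v).comp measurable_update_left)).pow_const 2) (B := (1 + 1) ^ 2)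
      fun x => ?_
    rw [abs_pow]
    exact pow_le_pow_left₀ (abs_nonneg _) ((abs_sub _ _).trans
      (add_le_add (abs_finalT_le β hv D K v x) (abs_finalT_le β hv D K v _))) 2
  · rw [integral_const_mul, integral_coord_sq]; ring

/-- Geometric sums far from a vertex. -/
theorem sum_far_le (hG : G.IsTree) (hd : 3 ≤ d) (hreg : ∀ v, (G.neighborSet v).ncard = d)
    {x y : ℝ} (hx : 0 ≤ x) (hxy : x < y) (hy : ((d : ℝ) - 1) * y < 1) (v : V) (R : ℕ)
    (s : Finset V) (hs : ∀ u ∈ s, R ≤ G.dist v u) :
    ∑ u ∈ s, x ^ G.dist v u ≤ (x / y) ^ R * (1 + d * y / (1 - ((d : ℝ) - 1) * y)) := by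
  have hy0 : 0 < y := hx.trans_lt hxy
  refine le_trans ?_ (mul_le_mul_of_nonneg_left (geom_sum_le hG hd hreg hy0.le hy v s)
    (pow_nonneg (div_nonneg hx hy0.le) R))
  rw [Finset.mul_sum]
  refine Finset.sum_le_sum fun u hu => ?_
  calc x ^ G.dist v u = (x / y) ^ G.dist v u * y ^ G.dist v u := by
        rw [← mul_pow, div_mul_cancel₀ _ hy0.ne']
    _ ≤ _ := mul_le_mul_of_nonneg_right (pow_le_pow_of_le_one (div_nonneg hx hy0.le)
        ((div_le_one hy0).mpr hxy.le) (hs u hu)) (pow_nonneg hy0.le _)

end Vale.Agent.P161
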