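import Vale.Agent.P161.Crit.Chan
import Vale.Agent.P161.Crit.Growth

/-!
# The discrete channel against the Euler scheme

`chZ` is the density of the observations and `chEn` the density of the Euler observations, both
with respect to centred Gaussian increments. They are close in `L¹`.
-/

namespace Vale.Agent.P161

open SimpleGraph MeasureTheory ProbabilityTheory
open scoped Classical NNReal

variable {V : Type*}

/-- The coordinates of `K` steps of increments on the ordered edges of `D`. -/
abbrev CIdx (G : SimpleGraph V) (D : Finset V) (K : ℕ) := dirE G D × Fin K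

/-- The path of increments with given coordinates. -/
noncomputable def drv {G : SimpleGraph V} {D : Finset V} {K : ℕ} (x : CIdx G D K → ℝ) (i : ℕ)
    (a : V × V) : ℝ :=
  if h : a ∈ dirE G D ∧ i < K then x (⟨a, h.1⟩, ⟨i, h.2⟩) else 0

/-- Appending one step of increments. -/
noncomputable def joinStep {G : SimpleGraph V} {D : Finset V} {K : ℕ} (x : CIdx G D K → ℝ)
    (z : dirE G D → ℝ) : CIdx G D (K + 1) → ℝ :=
  fun q => if h : (q.2 : ℕ) < K then x (q.1, ⟨q.2, h⟩) else z q.1

/-- The exponent of the density of the Euler observations. -/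
noncomputable def enExpo (G : SimpleGraph V) (β h : ℝ) (D : Finset V) (b : ℕ → V × V → ℝ)
    (i : ℕ) : ℝ :=
  ∑ j ∈ Finset.range i, ∑ a ∈ dirE G D,
    (chDrift G β h D j (obsH G β D b j) a * b j a -
      chDrift G β h D j (obsH G β D b j) a ^ 2 / 2) / h

/-- The density of the Euler observations. -/
noncomputable def chEn (G : SimpleGraph V) (β h : ℝ) (D : Finset V) (K : ℕ)
    (x : CIdx G D K → ℝ) : ℝ :=
  Real.exp (enExpo G β h D (drv x) K)

/-- The density of the observations. -/
noncomputable def chZ (G : SimpleGraph V) (β h : ℝ) (D : Finset V) (K : ℕ)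
    (x : CIdx G D K → ℝ) : ℝ :=
  ∑ η : D → Bool, freeWeight G (Real.tanh β) D η *
    Real.exp (chExpo G β h D (extCfg η) (drv x) K)

/-- The innovation coordinates. -/
noncomputable def innovVec (G : SimpleGraph V) (β h : ℝ) (D : Finset V) (K : ℕ)
    (x : CIdx G D K → ℝ) : CIdx G D K → ℝ :=
  fun q => chInnov G β h D (drv x) q.2 q.1

/-- The observation coordinates of the Euler scheme. -/
noncomputable def eulerVec (G : SimpleGraph V) (β h : ℝ) (D : Finset V) (K : ℕ)
    (z : CIdx G D K → ℝ) : CIdx G D K → ℝ :=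
  fun q => eulerInc G β h D (drv z) q.2 q.1

variable {G : SimpleGraph V} {β : ℝ} {D : Finset V} {K : ℕ}

theorem drv_apply (x : CIdx G D K → ℝ) {i : ℕ} (hi : i < K) {a : V × V} (ha : a ∈ dirE G D) :
    drv x i a = x (⟨a, ha⟩, ⟨i, hi⟩) := dif_pos ⟨ha, hi⟩

theorem drv_coord (x : CIdx G D K → ℝ) (q : CIdx G D K) : drv x q.2 q.1 = x q := by
  rw [drv_apply x q.2.isLt q.1.2]

theorem measurable_drv (i : ℕ) (a : V × V) :
    Measurable fun x : CIdx G D K → ℝ => drv x i a := by
  unfold drv
  split_ifs with h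
  · exact measurable_pi_apply _
  · exact measurable_const

theorem drv_joinStep_lt (x : CIdx G D K → ℝ) (z : dirE G D → ℝ) {j : ℕ} (hj : j < K)
    (a : V × V) : drv (joinStep x z) j a = drv x j a := by
  by_cases ha : a ∈ dirE G D
  · rw [drv_apply _ (hj.trans (Nat.lt_succ_self K)) ha, drv_apply _ hj ha, joinStep]
    exact dif_pos hj
  · simp [drv, ha]

theorem drv_joinStep_last (x : CIdx G D K → ℝ) (z : dirE G D → ℝ) (a : dirE G D) :
    drv (joinStep x z) K (a : V × V) = z a := by
  rw [drv_apply _ (Nat.lt_succ_self K) a.2, joinStep]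
  exact dif_neg (lt_irrefl K)

theorem measurable_joinStep :
    Measurable fun p : (CIdx G D K → ℝ) × (dirE G D → ℝ) => joinStep p.1 p.2 := by
  refine measurable_pi_lambda _ fun q => ?_
  unfold joinStep
  split_ifs with h
  · exact (measurable_pi_apply _).comp measurable_fst
  · exact (measurable_pi_apply _).comp measurable_snd

theorem map_joinStep (v : ℝ≥0) :
    ((gaussPi (CIdx G D K) v).prod (gaussPi (dirE G D) v)).map (fun p => joinStep p.1 p.2) =
      gaussPi (CIdx G D (K + 1)) v := by
  refine (Measure.pi_eq fun s hs => ?_).symm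
  rw [Measure.map_apply measurable_joinStep (.univ_pi hs)]
  have e : (fun p : (CIdx G D K → ℝ) × (dirE G D → ℝ) => joinStep p.1 p.2) ⁻¹' Set.univ.pi s =
      (Set.univ.pi fun q : CIdx G D K => s (q.1, q.2.castSucc)) ×ˢ
        Set.univ.pi fun a : dirE G D => s (a, Fin.last K) := by
    ext ⟨x, z⟩
    simp only [Set.mem_preimage, Set.mem_pi, Set.mem_univ, true_implies, Set.mem_prod]
    constructor
    · intro h
      constructor
      · intro q
        have := h (q.1, q.2.castSucc)
        unfold joinStep at this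
        rwa [dif_pos (show ((q.1, q.2.castSucc).2 : ℕ) < K from q.2.isLt)] at this
      · intro a
        have := h (a, Fin.last K)
        unfold joinStep at this
        rwa [dif_neg (show ¬ ((a, Fin.last K).2 : ℕ) < K from lt_irrefl K)] at this
    · rintro ⟨h1, h2⟩ ⟨a, k⟩
      unfold joinStep
      split_ifs with hk
      · exact h1 (a, ⟨k, hk⟩)
      · have : k = Fin.last K := Fin.ext (by
          have := k.isLt; simp only [Fin.val_last] at hk ⊢; omega)
        subst this; exact h2 a
  rw [e, Measure.prod_prod, gaussPi, gaussPi, Measure.pi_pi, Measure.pi_pi,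
    Fintype.prod_prod_type (f := fun q : CIdx G D (K + 1) => gaussianReal 0 v (s q)),
    Fintype.prod_prod_type (f := fun q : CIdx G D K => gaussianReal 0 v (s (q.1, q.2.castSucc))),
    ← Finset.prod_mul_distrib]
  exact Finset.prod_congr rfl fun a _ =>
    (Fin.prod_univ_castSucc fun k => gaussianReal 0 v (s (a, k))).symm

theorem integral_joinStep (v : ℝ≥0) {f : (CIdx G D (K + 1) → ℝ) → ℝ} (hf : ExpGrowth f) :
    ∫ x, f x ∂gaussPi (CIdx G D (K + 1)) v =
      ∫ x, ∫ z, f (joinStep x z) ∂gaussPi (dirE G D) v ∂gaussPi (CIdx G D K) v := by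
  have hi := hf.integrable v
  rw [← map_joinStep] at hi ⊢
  rw [integral_map measurable_joinStep.aemeasurable hf.measurable.aestronglyMeasurable]
  exact integral_prod _ (hi.comp_measurable measurable_joinStep)

theorem sum_joinStep (x : CIdx G D K → ℝ) (z : dirE G D → ℝ) :
    ∑ q, |joinStep x z q| = ∑ q, |x q| + ∑ a, |z a| := by
  rw [Fintype.sum_prod_type (f := fun q : CIdx G D (K + 1) => |joinStep x z q|),
    Fintype.sum_prod_type (f := fun q : CIdx G D K => |x q|), ← Finset.sum_add_distrib]
  refine Finset.sum_congr rfl fun a _ => ?_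
  rw [Fin.sum_univ_castSucc]
  congr 1
  · exact Finset.sum_congr rfl fun k _ => by
      rw [joinStep, dif_pos (show ((a, k.castSucc).2 : ℕ) < K from k.isLt)]; rfl
  · rw [joinStep, dif_neg (show ¬ ((a, Fin.last K).2 : ℕ) < K from lt_irrefl K)]

theorem ExpGrowth.slice {f : (CIdx G D (K + 1) → ℝ) → ℝ} (hf : ExpGrowth f)
    (x : CIdx G D K → ℝ) : ExpGrowth fun z => f (joinStep x z) := by
  refine hf.comp (measurable_joinStep.comp measurable_prodMk_left) (A := ∑ q, |x q|) (B := 1)
    fun z => ?_
  rw [sum_joinStep, one_mul]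

theorem ExpGrowth.integral_slice (v : ℝ≥0) {f : (CIdx G D (K + 1) → ℝ) → ℝ} (hf : ExpGrowth f) :
    ExpGrowth fun x => ∫ z, f (joinStep x z) ∂gaussPi (dirE G D) v := by
  obtain ⟨C, hC, hb⟩ := hf.2
  refine .of_bound
    (B := C * ∫ z, Real.exp (C * ∑ a, |z a|) ∂gaussPi (dirE G D) v) (C := C) ?_ fun x => ?_
  · exact (((hf.measurable.comp measurable_joinStep).stronglyMeasurable).integral_prod_right'
      (f := fun p : (CIdx G D K → ℝ) × (dirE G D → ℝ) => f (joinStep p.1 p.2))).measurable
  · refine (abs_integral_le_integral_abs).trans ?_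
    refine (integral_mono ((hf.slice x).integrable v).abs
      ((integrable_exp_sum_abs C v).const_mul (C * Real.exp (C * ∑ q, |x q|)))
      fun z => ?_).trans (le_of_eq ?_)
    · refine (hb _).trans (le_of_eq ?_)
      rw [sum_joinStep, mul_add, Real.exp_add, mul_assoc]
    · rw [integral_const_mul]; ring

theorem measurable_obsH (i : ℕ) :
    Measurable fun x : CIdx G D K → ℝ => obsH G β D (drv x) i := by
  refine measurable_pi_lambda _ fun v => ?_
  unfold obsH fieldOf
  exact (Finset.measurable_sum _ fun a _ => (Finset.measurable_sum _ fun j _ =>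
    measurable_drv j a).const_mul _).const_mul _

theorem continuous_magn_field {θ : ℝ} (h0 : 0 ≤ θ) (h1 : θ < 1) (D : Finset V) (v : V) :
    Continuous fun y : V → ℝ => magn G θ D v y := by
  unfold magn fieldWeight
  refine Continuous.div (by fun_prop) (by fun_prop) fun y => ?_
  exact ne_of_gt (fieldSum_pos (G := G) h0 h1 D y)

theorem measurable_magn_comp {α : Type*} [MeasurableSpace α] (θ : ℝ) (D : Finset V) (v : V)
    {Y : α → V → ℝ} (hY : ∀ u, Measurable fun x => Y x u) :
    Measurable fun x => magn G θ D v (Y x) := by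
  unfold magn fieldWeight
  fun_prop

theorem measurable_chDrift_comp {α : Type*} [MeasurableSpace α] (h : ℝ) (D : Finset V) (i : ℕ)
    (a : V × V) {Y : α → V → ℝ} (hY : ∀ u, Measurable fun x => Y x u) :
    Measurable fun x => chDrift G β h D i (Y x) a :=
  ((measurable_magn_comp _ D _ hY).add (measurable_magn_comp _ D _ hY)).const_mul _

theorem measurable_obsH_apply (i : ℕ) (u : V) :
    Measurable fun x : CIdx G D K → ℝ => obsH G β D (drv x) i u :=
  (measurable_pi_apply u).comp (measurable_obsH i)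

/-- The hypotheses on the parameters of the discrete channel. -/
structure ChOk (β : ℝ) (hv : ℝ≥0) (K : ℕ) : Prop where
  beta_nonneg : 0 ≤ β
  step_ne : hv ≠ 0
  time_le : (K : ℝ) * hv ≤ 1

variable {hv : ℝ≥0}

theorem ChOk.mono {K' : ℕ} (ok : ChOk β hv K) (h : K' ≤ K) : ChOk β hv K' :=
  ⟨ok.beta_nonneg, ok.step_ne,
    le_trans (mul_le_mul_of_nonneg_right (by exact_mod_cast h) hv.2) ok.time_le⟩

theorem ChOk.step_pos (ok : ChOk β hv K) : 0 < (hv : ℝ) := by
  have := ok.step_ne
  exact_mod_cast pos_iff_ne_zero.mpr this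

theorem ChOk.th_nonneg (ok : ChOk β hv K) {i : ℕ} (hi : i ≤ K) :
    0 ≤ chTh β ((i : ℝ) * hv) :=
  chTh_nonneg ok.beta_nonneg ((mul_le_mul_of_nonneg_right (by exact_mod_cast hi) hv.2).trans
    ok.time_le)

theorem abs_chDrift_le (ok : ChOk β hv K) {i : ℕ} (hi : i ≤ K) (H : V → ℝ) (a : V × V) :
    |chDrift G β hv D i H a| ≤ 2 * (hv : ℝ) * chLam β := by
  have h0 := ok.th_nonneg hi
  have h1 := chTh_lt_one β ((i : ℝ) * hv)
  have hl := chLam_nonneg β
  rw [chDrift, abs_mul, abs_of_nonneg (mul_nonneg ok.step_pos.le hl)]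
  refine (mul_le_mul_of_nonneg_left ((abs_add_le _ _).trans (add_le_add (abs_magn_le h0 h1 D _ H)
    (abs_magn_le h0 h1 D _ H))) (mul_nonneg ok.step_pos.le hl)).trans (le_of_eq (by ring))

theorem abs_edgeSpin_le (a : V × V) (s : V → Bool) : |edgeSpin a s| ≤ 2 := by
  refine (abs_add_le _ _).trans ?_
  rw [sp, sp, abs_spin, abs_spin]; norm_num

theorem sum_drv (x : CIdx G D K → ℝ) :
    ∑ j ∈ Finset.range K, ∑ a ∈ dirE G D, |drv x j a| = ∑ q, |x q| := by
  rw [Finset.sum_comm, ← Finset.sum_coe_sort (dirE G D),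
    Fintype.sum_prod_type (f := fun q : CIdx G D K => |x q|)]
  refine Finset.sum_congr rfl fun a _ => ?_
  rw [← Fin.sum_univ_eq_sum_range (fun j => |drv x j (a : V × V)|)]
  exact Finset.sum_congr rfl fun k _ => by rw [drv_coord x (a, k)]

theorem expGrowth_chEn (ok : ChOk β hv K) : ExpGrowth (chEn G β hv D K) := by
  refine expGrowth_exp ?_ (A := 0) (B := 2 * chLam β) fun x => ?_
  · refine Finset.measurable_sum _ fun j _ => Finset.measurable_sum _ fun a _ => ?_
    exact (((measurable_chDrift_comp _ D j a (measurable_obsH_apply j)).mul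
      (measurable_drv j a)).sub
      (((measurable_chDrift_comp _ D j a (measurable_obsH_apply j)).pow_const 2).div_const 2)).div_const _
  · rw [zero_add, ← sum_drv, enExpo, Finset.mul_sum]
    refine Finset.sum_le_sum fun j hj => ?_
    rw [Finset.mul_sum]
    refine Finset.sum_le_sum fun a _ => ?_
    have hd := abs_chDrift_le (G := G) (D := D) ok (Finset.mem_range.mp hj).le
      (obsH G β D (drv x) j) a
    set c := chDrift G β hv D j (obsH G β D (drv x) j) a
    rw [div_le_iff₀ ok.step_pos]
    nlinarith [abs_mul c (drv x j a), le_abs_self (c * drv x j a), sq_nonneg c,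
      mul_le_mul_of_nonneg_right hd (abs_nonneg (drv x j a))]

theorem expGrowth_chExpo (ok : ChOk β hv K) (η : D → Bool) :
    ExpGrowth fun x : CIdx G D K → ℝ => Real.exp (chExpo G β hv D (extCfg η) (drv x) K) := by
  refine expGrowth_exp ?_ (A := 0) (B := 2 * chLam β) fun x => ?_
  · exact Finset.measurable_sum _ fun j _ => Finset.measurable_sum _ fun a _ =>
      ((measurable_drv j a).const_mul _).sub measurable_const
  · rw [zero_add, ← sum_drv, chExpo, Finset.mul_sum]
    refine Finset.sum_le_sum fun j _ => ?_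
    rw [Finset.mul_sum]
    refine Finset.sum_le_sum fun a _ => ?_
    have h1 := abs_edgeSpin_le a (extCfg η)
    have hl := chLam_nonneg β
    have h2 : |chLam β * edgeSpin a (extCfg η) * drv x j a| ≤ 2 * chLam β * |drv x j a| := by
      rw [abs_mul, abs_mul, abs_of_nonneg hl, mul_comm 2 (chLam β)]
      exact mul_le_mul_of_nonneg_right (mul_le_mul_of_nonneg_left h1 hl) (abs_nonneg _)
    have h3 : 0 ≤ (hv : ℝ) * chLam β ^ 2 * edgeSpin a (extCfg η) ^ 2 / 2 := by positivity
    linarith [le_abs_self (chLam β * edgeSpin a (extCfg η) * drv x j a)]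

theorem expGrowth_chZ (ok : ChOk β hv K) : ExpGrowth (chZ G β hv D K) :=
  .sum _ fun η _ => (expGrowth_chExpo ok η).const_mul _

theorem chEn_pos (x : CIdx G D K → ℝ) : 0 < chEn G β hv D K x := Real.exp_pos _

theorem chZ_pos (hβ : 0 ≤ β) (x : CIdx G D K → ℝ) : 0 < chZ G β hv D K x :=
  Finset.sum_pos (fun η _ => mul_pos (freeWeight_pos
    (by simpa [chTh] using chTh_nonneg hβ (r := 0) zero_le_one) (Real.tanh_lt_one _) D η)
    (Real.exp_pos _))
    Finset.univ_nonempty

theorem measurable_innovVec : Measurable (innovVec G β hv D K) :=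
  measurable_pi_lambda _ fun q =>
    (measurable_drv q.2 q.1).sub (measurable_chDrift_comp _ D _ _ (measurable_obsH_apply _))

theorem expGrowth_comp_innov (ok : ChOk β hv K) {f : (CIdx G D K → ℝ) → ℝ} (hf : ExpGrowth f) :
    ExpGrowth fun x => f (innovVec G β hv D K x) := by
  refine hf.comp measurable_innovVec (A := Fintype.card (CIdx G D K) * (2 * (hv : ℝ) * chLam β))
    (B := 1) fun x => ?_
  rw [one_mul, ← Finset.card_univ, ← nsmul_eq_mul, ← Finset.sum_const, ← Finset.sum_add_distrib]
  refine Finset.sum_le_sum fun q _ => ?_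
  rw [innovVec, chInnov, drv_coord]
  refine (abs_sub _ _).trans ?_
  linarith [abs_chDrift_le (G := G) (D := D) ok q.2.isLt.le (obsH G β D (drv x) q.2) (q.1 : V × V)]

theorem obsH_joinStep (x : CIdx G D K → ℝ) (z : dirE G D → ℝ) {j : ℕ} (hj : j ≤ K) :
    obsH G β D (drv (joinStep x z)) j = obsH G β D (drv x) j :=
  obsH_congr D fun k hk a _ => drv_joinStep_lt x z (lt_of_lt_of_le hk hj) a

/-- The drift of the last step. -/
noncomputable def lastDrift (G : SimpleGraph V) (β h : ℝ) (D : Finset V) (K : ℕ)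
    (x : CIdx G D K → ℝ) (a : dirE G D) : ℝ :=
  chDrift G β h D K (obsH G β D (drv x) K) a

theorem chEn_joinStep (x : CIdx G D K → ℝ) (z : dirE G D → ℝ) :
    chEn G β hv D (K + 1) (joinStep x z) = chEn G β hv D K x *
      Real.exp (∑ a, (lastDrift G β hv D K x a * z a - lastDrift G β hv D K x a ^ 2 / 2) / hv) := by
  unfold chEn enExpo
  rw [Finset.sum_range_succ, ← Real.exp_add]
  refine congrArg Real.exp (congrArg₂ (fun a b : ℝ => a + b) ?_ ?_)
  · refine Finset.sum_congr rfl fun j hj => Finset.sum_congr rfl fun a _ => ?_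
    rw [obsH_joinStep x z (Finset.mem_range.mp hj).le, drv_joinStep_lt x z (Finset.mem_range.mp hj)]
  · rw [← Finset.sum_coe_sort (dirE G D)]
    refine Finset.sum_congr rfl fun a _ => ?_
    rw [obsH_joinStep x z le_rfl, drv_joinStep_last]
    rfl

theorem chExpo_joinStep (s : V → Bool) (x : CIdx G D K → ℝ) (z : dirE G D → ℝ) :
    chExpo G β hv D s (drv (joinStep x z)) (K + 1) = chExpo G β hv D s (drv x) K +
      ∑ a : dirE G D, (chLam β * edgeSpin (a : V × V) s * z a -
        (hv : ℝ) * chLam β ^ 2 * edgeSpin (a : V × V) s ^ 2 / 2) := by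
  simp only [chExpo, Finset.sum_range_succ]
  congr 1
  · refine Finset.sum_congr rfl fun j hj => Finset.sum_congr rfl fun a _ => ?_
    rw [drv_joinStep_lt x z (Finset.mem_range.mp hj)]
  · rw [← Finset.sum_coe_sort (dirE G D)]
    exact Finset.sum_congr rfl fun a _ => by rw [drv_joinStep_last]

theorem innovVec_joinStep (x : CIdx G D K → ℝ) (z : dirE G D → ℝ) :
    innovVec G β hv D (K + 1) (joinStep x z) =
      joinStep (innovVec G β hv D K x) (fun a => z a - lastDrift G β hv D K x a) := by
  funext q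
  simp only [innovVec, chInnov]
  have hq := q.2.isLt
  rw [obsH_joinStep x z (j := (q.2 : ℕ)) (by omega)]
  by_cases hk : (q.2 : ℕ) < K
  · rw [drv_joinStep_lt x z hk]
    simp only [joinStep, dif_pos hk, innovVec, chInnov]
  · have : (q.2 : ℕ) = K := by omega
    rw [this, drv_joinStep_last x z q.1]
    simp only [joinStep, dif_neg hk, lastDrift]

/-- The change of measure to innovations. -/
theorem integral_chEn_innov : ∀ {K : ℕ}, ChOk β hv K → ∀ {f : (CIdx G D K → ℝ) → ℝ},
    ExpGrowth f →
      ∫ x, chEn G β hv D K x * f (innovVec G β hv D K x) ∂gaussPi (CIdx G D K) hv =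
        ∫ x, f x ∂gaussPi (CIdx G D K) hv
  | 0, _, f, _ => by
    refine integral_congr_ae (ae_of_all _ fun x => ?_)
    have e : innovVec G β hv D 0 x = x := funext fun q => q.2.elim0
    simp [chEn, enExpo, e]
  | K + 1, ok, f, hf => by
    have ok' := ok.mono (Nat.le_succ K)
    rw [integral_joinStep hv ((expGrowth_chEn ok).mul (expGrowth_comp_innov ok hf)),
      integral_joinStep hv hf, ← integral_chEn_innov ok' (hf.integral_slice hv)]
    refine integral_congr_ae (ae_of_all _ fun x => ?_)
    simp only [chEn_joinStep, innovVec_joinStep, mul_assoc, integral_const_mul]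
    congr 1
    set c := lastDrift G β hv D K x
    have hF : Measurable fun z : dirE G D → ℝ =>
        f (joinStep (innovVec G β hv D K x) fun a => z a - c a) :=
      (hf.slice _).measurable.comp (by fun_prop)
    rw [← gaussPi_shift c ok.step_ne hF]
    simp

theorem integral_chEn (ok : ChOk β hv K) :
    ∫ x, chEn G β hv D K x ∂gaussPi (CIdx G D K) hv = 1 := by
  simpa using integral_chEn_innov (G := G) (D := D) ok (expGrowth_const (1 : ℝ))

theorem integral_exp_edgeStep (ok : ChOk β hv K) (s : V → Bool) :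
    ∫ z : dirE G D → ℝ, Real.exp (∑ a : dirE G D, (chLam β * edgeSpin (a : V × V) s * z a -
      (hv : ℝ) * chLam β ^ 2 * edgeSpin (a : V × V) s ^ 2 / 2)) ∂gaussPi (dirE G D) hv = 1 := by
  have h := integral_exp_tilt
    (fun a : dirE G D => (hv : ℝ) * (chLam β * edgeSpin (a : V × V) s)) ok.step_ne
  rw [← h]
  refine integral_congr_ae (ae_of_all _ fun z => ?_)
  simp only
  congr 1
  refine Finset.sum_congr rfl fun a _ => ?_
  have := ok.step_pos.ne'
  field_simp

theorem integral_chExpo : ∀ {K : ℕ}, ChOk β hv K → ∀ η : D → Bool,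
    ∫ x, Real.exp (chExpo G β hv D (extCfg η) (drv x) K) ∂gaussPi (CIdx G D K) hv = 1
  | 0, _, _ => by simp [chExpo]
  | K + 1, ok, η => by
    rw [integral_joinStep hv (expGrowth_chExpo ok η)]
    simp only [chExpo_joinStep, Real.exp_add, integral_const_mul,
      integral_exp_edgeStep ok (extCfg η), mul_one]
    exact integral_chExpo (ok.mono (Nat.le_succ K)) η

theorem integral_chZ (ok : ChOk β hv K)
    (hone : ∑ η : D → Bool, freeWeight G (Real.tanh β) D η = 1) :
    ∫ x, chZ G β hv D K x ∂gaussPi (CIdx G D K) hv = 1 := by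
  unfold chZ
  rw [integral_finsetSum _ fun η _ => ((expGrowth_chExpo ok η).const_mul _).integrable hv]
  simp only [integral_const_mul, integral_chExpo ok, mul_one, hone]

theorem avg_avg_exp_le {Ω : Type*} [Fintype Ω] [Nonempty Ω] {w : Ω → ℝ} (hw : ∀ x, 0 < w x)
    {ι : Type*} [Fintype ι] (c : ℝ) (s : Ω → ι → ℝ) {M : ℝ}
    (hM : ∀ x y, |c * ∑ a, (s x a - avg w fun z => s z a) * (s y a - avg w fun z => s z a)| ≤ M)
    (hM1 : M ≤ 1) :
    avg w (fun x => avg w fun y => Real.exp
      (c * ∑ a, (s x a - avg w fun z => s z a) * (s y a - avg w fun z => s z a))) ≤ 1 + M ^ 2 := by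
  set T := fun x y => c * ∑ a, (s x a - avg w fun z => s z a) * (s y a - avg w fun z => s z a)
  have hexp : ∀ x y, Real.exp (T x y) ≤ (1 + M ^ 2) + T x y := by
    intro x y
    have h1 := (hM x y).trans hM1
    have h2 := (abs_le.mp (Real.abs_exp_sub_one_sub_id_le h1)).2
    have h3 : T x y ^ 2 ≤ M ^ 2 := by
      rw [← sq_abs]; exact pow_le_pow_left₀ (abs_nonneg _) (hM x y) 2
    linarith
  have hzero : ∀ x, avg w (fun y => T x y) = 0 := by
    intro x
    simp only [T, avg_mul_const, avg_finset_sum]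
    refine mul_eq_zero_of_right _ (Finset.sum_eq_zero fun a _ => ?_)
    rw [avg_sub, avg_const hw, sub_self, mul_zero]
  calc avg w (fun x => avg w fun y => Real.exp (T x y))
      ≤ avg w (fun x => avg w fun y => (1 + M ^ 2) + T x y) :=
        avg_mono hw fun x => avg_mono hw fun y => hexp x y
    _ = 1 + M ^ 2 := by simp only [avg_add, avg_const hw, hzero, add_zero]

theorem chZ_eq (hβ : 0 ≤ β) (x : CIdx G D K → ℝ) :
    chZ G β hv D K x = chNorm G β hv D K *
      ∑ η : D → Bool, fieldWeight G (chTh β ((K : ℝ) * hv)) D (obsH G β D (drv x) K) η := by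
  simp only [chZ, posterior_eq hβ, ← Finset.mul_sum]

theorem expGrowth_chEn_inv (ok : ChOk β hv K) :
    ExpGrowth fun x => (chEn G β hv D K x)⁻¹ := by
  simp only [chEn, ← Real.exp_neg]
  refine expGrowth_exp ?_
    (A := (K : ℝ) * ((dirE G D).card * (2 * (hv : ℝ) * chLam β ^ 2))) (B := 2 * chLam β) fun x => ?_
  · refine (Finset.measurable_sum _ fun j _ => Finset.measurable_sum _ fun a _ => ?_).neg
    exact (((measurable_chDrift_comp _ D j a (measurable_obsH_apply j)).mul
      (measurable_drv j a)).sub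
      (((measurable_chDrift_comp _ D j a (measurable_obsH_apply j)).pow_const 2).div_const 2)).div_const _
  · have e : (K : ℝ) * ((dirE G D).card * (2 * (hv : ℝ) * chLam β ^ 2)) =
        ∑ _j ∈ Finset.range K, ∑ _a ∈ dirE G D, 2 * (hv : ℝ) * chLam β ^ 2 := by simp
    rw [← sum_drv, enExpo, ← Finset.sum_neg_distrib, Finset.mul_sum, e, ← Finset.sum_add_distrib]
    refine Finset.sum_le_sum fun j hj => ?_
    rw [← Finset.sum_neg_distrib, Finset.mul_sum, ← Finset.sum_add_distrib]
    refine Finset.sum_le_sum fun a _ => ?_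
    have hd := abs_chDrift_le (G := G) (D := D) ok (Finset.mem_range.mp hj).le
      (obsH G β D (drv x) j) a
    set c := chDrift G β hv D j (obsH G β D (drv x) j) a
    rw [← neg_div, div_le_iff₀ ok.step_pos]
    nlinarith [abs_mul c (drv x j a), neg_abs_le (c * drv x j a),
      mul_le_mul_of_nonneg_right hd (abs_nonneg (drv x j a)),
      pow_le_pow_left₀ (abs_nonneg c) hd 2, sq_abs c]

theorem step_second_moment (ok : ChOk β hv (K + 1))
    (hM1 : 8 * (hv : ℝ) * β * (dirE G D).card ≤ 1) (x : CIdx G D K → ℝ) :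
    ∫ z, chZ G β hv D (K + 1) (joinStep x z) ^ 2 * (chEn G β hv D (K + 1) (joinStep x z))⁻¹
        ∂gaussPi (dirE G D) hv ≤
      chZ G β hv D K x ^ 2 * (chEn G β hv D K x)⁻¹ *
        (1 + (8 * (hv : ℝ) * β * (dirE G D).card) ^ 2) := by
  set h := (hv : ℝ) with hh
  have hh0 : 0 < h := ok.step_pos
  set lam := chLam β
  set Hx := obsH G β D (drv x) K
  set th := chTh β ((K : ℝ) * h)
  set w := fieldWeight G th D Hx with hw
  have th0 : 0 ≤ th := ok.th_nonneg (Nat.le_succ K)
  have th1 : th < 1 := chTh_lt_one _ _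
  have hwpos : ∀ η, 0 < w η := fieldWeight_pos th0 th1 D Hx
  set S := fun (η : D → Bool) (a : dirE G D) => edgeSpin (a : V × V) (extCfg η) with hS
  set m := fun a : dirE G D => avg w fun η => S η a with hm
  set c := lastDrift G β h D K x with hc
  have hcm : ∀ a, c a = h * lam * m a := by
    intro a
    simp only [hc, lastDrift, chDrift, hm, hS, edgeSpin, avg_add, lam]
    rfl
  set u := fun η : D → Bool => freeWeight G (Real.tanh β) D η *
    Real.exp (chExpo G β h D (extCfg η) (drv x) K) with hu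
  have huw : ∀ η, u η = chNorm G β h D K * w η := fun η => posterior_eq ok.beta_nonneg D _ K η
  set E := fun η η' : D → Bool => Real.exp (h * lam ^ 2 * ∑ a, (S η a - m a) * (S η' a - m a))
  set q := fun (η η' : D → Bool) (a : dirE G D) => lam * (S η a + S η' a - m a)
  set kk := fun (η η' : D → Bool) =>
    ∑ a, (h * lam ^ 2 / 2) * (m a ^ 2 - S η a ^ 2 - S η' a ^ 2)
  have hpoint : ∀ z, chZ G β h D (K + 1) (joinStep x z) ^ 2 *
      (chEn G β h D (K + 1) (joinStep x z))⁻¹ = (chEn G β h D K x)⁻¹ *
        ∑ η, ∑ η', u η * u η' * Real.exp (kk η η') * Real.exp (∑ a, q η η' a * z a) := by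
    intro z
    have hEx : ∀ s, chExpo G β h D s (drv (joinStep x z)) (K + 1) = chExpo G β h D s (drv x) K +
        ∑ a : dirE G D, (lam * edgeSpin (a : V × V) s * z a -
          h * lam ^ 2 * edgeSpin (a : V × V) s ^ 2 / 2) := fun s => chExpo_joinStep s x z
    have hEn : chEn G β h D (K + 1) (joinStep x z) = chEn G β h D K x *
        Real.exp (∑ a, (c a * z a - c a ^ 2 / 2) / h) := chEn_joinStep x z
    rw [hEn, mul_inv, ← Real.exp_neg]
    simp only [chZ, hEx, Real.exp_add, ← mul_assoc, sq (∑ η, _), Finset.sum_mul_sum,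
      Finset.mul_sum, Finset.sum_mul]
    refine Finset.sum_congr rfl fun η _ => Finset.sum_congr rfl fun η' _ => ?_
    have key : Real.exp (∑ a, (lam * S η a * z a - h * lam ^ 2 * S η a ^ 2 / 2)) *
        Real.exp (∑ a, (lam * S η' a * z a - h * lam ^ 2 * S η' a ^ 2 / 2)) *
        Real.exp (-∑ a, (c a * z a - c a ^ 2 / 2) / h) =
        Real.exp (kk η η') * Real.exp (∑ a, q η η' a * z a) := by
      simp only [← Real.exp_add, kk, q, ← Finset.sum_add_distrib, ← sub_eq_add_neg,
        ← Finset.sum_sub_distrib]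
      congr 1
      refine Finset.sum_congr rfl fun a _ => ?_
      rw [hcm]
      field_simp
      ring
    linear_combination ((chEn G β h D K x)⁻¹ * (u η * u η')) * key
  have hint : ∀ η η', Integrable (fun z : dirE G D → ℝ =>
      u η * u η' * Real.exp (kk η η') * Real.exp (∑ a, q η η' a * z a)) (gaussPi (dirE G D) hv) := by
    intro η η'
    refine ((expGrowth_exp (by fun_prop) (A := 0) (B := ∑ a, |q η η' a|) fun z => ?_).integrable
      hv).const_mul _
    rw [zero_add, Finset.sum_mul]
    refine Finset.sum_le_sum fun a _ => (le_abs_self _).trans ?_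
    rw [abs_mul]
    exact mul_le_mul_of_nonneg_left
      (Finset.single_le_sum (f := fun b => |z b|) (fun b _ => abs_nonneg _) (Finset.mem_univ a))
      (abs_nonneg _)
  have hint1 : ∀ η, Integrable (fun z : dirE G D → ℝ => ∑ η',
      u η * u η' * Real.exp (kk η η') * Real.exp (∑ a, q η η' a * z a)) (gaussPi (dirE G D) hv) :=
    fun η => integrable_finsetSum _ fun η' _ => hint η η'
  have hint2 : ∀ η η', ∫ z, u η * u η' * Real.exp (kk η η') * Real.exp (∑ a, q η η' a * z a)
      ∂gaussPi (dirE G D) hv = u η * u η' * E η η' := by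
    intro η η'
    rw [integral_const_mul, integral_exp_linear _ ok.step_ne, mul_assoc, ← Real.exp_add]
    simp only [E, kk, q, ← hh, Finset.mul_sum, ← Finset.sum_add_distrib]
    congr 2
    exact Finset.sum_congr rfl fun a _ => by ring
  simp only [hpoint]
  rw [integral_const_mul, integral_finsetSum _ fun η _ => hint1 η,
    Finset.sum_congr rfl fun η _ => integral_finsetSum _ fun η' _ => hint η η']
  simp only [hint2]
  have hsumu : ∑ η, u η = chZ G β h D K x := rfl
  have hS2 : ∀ η a, |S η a - m a| ≤ 4 := by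
    intro η a
    have h1 := abs_edgeSpin_le (a : V × V) (extCfg η)
    have h2 : |m a| ≤ 2 := abs_avg_le hwpos fun η' => abs_edgeSpin_le (a : V × V) (extCfg η')
    exact (abs_sub _ _).trans (by linarith)
  have hbd : avg w (fun η => avg w fun η' => E η η') ≤
      1 + (8 * h * β * (dirE G D).card) ^ 2 := by
    refine avg_avg_exp_le hwpos (h * lam ^ 2) S (fun η η' => ?_) hM1
    rw [abs_mul, abs_of_nonneg (by positivity : 0 ≤ h * lam ^ 2)]
    refine (mul_le_mul_of_nonneg_left ((Finset.abs_sum_le_sum_abs _ _).trans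
      (Finset.sum_le_sum (g := fun _ => (16 : ℝ)) fun a _ => ?_)) (by positivity)).trans
      (le_of_eq ?_)
    · rw [abs_mul]
      calc _ ≤ (4 : ℝ) * 4 := mul_le_mul (hS2 η a) (hS2 η' a) (abs_nonneg _) (by norm_num)
        _ = 16 := by norm_num
    · simp only [lam, chLam_sq ok.beta_nonneg, Finset.sum_const, Finset.card_univ,
        Fintype.card_coe, nsmul_eq_mul]
      ring
  have hdbl : ∑ η, ∑ η', u η * u η' * E η η' =
      chZ G β h D K x ^ 2 * avg w (fun η => avg w fun η' => E η η') := by
    have hne : (∑ η, w η) ≠ 0 := ne_of_gt (sum_weight_pos hwpos)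
    have e1 : ∀ η, w η * avg w (fun η' => E η η') = (∑ η', w η * w η' * E η η') / ∑ η', w η' :=
      fun η => by simp only [avg, ← mul_div_assoc, Finset.mul_sum, mul_assoc]
    rw [← hsumu, avg]
    simp only [e1, ← Finset.sum_div, huw, ← Finset.mul_sum]
    field_simp
    simp only [Finset.mul_sum]
    exact Finset.sum_congr rfl fun η _ => Finset.sum_congr rfl fun η' _ => by ring
  rw [hdbl]
  calc (chEn G β h D K x)⁻¹ * (chZ G β h D K x ^ 2 * avg w (fun η => avg w fun η' => E η η'))
      ≤ (chEn G β h D K x)⁻¹ * (chZ G β h D K x ^ 2 * (1 + (8 * h * β * (dirE G D).card) ^ 2)) :=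
        mul_le_mul_of_nonneg_left (mul_le_mul_of_nonneg_left hbd (sq_nonneg _))
          (inv_nonneg.mpr (Real.exp_pos _).le)
    _ = _ := by ring

theorem second_moment (hone : ∑ η : D → Bool, freeWeight G (Real.tanh β) D η = 1)
    (hM1 : 8 * (hv : ℝ) * β * (dirE G D).card ≤ 1) : ∀ {K : ℕ}, ChOk β hv K →
    ∫ x, chZ G β hv D K x ^ 2 * (chEn G β hv D K x)⁻¹ ∂gaussPi (CIdx G D K) hv ≤
      (1 + (8 * (hv : ℝ) * β * (dirE G D).card) ^ 2) ^ K
  | 0, _ => by simp [chZ, chEn, enExpo, chExpo, hone]
  | K + 1, ok => by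
    have ok' := ok.mono (Nat.le_succ K)
    have hg := (expGrowth_chZ (G := G) (D := D) ok).sq.mul (expGrowth_chEn_inv ok)
    rw [integral_joinStep hv hg]
    refine (integral_mono ((hg.integral_slice hv).integrable hv)
      (((expGrowth_chZ ok').sq.mul (expGrowth_chEn_inv ok')).integrable hv |>.mul_const _)
      fun x => step_second_moment ok hM1 x).trans ?_
    rw [integral_mul_const, pow_succ]
    exact mul_le_mul_of_nonneg_right (second_moment hone hM1 ok')
      (add_nonneg zero_le_one (sq_nonneg _))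

/-- Observations and Euler observations have close laws. -/
theorem abs_integral_chZ_sub_le (ok : ChOk β hv K)
    (hone : ∑ η : D → Bool, freeWeight G (Real.tanh β) D η = 1)
    (hM1 : 8 * (hv : ℝ) * β * (dirE G D).card ≤ 1)
    {g : (CIdx G D K → ℝ) → ℝ} (hg : ExpGrowth g) {t : ℝ} (ht : 0 < t) :
    |∫ x, chZ G β hv D K x * g (innovVec G β hv D K x) ∂gaussPi (CIdx G D K) hv -
        ∫ x, g x ∂gaussPi (CIdx G D K) hv| ≤
      t * ((1 + (8 * (hv : ℝ) * β * (dirE G D).card) ^ 2) ^ K - 1) +
        1 / t * ∫ x, g x ^ 2 ∂gaussPi (CIdx G D K) hv := by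
  set Z := chZ G β hv D K
  set En := chEn G β hv D K
  set F := fun x => g (innovVec G β hv D K x)
  have gZ := expGrowth_chZ (G := G) (D := D) ok
  have gE := expGrowth_chEn (G := G) (D := D) ok
  have gI := expGrowth_chEn_inv (G := G) (D := D) ok
  have gF : ExpGrowth F := expGrowth_comp_innov ok hg
  rw [← integral_chEn_innov (G := G) (D := D) ok hg,
    ← integral_chEn_innov (G := G) (D := D) ok hg.sq,
    ← integral_sub ((gZ.mul gF).integrable hv) ((gE.mul gF).integrable hv)]
  have i1 : Integrable (fun x => Z x ^ 2 * (En x)⁻¹) (gaussPi (CIdx G D K) hv) :=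
    (gZ.sq.mul gI).integrable hv
  have i2 : Integrable (fun x => 2 * Z x) (gaussPi (CIdx G D K) hv) :=
    (gZ.const_mul 2).integrable hv
  have i3 : Integrable En (gaussPi (CIdx G D K) hv) := gE.integrable hv
  have i4 : Integrable (fun x => En x * F x ^ 2) (gaussPi (CIdx G D K) hv) :=
    (gE.mul gF.sq).integrable hv
  have i12 : Integrable (fun x => Z x ^ 2 * (En x)⁻¹ - 2 * Z x) (gaussPi (CIdx G D K) hv) :=
    i1.sub i2
  have i123 : Integrable (fun x => Z x ^ 2 * (En x)⁻¹ - 2 * Z x + En x)
      (gaussPi (CIdx G D K) hv) := i12.add i3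
  have key : ∀ x, |Z x * F x - En x * F x| ≤
      t * (Z x ^ 2 * (En x)⁻¹ - 2 * Z x + En x) + 1 / t * (En x * F x ^ 2) := by
    intro x
    have he : 0 < En x := Real.exp_pos _
    set u := (Z x - En x) with hu
    have e : Z x ^ 2 * (En x)⁻¹ - 2 * Z x + En x = u ^ 2 / En x := by
      rw [hu]; field_simp; ring
    rw [e, ← sub_mul, abs_mul]
    have e2 : t * (u ^ 2 / En x) + 1 / t * (En x * F x ^ 2) - |u| * |F x| =
        ((t * |u| - En x * |F x|) ^ 2 + t * En x * (|u| * |F x|)) / (t * En x) := by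
      field_simp
      rw [← sq_abs u, ← sq_abs (F x)]
      ring
    have : 0 ≤ ((t * |u| - En x * |F x|) ^ 2 + t * En x * (|u| * |F x|)) / (t * En x) := by
      positivity
    linarith
  refine (abs_integral_le_integral_abs).trans ((integral_mono
    (((gZ.mul gF).sub (gE.mul gF)).integrable hv).abs
    ((i123.const_mul t).add (i4.const_mul (1 / t))) key).trans (le_of_le_of_eq ?_ rfl))
  simp only [Pi.add_apply]
  rw [integral_add (i123.const_mul t) (i4.const_mul (1 / t)), integral_const_mul,
    integral_const_mul, integral_add i12 i3, integral_sub i1 i2, integral_const_mul,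
    integral_chZ ok hone, integral_chEn ok]
  refine add_le_add (mul_le_mul_of_nonneg_left ?_ ht.le) le_rfl
  linarith [second_moment hone hM1 ok]

theorem innovVec_eulerVec (z : CIdx G D K → ℝ) :
    innovVec G β hv D K (eulerVec G β hv D K z) = z := by
  funext q
  have e : chInnov G β hv D (drv (eulerVec G β hv D K z)) q.2 q.1 =
      chInnov G β hv D (eulerInc G β hv D (drv z)) q.2 q.1 := by
    unfold chInnov
    rw [obsH_congr D (b' := eulerInc G β hv D (drv z)) fun j hj a ha => ?_, drv_coord]
    · rfl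
    · rw [drv_apply _ (hj.trans q.2.isLt) ha]; rfl
  rw [innovVec, e, chInnov_eulerInc, drv_coord]

theorem eulerH_innovVec (x : CIdx G D K → ℝ) {i : ℕ} (hi : i ≤ K) :
    eulerH G β hv D (drv (innovVec G β hv D K x)) i = obsH G β D (drv x) i := by
  rw [← eulerH_chInnov (h := (hv : ℝ)) D (drv x) i]
  exact eulerH_congr D i fun j hj a ha => by rw [drv_apply _ (lt_of_lt_of_le hj hi) ha]; rfl

theorem eulerVec_innovVec (x : CIdx G D K → ℝ) :
    eulerVec G β hv D K (innovVec G β hv D K x) = x := by
  funext q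
  rw [eulerVec, eulerInc, eulerH_innovVec x q.2.isLt.le, drv_coord, innovVec, chInnov, drv_coord,
    sub_add_cancel]

end Vale.Agent.P161
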