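import Vale.Agent.P161.Crit.Spin

/-!
# Monotonicity of the mean squared magnetisations in time and volume
-/

namespace Vale.Agent.P161

open SimpleGraph MeasureTheory ProbabilityTheory Filter
open scoped Classical NNReal Topology

variable {V : Type*}

/-- A finite volume: convex and connected. -/
structure IsVol (G : SimpleGraph V) (D : Finset V) : Prop where
  convex : IsConvexSet G D
  conn : (G.induce (D : Set V)).Connected

/-- The time average of the mean squared magnetisation at level `j`. -/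
noncomputable def sqS (G : SimpleGraph V) (β : ℝ) (D : Finset V) (w : V) (j : ℕ) : ℝ :=
  ∑ i ∈ Finset.range (2 ^ j), (stepLen j : ℝ) * magnSq G β D w ((i : ℝ≥0) * stepLen j)

variable {G : SimpleGraph V} {β : ℝ} {hv : ℝ≥0} {D D' : Finset V} {d i : ℕ}
  {μ : Measure (V → Bool)}

theorem stepLen_mul_pow (j : ℕ) : ((2 ^ j : ℕ) : ℝ) * (stepLen j : ℝ) = 1 := by
  rw [stepLen_coe]; push_cast; rw [← mul_pow]; norm_num

theorem chOk_stepLen (hβ : 0 ≤ β) (j : ℕ) {K : ℕ} (hK : K ≤ 2 ^ j) : ChOk β (stepLen j) K := by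
  refine ⟨hβ, stepLen_ne_zero j, ?_⟩
  rw [← stepLen_mul_pow j]
  exact mul_le_mul_of_nonneg_right (by exact_mod_cast hK) (NNReal.coe_nonneg _)

theorem sum_freeWeight_eq_one {θ : ℝ} (h0 : 0 ≤ θ) (h1 : θ < 1) (hμ : IsFreeIsing G θ μ)
    (hD : (G.induce (D : Set V)).Connected) : ∑ η : D → Bool, freeWeight G θ D η = 1 := by
  haveI := hμ.1
  have h := integral_restrict h0 h1 hμ hD (fun _ => (1 : ℝ))
  simpa [smul_eq_mul] using h.symm

theorem magnSq_le_one (h0 : 0 ≤ Real.tanh β) (hβ : 0 ≤ β) (hμ : IsFreeIsing G (Real.tanh β) μ)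
    (hD : (G.induce (D : Set V)).Connected) (w : V) {r : ℝ≥0} (hr : (r : ℝ) ≤ 1) :
    magnSq G β D w r ≤ 1 := by
  rw [magnSq, ← sum_freeWeight_eq_one h0 (Real.tanh_lt_one β) hμ hD]
  refine Finset.sum_le_sum fun η _ => mul_le_of_le_one_right
    (freeWeight_pos h0 (Real.tanh_lt_one β) D η).le ?_
  refine (le_abs_self _).trans ?_
  rw [← Real.norm_eq_abs]
  refine (norm_integral_le_of_norm_le_const (ae_of_all _ fun y => ?_)).trans
    (by rw [probReal_univ, mul_one])
  rw [Real.norm_eq_abs, abs_pow]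
  exact pow_le_one₀ (abs_nonneg _) (abs_magn_le (chTh_nonneg hβ hr) (chTh_lt_one _ _) D w _)

theorem obsExp_magn_next (ok : ChOk β hv (i + 1)) (w : V) :
    obsExp G β hv D (i + 1) (fun b => obsMagn G β hv D w i b * obsMagn G β hv D w (i + 1) b) =
      magnSq G β D w ((i : ℝ≥0) * hv) := by
  have oki : ChOk β hv i := ok.mono (Nat.le_succ i)
  have hc : ∀ b b' : ℕ → V × V → ℝ, (∀ j < i, ∀ e ∈ dirE G D, b j e = b' j e) →
      obsMagn G β hv D w i b = obsMagn G β hv D w i b' := fun b b' hb => obsMagn_congr w hb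
  have e1 := spinExp_magn ok le_rfl (fun b b' hb => hc b b' fun j hj => hb j (hj.trans_le (Nat.le_succ i)))
    (pathBdd_obsMagn oki w) w (g := obsMagn G β hv D w i)
  rw [e1, spinExp_lift hc (pathBdd_obsMagn oki w) (fun η => sp w (extCfg η)) 1 ok,
    ← obsExp_magn_sq oki w]
  rw [← obsExp_avg oki (pathBdd_obsMagn oki w)]
  exact congrArg _ (funext fun b => by rw [sq]; rfl)

theorem obsExp_magn_sq_lift {K : ℕ} (ok : ChOk β hv K) (hi : i ≤ K) (w : V) :
    obsExp G β hv D K (fun b => obsMagn G β hv D w i b ^ 2) =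
      magnSq G β D w ((i : ℝ≥0) * hv) := by
  obtain ⟨k, rfl⟩ := Nat.exists_eq_add_of_le hi
  have oki : ChOk β hv i := ok.mono (Nat.le_add_right i k)
  rw [obsExp_lift (fun b b' hb => by rw [obsMagn_congr w hb]) (by
    simpa only [sq] using (pathBdd_obsMagn oki w).mul (pathBdd_obsMagn oki w)) k ok,
    obsExp_magn_sq oki w]

theorem magnSq_mono_time (ok : ChOk β hv (i + 1)) (w : V) :
    magnSq G β D w ((i : ℝ≥0) * hv) ≤ magnSq G β D w (((i + 1 : ℕ) : ℝ≥0) * hv) := by
  set a := obsMagn G β hv D w i with ha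
  set b' := obsMagn G β hv D w (i + 1) with hb'
  have ba : PathBdd G D (i + 1) a := pathBdd_obsMagn (ok.mono (Nat.le_succ i)) w
  have bb : PathBdd G D (i + 1) b' := pathBdd_obsMagn ok w
  have baa : PathBdd G D (i + 1) fun b => a b ^ 2 := by simpa only [sq] using ba.mul ba
  have bbb : PathBdd G D (i + 1) fun b => b' b ^ 2 := by simpa only [sq] using bb.mul bb
  have h := obsExp_mono ok ((ba.mul bb).const_mul 2) (baa.add bbb) fun x => by
    nlinarith [sq_nonneg (a (drv x) - b' (drv x))]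
  rw [obsExp_const_mul, obsExp_add ok baa bbb, ha, hb', obsExp_magn_next ok w,
    obsExp_magn_sq_lift ok (Nat.le_succ i) w, obsExp_magn_sq_lift ok le_rfl w] at h
  linarith

/-- The squared difference of the magnetisations in two volumes. -/
theorem obsExp_magn_diff (h0 : 0 ≤ Real.tanh β) (hμ : IsFreeIsing G (Real.tanh β) μ)
    (hsub : D ⊆ D') (hD : (G.induce (D : Set V)).Connected)
    (hD' : (G.induce (D' : Set V)).Connected) {K : ℕ} (ok : ChOk β hv K) (hi : i ≤ K) {w : V}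
    (hw : w ∈ D) :
    obsExp G β hv D' K (fun b => (obsMagn G β hv D' w i b - obsMagn G β hv D w i b) ^ 2) =
      magnSq G β D' w ((i : ℝ≥0) * hv) - magnSq G β D w ((i : ℝ≥0) * hv) := by
  have oki : ChOk β hv i := ok.mono hi
  set m := obsMagn G β hv D w i with hm
  set m' := obsMagn G β hv D' w i with hm'
  have bm : ∀ {n}, PathBdd G D n m := fun {n} => pathBdd_obsMagn oki w
  have hcD : ∀ b b' : ℕ → V × V → ℝ, (∀ j < i, ∀ e ∈ dirE G D, b j e = b' j e) → m b = m b' :=
    fun b b' hb => obsMagn_congr w hb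
  have hobs : ∀ (n : ℕ) (x : CIdx G D' n → ℝ), m (drv x) = m (drv fun q => x (resIdx hsub q)) :=
    fun n x => hcD _ _ fun j _ e he => (drv_resIdx hsub x he j).symm
  have bmD' : ∀ {n}, PathBdd G D' n m := by
    intro n
    refine ⟨?_, 1, fun x => ?_⟩
    · rw [funext (hobs n)]
      exact Measurable.comp (g := fun y : CIdx G D n → ℝ => m (drv y)) bm.1
        (measurable_pi_lambda _ fun q => measurable_pi_apply (resIdx hsub q))
    · exact abs_magn_le (oki.th_nonneg le_rfl) (chTh_lt_one _ _) D w _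
  have bm' : PathBdd G D' K m' := pathBdd_obsMagn oki w
  have bmm' : PathBdd G D' K fun b => m' b ^ 2 := by simpa only [sq] using bm'.mul bm'
  have bmm : PathBdd G D' K fun b => m b ^ 2 := by
    simpa only [sq] using (bmD' (n := K)).mul bmD'
  have bmmD : PathBdd G D K fun b => m b ^ 2 := by simpa only [sq] using (bm (n := K)).mul bm
  have e : (fun b => (m' b - m b) ^ 2) = fun b => m' b ^ 2 + ((-2) * (m b * m' b) + m b ^ 2) :=
    funext fun b => by ring
  rw [e, obsExp_add ok bmm' (((bmD'.mul bm').const_mul (-2)).add bmm),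
    obsExp_add ok ((bmD'.mul bm').const_mul (-2)) bmm, obsExp_const_mul]
  have h1 : obsExp G β hv D' K (fun b => m' b ^ 2) = magnSq G β D' w ((i : ℝ≥0) * hv) :=
    obsExp_magn_sq_lift ok hi w
  have hcD' : ∀ b b' : ℕ → V × V → ℝ, (∀ j < i, ∀ e ∈ dirE G D', b j e = b' j e) → m b = m b' :=
    fun b b' hb => hcD b b' fun j hj e he => hb j hj e (dirE_mono hsub he)
  have hspw : ∀ η : D' → Bool,
      sp w (extCfg η) = sp w (extCfg fun u : D => η ⟨u, hsub u.2⟩) := fun η => by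
    simp only [sp]; rw [extCfg_of_mem _ hw, extCfg_of_mem _ (hsub hw)]
  have hK : ∀ b b' : ℕ → V × V → ℝ, (∀ j < K, ∀ e ∈ dirE G D, b j e = b' j e) → m b = m b' :=
    fun b b' hb => hcD b b' fun j hj => hb j (hj.trans_le hi)
  have h2 : obsExp G β hv D' K (fun b => m b * m' b) = magnSq G β D w ((i : ℝ≥0) * hv) := by
    rw [hm', spinExp_magn ok hi hcD' bmD' w]
    simp only [hspw]
    rw [spinExp_consistent h0 hμ hsub hD hD' ok bm hK (fun η => sp w (extCfg η)),
      ← spinExp_magn ok hi hcD bm w, ← obsExp_magn_sq_lift ok hi w]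
    exact congrArg _ (funext fun b => (sq _).symm)
  have h3 : obsExp G β hv D' K (fun b => m b ^ 2) = magnSq G β D w ((i : ℝ≥0) * hv) := by
    rw [obsExp_eq_spinExp ok bmm]
    have hc2 : ∀ b b' : ℕ → V × V → ℝ, (∀ j < K, ∀ e ∈ dirE G D, b j e = b' j e) →
        m b ^ 2 = m b' ^ 2 := fun b b' hb => by rw [hK b b' hb]
    have hcs := spinExp_consistent h0 hμ hsub hD hD' ok bmmD hc2 (fun _ => (1 : ℝ))
    simp only [mul_one] at hcs
    rw [hcs, ← obsExp_eq_spinExp ok bmmD]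
    exact obsExp_magn_sq_lift ok hi w
  rw [h1, h2, h3]
  ring

theorem magnSq_mono_vol (h0 : 0 ≤ Real.tanh β) (hμ : IsFreeIsing G (Real.tanh β) μ)
    (hsub : D ⊆ D') (hD : (G.induce (D : Set V)).Connected)
    (hD' : (G.induce (D' : Set V)).Connected) (ok : ChOk β hv i) {w : V} (hw : w ∈ D) :
    magnSq G β D w ((i : ℝ≥0) * hv) ≤ magnSq G β D' w ((i : ℝ≥0) * hv) := by
  have h := obsExp_magn_diff h0 hμ hsub hD hD' ok le_rfl hw
  have := obsExp_nonneg (G := G) (D := D') ok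
    (F := fun b => (obsMagn G β hv D' w i b - obsMagn G β hv D w i b) ^ 2) fun x => sq_nonneg _
  linarith

theorem sqS_mono_vol (h0 : 0 ≤ Real.tanh β) (hβ : 0 ≤ β) (hμ : IsFreeIsing G (Real.tanh β) μ)
    (hsub : D ⊆ D') (hD : (G.induce (D : Set V)).Connected)
    (hD' : (G.induce (D' : Set V)).Connected) {w : V} (hw : w ∈ D) (j : ℕ) :
    sqS G β D w j ≤ sqS G β D' w j :=
  Finset.sum_le_sum fun _ hi => mul_le_mul_of_nonneg_left (magnSq_mono_vol h0 hμ hsub hD hD'
    (chOk_stepLen hβ j (Finset.mem_range.mp hi).le) hw) (NNReal.coe_nonneg _)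

theorem stepLen_half (j : ℕ) : stepLen j = 2 * stepLen (j + 1) := by
  apply NNReal.coe_injective
  push_cast [stepLen_succ]
  ring

theorem sqS_refine (hβ : 0 ≤ β) (w : V) (j : ℕ) : sqS G β D w j ≤ sqS G β D w (j + 1) := by
  set a := fun i : ℕ => magnSq G β D w ((i : ℝ≥0) * stepLen (j + 1)) with ha
  have hpair : ∑ k ∈ Finset.range (2 ^ (j + 1)), (stepLen (j + 1) : ℝ) * a k =
      ∑ i ∈ Finset.range (2 ^ j), ((stepLen (j + 1) : ℝ) * a (2 * i) +
        (stepLen (j + 1) : ℝ) * a (2 * i + 1)) := by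
    rw [pow_succ', sum_pairs]
  rw [sqS, sqS, hpair]
  refine Finset.sum_le_sum fun i hi => ?_
  have hi' := Finset.mem_range.mp hi
  have e : (i : ℝ≥0) * stepLen j = ((2 * i : ℕ) : ℝ≥0) * stepLen (j + 1) := by
    rw [stepLen_half j]; push_cast; ring
  have hm := magnSq_mono_time (G := G) (D := D) (i := 2 * i)
    (chOk_stepLen hβ (j + 1) (K := 2 * i + 1) (by rw [pow_succ]; omega)) w
  rw [e, stepLen_half j]
  simp only [ha]
  push_cast at hm ⊢
  have h0 := NNReal.coe_nonneg (stepLen (j + 1))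
  linarith [mul_le_mul_of_nonneg_left hm h0]

theorem sqS_le_one (h0 : 0 ≤ Real.tanh β) (hβ : 0 ≤ β) (hμ : IsFreeIsing G (Real.tanh β) μ)
    (hD : (G.induce (D : Set V)).Connected) (w : V) (j : ℕ) : sqS G β D w j ≤ 1 := by
  calc sqS G β D w j ≤ ∑ _i ∈ Finset.range (2 ^ j), (stepLen j : ℝ) * 1 := by
        refine Finset.sum_le_sum fun i hi => mul_le_mul_of_nonneg_left
          (magnSq_le_one h0 hβ hμ hD w ?_) (NNReal.coe_nonneg _)
        exact (chOk_stepLen hβ j (Finset.mem_range.mp hi).le).time_le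
    _ = 1 := by
        rw [Finset.sum_const, Finset.card_range, nsmul_eq_mul, mul_one]
        exact stepLen_mul_pow j

/-- Large volumes and fine levels nearly attain the supremum. -/
theorem exists_sq_close (hG : G.IsTree) (hd : 3 ≤ d) (hreg : ∀ v, (G.neighborSet v).ncard = d)
    (h0 : 0 ≤ Real.tanh β) (hβ : 0 ≤ β) (hμ : IsFreeIsing G (Real.tanh β) μ) (w : V) {ε : ℝ}
    (hε : 0 < ε) :
    ∃ n₀ j₀ : ℕ, ∀ D D' : Finset V, IsVol G D → IsVol G D' → ballSet hG hd hreg w n₀ ⊆ D →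
      D ⊆ D' → ∀ j, j₀ ≤ j → sqS G β D' w j - sqS G β D w j ≤ ε := by
  set B := fun n => ballSet hG hd hreg w n with hB
  have hconn : ∀ n, (G.induce (B n : Set V)).Connected := ballSet_connected hG hd hreg w
  have hw : ∀ n, w ∈ B n := fun n => by simp [hB, mem_ballSet]
  set f := fun p : ℕ × ℕ => sqS G β (B p.1) w p.2 with hf
  have hbdd : BddAbove (Set.range f) := ⟨1, by
    rintro _ ⟨p, rfl⟩; exact sqS_le_one h0 hβ hμ (hconn _) w _⟩
  obtain ⟨⟨n₀, j₀⟩, hp⟩ := exists_lt_of_lt_ciSup (show (⨆ p, f p) - ε < ⨆ p, f p by linarith)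
  refine ⟨n₀, j₀, fun D D' vD vD' hsub0 hsub j hj => ?_⟩
  set N := D'.sup (fun x => G.dist w x)
  have hN : D' ⊆ B N := fun x hx => by
    simp only [hB, mem_ballSet]; exact Finset.le_sup (f := fun x => G.dist w x) hx
  have hwD : w ∈ D := hsub0 (hw n₀)
  have h1 : sqS G β D' w j ≤ ⨆ p, f p :=
    (sqS_mono_vol h0 hβ hμ hN vD'.conn (hconn N) (hsub hwD) j).trans (le_ciSup hbdd (N, j))
  have h2 : f (n₀, j₀) ≤ sqS G β D w j :=
    le_trans (monotone_nat_of_le_succ (fun k => sqS_refine (G := G) (D := B n₀) hβ w k) hj)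
      (sqS_mono_vol h0 hβ hμ hsub0 (hconn n₀) vD.conn (hw n₀) j)
  linarith

/-- The accumulated squared difference of two volumes along a level. -/
theorem sum_magn_diff (h0 : 0 ≤ Real.tanh β) (hβ : 0 ≤ β) (hμ : IsFreeIsing G (Real.tanh β) μ)
    (hsub : D ⊆ D') (hD : (G.induce (D : Set V)).Connected)
    (hD' : (G.induce (D' : Set V)).Connected) (j : ℕ) {w : V} (hw : w ∈ D) :
    ∑ i ∈ Finset.range (2 ^ j), (stepLen j : ℝ) * obsExp G β (stepLen j) D' (2 ^ j)
        (fun b => (obsMagn G β (stepLen j) D' w i b - obsMagn G β (stepLen j) D w i b) ^ 2) =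
      sqS G β D' w j - sqS G β D w j := by
  rw [sqS, sqS, ← Finset.sum_sub_distrib]
  refine Finset.sum_congr rfl fun i hi => ?_
  rw [obsExp_magn_diff h0 hμ hsub hD hD' (chOk_stepLen hβ j le_rfl) (Finset.mem_range.mp hi).le hw,
    mul_sub]

end Vale.Agent.P161
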