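import Vale.Agent.P161.Crit.Spin
import Vale.Agent.P161.Symm

/-!
# Transport of block variances, and automorphisms
-/

namespace Vale.Agent.P161

open SimpleGraph MeasureTheory ProbabilityTheory
open scoped Classical NNReal

variable {V : Type*} {G : SimpleGraph V} {β h : ℝ}

theorem blockVar_comp {ι κ : Type*} [Fintype ι] [Fintype κ] (v : ℝ≥0) {e : ι → κ}
    (he : Function.Injective e) (S : Finset ι) (S' : Finset κ) (hS : ∀ q, e q ∈ S' ↔ q ∈ S)
    {F : (ι → ℝ) → ℝ} (hF : Measurable F) :
    blockVar v S' (fun x => F fun q => x (e q)) = blockVar v S F := by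
  have havg : ∀ x : κ → ℝ, avgSet v S' (fun x => F fun q => x (e q)) x =
      avgSet v S F (fun q => x (e q)) := by
    intro x
    unfold avgSet
    have hm : Measurable fun y : ι → ℝ => F (S.piecewise y fun q => x (e q)) :=
      hF.comp (Measurable.comp (measurable_piecewise S)
        (f := fun y : ι → ℝ => (y, fun q => x (e q))) (measurable_id.prodMk measurable_const))
    rw [← integral_comp_gauss v he hm]
    refine integral_congr_ae (ae_of_all _ fun y => congrArg F (funext fun q => ?_))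
    by_cases hq : q ∈ S
    · simp [hq, (hS q).mpr hq]
    · rw [Finset.piecewise_eq_of_notMem _ _ _ hq,
        Finset.piecewise_eq_of_notMem _ _ _ (fun hh => hq ((hS q).mp hh))]
  simp only [blockVar, havg]
  exact integral_comp_gauss v he (f := fun u => (F u - avgSet v S F u) ^ 2)
    ((hF.sub (measurable_avgSet hF)).pow_const 2)

theorem blockVar_mono {ι : Type*} [Fintype ι] {v : ℝ≥0} {S T : Finset ι} (hST : S ⊆ T)
    {F : (ι → ℝ) → ℝ} (hF : Measurable F) {B : ℝ} (hB : ∀ x, |F x| ≤ B) :
    blockVar v S F ≤ blockVar v T F :=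
  blockVar_le hF (measurable_avgSet hF) hB (abs_avgSet_le hB) fun x x' hx =>
    avgSet_congr fun i hi => hx i fun hiS => hi (hST hiS)

/-- The image of an ordered edge. -/
def edgeMap (g : G ≃g G) (a : V × V) : V × V := (g a.1, g a.2)

theorem edgeMap_injective (g : G ≃g G) : Function.Injective (edgeMap g) := fun a b hab => by
  simp only [edgeMap, Prod.mk.injEq] at hab
  exact Prod.ext (g.injective hab.1) (g.injective hab.2)

theorem edgeMap_mem (g : G ≃g G) {D : Finset V} {a : V × V} (ha : a ∈ dirE G D) :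
    edgeMap g a ∈ dirE G (D.image g) := by
  obtain ⟨h1, h2, h3⟩ := mem_dirE.mp ha
  exact mem_dirE.mpr ⟨Finset.mem_image_of_mem g h1, Finset.mem_image_of_mem g h2,
    g.map_rel_iff'.mpr h3⟩

theorem dirE_image (g : G ≃g G) (D : Finset V) :
    dirE G (D.image g) = (dirE G D).image (edgeMap g) := by
  ext a
  constructor
  · intro ha
    obtain ⟨h1, h2, h3⟩ := mem_dirE.mp ha
    obtain ⟨x, hx, e1⟩ := Finset.mem_image.mp h1
    obtain ⟨y, hy, e2⟩ := Finset.mem_image.mp h2
    refine Finset.mem_image.mpr ⟨(x, y), mem_dirE.mpr ⟨hx, hy, g.map_rel_iff'.mp ?_⟩, ?_⟩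
    · rw [← e1, ← e2] at h3; exact h3
    · simp [edgeMap, e1, e2]
  · intro ha
    obtain ⟨b, hb, rfl⟩ := Finset.mem_image.mp ha
    exact edgeMap_mem g hb

theorem chInc_edgeMap (g : G ≃g G) (v : V) (a : V × V) :
    chInc (g v) (edgeMap g a) = chInc v a := by
  simp only [chInc, edgeMap, g.injective.eq_iff]

theorem eulerH_image (g : G ≃g G) (D : Finset V) (z : ℕ → V × V → ℝ) : ∀ i, ∀ v,
    eulerH G β h (D.image g) z i (g v) = eulerH G β h D (fun j a => z j (edgeMap g a)) i v
  | 0 => fun _ => rfl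
  | i + 1 => fun v => by
    have ih := eulerH_image g D z i
    simp only [eulerH, ih, fieldOf]
    rw [dirE_image, Finset.sum_image fun a _ b _ hab => edgeMap_injective g hab]
    congr 2
    refine Finset.sum_congr rfl fun a ha => ?_
    obtain ⟨h1, h2, -⟩ := mem_dirE.mp ha
    rw [chInc_edgeMap]
    congr 2
    simp only [chDrift, edgeMap]
    rw [magn_image _ g D h1, magn_image _ g D h2, funext ih]
    rfl

/-- The coordinates of the image. -/
noncomputable def imgIdx (g : G ≃g G) (D : Finset V) {K : ℕ} (q : CIdx G D K) :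
    CIdx G (D.image g) K :=
  (⟨edgeMap g (q.1 : V × V), edgeMap_mem g q.1.2⟩, q.2)

theorem imgIdx_injective (g : G ≃g G) (D : Finset V) {K : ℕ} :
    Function.Injective (imgIdx g D (K := K)) := by
  rintro ⟨⟨a, ha⟩, k⟩ ⟨⟨b, hb⟩, l⟩ hab
  simp only [imgIdx, Prod.mk.injEq, Subtype.mk.injEq] at hab
  obtain ⟨h1, rfl⟩ := hab
  obtain rfl := edgeMap_injective g h1
  rfl

theorem drv_imgIdx (g : G ≃g G) (D : Finset V) {K : ℕ} (x : CIdx G (D.image g) K → ℝ) {a : V × V}
    (ha : a ∈ dirE G D) (j : ℕ) :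
    drv (fun q => x (imgIdx g D q)) j a = drv x j (edgeMap g a) := by
  by_cases hj : j < K
  · rw [drv_apply _ hj ha, drv_apply _ hj (edgeMap_mem g ha)]; rfl
  · simp [drv, hj]

end Vale.Agent.P161
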