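import Vale.Agent.P161.Crit.Propag
import Vale.Agent.P161.Crit.Step

/-!
# Expectations under the discrete observations
-/

namespace Vale.Agent.P161

open SimpleGraph MeasureTheory ProbabilityTheory
open scoped Classical NNReal

variable {V : Type*}

/-- A bounded measurable function of `i` steps of observations. -/
def PathBdd (G : SimpleGraph V) (D : Finset V) (i : ℕ) (F : (ℕ → V × V → ℝ) → ℝ) : Prop :=
  Measurable (fun x : CIdx G D i → ℝ => F (drv x)) ∧ ∃ B : ℝ, ∀ x : CIdx G D i → ℝ, |F (drv x)| ≤ B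

/-- The expectation of a function of `i` steps of observations. -/
noncomputable def obsExp (G : SimpleGraph V) (β : ℝ) (hv : ℝ≥0) (D : Finset V) (i : ℕ)
    (F : (ℕ → V × V → ℝ) → ℝ) : ℝ :=
  ∫ x, chZ G β hv D i x * F (drv x) ∂gaussPi (CIdx G D i) hv

/-- The features of the channel. -/
noncomputable def chFeat (G : SimpleGraph V) (D : Finset V) (η : D → Bool) (a : dirE G D) : ℝ :=
  edgeSpin (a : V × V) (extCfg η)

/-- The posterior weights after `i` steps. -/
noncomputable def chPost (G : SimpleGraph V) (β h : ℝ) (D : Finset V) (b : ℕ → V × V → ℝ) (i : ℕ) :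
    (D → Bool) → ℝ :=
  fieldWeight G (chTh β ((i : ℝ) * h)) D (obsH G β D b i)

variable {G : SimpleGraph V} {β : ℝ} {hv : ℝ≥0} {D : Finset V} {i : ℕ}

theorem abs_chFeat_le (η : D → Bool) (a : dirE G D) : |chFeat G D η a| ≤ 2 :=
  abs_edgeSpin_le _ _

theorem PathBdd.expGrowth {F : (ℕ → V × V → ℝ) → ℝ} (hF : PathBdd G D i F) :
    ExpGrowth fun x : CIdx G D i → ℝ => F (drv x) := by
  obtain ⟨B, hB⟩ := hF.2
  exact .of_bounded hF.1 hB

theorem PathBdd.integrand (ok : ChOk β hv i) {F : (ℕ → V × V → ℝ) → ℝ} (hF : PathBdd G D i F) :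
    ExpGrowth fun x : CIdx G D i → ℝ => chZ G β hv D i x * F (drv x) :=
  (expGrowth_chZ ok).mul hF.expGrowth

theorem pathBdd_const (c : ℝ) : PathBdd G D i (fun _ => c) :=
  ⟨measurable_const, |c|, fun _ => le_rfl⟩

theorem PathBdd.add {F F' : (ℕ → V × V → ℝ) → ℝ} (h : PathBdd G D i F) (h' : PathBdd G D i F') :
    PathBdd G D i (fun b => F b + F' b) := by
  obtain ⟨B, hB⟩ := h.2
  obtain ⟨B', hB'⟩ := h'.2
  exact ⟨h.1.add h'.1, B + B', fun x => (abs_add_le _ _).trans (add_le_add (hB x) (hB' x))⟩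

theorem PathBdd.mul {F F' : (ℕ → V × V → ℝ) → ℝ} (h : PathBdd G D i F) (h' : PathBdd G D i F') :
    PathBdd G D i (fun b => F b * F' b) := by
  obtain ⟨B, hB⟩ := h.2
  obtain ⟨B', hB'⟩ := h'.2
  refine ⟨h.1.mul h'.1, B * B', fun x => ?_⟩
  rw [abs_mul]
  exact mul_le_mul (hB x) (hB' x) (abs_nonneg _) ((abs_nonneg _).trans (hB x))

theorem PathBdd.const_mul {F : (ℕ → V × V → ℝ) → ℝ} (h : PathBdd G D i F) (c : ℝ) :
    PathBdd G D i (fun b => c * F b) := (pathBdd_const c).mul h

theorem PathBdd.sum {κ : Type*} (s : Finset κ) {F : κ → (ℕ → V × V → ℝ) → ℝ}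
    (h : ∀ k ∈ s, PathBdd G D i (F k)) : PathBdd G D i (fun b => ∑ k ∈ s, F k b) := by
  induction s using Finset.induction_on with
  | empty => simpa using pathBdd_const 0
  | @insert k s hk ih =>
    simp only [Finset.sum_insert hk]
    exact (h k (Finset.mem_insert_self k s)).add
      (ih fun j hj => h j (Finset.mem_insert_of_mem hj))

theorem obsExp_mono (ok : ChOk β hv i) {F F' : (ℕ → V × V → ℝ) → ℝ} (h : PathBdd G D i F)
    (h' : PathBdd G D i F') (hle : ∀ x : CIdx G D i → ℝ, F (drv x) ≤ F' (drv x)) :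
    obsExp G β hv D i F ≤ obsExp G β hv D i F' :=
  integral_mono ((h.integrand ok).integrable hv) ((h'.integrand ok).integrable hv)
    fun x => mul_le_mul_of_nonneg_left (hle x) (chZ_pos ok.beta_nonneg x).le

theorem obsExp_nonneg (ok : ChOk β hv i) {F : (ℕ → V × V → ℝ) → ℝ}
    (hle : ∀ x : CIdx G D i → ℝ, 0 ≤ F (drv x)) : 0 ≤ obsExp G β hv D i F :=
  integral_nonneg fun x => mul_nonneg (chZ_pos ok.beta_nonneg x).le (hle x)

theorem obsExp_add (ok : ChOk β hv i) {F F' : (ℕ → V × V → ℝ) → ℝ} (h : PathBdd G D i F)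
    (h' : PathBdd G D i F') :
    obsExp G β hv D i (fun b => F b + F' b) = obsExp G β hv D i F + obsExp G β hv D i F' := by
  simp only [obsExp, mul_add]
  exact integral_add ((h.integrand ok).integrable hv) ((h'.integrand ok).integrable hv)

theorem obsExp_const_mul (c : ℝ) (F : (ℕ → V × V → ℝ) → ℝ) :
    obsExp G β hv D i (fun b => c * F b) = c * obsExp G β hv D i F := by
  simp only [obsExp, mul_left_comm _ c, integral_const_mul]

theorem obsExp_sum (ok : ChOk β hv i) {κ : Type*} (s : Finset κ)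
    {F : κ → (ℕ → V × V → ℝ) → ℝ} (h : ∀ k ∈ s, PathBdd G D i (F k)) :
    obsExp G β hv D i (fun b => ∑ k ∈ s, F k b) = ∑ k ∈ s, obsExp G β hv D i (F k) := by
  simp only [obsExp, Finset.mul_sum]
  exact integral_finsetSum _ fun k hk => ((h k hk).integrand ok).integrable hv

theorem obsExp_const (ok : ChOk β hv i)
    (hone : ∑ η : D → Bool, freeWeight G (Real.tanh β) D η = 1) (c : ℝ) :
    obsExp G β hv D i (fun _ => c) = c := by
  simp only [obsExp, integral_mul_const, integral_chZ ok hone, one_mul]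

theorem avg_smul {Ω : Type*} [Fintype Ω] (w f : Ω → ℝ) {c : ℝ} (hc : c ≠ 0) :
    avg (fun x => c * w x) f = avg w f := by
  simp only [avg, mul_assoc, ← Finset.mul_sum]
  exact mul_div_mul_left _ _ hc

theorem chZ_joinStep (hβ : 0 ≤ β) (hi : 0 ≤ chTh β ((i : ℝ) * hv)) (x : CIdx G D i → ℝ)
    (z : dirE G D → ℝ) :
    chZ G β hv D (i + 1) (joinStep x z) = chZ G β hv D i x *
      stepDens (chLam β) hv (chFeat G D) (chPost G β hv D (drv x) i) z := by
  have hpos := fieldSum_pos (G := G) hi (chTh_lt_one β _) D (obsH G β D (drv x) i)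
  rw [chZ_eq hβ x, stepDens, avg, chPost, mul_assoc, mul_div_cancel₀ _ hpos.ne', chZ,
    Finset.mul_sum]
  refine Finset.sum_congr rfl fun η _ => ?_
  rw [chExpo_joinStep, Real.exp_add, ← mul_assoc, posterior_eq hβ, mul_assoc]
  rfl

theorem chPost_joinStep (hβ : 0 ≤ β) (x : CIdx G D i → ℝ) (z : dirE G D → ℝ) :
    tilt (chPost G β hv D (drv x) i) (stepXi (chLam β) hv (chFeat G D) z) 1 =
      fun η => (chNorm G β hv D (i + 1) / chNorm G β hv D i) *
        chPost G β hv D (drv (joinStep x z)) (i + 1) η := by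
  funext η
  have h1 := posterior_eq (G := G) (h := (hv : ℝ)) hβ D (drv (joinStep x z)) (i + 1) η
  rw [chExpo_joinStep, Real.exp_add, ← mul_assoc, posterior_eq hβ] at h1
  have hn := (chNorm_pos (G := G) (β := β) (h := (hv : ℝ)) D i).ne'
  simp only [tilt, one_mul, chPost, stepXi, chFeat]
  rw [div_mul_eq_mul_div, eq_div_iff hn]
  linear_combination h1

theorem stepAvg_eq_post (hβ : 0 ≤ β) (x : CIdx G D i → ℝ) (z : dirE G D → ℝ)
    (f : (D → Bool) → ℝ) :
    avg (tilt (chPost G β hv D (drv x) i) (stepXi (chLam β) hv (chFeat G D) z) 1) f =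
      avg (chPost G β hv D (drv (joinStep x z)) (i + 1)) f := by
  rw [chPost_joinStep hβ]
  exact avg_smul _ _ (div_ne_zero (chNorm_pos D _).ne' (chNorm_pos D _).ne')

theorem stepCov_eq_post (hβ : 0 ≤ β) (x : CIdx G D i → ℝ) (z : dirE G D → ℝ)
    (f g : (D → Bool) → ℝ) :
    cov (tilt (chPost G β hv D (drv x) i) (stepXi (chLam β) hv (chFeat G D) z) 1) f g =
      cov (chPost G β hv D (drv (joinStep x z)) (i + 1)) f g := by
  simp only [cov, stepAvg_eq_post hβ]

theorem obsExp_succ (ok : ChOk β hv (i + 1)) {F : (ℕ → V × V → ℝ) → ℝ}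
    (hF : PathBdd G D (i + 1) F) :
    obsExp G β hv D (i + 1) F = ∫ x, chZ G β hv D i x *
      ∫ z, stepDens (chLam β) hv (chFeat G D) (chPost G β hv D (drv x) i) z *
        F (drv (joinStep x z)) ∂gaussPi (dirE G D) hv ∂gaussPi (CIdx G D i) hv := by
  rw [obsExp, integral_joinStep hv (hF.integrand ok)]
  refine integral_congr_ae (ae_of_all _ fun x => ?_)
  simp only
  rw [← integral_const_mul]
  refine integral_congr_ae (ae_of_all _ fun z => ?_)
  simp only
  rw [chZ_joinStep ok.beta_nonneg (ok.th_nonneg (Nat.le_succ i)), mul_assoc]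

theorem obsExp_succ_le (ok : ChOk β hv (i + 1)) {F F' : (ℕ → V × V → ℝ) → ℝ}
    (hF : PathBdd G D (i + 1) F) (hF' : PathBdd G D i F')
    (hle : ∀ x : CIdx G D i → ℝ,
      ∫ z, stepDens (chLam β) hv (chFeat G D) (chPost G β hv D (drv x) i) z *
        F (drv (joinStep x z)) ∂gaussPi (dirE G D) hv ≤ F' (drv x)) :
    obsExp G β hv D (i + 1) F ≤ obsExp G β hv D i F' := by
  have hi : ChOk β hv i := ok.mono (Nat.le_succ i)
  have hI : Integrable (fun x : CIdx G D i → ℝ => chZ G β hv D i x *
      ∫ z, stepDens (chLam β) hv (chFeat G D) (chPost G β hv D (drv x) i) z *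
        F (drv (joinStep x z)) ∂gaussPi (dirE G D) hv) (gaussPi (CIdx G D i) hv) := by
    refine (((hF.integrand ok).integral_slice hv).integrable hv).congr (ae_of_all _ fun x => ?_)
    simp only
    rw [← integral_const_mul]
    refine integral_congr_ae (ae_of_all _ fun z => ?_)
    simp only
    rw [chZ_joinStep ok.beta_nonneg (ok.th_nonneg (Nat.le_succ i)), mul_assoc]
  rw [obsExp_succ ok hF]
  exact integral_mono hI ((hF'.integrand hi).integrable hv)
    fun x => mul_le_mul_of_nonneg_left (hle x) (chZ_pos ok.beta_nonneg x).le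

theorem gaussPi_add_integral {ι : Type*} [Fintype ι] (v w : ℝ≥0) {φ : (ι → ℝ) → ℝ}
    (hφ : Measurable φ) {B : ℝ} (hB : ∀ y, |φ y| ≤ B) :
    ∫ y, ∫ z, φ (fun a => y a + z a) ∂gaussPi ι w ∂gaussPi ι v =
      ∫ u, φ u ∂gaussPi ι (v + w) := by
  have hm : Measurable fun p : (ι → ℝ) × (ι → ℝ) => fun a => p.1 a + p.2 a := by fun_prop
  have hI : Integrable (fun p : (ι → ℝ) × (ι → ℝ) => φ (fun a => p.1 a + p.2 a))
      ((gaussPi ι v).prod (gaussPi ι w)) :=
    Integrable.of_bound (hφ.comp hm).aestronglyMeasurable B (ae_of_all _ fun p => hB _)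
  rw [← integral_prod _ hI]
  have hmap : ((gaussPi ι v).prod (gaussPi ι w)).map (fun p => fun a => p.1 a + p.2 a) =
      gaussPi ι (v + w) := by
    have he := (measurePreserving_arrowProdEquivProdArrow ℝ ℝ ι (fun _ => gaussianReal 0 v)
      (fun _ => gaussianReal 0 w))
    have hadd : ∀ _ : ι, ((gaussianReal 0 v).prod (gaussianReal 0 w)).map (fun q => q.1 + q.2) =
        gaussianReal 0 (v + w) := fun _ => by
      have := gaussianReal_conv_gaussianReal (m₁ := 0) (m₂ := 0) (v₁ := v) (v₂ := w)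
      simpa [Measure.conv] using this
    unfold gaussPi
    rw [← he.map_eq, Measure.map_map hm he.measurable,
      ← funext hadd, ← Measure.pi_map_pi (fun _ => (measurable_add).aemeasurable)]
    rfl
  rw [← hmap, integral_map hm.aemeasurable hφ.aestronglyMeasurable]

theorem measurable_fieldOf :
    Measurable fun y : dirE G D → ℝ =>
      fieldOf G β D (fun a => if h : a ∈ dirE G D then y ⟨a, h⟩ else 0) := by
  refine measurable_pi_lambda _ fun v => ?_
  unfold fieldOf
  refine (Finset.measurable_sum _ fun a ha => ?_).const_mul _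
  simp only [dif_pos ha]
  exact (measurable_pi_apply _).const_mul _

/-- The fields of an increment vector on the ordered edges of `D`. -/
noncomputable def edgeField (G : SimpleGraph V) (β : ℝ) (D : Finset V) (y : dirE G D → ℝ) :
    V → ℝ :=
  fieldOf G β D (fun a => if h : a ∈ dirE G D then y ⟨a, h⟩ else 0)

theorem measurable_edgeField_apply (v : V) :
    Measurable fun y : dirE G D → ℝ => edgeField G β D y v :=
  (measurable_pi_apply v).comp measurable_fieldOf

theorem measurable_shift_field (c : dirE G D → ℝ) :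
    Measurable fun q : (V → ℝ) × (dirE G D → ℝ) =>
      (fun v => q.1 v + edgeField G β D (fun a => c a + q.2 a) v) := by
  refine measurable_pi_lambda _ fun v => ?_
  have h2 : Measurable fun q : (V → ℝ) × (dirE G D → ℝ) => fun a => c a + q.2 a :=
    measurable_pi_lambda _ fun a =>
      Measurable.add (f := fun _ => c a) (g := fun q : (V → ℝ) × (dirE G D → ℝ) => q.2 a)
        measurable_const ((measurable_pi_apply a).comp measurable_snd)
  have h3 : Measurable fun q : (V → ℝ) × (dirE G D → ℝ) =>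
      edgeField G β D (fun a => c a + q.2 a) v :=
    Measurable.comp (g := fun y => edgeField G β D y v)
      (f := fun q : (V → ℝ) × (dirE G D → ℝ) => fun a => c a + q.2 a)
      (measurable_edgeField_apply v) h2
  have h4 : Measurable fun q : (V → ℝ) × (dirE G D → ℝ) => q.1 v :=
    (measurable_pi_apply v).comp measurable_fst
  exact h4.add h3

theorem edgeField_add (y y' : dirE G D → ℝ) :
    edgeField G β D (fun a => y a + y' a) = fun v => edgeField G β D y v + edgeField G β D y' v := by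
  funext v
  unfold edgeField
  rw [← fieldOf_add, fieldOf_congr D]
  intro a ha
  simp [ha]

theorem obsH_joinStep_succ (x : CIdx G D i → ℝ) (z : dirE G D → ℝ) (v : V) :
    obsH G β D (drv (joinStep x z)) (i + 1) v =
      obsH G β D (drv x) i v + edgeField G β D z v := by
  rw [obsH_succ, obsH_joinStep x z le_rfl, edgeField,
    fieldOf_congr D (y' := fun a => if h : a ∈ dirE G D then z ⟨a, h⟩ else 0) fun a ha => by
      rw [dif_pos ha]; exact drv_joinStep_last x z ⟨a, ha⟩]

theorem chExpo_shift (hv0 : hv ≠ 0) (η : D → Bool) {φ : (dirE G D → ℝ) → ℝ} (hφ : Measurable φ) :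
    ∫ z, Real.exp (∑ a : dirE G D, (chLam β * chFeat G D η a * z a -
        (hv : ℝ) * chLam β ^ 2 * chFeat G D η a ^ 2 / 2)) * φ z ∂gaussPi (dirE G D) hv =
      ∫ z, φ (fun a => (hv : ℝ) * (chLam β * chFeat G D η a) + z a) ∂gaussPi (dirE G D) hv := by
  rw [gaussPi_shift _ hv0 hφ]
  refine integral_congr_ae (ae_of_all _ fun z => ?_)
  simp only
  congr 2
  refine Finset.sum_congr rfl fun a _ => ?_
  have : (hv : ℝ) ≠ 0 := by exact_mod_cast hv0
  field_simp

/-- Noise after time `i₀` is independent of the past given the spins. -/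
theorem window_spin_le (η : D → Bool) (i₀ : ℕ) {g : (ℕ → V × V → ℝ) → ℝ}
    (hg : PathBdd G D i₀ g) (hg0 : ∀ b, 0 ≤ g b)
    (hgc : ∀ b b' : ℕ → V × V → ℝ, (∀ j < i₀, ∀ a ∈ dirE G D, b j a = b' j a) → g b = g b')
    {p : ℝ} : ∀ k : ℕ, ChOk β hv (i₀ + k) → ∀ φ : (V → ℝ) → ℝ, Measurable φ →
      (∀ u, 0 ≤ φ u) → (∀ u, φ u ≤ 1) →
      (∀ ν : V → ℝ, ∫ y, φ (fun v => ν v + edgeField G β D y v)
        ∂gaussPi (dirE G D) ((k : ℝ≥0) * hv) ≤ p) →
      ∫ x, Real.exp (chExpo G β hv D (extCfg η) (drv x) (i₀ + k)) *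
          (g (drv x) * φ (obsH G β D (drv x) (i₀ + k))) ∂gaussPi (CIdx G D (i₀ + k)) hv ≤
        p * ∫ x, Real.exp (chExpo G β hv D (extCfg η) (drv x) i₀) * g (drv x)
          ∂gaussPi (CIdx G D i₀) hv
  | 0 => fun ok φ hφ hφ0 hφ1 hp => by
    have hzero : ∀ ν : V → ℝ, φ ν ≤ p := by
      intro ν
      refine le_of_eq_of_le ?_ (hp ν)
      have h0 : gaussPi (dirE G D) ((0 : ℕ) * hv : ℝ≥0) = Measure.dirac 0 := by
        refine (Measure.pi_eq fun s hs => ?_)
        simp only [Nat.cast_zero, zero_mul, gaussianReal_zero_var]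
        rw [Measure.dirac_apply' _ (.univ_pi hs)]
        by_cases hmem : (0 : dirE G D → ℝ) ∈ Set.univ.pi s
        · rw [Set.indicator_of_mem hmem, Pi.one_apply]
          refine (Finset.prod_eq_one fun a _ => ?_).symm
          rw [Measure.dirac_apply' _ (hs a), Set.indicator_of_mem]
          · rfl
          · exact hmem a (Set.mem_univ a)
        · rw [Set.indicator_of_notMem hmem]
          simp only [Set.mem_pi, Set.mem_univ, true_implies, not_forall] at hmem
          obtain ⟨a, ha⟩ := hmem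
          exact (Finset.prod_eq_zero (Finset.mem_univ a) (by
            rw [Measure.dirac_apply' _ (hs a),
              Set.indicator_of_notMem (show (0 : ℝ) ∉ s a from ha)])).symm
      have hmz : Measurable fun y : dirE G D → ℝ => φ (fun v => ν v + edgeField G β D y v) :=
        hφ.comp (measurable_pi_lambda _ fun v =>
          (measurable_edgeField_apply v).const_add (ν v))
      rw [h0, integral_dirac' _ _ hmz.stronglyMeasurable]
      congr 1
      funext v
      simp [edgeField, fieldOf]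
    rw [← integral_const_mul]
    have hgg := (expGrowth_chExpo (G := G) ok η).mul hg.expGrowth
    have hφg : ExpGrowth fun x : CIdx G D i₀ → ℝ => φ (obsH G β D (drv x) i₀) :=
      .of_bounded (hφ.comp (measurable_obsH i₀)) (B := 1) fun x => by
        rw [abs_of_nonneg (hφ0 _)]; exact hφ1 _
    refine integral_mono (((expGrowth_chExpo ok η).mul (hg.expGrowth.mul hφg)).integrable hv)
      ((hgg.const_mul p).integrable hv) fun x => ?_
    simp only
    rw [mul_comm p, mul_assoc]
    exact mul_le_mul_of_nonneg_left (mul_le_mul_of_nonneg_left (hzero _) (hg0 _))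
      (Real.exp_pos _).le
  | k + 1 => fun ok φ hφ hφ0 hφ1 hp => by
    have ok' : ChOk β hv (i₀ + k) := ok.mono (by omega)
    set c := fun a : dirE G D => (hv : ℝ) * (chLam β * chFeat G D η a) with hc
    set φ' : (V → ℝ) → ℝ := fun u =>
      ∫ z, φ (fun v => u v + edgeField G β D (fun a => c a + z a) v) ∂gaussPi (dirE G D) hv with hφ'
    have hjm := measurable_shift_field (G := G) (β := β) (D := D) c
    have hφ'm : Measurable φ' :=
      ((hφ.comp hjm).stronglyMeasurable.integral_prod_right'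
        (f := fun q : (V → ℝ) × (dirE G D → ℝ) =>
          φ (fun v => q.1 v + edgeField G β D (fun a => c a + q.2 a) v))).measurable
    have hφb : ∀ u, |φ u| ≤ 1 := fun u => by rw [abs_of_nonneg (hφ0 u)]; exact hφ1 u
    have hφ'0 : ∀ u, 0 ≤ φ' u := fun u => integral_nonneg fun z => hφ0 _
    have hφ'1 : ∀ u, φ' u ≤ 1 := fun u => by
      refine le_trans (le_abs_self _) ?_
      rw [hφ', ← Real.norm_eq_abs]
      refine (norm_integral_le_of_norm_le_const (ae_of_all _ fun z => by
        rw [Real.norm_eq_abs]; exact hφb _)).trans (by rw [probReal_univ, mul_one])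
    have hp' : ∀ ν : V → ℝ, ∫ y, φ' (fun v => ν v + edgeField G β D y v)
        ∂gaussPi (dirE G D) ((k : ℝ≥0) * hv) ≤ p := by
      intro ν
      refine le_of_eq_of_le ?_ (hp fun v => ν v + edgeField G β D c v)
      have hψ : Measurable fun u : dirE G D → ℝ =>
          φ (fun v => ν v + edgeField G β D c v + edgeField G β D u v) :=
        hφ.comp (measurable_pi_lambda _ fun v =>
          (measurable_edgeField_apply v).const_add _)
      rw [show ((k + 1 : ℕ) : ℝ≥0) * hv = (k : ℝ≥0) * hv + hv by push_cast; ring,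
        ← gaussPi_add_integral _ _ hψ fun u => hφb _]
      refine integral_congr_ae (ae_of_all _ fun y => integral_congr_ae (ae_of_all _ fun z => ?_))
      simp only
      congr 1
      funext v
      rw [edgeField_add, edgeField_add]
      ring
    refine le_of_eq_of_le ?_ (window_spin_le η i₀ hg hg0 hgc k ok' φ' hφ'm hφ'0 hφ'1 hp')
    obtain ⟨B, hB⟩ := hg.2
    have hloc : ∀ {n : ℕ}, i₀ ≤ n → ∀ x : CIdx G D n → ℝ, ∃ x0 : CIdx G D i₀ → ℝ,
        g (drv x) = g (drv x0) := fun {n} hn x =>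
      ⟨fun q => drv x q.2 q.1, hgc _ _ fun j hj a ha => by rw [drv_apply _ hj ha]⟩
    have hgF : ExpGrowth fun x : CIdx G D (i₀ + k + 1) → ℝ =>
        Real.exp (chExpo G β hv D (extCfg η) (drv x) (i₀ + k + 1)) *
          (g (drv x) * φ (obsH G β D (drv x) (i₀ + k + 1))) := by
      refine (expGrowth_chExpo ok η).mul (ExpGrowth.mul ?_ (.of_bounded
        (hφ.comp (measurable_obsH _)) (B := 1) fun x => hφb _))
      have e : (fun x : CIdx G D (i₀ + k + 1) → ℝ => g (drv x)) =
          (fun x0 : CIdx G D i₀ → ℝ => g (drv x0)) ∘ fun x q => drv x q.2 q.1 := by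
        funext x
        exact hgc _ _ fun j hj a ha => by rw [drv_apply _ hj ha]
      refine .of_bounded ?_ (B := B) fun x => ?_
      · rw [e]; exact hg.1.comp (measurable_pi_lambda _ fun q => measurable_drv _ _)
      · obtain ⟨x0, hx0⟩ := hloc (by omega) x; rw [hx0]; exact hB x0
    show ∫ x, Real.exp (chExpo G β hv D (extCfg η) (drv x) (i₀ + k + 1)) *
      (g (drv x) * φ (obsH G β D (drv x) (i₀ + k + 1))) ∂gaussPi (CIdx G D (i₀ + k + 1)) hv = _
    rw [integral_joinStep hv hgF]
    refine integral_congr_ae (ae_of_all _ fun x => ?_)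
    have hsh := chExpo_shift (β := β) ok.step_ne η (φ := fun z : dirE G D → ℝ =>
      φ (fun v => obsH G β D (drv x) (i₀ + k) v + edgeField G β D z v))
      (hφ.comp (measurable_pi_lambda _ fun v =>
        (measurable_edgeField_apply v).const_add _))
    have hgj : ∀ z, g (drv (joinStep x z)) = g (drv x) := fun z =>
      hgc _ _ fun j hj a _ => drv_joinStep_lt x z (by omega) a
    have hobs : ∀ z, obsH G β D (drv (joinStep x z)) (i₀ + k + 1) =
        fun v => obsH G β D (drv x) (i₀ + k) v + edgeField G β D z v :=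
      fun z => funext fun v => obsH_joinStep_succ x z v
    simp only [chExpo_joinStep, Real.exp_add, hgj, hobs]
    simp only [hφ', hc]
    rw [← hsh, ← integral_const_mul, ← integral_const_mul]
    exact integral_congr_ae (ae_of_all _ fun z => by simp only [chFeat]; ring)

theorem obsExp_window_le {i₀ k : ℕ} (ok : ChOk β hv (i₀ + k)) {g : (ℕ → V × V → ℝ) → ℝ}
    (hg : PathBdd G D i₀ g) (hgk : PathBdd G D (i₀ + k) g) (hg0 : ∀ b, 0 ≤ g b)
    (hgc : ∀ b b' : ℕ → V × V → ℝ, (∀ j < i₀, ∀ a ∈ dirE G D, b j a = b' j a) → g b = g b')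
    {p : ℝ} {φ : (V → ℝ) → ℝ} (hφ : Measurable φ) (hφ0 : ∀ u, 0 ≤ φ u) (hφ1 : ∀ u, φ u ≤ 1)
    (hp : ∀ ν : V → ℝ, ∫ y, φ (fun v => ν v + edgeField G β D y v)
      ∂gaussPi (dirE G D) ((k : ℝ≥0) * hv) ≤ p) :
    obsExp G β hv D (i₀ + k) (fun b => g b * φ (obsH G β D b (i₀ + k))) ≤
      p * obsExp G β hv D i₀ g := by
  have ok0 : ChOk β hv i₀ := ok.mono (Nat.le_add_right i₀ k)
  have hφg : ExpGrowth fun x : CIdx G D (i₀ + k) → ℝ => φ (obsH G β D (drv x) (i₀ + k)) :=
    .of_bounded (hφ.comp (measurable_obsH _)) (B := 1) fun x => by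
      rw [abs_of_nonneg (hφ0 _)]; exact hφ1 _
  have hfree : ∀ η : D → Bool, 0 ≤ freeWeight G (Real.tanh β) D η := fun η =>
    (freeWeight_pos (by simpa [chTh] using chTh_nonneg ok.beta_nonneg (r := 0) zero_le_one)
      (Real.tanh_lt_one _) D η).le
  simp only [obsExp, chZ, Finset.sum_mul, mul_assoc]
  rw [integral_finsetSum _ fun η _ =>
      (((expGrowth_chExpo ok η).mul (hgk.expGrowth.mul hφg)).const_mul _).integrable hv,
    integral_finsetSum _ fun η _ =>
      (((expGrowth_chExpo ok0 η).mul hg.expGrowth).const_mul _).integrable hv, Finset.mul_sum]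
  refine Finset.sum_le_sum fun η _ => ?_
  rw [integral_const_mul, integral_const_mul, mul_left_comm p]
  exact mul_le_mul_of_nonneg_left (window_spin_le η i₀ hg hg0 hgc k ok φ hφ hφ0 hφ1 hp) (hfree η)

end Vale.Agent.P161
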