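import Vale.Agent.P161.Crit.Weights
import Vale.Agent.P161.Crit.Move
import Vale.Agent.P161.Swap

/-!
# The influence of all early increments on one magnetisation
-/

namespace Vale.Agent.P161

open SimpleGraph MeasureTheory ProbabilityTheory Filter
open scoped Classical NNReal Topology

variable {V : Type*} {G : SimpleGraph V} {d : ℕ} {t β β₀ : ℝ}

/-- All increments of the first `J` steps. -/
noncomputable def earlyAll (G : SimpleGraph V) (D : Finset V) (K J : ℕ) : Finset (CIdx G D K) :=
  Finset.univ.filter fun q => (q.2 : ℕ) < J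

theorem ballSet_image' (hG : G.IsTree) (hd : 3 ≤ d) (hreg : ∀ v, (G.neighborSet v).ncard = d)
    (g : G ≃g G) (o : V) (n : ℕ) :
    (ballSet hG hd hreg o n).image g = ballSet hG hd hreg (g o) n := by
  ext x
  simp only [Finset.mem_image, mem_ballSet]
  constructor
  · rintro ⟨y, hy, rfl⟩
    rwa [dist_iso hG.connected g]
  · intro hx
    refine ⟨g.symm x, ?_, by simp⟩
    rw [← dist_iso hG.connected g]
    simpa using hx

theorem isVol_ballSet (hG : G.IsTree) (hd : 3 ≤ d) (hreg : ∀ v, (G.neighborSet v).ncard = d)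
    (o : V) (n : ℕ) : IsVol G (ballSet hG hd hreg o n) :=
  ⟨ballSet_convex hG hd hreg o n, ballSet_connected hG hd hreg o n⟩

theorem ball_sub (hG : G.IsTree) (hd : 3 ≤ d) (hreg : ∀ v, (G.neighborSet v).ncard = d)
    {o o' : V} {n n' : ℕ} (h : G.dist o' o + n ≤ n') :
    ballSet hG hd hreg o n ⊆ ballSet hG hd hreg o' n' := fun x hx => by
  rw [mem_ballSet] at hx ⊢
  have h4 := hG.connected.dist_triangle (u := o') (v := o) (w := x)
  omega

theorem finalT_image (g : G ≃g G) (D : Finset V) (h : ℝ) (K : ℕ) (v : V)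
    (x : CIdx G (D.image g) K → ℝ) :
    finalT G β h (D.image g) K (g v) x = finalT G β h D K v (fun q => x (imgIdx g D q)) := by
  simp only [finalT, eulerH_image]
  rw [eulerH_congr D K fun j _ a ha => (drv_imgIdx g D x ha j).symm]

theorem earlyVar_image (g : G ≃g G) (D E : Finset V) (hE : D.image g = E) (hv : ℝ≥0) (K J : ℕ)
    (v z : V) :
    blockVar hv (earlyBlock G D K J z) (finalT G β hv D K v) =
      blockVar hv (earlyBlock G E K J (g z)) (finalT G β hv E K (g v)) := by
  subst hE
  have e : finalT G β hv (D.image g) K (g v) =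
      fun x => finalT G β hv D K v (fun q => x (imgIdx g D q)) :=
    funext fun x => finalT_image g D (hv : ℝ) K v x
  rw [e]
  refine (blockVar_comp hv (imgIdx_injective g D) _ _ (fun q => ?_)
    (measurable_finalT β hv D K v)).symm
  simp only [earlyBlock, Finset.mem_filter, Finset.mem_univ, true_and, imgIdx, edgeMap,
    g.injective.eq_iff]

theorem earlyVar_res {D D' : Finset V} (hsub : D ⊆ D') (hv : ℝ≥0) (K J : ℕ) (v z : V) :
    blockVar hv (earlyBlock G D K J z) (finalT G β hv D K v) =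
      blockVar hv (earlyBlock G D' K J z)
        (fun x => finalT G β hv D K v fun q => x (resIdx hsub q)) :=
  (blockVar_comp hv (resIdx_injective hsub) _ _ (fun q => by
    simp [earlyBlock, resIdx]) (measurable_finalT β hv D K v)).symm

theorem earlyAll_var_le (hG : G.IsTree) (hd : 3 ≤ d) (hreg : ∀ v, (G.neighborSet v).ncard = d)
    (D : Finset V) (hv : ℝ≥0) (K J : ℕ) (v : V) (R : ℕ) :
    blockVar hv (earlyAll G D K J) (finalT G β hv D K v) ≤
      ∑ z ∈ ballSet hG hd hreg v R, blockVar hv (earlyBlock G D K J z) (finalT G β hv D K v) +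
        blockVar hv (farSet G D K 0 v R) (finalT G β hv D K v) := by
  have hm := measurable_finalT (G := G) β hv D K v
  have hb := abs_finalT_le (G := G) β hv D K v
  set U := (ballSet hG hd hreg v R).biUnion (earlyBlock G D K J)
  have hdisj : Disjoint U (farSet G D K 0 v R) := by
    rw [Finset.disjoint_left]
    intro q hq hq'
    obtain ⟨z, hz, hqz⟩ := Finset.mem_biUnion.mp hq
    obtain ⟨-, h1, -⟩ := Finset.mem_filter.mp hqz
    obtain ⟨-, -, h2⟩ := Finset.mem_filter.mp hq'
    rw [mem_ballSet, ← h1] at hz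
    omega
  have hsub : earlyAll G D K J ⊆ U ∪ farSet G D K 0 v R := by
    intro q hq
    have hqJ := (Finset.mem_filter.mp hq).2
    by_cases h : R < G.dist v (q.1 : V × V).1
    · exact Finset.mem_union_right _ (by simp [farSet, h])
    · exact Finset.mem_union_left _ (Finset.mem_biUnion.mpr
        ⟨(q.1 : V × V).1, mem_ballSet.mpr (not_lt.mp h), by simp [earlyBlock, hqJ]⟩)
  refine (blockVar_mono hsub hm hb).trans ((blockVar_union_le' hm hb hdisj).trans ?_)
  refine add_le_add (blockVar_biUnion_le' hm hb _ _ fun z _ z' _ hzz => ?_) le_rfl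
  rw [Function.onFun, Finset.disjoint_left]
  intro q h1 h2
  exact hzz ((Finset.mem_filter.mp h1).2.1.symm.trans (Finset.mem_filter.mp h2).2.1)

/-- One early block seen from its own vertex, compared with a larger volume. -/
theorem earlyVar_swap_le (hG : G.IsTree) (hd : 3 ≤ d) (hreg : ∀ v, (G.neighborSet v).ncard = d)
    {v z : V} {n N : ℕ} (hzN : G.dist v z + n ≤ N) (hv : ℝ≥0) (K J : ℕ)
    (hsub : ballSet hG hd hreg z n ⊆ ballSet hG hd hreg v N) :
    blockVar hv (earlyBlock G (ballSet hG hd hreg v n) K J z)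
        (finalT G β hv (ballSet hG hd hreg v n) K v) ≤
      2 * ∫ x, (finalT G β hv (ballSet hG hd hreg z n) K z (fun q => x (resIdx hsub q)) -
          finalT G β hv (ballSet hG hd hreg v N) K z x) ^ 2
            ∂gaussPi (CIdx G (ballSet hG hd hreg v N) K) hv +
        2 * blockVar hv (earlyBlock G (ballSet hG hd hreg v N) K J v)
          (finalT G β hv (ballSet hG hd hreg v N) K z) := by
  obtain ⟨g, hg1, hg2⟩ := exists_swap hG hd hreg v z
  have he : (ballSet hG hd hreg v n).image g = ballSet hG hd hreg z n := by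
    rw [ballSet_image', hg1]
  rw [earlyVar_image g _ _ he hv K J v z, hg1, hg2, earlyVar_res hsub hv K J z v]
  exact blockVar_le_of_close ((measurable_finalT β hv _ K z).comp
      (measurable_pi_lambda _ fun q => measurable_pi_apply (resIdx hsub q)))
    (measurable_finalT β hv _ K z) (fun x => abs_finalT_le β hv _ K z _)
    (abs_finalT_le β hv _ K z)

/-- The early increments have little influence, uniformly up to the critical coupling. -/
theorem exists_row (hG : G.IsTree) (hd : 3 ≤ d) (hreg : ∀ v, (G.neighborSet v).ncard = d)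
    (ht0 : 0 < t) (hbt : ((d : ℝ) - 1) * t ^ 2 = 1) (hβ₀ : 0 < β₀) :
    ∃ C : ℝ, 0 ≤ C ∧ ∀ β, CritPar G d t β₀ β → Real.tanh β < t →
      ∀ μ : Measure (V → Bool), IsFreeIsing G (Real.tanh β) μ → ∀ (v : V) (ε : ℝ), 0 < ε →
      ∃ n₀ : ℕ, ∀ n, n₀ ≤ n → ∀ᶠ j in atTop, ∀ J ≤ 2 ^ j,
        blockVar (stepLen j) (earlyAll G (ballSet hG hd hreg v n) (2 ^ j) J)
          (finalT G β (stepLen j) (ballSet hG hd hreg v n) (2 ^ j) v) ≤
          C * Real.sqrt ((J : ℝ) * stepLen j) + ε := by
  obtain ⟨C, hC, hcol⟩ := exists_early_var hG hd hreg ht0 hbt hβ₀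
  refine ⟨2 * C, by positivity, fun β cp hlt μ hμ v ε hε => ?_⟩
  have hβ := cp.beta_nonneg
  have h0 := tanh_nonneg' hβ
  obtain ⟨a, y, cs, wt⟩ := exists_weights hG hd hreg hbt h0 hlt
  set CF := ((1 + lipC d β a cs) * chLam β * (1 + 1 / a)) ^ 2 * d *
        (1 + d * y / (1 - ((d : ℝ) - 1) * y)) with hCF
  have hy0 : 0 < y := (sq_nonneg a).trans_lt wt.sq_lt
  have hrho : Tendsto (fun R : ℕ => CF * (a ^ 2 / y) ^ R) atTop (𝓝 0) := by
    simpa using (tendsto_pow_atTop_nhds_zero_of_lt_one (by positivity)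
      ((div_lt_one hy0).mpr wt.sq_lt)).const_mul CF
  obtain ⟨R, hR⟩ := (hrho.eventually (eventually_le_nhds (show (0:ℝ) < ε / 3 by positivity))).exists
  set B := ballSet hG hd hreg v R with hB
  set ε' := ε / 3 / (2 * (B.card : ℝ) + 1) with hε'def
  have hε' : 0 < ε' := by positivity
  choose nz hnz using fun z : V => exists_stab hG hd hreg hbt hβ hlt hμ z hε'
  refine ⟨B.sup nz, fun n hn => ?_⟩
  set N := n + R with hN
  set D' := ballSet hG hd hreg v N with hD'
  have hsub : ∀ z ∈ B, ballSet hG hd hreg z n ⊆ D' := fun z hz =>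
    ball_sub hG hd hreg (by have := mem_ballSet.mp hz; omega)
  have hzn : ∀ z ∈ B, ballSet hG hd hreg z (nz z) ⊆ ballSet hG hd hreg z n := fun z hz =>
    ball_sub hG hd hreg (by
      have := (Finset.le_sup (f := nz) hz).trans hn
      simp only [SimpleGraph.dist_self]; omega)
  have hev : ∀ᶠ j in atTop, ∀ z : B,
      ∫ x, (finalT G β (stepLen j) (ballSet hG hd hreg (z : V) n) (2 ^ j) (z : V)
          (fun q => x (resIdx (hsub z z.2) q)) - finalT G β (stepLen j) D' (2 ^ j) (z : V) x) ^ 2
            ∂gaussPi (CIdx G D' (2 ^ j)) (stepLen j) ≤ ε' :=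
    eventually_all.mpr fun z => hnz z _ D' (isVol_ballSet hG hd hreg (z : V) n)
      (isVol_ballSet hG hd hreg v N) (hzn z z.2) (hsub z z.2)
  have hone := sum_freeWeight_eq_one h0 (Real.tanh_lt_one β) hμ (isVol_ballSet hG hd hreg v N).conn
  obtain ⟨CD, hCD, hcolD⟩ := hcol β cp D' (ballSet_convex hG hd hreg v N) hone
  filter_upwards [hev, eventually_small (2 * CD) (show (0:ℝ) < ε / 3 by positivity),
    eventually_fine (G := G) hβ D'] with j hst hsm hfine J hJ
  have ok := chOk_stepLen hβ j (K := 2 ^ j) le_rfl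
  have lp := wt.lipPar_zero hG hd hreg ok
  refine (earlyAll_var_le hG hd hreg _ (stepLen j) (2 ^ j) J v R).trans ?_
  have hfar : blockVar (stepLen j) (farSet G (ballSet hG hd hreg v n) (2 ^ j) 0 v R)
      (finalT G β (stepLen j) (ballSet hG hd hreg v n) (2 ^ j) v) ≤ ε / 3 :=
    (far_blockVar_le lp (ballSet_convex hG hd hreg v n) (mem_ballSet.mpr (by simp))
      wt.sq_lt wt.y_lt R).trans hR
  have hBD : B ⊆ D' := ball_sub hG hd hreg (by simp [hN])
  have hterm : ∀ z ∈ B, blockVar (stepLen j) (earlyBlock G (ballSet hG hd hreg v n) (2 ^ j) J z)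
      (finalT G β (stepLen j) (ballSet hG hd hreg v n) (2 ^ j) v) ≤
      2 * ε' + 2 * blockVar (stepLen j) (earlyBlock G D' (2 ^ j) J v)
        (finalT G β (stepLen j) D' (2 ^ j) z) := fun z hz =>
    (earlyVar_swap_le hG hd hreg (by have := mem_ballSet.mp hz; omega) _ _ J (hsub z hz)).trans
      (add_le_add (mul_le_mul_of_nonneg_left (hst ⟨z, hz⟩) zero_le_two) le_rfl)
  have hcol' : ∑ z ∈ B, blockVar (stepLen j) (earlyBlock G D' (2 ^ j) J v)
      (finalT G β (stepLen j) D' (2 ^ j) z) ≤
      C * Real.sqrt ((J : ℝ) * stepLen j) + CD * Real.sqrt (stepLen j : ℝ) := by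
    refine (Finset.sum_le_sum_of_subset_of_nonneg hBD fun z _ _ => ?_).trans
      (hcolD (stepLen j) (2 ^ j) J v ok hJ hfine)
    exact integral_nonneg fun x => sq_nonneg _
  have hsum := Finset.sum_le_sum hterm
  rw [Finset.sum_add_distrib, Finset.sum_const, nsmul_eq_mul, ← Finset.mul_sum] at hsum
  have he : ε' * (2 * (B.card : ℝ) + 1) = ε / 3 := by
    rw [hε'def]; exact div_mul_cancel₀ _ (by positivity)
  linarith [hsm.1]

end Vale.Agent.P161
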