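import Vale.Agent.P161.Crit.Col
import Vale.Agent.P161.Crit.Lip

/-!
# The influence of the early increments at one vertex
-/

namespace Vale.Agent.P161

open SimpleGraph MeasureTheory ProbabilityTheory
open scoped Classical NNReal

variable {V : Type*}

/-- The increments of the first `J` steps on the ordered edges leaving `z`. -/
noncomputable def earlyBlock (G : SimpleGraph V) (D : Finset V) (K J : ℕ) (z : V) :
    Finset (CIdx G D K) :=
  Finset.univ.filter fun q => (q.1 : V × V).1 = z ∧ (q.2 : ℕ) < J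

/-- The size of the linearised scheme of the Euler scheme. -/
noncomputable def eulerA2 (G : SimpleGraph V) (β h : ℝ) (D : Finset V) (K i₀ : ℕ) (a : V × V)
    (x : CIdx G D K → ℝ) : ℝ :=
  ∑ v ∈ D, alphaPath G β h D (eulerH G β h D (drv x)) i₀ a K v ^ 2

variable {G : SimpleGraph V} {d : ℕ} {β t β₀ : ℝ} {hv : ℝ≥0} {D : Finset V} {K i₀ : ℕ} {a : V × V}

theorem integral_piecewise {ι : Type*} [Fintype ι] (v : ℝ≥0) (S : Finset ι) {F : (ι → ℝ) → ℝ}
    (hF : Measurable F) (hI : Integrable F (gaussPi ι v)) :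
    ∫ x, F x ∂gaussPi ι v =
      ∫ p : (ι → ℝ) × (ι → ℝ), F (S.piecewise p.1 p.2) ∂((gaussPi ι v).prod (gaussPi ι v)) := by
  conv_lhs => rw [← map_piecewise v S]
  exact integral_map (measurable_piecewise S).aemeasurable hF.aestronglyMeasurable

theorem integral_coord_sq_mul {ι : Type*} [Fintype ι] (v : ℝ≥0) (i : ι) {g : (ι → ℝ) → ℝ}
    (hg : Measurable g) {B : ℝ} (hB : ∀ x, |g x| ≤ B)
    (hfree : ∀ x x' : ι → ℝ, (∀ j, j ≠ i → x j = x' j) → g x = g x') :
    ∫ x, x i ^ 2 * g x ∂gaussPi ι v = (v : ℝ) * ∫ x, g x ∂gaussPi ι v := by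
  have hI : Integrable (fun x : ι → ℝ => x i ^ 2 * g x) (gaussPi ι v) :=
    ((expGrowth_coord i).sq.mul (.of_bounded hg hB)).integrable v
  rw [integral_piecewise v {i} (F := fun x => x i ^ 2 * g x)
      (((measurable_pi_apply i).pow_const 2).mul hg) hI,
    integral_congr_ae (g := fun p : (ι → ℝ) × (ι → ℝ) => p.1 i ^ 2 * g p.2)
      (ae_of_all _ fun p => ?_),
    integral_prod_mul (fun y : ι → ℝ => y i ^ 2) g, integral_coord_sq]
  simp only [Pi.mul_apply]
  rw [hfree (Finset.piecewise _ p.1 p.2) p.2 fun j hj => by simp [hj]]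
  simp

theorem measurable_eulerA2 (β h : ℝ) (D : Finset V) (K i₀ : ℕ) (a : V × V) :
    Measurable (eulerA2 G β h D K i₀ a) := by
  have hE := measurable_eulerH (G := G) β h D
    (Z := fun (x : CIdx G D K → ℝ) => drv x) fun j e => measurable_drv j e
  have hA : ∀ i v, Measurable fun x : CIdx G D K → ℝ =>
      alphaPath G β h D (eulerH G β h D (drv x)) i₀ a i v := by
    intro i
    induction i with
    | zero => exact fun v => measurable_const
    | succ i ih =>
      intro v
      simp only [alphaPath, stepA, chQ]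
      exact ((ih v).add ((Finset.measurable_sum _ fun e _ =>
        ((measurable_sigMul_comp _ D _ (hE i) ih).add
          (measurable_sigMul_comp _ D _ (hE i) ih)).const_mul _).const_mul _)).add measurable_const
  exact Finset.measurable_sum _ fun v _ => (hA K v).pow_const 2

theorem measurable_alphaEuler (β h : ℝ) (D : Finset V) (K i₀ : ℕ) (a : V × V) (v : V) :
    Measurable fun x : CIdx G D K → ℝ =>
      alphaPath G β h D (eulerH G β h D (drv x)) i₀ a K v := by
  have hE := measurable_eulerH (G := G) β h D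
    (Z := fun (x : CIdx G D K → ℝ) => drv x) fun j e => measurable_drv j e
  suffices ∀ i v, Measurable fun x : CIdx G D K → ℝ =>
      alphaPath G β h D (eulerH G β h D (drv x)) i₀ a i v from this K v
  intro i
  induction i with
  | zero => exact fun v => measurable_const
  | succ i ih =>
    intro v
    simp only [alphaPath, stepA, chQ]
    exact ((ih v).add ((Finset.measurable_sum _ fun e _ =>
      ((measurable_sigMul_comp _ D _ (hE i) ih).add
        (measurable_sigMul_comp _ D _ (hE i) ih)).const_mul _).const_mul _)).add measurable_const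

/-- The fluctuation in one coordinate through the linearised scheme. -/
theorem exists_coord_var (hG : G.IsTree) (hd : 3 ≤ d) (hreg : ∀ v, (G.neighborSet v).ncard = d)
    (hD : IsConvexSet G D) :
    ∃ CD : ℝ, 0 ≤ CD ∧ ∀ (hv : ℝ≥0) (K : ℕ), ChOk β hv K → ∀ (q : CIdx G D K),
      ∑ v ∈ D, blockVar hv {q} (finalT G β hv D K v) ≤
        4 * (hv : ℝ) * (∫ x, eulerA2 G β hv D K q.2 q.1 x ∂gaussPi (CIdx G D K) hv) +
          CD * (hv : ℝ) ^ 2 := by
  obtain ⟨C4, hC4, h4⟩ : ∃ C4 : ℝ, 0 ≤ C4 ∧ ∀ v : ℝ≥0,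
      ∫ y : Unit → ℝ, y () ^ 4 ∂gaussPi Unit v ≤ C4 * (v : ℝ) ^ 2 := integral_coord_pow_four ()
  set Cc := crudeCurv d β D
  refine ⟨D.card * (4 * Cc ^ 2 + 8 * Cc ^ 2 * C4), by positivity, fun hv K ok q => ?_⟩
  set A := fun (v : V) (x : CIdx G D K → ℝ) =>
    alphaPath G β hv D (eulerH G β hv D (drv x)) q.2 q.1 K v with hA
  set x0 := fun x : CIdx G D K → ℝ => Function.update x q 0 with hx0
  have hm0 : Measurable x0 := measurable_update_left
  have hAb : ∀ (v : V) (x : CIdx G D K → ℝ), v ∈ D → |A v x| ≤ crudeBound d β D := fun v x hv' =>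
    abs_alphaPath_le hG hd hreg ok.beta_nonneg (NNReal.coe_nonneg hv) ok.time_le hD _ _ _ le_rfl hv'
  have hshift : ∀ x : CIdx G D K → ℝ,
      drv x = fun j b => drv (x0 x) j b + if j = (q.2 : ℕ) ∧ b = (q.1 : V × V) then x q else 0 := by
    intro x
    funext j b
    simp only [hx0, drv_update]
    split_ifs <;> ring
  have hp4 : ∫ x : CIdx G D K → ℝ, x q ^ 4 ∂gaussPi (CIdx G D K) hv ≤ C4 * (hv : ℝ) ^ 2 := by
    refine le_of_eq_of_le ?_ (h4 hv)
    have m1 := measurePreserving_eval (fun _ : CIdx G D K => gaussianReal 0 hv) q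
    have m2 := measurePreserving_eval (fun _ : Unit => gaussianReal 0 hv) ()
    have e1 := integral_map (μ := Measure.pi fun _ : CIdx G D K => gaussianReal 0 hv) (φ := Function.eval q) m1.measurable.aemeasurable
      (f := fun y : ℝ => y ^ 4) (by fun_prop)
    have e2 := integral_map (μ := Measure.pi fun _ : Unit => gaussianReal 0 hv) (φ := Function.eval ()) m2.measurable.aemeasurable
      (f := fun y : ℝ => y ^ 4) (by fun_prop)
    rw [m1.map_eq] at e1
    rw [m2.map_eq] at e2
    exact e1.symm.trans e2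
  have hone : ∀ v ∈ D, blockVar hv {q} (finalT G β hv D K v) ≤
      4 * (hv : ℝ) * (∫ x, A v x ^ 2 ∂gaussPi (CIdx G D K) hv) +
        (4 * Cc ^ 2 + 8 * Cc ^ 2 * C4) * (hv : ℝ) ^ 2 := by
    intro v hv'
    have hAm : Measurable (A v) := measurable_alphaEuler β hv D K q.2 q.1 v
    have hA0 : ∀ x, |A v (x0 x) ^ 2| ≤ crudeBound d β D ^ 2 := fun x => by
      rw [abs_pow]; exact pow_le_pow_left₀ (abs_nonneg _) (hAb v _ hv') 2
    refine (blockVar_coord_le (measurable_finalT β hv D K v) (abs_finalT_le β hv D K v) q).trans ?_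
    have hpt : ∀ x : CIdx G D K → ℝ,
        (finalT G β hv D K v x - finalT G β hv D K v (x0 x)) ^ 2 ≤
          2 * (x q ^ 2 * A v (x0 x) ^ 2) + 8 * Cc ^ 2 * x q ^ 4 := by
      intro x
      have ht := abs_eulerH_taylor hG hd hreg ok.beta_nonneg (NNReal.coe_nonneg hv) ok.time_le hD
        (drv (x0 x)) q.2 q.1 (x q) hv'
      rw [← hshift x] at ht
      have h2 := abs_tanh_sub_le (eulerH G β hv D (drv x) K v) (eulerH G β hv D (drv (x0 x)) K v)
      have h3 : |eulerH G β hv D (drv x) K v - eulerH G β hv D (drv (x0 x)) K v| ≤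
          |x q * A v (x0 x)| + Cc * x q ^ 2 := by
        have h := abs_sub_abs_le_abs_sub
          (eulerH G β hv D (drv x) K v - eulerH G β hv D (drv (x0 x)) K v) (x q * A v (x0 x))
        simp only [hA] at h ⊢
        linarith
      rw [← sq_abs]
      refine (pow_le_pow_left₀ (abs_nonneg _) (h2.trans h3) 2).trans (add_sq_le.trans ?_)
      rw [sq_abs, mul_pow, mul_pow, mul_add]
      nlinarith [sq_nonneg Cc, sq_nonneg (x q ^ 2), mul_nonneg (sq_nonneg Cc) (sq_nonneg (x q ^ 2))]
    have iA : Integrable (fun x : CIdx G D K → ℝ => x q ^ 2 * A v (x0 x) ^ 2)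
        (gaussPi (CIdx G D K) hv) :=
      ((expGrowth_coord q).sq.mul (.of_bounded ((hAm.comp hm0).pow_const 2) hA0)).integrable hv
    have i4 : Integrable (fun x : CIdx G D K → ℝ => x q ^ 4) (gaussPi (CIdx G D K) hv) := by
      have := ((expGrowth_coord q).sq.sq).integrable hv
      simpa only [← pow_mul] using this
    have iF : Integrable (fun x : CIdx G D K → ℝ =>
        (finalT G β hv D K v x - finalT G β hv D K v (x0 x)) ^ 2) (gaussPi (CIdx G D K) hv) := by
      refine integrable_of_abs_le (((measurable_finalT β hv D K v).sub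
        ((measurable_finalT β hv D K v).comp hm0)).pow_const 2) (B := (1 + 1) ^ 2) fun x => ?_
      rw [abs_pow]
      exact pow_le_pow_left₀ (abs_nonneg _) ((abs_sub _ _).trans
        (add_le_add (abs_finalT_le β hv D K v x) (abs_finalT_le β hv D K v _))) 2
    refine (integral_mono iF ((iA.const_mul 2).add (i4.const_mul _)) hpt).trans ?_
    simp only [Pi.add_apply]
    rw [integral_add (iA.const_mul 2) (i4.const_mul _), integral_const_mul, integral_const_mul,
      integral_coord_sq_mul hv q (g := fun x => A v (x0 x) ^ 2) ((hAm.comp hm0).pow_const 2) hA0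
        fun x x' hx => by
          have e : x0 x = x0 x' := funext fun j => by
            by_cases hj : j = q
            · subst hj; simp [hx0]
            · simp [hx0, hj, hx j hj]
          simp only [e]]
    have hcmp : ∫ x, A v (x0 x) ^ 2 ∂gaussPi (CIdx G D K) hv ≤
        2 * (∫ x, A v x ^ 2 ∂gaussPi (CIdx G D K) hv) + 2 * Cc ^ 2 * hv := by
      have ia : Integrable (fun x => A v (x0 x) ^ 2) (gaussPi (CIdx G D K) hv) :=
        integrable_of_abs_le ((hAm.comp hm0).pow_const 2) hA0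
      have ib : Integrable (fun x => A v x ^ 2) (gaussPi (CIdx G D K) hv) :=
        integrable_of_abs_le (hAm.pow_const 2) (B := crudeBound d β D ^ 2) fun x => by
          rw [abs_pow]; exact pow_le_pow_left₀ (abs_nonneg _) (hAb v _ hv') 2
      have ic := ((expGrowth_coord q).sq.integrable hv).const_mul (2 * Cc ^ 2)
      refine (integral_mono ia ((ib.const_mul 2).add ic) fun x => ?_).trans (le_of_eq ?_)
      · have hs := abs_alphaPath_shift_le hG hd hreg ok.beta_nonneg (NNReal.coe_nonneg hv)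
          ok.time_le hD (drv (x0 x)) q.2 q.1 (x q) hv'
        rw [← hshift x] at hs
        simp only [hA, Pi.add_apply] at hs ⊢
        set u := alphaPath G β hv D (eulerH G β hv D (drv x)) q.2 q.1 K v
        set w := alphaPath G β hv D (eulerH G β hv D (drv (x0 x))) q.2 q.1 K v
        have h1 := pow_le_pow_left₀ (abs_nonneg _) hs 2
        rw [sq_abs, mul_pow, sq_abs] at h1
        nlinarith [sq_nonneg (2 * u - w)]
      · simp only [Pi.add_apply]
        rw [integral_add (ib.const_mul 2) ic, integral_const_mul, integral_const_mul,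
          integral_coord_sq]
    have k1 := mul_le_mul_of_nonneg_left hcmp (NNReal.coe_nonneg hv)
    have k2 := mul_le_mul_of_nonneg_left hp4 (show 0 ≤ 8 * Cc ^ 2 by positivity)
    linarith
  refine (Finset.sum_le_sum hone).trans (le_of_eq ?_)
  rw [Finset.sum_add_distrib, Finset.sum_const, nsmul_eq_mul, ← Finset.mul_sum,
    ← integral_finsetSum _ fun v hv' => ?_]
  · rw [← mul_assoc (D.card : ℝ)]; rfl
  · exact integrable_of_abs_le ((measurable_alphaEuler β hv D K q.2 q.1 v).pow_const 2)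
      (B := crudeBound d β D ^ 2) fun x => by
        rw [abs_pow]; exact pow_le_pow_left₀ (abs_nonneg _) (hAb v _ hv') 2

theorem eulerA2_innovVec (x : CIdx G D K → ℝ) :
    eulerA2 G β hv D K i₀ a (innovVec G β hv D K x) = obsA2 G β hv D i₀ a K (drv x) := by
  refine Finset.sum_congr rfl fun v _ => ?_
  rw [obsAlpha, alphaPath_congr K fun j _ hj => eulerH_innovVec x hj.le]

theorem pow_sub_one_le {u : ℝ} (hu : 0 ≤ u) {K : ℕ} {M : ℝ} (hM : (K : ℝ) * u ≤ M) :
    (1 + u) ^ K - 1 ≤ (K : ℝ) * u * Real.exp M := by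
  have h1 : (1 + u) ^ K ≤ Real.exp ((K : ℝ) * u) := by
    rw [Real.exp_nat_mul]
    exact pow_le_pow_left₀ (by linarith) (by linarith [Real.add_one_le_exp u]) K
  set y := (K : ℝ) * u
  have hy : 0 ≤ y := by positivity
  have h2 : Real.exp y - 1 ≤ y * Real.exp y := by
    have h3 := Real.add_one_le_exp (-y)
    have h4 := mul_le_mul_of_nonneg_left h3 (Real.exp_pos y).le
    rw [← Real.exp_add, add_neg_cancel, Real.exp_zero] at h4
    linarith
  linarith [mul_le_mul_of_nonneg_left (Real.exp_le_exp.mpr hM) hy]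

/-- The observation law and the Euler law give close expectations to bounded functions. -/
theorem exists_transfer (hβ : 0 ≤ β)
    (hone : ∑ η : D → Bool, freeWeight G (Real.tanh β) D η = 1) :
    ∃ C : ℝ, 0 ≤ C ∧ ∀ (hv : ℝ≥0) (K : ℕ), ChOk β hv K →
      8 * (hv : ℝ) * β * (dirE G D).card ≤ 1 →
      ∀ (g : (CIdx G D K → ℝ) → ℝ) (B : ℝ), Measurable g → (∀ x, |g x| ≤ B) →
        |∫ x, chZ G β hv D K x * g (innovVec G β hv D K x) ∂gaussPi (CIdx G D K) hv -
          ∫ x, g x ∂gaussPi (CIdx G D K) hv| ≤ C * (1 + B ^ 2) * Real.sqrt hv := by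
  set m := 8 * β * (dirE G D).card with hm
  refine ⟨m ^ 2 * Real.exp m + 1, by positivity, fun hv K ok hM1 g B hg hB => ?_⟩
  have hh := ok.step_pos
  set s := Real.sqrt hv
  have hs : 0 < s := Real.sqrt_pos.mpr hh
  refine (abs_integral_chZ_sub_le ok hone hM1 (.of_bounded hg hB) (t := 1 / s)
    (by positivity)).trans ?_
  rw [one_div_one_div]
  have hKu : (K : ℝ) * (8 * (hv : ℝ) * β * (dirE G D).card) ^ 2 ≤ m ^ 2 * hv := by
    calc (K : ℝ) * (8 * (hv : ℝ) * β * (dirE G D).card) ^ 2 = (K : ℝ) * hv * (m ^ 2 * hv) := by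
          rw [hm]; ring
      _ ≤ _ := mul_le_of_le_one_left (by positivity) ok.time_le
  have hKm : (K : ℝ) * (8 * (hv : ℝ) * β * (dirE G D).card) ^ 2 ≤ m := by
    refine hKu.trans ?_
    calc m ^ 2 * hv = m * (8 * (hv : ℝ) * β * (dirE G D).card) := by rw [hm]; ring
      _ ≤ m * 1 := mul_le_mul_of_nonneg_left hM1 (by positivity)
      _ = m := mul_one m
  have hint : ∫ x, g x ^ 2 ∂gaussPi (CIdx G D K) hv ≤ B ^ 2 := by
    refine (le_abs_self _).trans (abs_integral_le_integral_abs.trans ?_)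
    have hb2 : ∀ x, |g x ^ 2| ≤ B ^ 2 := fun x => by
      rw [abs_pow]; exact pow_le_pow_left₀ (abs_nonneg _) (hB x) 2
    refine (integral_mono (integrable_of_abs_le (hg.pow_const 2) hb2).abs
      (integrable_const (B ^ 2)) hb2).trans (le_of_eq ?_)
    simp
  have hpow := pow_sub_one_le (sq_nonneg (8 * (hv : ℝ) * β * (dirE G D).card)) hKm
  have hB2 : 0 ≤ B ^ 2 := sq_nonneg B
  have hX : 0 ≤ m ^ 2 * Real.exp m := by positivity
  calc 1 / s * ((1 + (8 * (hv : ℝ) * β * (dirE G D).card) ^ 2) ^ K - 1) +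
        s * ∫ x, g x ^ 2 ∂gaussPi (CIdx G D K) hv
      ≤ 1 / s * (m ^ 2 * hv * Real.exp m) + s * B ^ 2 := by
        refine add_le_add (mul_le_mul_of_nonneg_left (hpow.trans (mul_le_mul_of_nonneg_right hKu
          (Real.exp_pos _).le)) (by positivity)) (mul_le_mul_of_nonneg_left hint hs.le)
    _ = s * (m ^ 2 * Real.exp m + B ^ 2) := by
        have e : (hv : ℝ) = s * s := (Real.mul_self_sqrt hh.le).symm
        rw [e]
        field_simp
    _ ≤ _ := by nlinarith [mul_nonneg hs.le hB2, mul_nonneg (mul_nonneg hs.le hB2) hX]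

theorem block_steps_le {h : ℝ} (hh : 0 < h) {J : ℕ} (hJ : (J : ℝ) * h ≤ 1) :
    ∑ i ∈ Finset.range J, h * (1 + 1 / Real.sqrt (((i + 1 : ℕ) : ℝ) * h)) ≤
      5 * Real.sqrt ((J : ℝ) * h) := by
  rcases Nat.eq_zero_or_pos J with rfl | hJ0
  · simp
  set y := Real.sqrt ((J : ℝ) * h)
  have hy1 : y ≤ 1 := Real.sqrt_le_one.mpr hJ
  have hy : (J : ℝ) * h ≤ y := by
    have := Real.mul_self_sqrt (show 0 ≤ (J : ℝ) * h by positivity)
    nlinarith [Real.sqrt_nonneg ((J : ℝ) * h)]
  have h2 : Real.sqrt (((J + 1 : ℕ) : ℝ) * h) ≤ 2 * y := by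
    rw [Real.sqrt_le_iff]
    refine ⟨by positivity, ?_⟩
    rw [mul_pow, Real.sq_sqrt (by positivity)]
    have : (1 : ℝ) ≤ J := by exact_mod_cast hJ0
    push_cast
    nlinarith
  have h3 := sum_inv_sqrt_le hh (le_refl 1) (J + 1) (by omega)
  rw [Finset.sum_Ico_eq_sum_range, Nat.add_sub_cancel] at h3
  have e : ∑ i ∈ Finset.range J, h * (1 + 1 / Real.sqrt (((i + 1 : ℕ) : ℝ) * h)) =
      (J : ℝ) * h + ∑ i ∈ Finset.range J, h / Real.sqrt (((1 + i : ℕ) : ℝ) * h) := by
    simp only [mul_add, mul_one, Finset.sum_add_distrib, Finset.sum_const, Finset.card_range,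
      nsmul_eq_mul, mul_one_div]
    congr 1
    exact Finset.sum_congr rfl fun i _ => by rw [Nat.add_comm i 1]
  rw [e]
  linarith

theorem card_fst_le (hd : 3 ≤ d) (hreg : ∀ v, (G.neighborSet v).ncard = d) (D : Finset V) (z : V) :
    (((dirE G D).filter fun e => e.1 = z).card : ℝ) ≤ d := by
  have h := sum_dirE_fst_le hd hreg D (g := fun u => if u = z then (1 : ℝ) else 0)
    fun u => by split_ifs <;> norm_num
  rw [Finset.sum_boole] at h
  refine h.trans (mul_le_of_le_one_right (by positivity) ?_)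
  rw [Finset.sum_ite_eq']
  split_ifs <;> norm_num

theorem sum_earlyBlock (D : Finset V) (z : V) {J : ℕ} (hJ : J ≤ K) (f : ℕ → ℝ) :
    ∑ q ∈ earlyBlock G D K J z, f (q.2 : ℕ) =
      (((dirE G D).filter fun e => e.1 = z).card : ℝ) * ∑ i ∈ Finset.range J, f i := by
  rw [earlyBlock, Finset.sum_filter,
    Fintype.sum_prod_type (f := fun q : CIdx G D K =>
      if (q.1 : V × V).1 = z ∧ (q.2 : ℕ) < J then f (q.2 : ℕ) else 0)]
  have e1 : ∀ e : dirE G D, ∑ k : Fin K, (if (e : V × V).1 = z ∧ (k : ℕ) < J then f (k : ℕ) else 0) =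
      if (e : V × V).1 = z then ∑ i ∈ Finset.range J, f i else 0 := by
    intro e
    by_cases he : (e : V × V).1 = z
    · simp only [he, true_and, if_true]
      rw [Fin.sum_univ_eq_sum_range (fun i => if i < J then f i else 0), ← Finset.sum_filter]
      congr 1
      ext i
      simp only [Finset.mem_filter, Finset.mem_range]
      omega
    · simp [he]
  simp only [e1]
  rw [Finset.sum_coe_sort (dirE G D) (fun e => if e.1 = z then ∑ i ∈ Finset.range J, f i else 0),
    ← Finset.sum_filter, Finset.sum_const, nsmul_eq_mul]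

/-- The early increments leaving one vertex move all magnetisations little in the mean. -/
theorem exists_early_var (hG : G.IsTree) (hd : 3 ≤ d) (hreg : ∀ v, (G.neighborSet v).ncard = d)
    (ht0 : 0 < t) (hbt : ((d : ℝ) - 1) * t ^ 2 = 1) (hβ₀ : 0 < β₀) :
    ∃ C : ℝ, 0 ≤ C ∧ ∀ β, CritPar G d t β₀ β → ∀ (D : Finset V), IsConvexSet G D →
      ∑ η : D → Bool, freeWeight G (Real.tanh β) D η = 1 →
      ∃ CD : ℝ, 0 ≤ CD ∧ ∀ (hv : ℝ≥0) (K J : ℕ) (z : V), ChOk β hv K → J ≤ K →
        8 * (hv : ℝ) * β * (dirE G D).card ≤ 1 →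
        ∑ v ∈ D, blockVar hv (earlyBlock G D K J z) (finalT G β hv D K v) ≤
          C * Real.sqrt ((J : ℝ) * hv) + CD * Real.sqrt hv := by
  obtain ⟨C, hC, hcol⟩ := exists_column hG hd hreg ht0 hbt hβ₀
  refine ⟨20 * d * C, by positivity, fun β cp D hD hone => ?_⟩
  obtain ⟨C1, hC1, hcol⟩ := hcol β cp D hD hone
  obtain ⟨C2, hC2, htr⟩ := exists_transfer (G := G) (D := D) cp.beta_nonneg hone
  obtain ⟨C3, hC3, hcoord⟩ := exists_coord_var (β := β) hG hd hreg hD
  set B := crudeBound d β D * crudeBound d β D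
  set C4 := C1 + C2 * (1 + B ^ 2)
  refine ⟨20 * d * C4 + d * C3, by positivity, fun hv K J z ok hJ hM1 => ?_⟩
  have hh := ok.step_pos
  have hB : 0 ≤ B := mul_nonneg (crudeBound_nonneg d β D) (crudeBound_nonneg d β D)
  have hgb : ∀ (i₀ : ℕ) (a : V × V) (x : CIdx G D K → ℝ), |eulerA2 G β hv D K i₀ a x| ≤ B := by
    intro i₀ a x
    rw [eulerA2, abs_of_nonneg (Finset.sum_nonneg fun _ _ => sq_nonneg _)]
    exact sum_sq_le_of_sum_abs (sum_abs_alphaPath_le' hG hd hreg ok.beta_nonneg
      (NNReal.coe_nonneg hv) ok.time_le hD _ _ _ le_rfl)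
  have hJ1 : (J : ℝ) * hv ≤ 1 := (ok.mono hJ).time_le
  set s := Real.sqrt ((hv : ℝ)) with hs
  have hs0 : 0 ≤ s := Real.sqrt_nonneg _
  have hq : ∀ q ∈ earlyBlock G D K J z, ∑ v ∈ D, blockVar hv {q} (finalT G β hv D K v) ≤
      4 * (C + C4 * s) * ((hv : ℝ) * (1 + 1 / Real.sqrt ((((q.2 : ℕ) + 1 : ℕ) : ℝ) * hv))) +
        C3 * (hv : ℝ) ^ 2 := by
    intro q _
    refine (hcoord hv K ok q).trans (add_le_add ?_ le_rfl)
    have h1 := (abs_le.mp (htr hv K ok hM1 _ B (measurable_eulerA2 β hv D K q.2 q.1)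
      (hgb q.2 q.1))).1
    simp only [eulerA2_innovVec] at h1
    have h2 := hcol hv K q.2 q.1 ok q.2.isLt q.1.2
    simp only [obsExp] at h2
    set X := 1 + 1 / Real.sqrt ((((q.2 : ℕ) + 1 : ℕ) : ℝ) * hv)
    have hX : 1 ≤ X := le_add_of_nonneg_right (by positivity)
    have h3 : C2 * (1 + B ^ 2) * s ≤ C2 * (1 + B ^ 2) * s * X :=
      le_mul_of_one_le_right (by positivity) hX
    have h4 : (∫ x, eulerA2 G β hv D K q.2 q.1 x ∂gaussPi (CIdx G D K) hv) ≤ (C + C4 * s) * X := by
      simp only [C4, add_mul] at *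
      linarith
    calc 4 * (hv : ℝ) * _ ≤ 4 * (hv : ℝ) * ((C + C4 * s) * X) :=
          mul_le_mul_of_nonneg_left h4 (by positivity)
      _ = _ := by ring
  calc ∑ v ∈ D, blockVar hv (earlyBlock G D K J z) (finalT G β hv D K v)
      ≤ ∑ v ∈ D, ∑ q ∈ earlyBlock G D K J z, blockVar hv {q} (finalT G β hv D K v) :=
        Finset.sum_le_sum fun v _ =>
          blockVar_le_sum (measurable_finalT β hv D K v) (abs_finalT_le β hv D K v) _
    _ = ∑ q ∈ earlyBlock G D K J z, ∑ v ∈ D, blockVar hv {q} (finalT G β hv D K v) :=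
        Finset.sum_comm
    _ ≤ _ := Finset.sum_le_sum hq
    _ = (((dirE G D).filter fun e => e.1 = z).card : ℝ) * (4 * (C + C4 * s) *
          (∑ i ∈ Finset.range J, (hv : ℝ) * (1 + 1 / Real.sqrt (((i + 1 : ℕ) : ℝ) * hv))) +
          (J : ℝ) * hv * (C3 * hv)) := by
        rw [sum_earlyBlock D z hJ (fun i => 4 * (C + C4 * s) *
          ((hv : ℝ) * (1 + 1 / Real.sqrt (((i + 1 : ℕ) : ℝ) * hv))) + C3 * (hv : ℝ) ^ 2)]
        rw [Finset.sum_add_distrib, ← Finset.mul_sum, Finset.sum_const, Finset.card_range,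
          nsmul_eq_mul]
        ring
    _ ≤ (d : ℝ) * (4 * (C + C4 * s) * (5 * Real.sqrt ((J : ℝ) * hv)) + 1 * (C3 * s)) := by
        have hle : (hv : ℝ) ≤ 1 ∨ J = 0 := by
          rcases Nat.eq_zero_or_pos J with h0 | h0
          · exact Or.inr h0
          · exact Or.inl ((le_mul_of_one_le_left hh.le (by exact_mod_cast h0)).trans hJ1)
        refine mul_le_mul (card_fst_le hd hreg D z) (add_le_add (mul_le_mul_of_nonneg_left
          (block_steps_le hh hJ1) (by positivity)) ?_) (by positivity) (by positivity)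
        rcases hle with hle | hle
        · refine mul_le_mul hJ1 (mul_le_mul_of_nonneg_left ?_ hC3) (by positivity) zero_le_one
          rw [hs, Real.le_sqrt hh.le hh.le, sq]
          exact mul_le_of_le_one_left hh.le hle
        · subst hle
          simp only [Nat.cast_zero, zero_mul, one_mul]
          positivity
    _ ≤ _ := by
        have hsJ : Real.sqrt ((J : ℝ) * hv) ≤ 1 := Real.sqrt_le_one.mpr hJ1
        have h5 := mul_le_mul_of_nonneg_left hsJ (show 0 ≤ 20 * (d : ℝ) * C4 * s by positivity)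
        linarith

end Vale.Agent.P161
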