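import Vale.Agent.P161.Crit.Sens

/-!
# Spins and observations jointly: tower property, consistency, time invariance
-/

namespace Vale.Agent.P161

open SimpleGraph MeasureTheory ProbabilityTheory
open scoped Classical NNReal

variable {V : Type*}

/-- The joint expectation over spins and `i` steps of observations. -/
noncomputable def spinExp (G : SimpleGraph V) (β : ℝ) (hv : ℝ≥0) (D : Finset V) (i : ℕ)
    (F : (D → Bool) → (ℕ → V × V → ℝ) → ℝ) : ℝ :=
  ∑ η : D → Bool, freeWeight G (Real.tanh β) D η *
    ∫ x, Real.exp (chExpo G β hv D (extCfg η) (drv x) i) * F η (drv x) ∂gaussPi (CIdx G D i) hv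

/-- The posterior magnetisation along observations. -/
noncomputable def obsMagn (G : SimpleGraph V) (β h : ℝ) (D : Finset V) (w : V) (i : ℕ)
    (b : ℕ → V × V → ℝ) : ℝ :=
  magn G (chTh β ((i : ℝ) * h)) D w (obsH G β D b i)

/-- The mean square of the posterior magnetisation at a time. -/
noncomputable def magnSq (G : SimpleGraph V) (β : ℝ) (D : Finset V) (w : V) (r : ℝ≥0) : ℝ :=
  ∑ η : D → Bool, freeWeight G (Real.tanh β) D η *
    ∫ y, magn G (chTh β (r : ℝ)) D w
      (edgeField G β D fun a => (r : ℝ) * (chLam β * chFeat G D η a) + y a) ^ 2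
      ∂gaussPi (dirE G D) r

variable {G : SimpleGraph V} {β : ℝ} {hv : ℝ≥0} {D D' : Finset V} {i K : ℕ}

theorem map_comp_gauss {ι κ : Type*} [Fintype ι] [Fintype κ] (v : ℝ≥0) {e : ι → κ}
    (he : Function.Injective e) :
    (gaussPi κ v).map (fun x => fun q => x (e q)) = gaussPi ι v := by
  classical
  refine (Measure.pi_eq fun s hs => ?_).symm
  have hm : Measurable fun x : κ → ℝ => fun q => x (e q) :=
    measurable_pi_lambda _ fun q => measurable_pi_apply (e q)
  rw [Measure.map_apply hm (.univ_pi hs)]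
  have e1 : (fun x : κ → ℝ => fun q => x (e q)) ⁻¹' Set.univ.pi s =
      Set.univ.pi fun j => ⋂ q, ⋂ _ : e q = j, s q := by
    ext x
    simp only [Set.mem_preimage, Set.mem_pi, Set.mem_univ, true_implies, Set.mem_iInter]
    exact ⟨fun h j q hq => hq ▸ h q, fun h q => h (e q) q rfl⟩
  rw [e1, gaussPi, Measure.pi_pi]
  have hsub : Finset.univ.image e ⊆ (Finset.univ : Finset κ) := Finset.subset_univ _
  rw [← Finset.prod_subset hsub fun j _ hj => ?_, Finset.prod_image fun a _ b _ h => he h]
  · refine Finset.prod_congr rfl fun q _ => ?_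
    congr 1
    ext z
    simp only [Set.mem_iInter]
    exact ⟨fun h => h q rfl, fun h p hp => by rwa [he hp]⟩
  · have : (⋂ q, ⋂ _ : e q = j, s q) = Set.univ := by
      ext z
      simp only [Set.mem_iInter, Set.mem_univ, iff_true]
      exact fun q hq => absurd (Finset.mem_image.mpr ⟨q, Finset.mem_univ q, hq⟩) hj
    rw [this, measure_univ]

theorem integral_comp_gauss {ι κ : Type*} [Fintype ι] [Fintype κ] (v : ℝ≥0) {e : ι → κ}
    (he : Function.Injective e) {f : (ι → ℝ) → ℝ} (hf : Measurable f) :
    ∫ x : κ → ℝ, f (fun q => x (e q)) ∂gaussPi κ v = ∫ x, f x ∂gaussPi ι v := by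
  rw [← map_comp_gauss v he, integral_map
    (measurable_pi_lambda _ fun q => measurable_pi_apply (e q)).aemeasurable
    hf.aestronglyMeasurable]

theorem chZ_mul_avg (hβ : 0 ≤ β) (ok : ChOk β hv i) (x : CIdx G D i → ℝ) (f : (D → Bool) → ℝ) :
    chZ G β hv D i x * avg (chPost G β hv D (drv x) i) f =
      ∑ η, freeWeight G (Real.tanh β) D η *
        Real.exp (chExpo G β hv D (extCfg η) (drv x) i) * f η := by
  have hpos := fieldSum_pos (G := G) (ok.th_nonneg le_rfl) (chTh_lt_one β _) D
    (obsH G β D (drv x) i)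
  rw [chZ_eq hβ x, avg, chPost, mul_assoc, mul_div_cancel₀ _ hpos.ne', Finset.mul_sum]
  refine Finset.sum_congr rfl fun η _ => ?_
  rw [posterior_eq hβ, mul_assoc]

/-- The tower property at one time. -/
theorem obsExp_avg (ok : ChOk β hv i) {g : (ℕ → V × V → ℝ) → ℝ} (hg : PathBdd G D i g)
    (f : (D → Bool) → ℝ) :
    obsExp G β hv D i (fun b => g b * avg (chPost G β hv D b i) f) =
      spinExp G β hv D i (fun η b => g b * f η) := by
  have e : ∀ x : CIdx G D i → ℝ, chZ G β hv D i x * (g (drv x) * avg (chPost G β hv D (drv x) i) f) =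
      ∑ η, freeWeight G (Real.tanh β) D η *
        (Real.exp (chExpo G β hv D (extCfg η) (drv x) i) * (g (drv x) * f η)) := by
    intro x
    rw [mul_left_comm, chZ_mul_avg ok.beta_nonneg ok, Finset.mul_sum]
    exact Finset.sum_congr rfl fun η _ => by ring
  simp only [obsExp, spinExp, e]
  rw [integral_finsetSum _ fun η _ => (((expGrowth_chExpo ok η).mul
    (hg.mul (pathBdd_const (f η))).expGrowth).const_mul _).integrable hv]
  exact Finset.sum_congr rfl fun η _ => integral_const_mul _ _

theorem obsExp_eq_spinExp (ok : ChOk β hv i) {g : (ℕ → V × V → ℝ) → ℝ} (hg : PathBdd G D i g) :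
    obsExp G β hv D i g = spinExp G β hv D i (fun _ b => g b) := by
  simp only [obsExp, spinExp, chZ, Finset.sum_mul, mul_assoc]
  rw [integral_finsetSum _ fun η _ =>
    (((expGrowth_chExpo ok η).mul hg.expGrowth).const_mul _).integrable hv]
  exact Finset.sum_congr rfl fun η _ => integral_const_mul _ _

theorem pathBdd_of_prefix {n m : ℕ} {g : (ℕ → V × V → ℝ) → ℝ}
    (hgc : ∀ b b' : ℕ → V × V → ℝ, (∀ j < n, ∀ e ∈ dirE G D, b j e = b' j e) → g b = g b')
    (hg : PathBdd G D n g) (hnm : n ≤ m) : PathBdd G D m g := by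
  obtain ⟨B, hB⟩ := hg.2
  have e : (fun x : CIdx G D m → ℝ => g (drv x)) =
      (fun x : CIdx G D n → ℝ => g (drv x)) ∘ fun x q => drv x q.2 q.1 := by
    funext x
    exact hgc _ _ fun j hj e he => by rw [drv_apply _ hj he]
  refine ⟨?_, B, fun x => ?_⟩
  · rw [e]; exact hg.1.comp (measurable_pi_lambda _ fun q => measurable_drv _ _)
  · rw [congr_fun e x]; exact hB _

theorem spinExp_lift {n : ℕ} {g : (ℕ → V × V → ℝ) → ℝ}
    (hgc : ∀ b b' : ℕ → V × V → ℝ, (∀ j < n, ∀ e ∈ dirE G D, b j e = b' j e) → g b = g b')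
    (hg : PathBdd G D n g) (f : (D → Bool) → ℝ) : ∀ k, ChOk β hv (n + k) →
    spinExp G β hv D (n + k) (fun η b => g b * f η) = spinExp G β hv D n (fun η b => g b * f η)
  | 0 => fun _ => rfl
  | k + 1 => fun ok => by
    have ok' : ChOk β hv (n + k) := ok.mono (by omega)
    rw [← spinExp_lift hgc hg f k ok']
    refine Finset.sum_congr rfl fun η _ => congrArg _ ?_
    have hb := pathBdd_of_prefix hgc hg (show n ≤ n + k + 1 by omega)
    show ∫ x, Real.exp (chExpo G β hv D (extCfg η) (drv x) (n + k + 1)) * (g (drv x) * f η)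
      ∂gaussPi (CIdx G D (n + k + 1)) hv = _
    rw [integral_joinStep hv (f := fun x : CIdx G D (n + k + 1) → ℝ =>
      Real.exp (chExpo G β hv D (extCfg η) (drv x) (n + k + 1)) * (g (drv x) * f η))
      ((expGrowth_chExpo ok η).mul (hb.mul (pathBdd_const (f η))).expGrowth)]
    refine integral_congr_ae (ae_of_all _ fun x => ?_)
    have hgj : ∀ z, g (drv (joinStep x z)) = g (drv x) := fun z =>
      hgc _ _ fun j hj a _ => drv_joinStep_lt x z (by omega) a
    have h1 := chExpo_shift (G := G) (β := β) ok.step_ne η (φ := fun _ : dirE G D → ℝ => (1 : ℝ))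
      measurable_const
    simp only [mul_one, integral_const, probReal_univ, one_smul, chFeat] at h1
    simp only [chExpo_joinStep, Real.exp_add, hgj]
    rw [integral_mul_const, integral_const_mul, h1, mul_one]

/-- The tower property with a later horizon. -/
theorem spinExp_magn (ok : ChOk β hv K) (hi : i ≤ K) {g : (ℕ → V × V → ℝ) → ℝ}
    (hgc : ∀ b b' : ℕ → V × V → ℝ, (∀ j < i, ∀ e ∈ dirE G D, b j e = b' j e) → g b = g b')
    (hg : PathBdd G D i g) (w : V) :
    obsExp G β hv D K (fun b => g b * obsMagn G β hv D w i b) =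
      spinExp G β hv D K (fun η b => g b * sp w (extCfg η)) := by
  obtain ⟨k, rfl⟩ := Nat.exists_eq_add_of_le hi
  have okk : ChOk β hv i := ok.mono (Nat.le_add_right i k)
  have hm : PathBdd G D i (obsMagn G β hv D w i) :=
    ⟨measurable_magn_comp _ D w (measurable_obsH_apply i), 1, fun x =>
      abs_magn_le (okk.th_nonneg le_rfl) (chTh_lt_one _ _) D w _⟩
  rw [obsExp_lift (fun b b' hb => by rw [hgc b b' hb, obsMagn, obsMagn, obsH_congr D hb])
    (hg.mul hm) k ok, spinExp_lift hgc hg _ k ok, ← obsExp_avg okk hg]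
  rfl

/-- The part of the exponent on the ordered edges outside `D`. -/
noncomputable def outIdx (G : SimpleGraph V) (D D' : Finset V) (K : ℕ) : Finset (CIdx G D' K) :=
  Finset.univ.filter fun q => (q.1 : V × V) ∉ dirE G D

theorem dirE_mono (h : D ⊆ D') : dirE G D ⊆ dirE G D' := fun a ha => by
  obtain ⟨h1, h2, h3⟩ := mem_dirE.mp ha
  exact mem_dirE.mpr ⟨h h1, h h2, h3⟩

/-- The restriction of coordinates to a smaller set. -/
noncomputable def resIdx (h : D ⊆ D') (q : CIdx G D K) : CIdx G D' K :=
  (⟨(q.1 : V × V), dirE_mono h q.1.2⟩, q.2)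

theorem resIdx_injective (h : D ⊆ D') : Function.Injective (resIdx (G := G) (K := K) h) := by
  rintro ⟨⟨a, ha⟩, k⟩ ⟨⟨b, hb⟩, l⟩ he
  simp only [resIdx, Prod.mk.injEq, Subtype.mk.injEq] at he
  obtain ⟨rfl, rfl⟩ := he
  rfl

theorem drv_resIdx (h : D ⊆ D') (x : CIdx G D' K → ℝ) {e : V × V} (he : e ∈ dirE G D) (j : ℕ) :
    drv (fun q => x (resIdx h q)) j e = drv x j e := by
  by_cases hj : j < K
  · rw [drv_apply _ hj he, drv_apply _ hj (dirE_mono h he)]; rfl
  · simp [drv, hj]

theorem edgeSpin_restrict (h : D ⊆ D') (η' : D' → Bool) {e : V × V} (he : e ∈ dirE G D) :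
    edgeSpin e (extCfg η') = edgeSpin e (extCfg fun u : D => η' ⟨u, h u.2⟩) := by
  obtain ⟨h1, h2, -⟩ := mem_dirE.mp he
  simp only [edgeSpin, sp]
  rw [extCfg_of_mem _ h1, extCfg_of_mem _ h2, extCfg_of_mem _ (h h1), extCfg_of_mem _ (h h2)]

theorem integral_mul_free {ι : Type*} [Fintype ι] (v : ℝ≥0) (S : Finset ι) {f g : (ι → ℝ) → ℝ}
    (hf : Measurable f) (hg : Measurable g) (hI : Integrable (fun x => f x * g x) (gaussPi ι v))
    (hfS : ∀ x x' : ι → ℝ, (∀ j ∈ S, x j = x' j) → f x = f x')
    (hgS : ∀ x x' : ι → ℝ, (∀ j ∉ S, x j = x' j) → g x = g x') :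
    ∫ x, f x * g x ∂gaussPi ι v = (∫ x, f x ∂gaussPi ι v) * ∫ x, g x ∂gaussPi ι v := by
  rw [integral_piecewise v S (F := fun x => f x * g x) (hf.mul hg) hI,
    integral_congr_ae (g := fun p : (ι → ℝ) × (ι → ℝ) => f p.1 * g p.2) (ae_of_all _ fun p => ?_),
    integral_prod_mul]
  simp only
  rw [hfS (Finset.piecewise _ p.1 p.2) p.1 fun j hj => by simp [hj],
    hgS (Finset.piecewise _ p.1 p.2) p.2 fun j hj => by simp [hj]]

/-- Consistency in the volume. -/
theorem spinExp_consistent (h0 : 0 ≤ Real.tanh β) {μ : Measure (V → Bool)}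
    (hμ : IsFreeIsing G (Real.tanh β) μ) (h : D ⊆ D') (hD : (G.induce (D : Set V)).Connected)
    (hD' : (G.induce (D' : Set V)).Connected) (ok : ChOk β hv K)
    {g : (ℕ → V × V → ℝ) → ℝ} (hg : PathBdd G D K g)
    (hgc : ∀ b b' : ℕ → V × V → ℝ, (∀ j < K, ∀ e ∈ dirE G D, b j e = b' j e) → g b = g b')
    (f : (D → Bool) → ℝ) :
    spinExp G β hv D' K (fun η b => g b * f (fun u => η ⟨u, h u.2⟩)) =
      spinExp G β hv D K (fun η b => g b * f η) := by
  set Φ : (D → Bool) → ℝ := fun η =>
    ∫ x, Real.exp (chExpo G β hv D (extCfg η) (drv x) K) * (g (drv x) * f η)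
      ∂gaussPi (CIdx G D K) hv with hΦ
  have key : ∀ η' : D' → Bool,
      ∫ x, Real.exp (chExpo G β hv D' (extCfg η') (drv x) K) *
        (g (drv x) * f (fun u => η' ⟨u, h u.2⟩)) ∂gaussPi (CIdx G D' K) hv =
        Φ (fun u => η' ⟨u, h u.2⟩) := by
    intro η'
    set η : D → Bool := fun u => η' ⟨u, h u.2⟩ with hη
    set S := outIdx G D D' K with hS
    set c : CIdx G D' K → ℝ := fun q => if q ∈ S then
      (hv : ℝ) * (chLam β * edgeSpin (q.1 : V × V) (extCfg η')) else 0 with hc
    set rest := fun x : CIdx G D' K → ℝ => ∑ q, (c q * x q - c q ^ 2 / 2) / hv with hrest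
    set inner := fun x : CIdx G D K → ℝ =>
      Real.exp (chExpo G β hv D (extCfg η) (drv x) K) * (g (drv x) * f η) with hinner
    have hin : ExpGrowth inner :=
      (expGrowth_chExpo ok η).mul (hg.mul (pathBdd_const (f η))).expGrowth
    have hsplit : ∀ x : CIdx G D' K → ℝ,
        Real.exp (chExpo G β hv D' (extCfg η') (drv x) K) * (g (drv x) * f η) =
          Real.exp (rest x) * inner (fun q => x (resIdx h q)) := by
      intro x
      simp only [hinner]
      rw [hgc (drv fun q => x (resIdx h q)) (drv x) fun j _ e he => drv_resIdx h x he j,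
        ← mul_assoc, ← mul_assoc, ← mul_assoc, ← Real.exp_add]
      congr 3
      have hh : (hv : ℝ) ≠ 0 := ok.step_pos.ne'
      have hterm : ∀ q : CIdx G D' K, (c q * x q - c q ^ 2 / 2) / hv =
          if q ∈ S then chLam β * edgeSpin (q.1 : V × V) (extCfg η') * drv x q.2 q.1 -
            (hv : ℝ) * chLam β ^ 2 * edgeSpin (q.1 : V × V) (extCfg η') ^ 2 / 2 else 0 := by
        intro q
        by_cases hq : q ∈ S
        · simp only [hc, hq, if_true, drv_coord]; field_simp
        · simp only [hc, hq, if_false]; ring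
      simp only [hrest, hterm, chExpo, hS, outIdx, Finset.mem_filter, Finset.mem_univ, true_and]
      rw [Fintype.sum_prod_type_right (f := fun q : CIdx G D' K =>
        if (q.1 : V × V) ∉ dirE G D then chLam β * edgeSpin (q.1 : V × V) (extCfg η') *
          drv x q.2 q.1 - (hv : ℝ) * chLam β ^ 2 * edgeSpin (q.1 : V × V) (extCfg η') ^ 2 / 2
        else 0)]
      rw [← Fin.sum_univ_eq_sum_range, ← Fin.sum_univ_eq_sum_range, ← Finset.sum_add_distrib]
      refine Finset.sum_congr rfl fun k _ => ?_
      rw [Finset.sum_coe_sort (dirE G D') (fun e => if e ∉ dirE G D then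
        chLam β * edgeSpin e (extCfg η') * drv x k e -
          (hv : ℝ) * chLam β ^ 2 * edgeSpin e (extCfg η') ^ 2 / 2 else 0),
        ← Finset.sum_filter, ← Finset.sdiff_eq_filter,
        ← Finset.sum_sdiff (dirE_mono (G := G) h)]
      refine congrArg _ (Finset.sum_congr rfl fun e he => ?_)
      rw [drv_resIdx h x he, edgeSpin_restrict h η' he]
    simp only [hsplit]
    have hm : Measurable fun x : CIdx G D' K → ℝ => inner (fun q => x (resIdx h q)) :=
      hin.measurable.comp (measurable_pi_lambda _ fun q => measurable_pi_apply _)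
    have hin' : ExpGrowth fun x : CIdx G D' K → ℝ => inner (fun q => x (resIdx h q)) := by
      refine hin.comp (measurable_pi_lambda _ fun q => measurable_pi_apply _) (A := 0) (B := 1)
        fun x => ?_
      rw [zero_add, one_mul, ← Finset.sum_image (f := fun j => |x j|)
        fun a _ b _ hab => resIdx_injective h hab]
      exact Finset.sum_le_sum_of_subset_of_nonneg (Finset.subset_univ _) fun _ _ _ => abs_nonneg _
    have hrestg : ExpGrowth fun x => Real.exp (rest x) := by
      refine expGrowth_exp (Finset.measurable_sum _ fun q _ =>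
        (((measurable_pi_apply q).const_mul _).sub measurable_const).div_const _) (A := 0)
        (B := ∑ q, |c q| / hv) fun x => ?_
      rw [zero_add, Finset.sum_mul]
      refine Finset.sum_le_sum fun q _ => ?_
      rw [div_mul_eq_mul_div, div_le_div_iff_of_pos_right ok.step_pos]
      have h1 : |x q| ≤ ∑ k, |x k| :=
        Finset.single_le_sum (f := fun k => |x k|) (fun k _ => abs_nonneg _) (Finset.mem_univ q)
      nlinarith [le_abs_self (c q * x q), abs_mul (c q) (x q), sq_nonneg (c q),
        mul_le_mul_of_nonneg_left h1 (abs_nonneg (c q))]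
    rw [integral_mul_free hv S hrestg.measurable hm ((hrestg.mul hin').integrable hv)
      (fun x x' hx => congrArg Real.exp (Finset.sum_congr rfl fun q _ => by
        by_cases hq : q ∈ S
        · rw [hx q hq]
        · simp [hc, hq]))
      (fun x x' hx => congrArg inner (funext fun q => hx _ (by
        simp only [hS, outIdx, Finset.mem_filter, Finset.mem_univ, true_and, not_not]
        exact q.1.2))),
      integral_exp_tilt c ok.step_ne, one_mul,
      integral_comp_gauss hv (resIdx_injective h) hin.measurable]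
  simp only [spinExp, key]
  have e1 := integral_restrict h0 (Real.tanh_lt_one β) hμ hD Φ
  have e2 := integral_restrict h0 (Real.tanh_lt_one β) hμ hD'
    (fun η' => Φ (fun u => η' ⟨u, h u.2⟩))
  simp only [smul_eq_mul] at e1 e2
  rw [← e2, e1]

theorem gaussPi_zero {ι : Type*} [Fintype ι] :
    gaussPi ι (0 : ℝ≥0) = Measure.dirac 0 := by
  refine Measure.pi_eq fun s hs => ?_
  simp only [gaussianReal_zero_var]
  rw [Measure.dirac_apply' _ (.univ_pi hs)]
  simp only [Measure.dirac_apply' _ (hs _)]
  by_cases hmem : (0 : ι → ℝ) ∈ Set.univ.pi s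
  · rw [Set.indicator_of_mem hmem, Pi.one_apply]
    refine (Finset.prod_eq_one fun a _ => ?_).symm
    rw [Set.indicator_of_mem (show (0 : ℝ) ∈ s a from hmem a (Set.mem_univ a)), Pi.one_apply]
  · rw [Set.indicator_of_notMem hmem]
    simp only [Set.mem_pi, Set.mem_univ, true_implies, not_forall] at hmem
    obtain ⟨a, ha⟩ := hmem
    exact (Finset.prod_eq_zero (Finset.mem_univ a)
      (Set.indicator_of_notMem (show (0 : ℝ) ∉ s a from ha) _)).symm

theorem measurable_edge_shift (c : dirE G D → ℝ) :
    Measurable fun y : dirE G D → ℝ => edgeField G β D fun a => c a + y a :=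
  Measurable.comp (g := fun y : dirE G D → ℝ => edgeField G β D y)
    (f := fun y : dirE G D → ℝ => fun a => c a + y a) measurable_fieldOf
    (measurable_pi_lambda _ fun a => Measurable.const_add
      (f := fun y : dirE G D → ℝ => y a) (measurable_pi_apply a) (c a))

theorem edgeField_zero : edgeField G β D (fun _ => 0) = fun _ => 0 :=
  funext fun v => by simp [edgeField, fieldOf]

/-- The field of the observations at a time does not depend on the discretisation. -/
theorem spin_field_law (η : D → Bool) : ∀ i : ℕ, ChOk β hv i → ∀ φ : (V → ℝ) → ℝ, Measurable φ →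
    ∀ B : ℝ, (∀ u, |φ u| ≤ B) →
      ∫ x, Real.exp (chExpo G β hv D (extCfg η) (drv x) i) * φ (obsH G β D (drv x) i)
          ∂gaussPi (CIdx G D i) hv =
        ∫ y, φ (edgeField G β D fun a => ((i : ℝ) * hv) * (chLam β * chFeat G D η a) + y a)
          ∂gaussPi (dirE G D) ((i : ℝ≥0) * hv)
  | 0 => fun _ φ hφ _ _ => by
    have h0 : gaussPi (dirE G D) ((0 : ℕ) * hv : ℝ≥0) = Measure.dirac 0 := by
      rw [Nat.cast_zero, zero_mul, gaussPi_zero]
    have hm : Measurable fun y : dirE G D → ℝ =>
        φ (edgeField G β D fun a => ((0 : ℕ) : ℝ) * hv * (chLam β * chFeat G D η a) + y a) := by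
      exact Measurable.comp (g := φ) hφ
        (measurable_edge_shift fun a => ((0 : ℕ) : ℝ) * hv * (chLam β * chFeat G D η a))
    rw [h0, integral_dirac' _ _ hm.stronglyMeasurable]
    have e : ∀ x : CIdx G D 0 → ℝ, φ (obsH G β D (drv x) 0) =
        φ (edgeField G β D fun a => ((0 : ℕ) : ℝ) * hv * (chLam β * chFeat G D η a) +
          (0 : dirE G D → ℝ) a) := fun x => congrArg φ (funext fun v => by
      simp [obsH_zero, edgeField_zero])
    simp only [e, chExpo, Finset.range_zero, Finset.sum_empty, Real.exp_zero, one_mul,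
      integral_const, probReal_univ, one_smul]
  | i + 1 => fun ok φ hφ B hB => by
    have ok' : ChOk β hv i := ok.mono (Nat.le_succ i)
    set c := fun a : dirE G D => (hv : ℝ) * (chLam β * chFeat G D η a) with hc
    set φ' : (V → ℝ) → ℝ := fun u =>
      ∫ z, φ (fun v => u v + edgeField G β D (fun a => c a + z a) v) ∂gaussPi (dirE G D) hv
      with hφ'
    have hjm := measurable_shift_field (G := G) (β := β) (D := D) c
    have hφ'm : Measurable φ' :=
      ((hφ.comp hjm).stronglyMeasurable.integral_prod_right'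
        (f := fun q : (V → ℝ) × (dirE G D → ℝ) =>
          φ (fun v => q.1 v + edgeField G β D (fun a => c a + q.2 a) v))).measurable
    have hφ'b : ∀ u, |φ' u| ≤ B := fun u => by
      rw [hφ', ← Real.norm_eq_abs]
      exact (norm_integral_le_of_norm_le_const (ae_of_all _ fun z => by
        rw [Real.norm_eq_abs]; exact hB _)).trans (by rw [probReal_univ, mul_one])
    have ih := spin_field_law η i ok' φ' hφ'm B hφ'b
    have hψ : Measurable fun u : dirE G D → ℝ => φ (edgeField G β D fun a =>
        (((i + 1 : ℕ) : ℝ) * hv) * (chLam β * chFeat G D η a) + u a) :=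
      Measurable.comp (g := φ) hφ
        (measurable_edge_shift fun a => ((i + 1 : ℕ) : ℝ) * hv * (chLam β * chFeat G D η a))
    rw [show ((i + 1 : ℕ) : ℝ≥0) * hv = (i : ℝ≥0) * hv + hv by push_cast; ring,
      ← gaussPi_add_integral _ _ hψ fun u => hB _,
      integral_joinStep hv (f := fun x : CIdx G D (i + 1) → ℝ =>
        Real.exp (chExpo G β hv D (extCfg η) (drv x) (i + 1)) * φ (obsH G β D (drv x) (i + 1)))
        ((expGrowth_chExpo ok η).mul (.of_bounded (hφ.comp (measurable_obsH _)) fun x => hB _))]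
    refine (integral_congr_ae (ae_of_all _ fun x => ?_)).trans (ih.trans
      (integral_congr_ae (ae_of_all _ fun y => integral_congr_ae (ae_of_all _ fun z => ?_))))
    · have hobs : ∀ z, obsH G β D (drv (joinStep x z)) (i + 1) =
          fun v => obsH G β D (drv x) i v + edgeField G β D z v :=
        fun z => funext fun v => obsH_joinStep_succ x z v
      have hsh := chExpo_shift (β := β) ok.step_ne η (φ := fun z : dirE G D → ℝ =>
        φ (fun v => obsH G β D (drv x) i v + edgeField G β D z v))
        (hφ.comp (measurable_pi_lambda _ fun v => (measurable_edgeField_apply v).const_add _))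
      simp only [chExpo_joinStep, Real.exp_add, hobs]
      simp only [hφ', hc]
      rw [← hsh, ← integral_const_mul]
      exact integral_congr_ae (ae_of_all _ fun z => by simp only [chFeat]; ring)
    · simp only [hc]
      congr 1
      rw [← edgeField_add]
      congr 1
      funext a
      push_cast
      ring

theorem measurable_magn_field (θ : ℝ) (D : Finset V) (w : V) :
    Measurable fun u : V → ℝ => magn G θ D w u :=
  measurable_magn_comp θ D w fun u => measurable_pi_apply u

theorem pathBdd_obsMagn (ok : ChOk β hv i) {m : ℕ} (w : V) :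
    PathBdd G D m (obsMagn G β hv D w i) :=
  ⟨measurable_magn_comp _ D w (measurable_obsH_apply i), 1, fun _ =>
    abs_magn_le (ok.th_nonneg le_rfl) (chTh_lt_one _ _) D w _⟩

theorem obsMagn_congr {b b' : ℕ → V × V → ℝ} (w : V)
    (hb : ∀ j < i, ∀ e ∈ dirE G D, b j e = b' j e) :
    obsMagn G β hv D w i b = obsMagn G β hv D w i b' := by
  rw [obsMagn, obsMagn, obsH_congr D hb]

theorem obsExp_magn_sq (ok : ChOk β hv i) (w : V) :
    obsExp G β hv D i (fun b => obsMagn G β hv D w i b ^ 2) =
      magnSq G β D w ((i : ℝ≥0) * hv) := by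
  have hg : PathBdd G D i fun b => obsMagn G β hv D w i b ^ 2 := by
    simpa only [sq] using (pathBdd_obsMagn ok w).mul (pathBdd_obsMagn ok w)
  rw [obsExp_eq_spinExp ok hg, spinExp, magnSq]
  refine Finset.sum_congr rfl fun η _ => congrArg _ ?_
  simp only [obsMagn]
  rw [spin_field_law η i ok (fun u => magn G (chTh β ((i : ℝ) * hv)) D w u ^ 2)
    ((measurable_magn_field _ D w).pow_const 2) 1 fun u => by
      rw [abs_pow]
      exact pow_le_one₀ (abs_nonneg _) (abs_magn_le (ok.th_nonneg le_rfl) (chTh_lt_one _ _) D w u)]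
  push_cast
  rfl

end Vale.Agent.P161
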