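import Vale.Agent.P161.Crit.Mono

/-!
# Stability of the final magnetisation in the volume
-/

namespace Vale.Agent.P161

open SimpleGraph MeasureTheory ProbabilityTheory
open scoped Classical NNReal

variable {V : Type*}

/-- The coordinates after step `J` on ordered edges starting farther than `R` from `v`. -/
noncomputable def farSet (G : SimpleGraph V) (D : Finset V) (K J : ℕ) (v : V) (R : ℕ) :
    Finset (CIdx G D K) :=
  Finset.univ.filter fun q => J ≤ (q.2 : ℕ) ∧ R < G.dist v (q.1 : V × V).1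

variable {G : SimpleGraph V} {β : ℝ} {hv : ℝ≥0} {D D' : Finset V} {d K J : ℕ} {a θ cs y : ℝ}

/-- The coordinates far away matter little. -/
theorem far_blockVar_le (lp : LipPar G d β hv J K a θ cs) (hD : IsConvexSet G D) {v : V}
    (hv' : v ∈ D) (hy : a ^ 2 < y) (hy1 : ((d : ℝ) - 1) * y < 1) (R : ℕ) :
    blockVar hv (farSet G D K J v R) (finalT G β hv D K v) ≤
      ((1 + lipC d β a cs) * chLam β * (1 + 1 / a)) ^ 2 * d *
        (1 + d * y / (1 - ((d : ℝ) - 1) * y)) * (a ^ 2 / y) ^ R := by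
  have ha := lp.a_pos
  set C := ((1 + lipC d β a cs) * chLam β * (1 + 1 / a)) ^ 2 with hC
  have hC0 : 0 ≤ C := sq_nonneg _
  refine (blockVar_le_sum (measurable_finalT β hv D K v) (abs_finalT_le β hv D K v) _).trans ?_
  set g := fun u : V => if R < G.dist v u then (a ^ 2) ^ G.dist v u else 0 with hg
  have hq : ∀ q ∈ farSet G D K J v R, blockVar hv {q} (finalT G β hv D K v) ≤
      (hv : ℝ) * (C * g (q.1 : V × V).1) := by
    intro q hq
    obtain ⟨-, hJ, hR⟩ := Finset.mem_filter.mp hq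
    refine (lp.blockVar_finalT_le hD hv' q hJ).trans (mul_le_mul_of_nonneg_left ?_
      (NNReal.coe_nonneg hv))
    simp only [hg, if_pos hR]
    rw [hC, ← pow_mul, mul_comm 2, pow_mul, ← mul_pow ((1 + lipC d β a cs) * chLam β * (1 + 1 / a))]
    have hl : 0 ≤ (1 + lipC d β a cs) * chLam β := by
      have := lipC_nonneg (d := d) (β := β) (cs := cs) ha.le
      have := chLam_nonneg β
      positivity
    refine pow_le_pow_left₀ (mul_nonneg hl (by positivity)) ?_ 2
    rw [mul_assoc _ (1 + 1 / a)]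
    refine mul_le_mul_of_nonneg_left ?_ hl
    rw [add_mul, one_mul, div_mul_eq_mul_div, one_mul]
    refine add_le_add le_rfl ?_
    rw [le_div_iff₀ ha, ← pow_succ]
    refine pow_le_pow_of_le_one ha.le lp.a_le ?_
    obtain ⟨-, -, hadj⟩ := mem_dirE.mp q.1.2
    have h1 := lp.tree.connected.dist_triangle (u := v) (v := (q.1 : V × V).2) (w := (q.1 : V × V).1)
    rw [SimpleGraph.dist_eq_one_iff_adj.mpr hadj.symm] at h1
    omega
  have hg0 : ∀ u, 0 ≤ g u := fun u => by simp only [hg]; split_ifs <;> positivity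
  have hgeo : ∑ u ∈ D, g u ≤ (a ^ 2 / y) ^ R * (1 + d * y / (1 - ((d : ℝ) - 1) * y)) := by
    simp only [hg]
    rw [← Finset.sum_filter]
    exact sum_far_le lp.tree lp.deg lp.reg (sq_nonneg a) hy hy1 v R _
      fun u hu => (Finset.mem_filter.mp hu).2.le
  calc ∑ q ∈ farSet G D K J v R, blockVar hv {q} (finalT G β hv D K v)
      ≤ ∑ q ∈ farSet G D K J v R, (hv : ℝ) * (C * g (q.1 : V × V).1) := Finset.sum_le_sum hq
    _ ≤ ∑ q : CIdx G D K, (hv : ℝ) * (C * g (q.1 : V × V).1) :=
        Finset.sum_le_sum_of_subset_of_nonneg (Finset.subset_univ _) fun q _ _ =>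
          mul_nonneg (NNReal.coe_nonneg hv) (mul_nonneg hC0 (hg0 _))
    _ = (K : ℝ) * hv * (C * ∑ e ∈ dirE G D, g e.1) := by
        rw [Fintype.sum_prod_type (f := fun q : CIdx G D K => (hv : ℝ) * (C * g (q.1 : V × V).1))]
        simp only [Finset.sum_const, Finset.card_univ, Fintype.card_fin, nsmul_eq_mul,
          ← Finset.mul_sum]
        rw [Finset.sum_coe_sort (dirE G D) (fun e => g e.1)]
        ring
    _ ≤ 1 * (C * (d * ((a ^ 2 / y) ^ R * (1 + d * y / (1 - ((d : ℝ) - 1) * y))))) := by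
        refine mul_le_mul lp.time_le (mul_le_mul_of_nonneg_left
          ((sum_dirE_fst_le lp.deg lp.reg D hg0).trans
            (mul_le_mul_of_nonneg_left hgeo (Nat.cast_nonneg d))) hC0)
          (mul_nonneg hC0 (Finset.sum_nonneg fun e _ => hg0 _)) zero_le_one
    _ = _ := by ring

theorem avgSet_lip {ι : Type*} [Fintype ι] (v : ℝ≥0) (S T : Finset ι) {F : (ι → ℝ) → ℝ}
    (hF : Measurable F) {B L : ℝ} (hB : ∀ x, |F x| ≤ B)
    (hlip : ∀ x x', |F x - F x'| ≤ L * ∑ q, |x q - x' q|) (hT : ∀ q, q ∉ T → q ∈ S)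
    (u u' : ι → ℝ) : |avgSet v S F u - avgSet v S F u'| ≤ L * ∑ q ∈ T, |u q - u' q| := by
  have hm : ∀ z : ι → ℝ, Measurable fun y : ι → ℝ => F (S.piecewise y z) := fun z =>
    hF.comp (Measurable.comp (measurable_piecewise S)
      (f := fun y : ι → ℝ => (y, z)) (measurable_id.prodMk measurable_const))
  unfold avgSet
  rw [← integral_sub (integrable_of_abs_le (hm u) fun y => hB _)
    (integrable_of_abs_le (hm u') fun y => hB _), ← Real.norm_eq_abs]
  refine (norm_integral_le_of_norm_le_const (C := L * ∑ q ∈ T, |u q - u' q|)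
    (ae_of_all _ fun y => ?_)).trans (by rw [probReal_univ, mul_one])
  rw [Real.norm_eq_abs]
  refine (hlip _ _).trans ?_
  rcases isEmpty_or_nonempty ι with h | ⟨⟨i⟩⟩
  · simp [Finset.univ_eq_empty, Finset.eq_empty_of_isEmpty T]
  have hL : 0 ≤ L := by
    have h1 := hlip (fun _ => 1) (fun _ => 0)
    simp only [sub_zero, abs_one, Finset.sum_const, Finset.card_univ, nsmul_eq_mul, mul_one] at h1
    have h2 : (0 : ℝ) < Fintype.card ι := by exact_mod_cast Fintype.card_pos_iff.mpr ⟨i⟩
    nlinarith [abs_nonneg (F (fun _ => 1) - F (fun _ => 0))]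
  refine mul_le_mul_of_nonneg_left ?_ hL
  rw [← Finset.sum_subset (Finset.subset_univ T) fun q _ hq => by simp [hT q hq]]
  refine Finset.sum_le_sum fun q _ => ?_
  by_cases hq : q ∈ S <;> simp [hq]

theorem finalT_lip_from (lp : LipPar G d β hv J K a θ cs) (hD : IsConvexSet G D) {v : V}
    (hv' : v ∈ D) (x x' : CIdx G D K → ℝ) (hx : ∀ q : CIdx G D K, (q.2 : ℕ) < J → x q = x' q) :
    |finalT G β hv D K v x - finalT G β hv D K v x'| ≤
      (1 + lipC d β a cs) * (2 * chLam β) * ∑ q, |x q - x' q| := by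
  refine (abs_tanh_sub_le _ _).trans ?_
  set p := fun w => chLam β * ∑ e : dirE G D, chInc w (e : V × V) *
    ∑ k : Fin K, |x (e, k) - x' (e, k)| with hp
  refine (lp.eulerH_final_le_sup hD (fun j hj e he => ?_) hv' (p := p)
    fun l hl w _ => ?_).trans ?_
  · by_cases hjK : j < K
    · rw [drv_apply _ hjK he, drv_apply _ hjK he]; exact hx (⟨e, he⟩, ⟨j, hjK⟩) hj
    · simp [drv, hjK]
  · rw [diffP, fieldOf, ← Finset.sum_coe_sort (dirE G D), abs_mul,
      abs_of_nonneg (chLam_nonneg β)]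
    refine mul_le_mul_of_nonneg_left ((Finset.abs_sum_le_sum_abs _ _).trans
      (Finset.sum_le_sum fun e _ => ?_)) (chLam_nonneg β)
    rw [abs_mul, abs_of_nonneg (chInc_nonneg _ _)]
    refine mul_le_mul_of_nonneg_left ((Finset.abs_sum_le_sum_abs _ _).trans ?_)
      (chInc_nonneg _ _)
    refine (Finset.sum_le_sum_of_subset_of_nonneg (Finset.range_mono hl)
      fun _ _ _ => abs_nonneg _).trans (le_of_eq ?_)
    rw [← Fin.sum_univ_eq_sum_range]
    exact Finset.sum_congr rfl fun k _ => by rw [drv_coord x (e, k), drv_coord x' (e, k)]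
  · rw [mul_assoc]
    have hC0 := lipC_nonneg (d := d) (β := β) (cs := cs) lp.a_pos.le
    refine mul_le_mul_of_nonneg_left ?_ (by linarith)
    have hp0 : ∀ w, 0 ≤ p w := fun w => mul_nonneg (chLam_nonneg β)
      (Finset.sum_nonneg fun e _ => mul_nonneg (chInc_nonneg _ _)
        (Finset.sum_nonneg fun _ _ => abs_nonneg _))
    refine (Finset.sum_le_sum fun w _ => mul_le_of_le_one_left (hp0 w)
      (pow_le_one₀ lp.a_pos.le lp.a_le)).trans (le_of_eq ?_)
    simp only [hp, ← Finset.mul_sum]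
    rw [Finset.sum_comm]
    simp only [← Finset.sum_mul, sum_chInc_vertex (Subtype.prop _), ← Finset.mul_sum]
    rw [Fintype.sum_prod_type (f := fun q : CIdx G D K => |x q - x' q|)]
    ring

theorem finalT_lip (lp : LipPar G d β hv 0 K a θ cs) (hD : IsConvexSet G D) {v : V}
    (hv' : v ∈ D) (x x' : CIdx G D K → ℝ) :
    |finalT G β hv D K v x - finalT G β hv D K v x'| ≤
      (1 + lipC d β a cs) * (2 * chLam β) * ∑ q, |x q - x' q| :=
  finalT_lip_from lp hD hv' x x' fun _ h => absurd h (Nat.not_lt_zero _)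

/-- Averages are Lipschitz in the remaining coordinates. -/
theorem avg_finalT_lip (lp : LipPar G d β hv 0 K a θ cs) (hD : IsConvexSet G D) {v : V}
    (hv' : v ∈ D) (S : Finset (CIdx G D K)) (u u' : CIdx G D K → ℝ) :
    |avgSet hv S (finalT G β hv D K v) u - avgSet hv S (finalT G β hv D K v) u'| ≤
      (1 + lipC d β a cs) * (2 * chLam β) * ∑ q ∈ Finset.univ \ S, |u q - u' q| :=
  avgSet_lip hv S (Finset.univ \ S) (measurable_finalT β hv D K v) (abs_finalT_le β hv D K v)
    (finalT_lip lp hD hv') (fun q hq => by simpa using hq) u u'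

/-- The fields at a vertex only read its own edges. -/
theorem obsH_eq_of_nbrs (hsub : D ⊆ D') {v : V} (hv' : v ∈ D) (hnb : ∀ u, G.Adj v u → u ∈ D)
    (b : ℕ → V × V → ℝ) (i : ℕ) : obsH G β D' b i v = obsH G β D b i v := by
  simp only [obsH, fieldOf]
  congr 1
  refine (Finset.sum_subset (dirE_mono hsub) fun e he he' => ?_).symm
  obtain ⟨-, -, hadj⟩ := mem_dirE.mp he
  by_cases h1 : v = e.1
  · exact absurd (mem_dirE.mpr ⟨h1 ▸ hv', hnb _ (h1 ▸ hadj), hadj⟩) he'
  · by_cases h2 : v = e.2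
    · exact absurd (mem_dirE.mpr ⟨hnb _ (h2 ▸ hadj.symm), h2 ▸ hv', hadj⟩) he'
    · simp [chInc, h1, h2]

/-- The increments read in `D` of the two kinds of innovations. -/
theorem innov_gap (hsub : D ⊆ D') (x : CIdx G D' K → ℝ) (q : CIdx G D K) :
    |innovVec G β hv D' K x (resIdx hsub q) -
        innovVec G β hv D K (fun p => x (resIdx hsub p)) q| ≤ (hv : ℝ) * chLam β *
      (|obsMagn G β hv D' (q.1 : V × V).1 q.2 (drv x) - obsMagn G β hv D (q.1 : V × V).1 q.2 (drv x)| +
       |obsMagn G β hv D' (q.1 : V × V).2 q.2 (drv x) -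
        obsMagn G β hv D (q.1 : V × V).2 q.2 (drv x)|) := by
  have e : obsH G β D (drv fun p => x (resIdx hsub p)) (q.2 : ℕ) = obsH G β D (drv x) (q.2 : ℕ) :=
    obsH_congr D fun j _ a ha => drv_resIdx hsub x ha j
  simp only [innovVec, chInnov, chDrift, obsMagn, e, drv_coord]
  simp only [show (fun p => x (resIdx hsub p)) q = x (resIdx hsub q) from rfl,
    show ((resIdx hsub q).2 : ℕ) = (q.2 : ℕ) from rfl,
    show ((resIdx hsub q).1 : V × V) = (q.1 : V × V) from rfl]
  set m1' := magn G (chTh β (((q.2 : ℕ) : ℝ) * hv)) D' (q.1 : V × V).1 (obsH G β D' (drv x) q.2)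
  set m2' := magn G (chTh β (((q.2 : ℕ) : ℝ) * hv)) D' (q.1 : V × V).2 (obsH G β D' (drv x) q.2)
  set m1 := magn G (chTh β (((q.2 : ℕ) : ℝ) * hv)) D (q.1 : V × V).1 (obsH G β D (drv x) q.2)
  set m2 := magn G (chTh β (((q.2 : ℕ) : ℝ) * hv)) D (q.1 : V × V).2 (obsH G β D (drv x) q.2)
  rw [show x (resIdx hsub q) - (hv : ℝ) * chLam β * (m1' + m2') -
      (x (resIdx hsub q) - (hv : ℝ) * chLam β * (m1 + m2)) =
      -((hv : ℝ) * chLam β * ((m1' - m1) + (m2' - m2))) by ring, abs_neg, abs_mul,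
    abs_of_nonneg (mul_nonneg (NNReal.coe_nonneg hv) (chLam_nonneg β))]
  exact mul_le_mul_of_nonneg_left (abs_add_le _ _) (mul_nonneg (NNReal.coe_nonneg hv) (chLam_nonneg β))

theorem sq_add3_le (a b c : ℝ) : (a + b + c) ^ 2 ≤ 3 * (a ^ 2 + b ^ 2 + c ^ 2) := by
  nlinarith [sq_nonneg (a - b), sq_nonneg (b - c), sq_nonneg (a - c)]

/-- The squared distance of the averages along the two kinds of innovations. -/
theorem avg_innov_gap_sq (lp : LipPar G d β hv 0 K a θ cs) (hD : IsConvexSet G D) (hsub : D ⊆ D')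
    {v : V} (hv' : v ∈ D) (R : ℕ) (x : CIdx G D' K → ℝ) :
    (avgSet hv (farSet G D K 0 v R) (finalT G β hv D K v)
        (fun q => innovVec G β hv D' K x (resIdx hsub q)) -
      avgSet hv (farSet G D K 0 v R) (finalT G β hv D K v)
        (innovVec G β hv D K fun q => x (resIdx hsub q))) ^ 2 ≤
      ((1 + lipC d β a cs) * (2 * chLam β) * chLam β) ^ 2 *
        ((((dirE G D).filter fun e => ¬ R < G.dist v e.1).card : ℝ) * 2) *
        ∑ e ∈ (dirE G D).filter (fun e => ¬ R < G.dist v e.1),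
          (∑ i ∈ Finset.range K, (hv : ℝ) *
              (obsMagn G β hv D' e.1 i (drv x) - obsMagn G β hv D e.1 i (drv x)) ^ 2 +
            ∑ i ∈ Finset.range K, (hv : ℝ) *
              (obsMagn G β hv D' e.2 i (drv x) - obsMagn G β hv D e.2 i (drv x)) ^ 2) := by
  set E := (dirE G D).filter fun e => ¬ R < G.dist v e.1
  set δ := fun (w : V) (i : ℕ) => obsMagn G β hv D' w i (drv x) - obsMagn G β hv D w i (drv x) with hδ
  set L := (1 + lipC d β a cs) * (2 * chLam β) with hL
  have hL0 : 0 ≤ L := by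
    have := lipC_nonneg (d := d) (β := β) (cs := cs) lp.a_pos.le
    have := chLam_nonneg β
    positivity
  have hsum : ∑ q ∈ Finset.univ \ farSet G D K 0 v R,
      |innovVec G β hv D' K x (resIdx hsub q) -
        innovVec G β hv D K (fun p => x (resIdx hsub p)) q| ≤
      chLam β * ∑ e ∈ E, ∑ i ∈ Finset.range K, (hv : ℝ) * (|δ e.1 i| + |δ e.2 i|) := by
    refine (Finset.sum_le_sum fun q _ => innov_gap hsub x q).trans (le_of_eq ?_)
    have e1 : Finset.univ \ farSet G D K 0 v R =
        Finset.univ.filter (fun q : CIdx G D K => ¬ R < G.dist v (q.1 : V × V).1) := by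
      ext q; simp [farSet]
    rw [e1, Finset.sum_filter, Fintype.sum_prod_type (f := fun q : CIdx G D K =>
      if ¬ R < G.dist v (q.1 : V × V).1 then (hv : ℝ) * chLam β *
        (|δ (q.1 : V × V).1 q.2| + |δ (q.1 : V × V).2 q.2|) else 0)]
    rw [Finset.mul_sum, Finset.sum_filter,
      ← Finset.sum_coe_sort (dirE G D) (fun e => if ¬ R < G.dist v e.1 then
        chLam β * ∑ i ∈ Finset.range K, (hv : ℝ) * (|δ e.1 i| + |δ e.2 i|) else 0)]
    refine Finset.sum_congr rfl fun e _ => ?_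
    by_cases he : R < G.dist v (e : V × V).1
    · simp [he]
    · simp only [he, not_false_iff, if_true]
      rw [Finset.mul_sum, ← Fin.sum_univ_eq_sum_range]
      exact Finset.sum_congr rfl fun k _ => by ring
  have h1 := (avg_finalT_lip lp hD hv' (farSet G D K 0 v R)
    (fun q => innovVec G β hv D' K x (resIdx hsub q))
    (innovVec G β hv D K fun q => x (resIdx hsub q))).trans (mul_le_mul_of_nonneg_left hsum hL0)
  rw [← sq_abs]
  refine (pow_le_pow_left₀ (abs_nonneg _) h1 2).trans ?_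
  rw [← mul_assoc, mul_pow]
  refine le_trans (mul_le_mul_of_nonneg_left ?_ (sq_nonneg _)) (le_of_eq (mul_assoc _ _ _).symm)
  refine sq_sum_le_card_mul_sum_sq.trans ?_
  rw [mul_assoc]
  refine mul_le_mul_of_nonneg_left ?_ (Nat.cast_nonneg _)
  rw [Finset.mul_sum]
  refine Finset.sum_le_sum fun e _ => ?_
  refine sq_sum_le_card_mul_sum_sq.trans ?_
  rw [Finset.card_range, ← Finset.sum_add_distrib, Finset.mul_sum, Finset.mul_sum]
  refine Finset.sum_le_sum fun i _ => ?_
  simp only [hδ]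
  set A := |obsMagn G β hv D' e.1 i (drv x) - obsMagn G β hv D e.1 i (drv x)| with hA
  set B := |obsMagn G β hv D' e.2 i (drv x) - obsMagn G β hv D e.2 i (drv x)| with hB
  rw [← sq_abs (obsMagn G β hv D' e.1 i (drv x) - obsMagn G β hv D e.1 i (drv x)),
    ← sq_abs (obsMagn G β hv D' e.2 i (drv x) - obsMagn G β hv D e.2 i (drv x)), ← hA, ← hB]
  have hh := NNReal.coe_nonneg hv
  calc (K : ℝ) * ((hv : ℝ) * (A + B)) ^ 2 = (K : ℝ) * hv * ((hv : ℝ) * (A + B) ^ 2) := by ring
    _ ≤ 1 * ((hv : ℝ) * (2 * (A ^ 2 + B ^ 2))) :=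
        mul_le_mul lp.time_le (mul_le_mul_of_nonneg_left add_sq_le hh) (by positivity) zero_le_one
    _ = _ := by ring

/-- One volume step: the two finals are close. -/
theorem stab_core (lp : LipPar G d β hv 0 K a θ cs) (h0 : 0 ≤ Real.tanh β) {μ : Measure (V → Bool)}
    (hμ : IsFreeIsing G (Real.tanh β) μ) (vD : IsVol G D) (vD' : IsVol G D') (hsub : D ⊆ D')
    (ok : ChOk β hv K) (hM : 8 * (hv : ℝ) * β * (dirE G D).card ≤ 1)
    (hM' : 8 * (hv : ℝ) * β * (dirE G D').card ≤ 1) {C C' : ℝ}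
    (htr : ∀ (g : (CIdx G D K → ℝ) → ℝ) (B : ℝ), Measurable g → (∀ x, |g x| ≤ B) →
      |∫ x, chZ G β hv D K x * g (innovVec G β hv D K x) ∂gaussPi (CIdx G D K) hv -
        ∫ x, g x ∂gaussPi (CIdx G D K) hv| ≤ C * (1 + B ^ 2) * Real.sqrt hv)
    (htr' : ∀ (g : (CIdx G D' K → ℝ) → ℝ) (B : ℝ), Measurable g → (∀ x, |g x| ≤ B) →
      |∫ x, chZ G β hv D' K x * g (innovVec G β hv D' K x) ∂gaussPi (CIdx G D' K) hv -
        ∫ x, g x ∂gaussPi (CIdx G D' K) hv| ≤ C' * (1 + B ^ 2) * Real.sqrt hv)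
    {v : V} (hv' : v ∈ D) (hnb : ∀ u, G.Adj v u → u ∈ D) (R : ℕ) :
    ∫ x, (finalT G β hv D K v (fun q => x (resIdx hsub q)) - finalT G β hv D' K v x) ^ 2
        ∂gaussPi (CIdx G D' K) hv ≤
      6 * blockVar hv (farSet G D K 0 v R) (finalT G β hv D K v) +
      3 * (((1 + lipC d β a cs) * (2 * chLam β) * chLam β) ^ 2 *
        ((((dirE G D).filter fun e => ¬ R < G.dist v e.1).card : ℝ) * 2) *
        ∑ e ∈ (dirE G D).filter (fun e => ¬ R < G.dist v e.1),
          (∑ i ∈ Finset.range K, (hv : ℝ) * obsExp G β hv D' K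
              (fun b => (obsMagn G β hv D' e.1 i b - obsMagn G β hv D e.1 i b) ^ 2) +
            ∑ i ∈ Finset.range K, (hv : ℝ) * obsExp G β hv D' K
              (fun b => (obsMagn G β hv D' e.2 i b - obsMagn G β hv D e.2 i b) ^ 2))) +
      (68 * C' + 51 * C) * Real.sqrt hv := by
  set F := finalT G β hv D K v
  set F' := finalT G β hv D' K v
  set A := avgSet hv (farSet G D K 0 v R) F
  set res : (CIdx G D' K → ℝ) → CIdx G D K → ℝ := fun x q => x (resIdx hsub q) with hres
  have hresm : Measurable res := measurable_pi_lambda _ fun q => measurable_pi_apply _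
  have hFm : Measurable F := measurable_finalT β hv D K v
  have hF'm : Measurable F' := measurable_finalT β hv D' K v
  have hAm : Measurable A := measurable_avgSet hFm
  have hAb : ∀ u, |A u| ≤ 1 := abs_avgSet_le (abs_finalT_le β hv D K v)
  have hone : ∑ η : D → Bool, freeWeight G (Real.tanh β) D η = 1 :=
    sum_freeWeight_eq_one h0 (Real.tanh_lt_one β) hμ vD.conn
  set gFA := fun u : CIdx G D K → ℝ => (F u - A u) ^ 2 with hgFA
  have hsq : ∀ p q : ℝ, |p| ≤ 1 → |q| ≤ 1 → |(p - q) ^ 2| ≤ 4 := fun p q hp hq => by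
    rw [abs_pow]
    calc |p - q| ^ 2 ≤ (1 + 1) ^ 2 :=
          pow_le_pow_left₀ (abs_nonneg _) ((abs_sub _ _).trans (add_le_add hp hq)) 2
      _ = 4 := by norm_num
  have hgm : Measurable gFA := (hFm.sub hAm).pow_const 2
  have hgb : ∀ u, |gFA u| ≤ 4 := fun u => hsq _ _ (abs_finalT_le β hv D K v u) (hAb u)
  have hT1 : ∫ x, chZ G β hv D' K x * gFA (res (innovVec G β hv D' K x))
      ∂gaussPi (CIdx G D' K) hv ≤ blockVar hv (farSet G D K 0 v R) F + 17 * C' * Real.sqrt hv := by
    have h := (abs_le.mp (htr' (fun u => gFA (res u)) 4 (hgm.comp hresm) fun u => hgb _)).2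
    rw [integral_comp_gauss hv (resIdx_injective hsub) hgm] at h
    have e : blockVar hv (farSet G D K 0 v R) F = ∫ u, gFA u ∂gaussPi (CIdx G D K) hv := rfl
    linarith
  have hT2 : ∫ x, chZ G β hv D' K x * gFA (innovVec G β hv D K (res x))
      ∂gaussPi (CIdx G D' K) hv ≤ blockVar hv (farSet G D K 0 v R) F + 17 * C * Real.sqrt hv := by
    set φ := fun b : ℕ → V × V → ℝ =>
      gFA (innovVec G β hv D K fun q : CIdx G D K => b q.2 q.1) with hφ
    have hφc : ∀ b b' : ℕ → V × V → ℝ, (∀ j < K, ∀ e ∈ dirE G D, b j e = b' j e) → φ b = φ b' :=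
      fun b b' hb => by
        simp only [hφ]
        rw [show (fun q : CIdx G D K => b q.2 q.1) = fun q => b' q.2 q.1 from
          funext fun q => hb _ q.2.isLt _ q.1.2]
    have hin : ∀ {E : Finset V}, PathBdd G E K φ := by
      intro E
      refine ⟨hgm.comp (measurable_innovVec.comp (measurable_pi_lambda _ fun q =>
        measurable_drv _ _)), 4, fun x => hgb _⟩
    have e1 : ∀ x : CIdx G D' K → ℝ, gFA (innovVec G β hv D K (res x)) = φ (drv x) := fun x => by
      simp only [hφ]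
      congr 2
      funext q
      show x (resIdx hsub q) = drv x q.2 q.1
      rw [← drv_resIdx hsub x q.1.2, drv_coord]
    have hcs := spinExp_consistent h0 hμ hsub vD.conn vD'.conn ok hin hφc (fun _ => (1 : ℝ))
    simp only [mul_one] at hcs
    rw [← obsExp_eq_spinExp ok hin, ← obsExp_eq_spinExp ok hin] at hcs
    simp only [e1]
    simp only [obsExp] at hcs
    rw [hcs]
    have e2 : ∀ x : CIdx G D K → ℝ, φ (drv x) = gFA (innovVec G β hv D K x) := fun x => by
      simp only [hφ]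
      congr 2
      exact funext fun q => drv_coord x q
    simp only [e2]
    have h := (abs_le.mp (htr gFA 4 hgm hgb)).2
    have e : blockVar hv (farSet G D K 0 v R) F = ∫ u, gFA u ∂gaussPi (CIdx G D K) hv := rfl
    linarith
  set L2 := ((1 + lipC d β a cs) * (2 * chLam β) * chLam β) ^ 2 *
    ((((dirE G D).filter fun e => ¬ R < G.dist v e.1).card : ℝ) * 2)
  set S := fun b => ∑ e ∈ (dirE G D).filter (fun e => ¬ R < G.dist v e.1),
          (∑ i ∈ Finset.range K, (hv : ℝ) *
              (obsMagn G β hv D' e.1 i b - obsMagn G β hv D e.1 i b) ^ 2 +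
            ∑ i ∈ Finset.range K, (hv : ℝ) *
              (obsMagn G β hv D' e.2 i b - obsMagn G β hv D e.2 i b) ^ 2) with hS
  have hbd : ∀ (w : V) (i : ℕ), i < K → PathBdd G D' K
      (fun b => (obsMagn G β hv D' w i b - obsMagn G β hv D w i b) ^ 2) := by
    intro w i hi
    refine ⟨((measurable_magn_comp _ D' w (measurable_obsH_apply i)).sub
      (measurable_magn_comp _ D w fun u => ?_)).pow_const 2, 4, fun x => hsq _ _
        (abs_magn_le (ok.th_nonneg hi.le) (chTh_lt_one _ _) D' w _)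
        (abs_magn_le (ok.th_nonneg hi.le) (chTh_lt_one _ _) D w _)⟩
    unfold obsH fieldOf
    exact (Finset.measurable_sum _ fun e _ => (Finset.measurable_sum _ fun j _ =>
      measurable_drv j e).const_mul _).const_mul _
  have hb2 : ∀ w, ∀ i ∈ Finset.range K, PathBdd G D' K
      (fun b => (hv : ℝ) * (obsMagn G β hv D' w i b - obsMagn G β hv D w i b) ^ 2) :=
    fun w i hi => (hbd w i (Finset.mem_range.mp hi)).const_mul _
  have hSb : PathBdd G D' K S := PathBdd.sum _ fun e _ =>
    (PathBdd.sum _ (hb2 e.1)).add (PathBdd.sum _ (hb2 e.2))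
  have hpt : ∀ x : CIdx G D' K → ℝ,
      (F (res (innovVec G β hv D' K x)) - F' (innovVec G β hv D' K x)) ^ 2 ≤
      3 * (gFA (res (innovVec G β hv D' K x)) + L2 * S (drv x) +
        gFA (innovVec G β hv D K (res x))) := by
    intro x
    have eF : F' (innovVec G β hv D' K x) = F (innovVec G β hv D K (res x)) := by
      simp only [F, F', finalT, eulerH_innovVec x le_rfl, eulerH_innovVec (res x) le_rfl,
        obsH_eq_of_nbrs hsub hv' hnb]
      rw [obsH_congr D fun j _ e he => (drv_resIdx hsub x he j).symm]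
    rw [eF]
    set u := res (innovVec G β hv D' K x)
    set u' := innovVec G β hv D K (res x)
    have h := sq_add3_le (F u - A u) (A u - A u') (A u' - F u')
    rw [show F u - F u' = F u - A u + (A u - A u') + (A u' - F u') by ring]
    refine h.trans (mul_le_mul_of_nonneg_left (add_le_add (add_le_add le_rfl
      (avg_innov_gap_sq lp vD.convex hsub hv' R x)) (le_of_eq ?_)) (by norm_num))
    simp only [hgFA]; ring
  have hz := expGrowth_chZ (G := G) (D := D') ok
  have iZ : ∀ {g : (CIdx G D' K → ℝ) → ℝ}, Measurable g → ∀ B, (∀ x, |g x| ≤ B) →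
      Integrable (fun x => chZ G β hv D' K x * g x) (gaussPi (CIdx G D' K) hv) :=
    fun hg B hB => (hz.mul (.of_bounded hg hB)).integrable hv
  have i1 := iZ (g := fun x => gFA (res (innovVec G β hv D' K x)))
    (hgm.comp (hresm.comp measurable_innovVec)) 4 fun x => hgb _
  have i2 := iZ (g := fun x => gFA (innovVec G β hv D K (res x)))
    (hgm.comp (measurable_innovVec.comp hresm)) 4 fun x => hgb _
  have i3 := ((hSb.integrand ok).integrable hv).const_mul L2
  have hmain := (abs_le.mp (htr' (fun u => (F (res u) - F' u) ^ 2) 4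
    (((hFm.comp hresm).sub hF'm).pow_const 2)
    fun u => hsq _ _ (abs_finalT_le β hv D K v _) (abs_finalT_le β hv D' K v _))).1
  have i12 : Integrable (fun x => chZ G β hv D' K x * gFA (res (innovVec G β hv D' K x)) +
      L2 * (chZ G β hv D' K x * S (drv x))) (gaussPi (CIdx G D' K) hv) := i1.add i3
  have hI : ∫ x, chZ G β hv D' K x *
      (F (res (innovVec G β hv D' K x)) - F' (innovVec G β hv D' K x)) ^ 2
      ∂gaussPi (CIdx G D' K) hv ≤
      ∫ x, 3 * (chZ G β hv D' K x * gFA (res (innovVec G β hv D' K x)) +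
        L2 * (chZ G β hv D' K x * S (drv x)) +
        chZ G β hv D' K x * gFA (innovVec G β hv D K (res x))) ∂gaussPi (CIdx G D' K) hv := by
    refine integral_mono (iZ (g := fun x =>
      (F (res (innovVec G β hv D' K x)) - F' (innovVec G β hv D' K x)) ^ 2)
      (((hFm.comp (hresm.comp measurable_innovVec)).sub (hF'm.comp measurable_innovVec)).pow_const 2)
      4 fun x => hsq _ _ (abs_finalT_le β hv D K v _) (abs_finalT_le β hv D' K v _))
      ((i12.add i2).const_mul 3) fun x => ?_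
    simp only [Pi.add_apply]
    refine (mul_le_mul_of_nonneg_left (hpt x) (chZ_pos ok.beta_nonneg x).le).trans (le_of_eq ?_)
    ring
  rw [integral_const_mul, integral_add i12 i2, integral_add i1 i3, integral_const_mul] at hI
  have hES : ∫ x, chZ G β hv D' K x * S (drv x) ∂gaussPi (CIdx G D' K) hv =
      ∑ e ∈ (dirE G D).filter (fun e => ¬ R < G.dist v e.1),
          (∑ i ∈ Finset.range K, (hv : ℝ) * obsExp G β hv D' K
              (fun b => (obsMagn G β hv D' e.1 i b - obsMagn G β hv D e.1 i b) ^ 2) +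
            ∑ i ∈ Finset.range K, (hv : ℝ) * obsExp G β hv D' K
              (fun b => (obsMagn G β hv D' e.2 i b - obsMagn G β hv D e.2 i b) ^ 2)) := by
    show obsExp G β hv D' K S = _
    rw [hS, obsExp_sum ok _ fun e _ => (PathBdd.sum _ (hb2 e.1)).add (PathBdd.sum _ (hb2 e.2))]
    refine Finset.sum_congr rfl fun e _ => ?_
    rw [obsExp_add ok (PathBdd.sum _ (hb2 e.1)) (PathBdd.sum _ (hb2 e.2)),
      obsExp_sum ok _ (hb2 e.1), obsExp_sum ok _ (hb2 e.2)]
    simp only [obsExp_const_mul]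
  rw [hES] at hI
  simp only [hres] at hmain hI hT1 hT2 ⊢
  linarith

end Vale.Agent.P161
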