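import Vale.Agent.P161.Crit.Stab

/-!
# Weights below the critical coupling, and stability in the volume
-/

namespace Vale.Agent.P161

open SimpleGraph MeasureTheory ProbabilityTheory Filter
open scoped Classical NNReal Topology

variable {V : Type*} {G : SimpleGraph V} {d : ℕ} {t β : ℝ}

/-- Weights for couplings up to `θ`. -/
structure Weights (G : SimpleGraph V) (d : ℕ) (θ a y cs : ℝ) : Prop where
  a_pos : 0 < a
  a_le : a ≤ 1
  th_le_a : θ ≤ a
  th_nonneg : 0 ≤ θ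
  cs_nonneg : 0 ≤ cs
  sq_lt : a ^ 2 < y
  y_lt : ((d : ℝ) - 1) * y < 1
  schur : ∀ (s : Finset V) (v z : V),
    ∑ u ∈ s, θ ^ G.dist v u * a ^ G.dist u z ≤ cs * a ^ G.dist v z

theorem exists_weights (hG : G.IsTree) (hd : 3 ≤ d) (hreg : ∀ v, (G.neighborSet v).ncard = d)
    (hbt : ((d : ℝ) - 1) * t ^ 2 = 1) {θ : ℝ} (h0 : 0 ≤ θ) (hθ : θ < t) :
    ∃ a y cs : ℝ, Weights G d θ a y cs := by
  have hd3 : (3 : ℝ) ≤ d := by exact_mod_cast hd
  have hb : 0 < (d : ℝ) - 1 := by linarith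
  set a := (θ + t) / 2 with ha
  have h1 : θ < a := by rw [ha]; linarith
  have h2 : a < t := by rw [ha]; linarith
  have hsq : a ^ 2 < t ^ 2 := pow_lt_pow_left₀ h2 (h0.trans h1.le) two_ne_zero
  have hy : ((d : ℝ) - 1) * ((a ^ 2 + t ^ 2) / 2) < 1 :=
    lt_of_lt_of_eq (mul_lt_mul_of_pos_left (by linarith) hb) hbt
  have hta : ((d : ℝ) - 1) * (θ * a) < 1 := by
    refine lt_of_lt_of_eq (mul_lt_mul_of_pos_left (lt_of_le_of_lt ?_ hsq) hb) hbt
    rw [sq]; exact mul_le_mul_of_nonneg_right h1.le (h0.trans h1.le)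
  obtain ⟨cs, hcs, hs⟩ := exists_schur_const hG hd hreg h0 h1 hta
  have ht1 : t ≤ 1 := by nlinarith
  exact ⟨a, (a ^ 2 + t ^ 2) / 2, cs, h0.trans_lt h1, by linarith, h1.le, h0, hcs, by linarith,
    hy, hs⟩

theorem Weights.lipPar {θ a y cs : ℝ} (wt : Weights G d θ a y cs) (hG : G.IsTree) (hd : 3 ≤ d)
    (hreg : ∀ v, (G.neighborSet v).ncard = d) {hv : ℝ≥0} {J K : ℕ} (ok : ChOk β hv K)
    (hth : ∀ i, J ≤ i → i < K → chTh β ((i : ℝ) * hv) ≤ θ) :
    LipPar G d β hv J K a θ cs :=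
  ⟨hG, hd, hreg, ok.beta_nonneg, NNReal.coe_nonneg hv, ok.time_le, hth, wt.a_pos, wt.a_le,
    wt.th_le_a, wt.th_nonneg, wt.cs_nonneg, wt.schur⟩

theorem chTh_le_tanh (hβ : 0 ≤ β) {r : ℝ} (hr0 : 0 ≤ r) (hr1 : r ≤ 1) :
    chTh β r ≤ Real.tanh β := by
  have h := chTh_gap (β₀ := 0) le_rfl hβ le_rfl (Real.tanh_lt_one β).le hr0 hr1
  simp only [zero_mul] at h
  linarith

theorem tanh_nonneg' (hβ : 0 ≤ β) : 0 ≤ Real.tanh β := by
  simpa [chTh] using chTh_nonneg hβ (r := 0) zero_le_one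

theorem Weights.lipPar_zero {a y cs : ℝ} (wt : Weights G d (Real.tanh β) a y cs) (hG : G.IsTree)
    (hd : 3 ≤ d) (hreg : ∀ v, (G.neighborSet v).ncard = d) {hv : ℝ≥0} {K : ℕ}
    (ok : ChOk β hv K) : LipPar G d β hv 0 K a (Real.tanh β) cs :=
  wt.lipPar hG hd hreg ok fun i _ hi => chTh_le_tanh ok.beta_nonneg
    (mul_nonneg (Nat.cast_nonneg i) (NNReal.coe_nonneg hv)) (ok.mono hi.le).time_le

theorem tendsto_sqrt_stepLen :
    Tendsto (fun j => Real.sqrt (stepLen j : ℝ)) atTop (𝓝 0) := by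
  have h : Tendsto (fun j => (stepLen j : ℝ)) atTop (𝓝 0) := by
    simp only [stepLen_coe]
    exact tendsto_pow_atTop_nhds_zero_of_lt_one (by norm_num) (by norm_num)
  simpa [Function.comp_def] using (Real.continuous_sqrt.tendsto 0).comp h

theorem eventually_small (C : ℝ) {ε : ℝ} (hε : 0 < ε) :
    ∀ᶠ j in atTop, C * Real.sqrt (stepLen j : ℝ) ≤ ε ∧ C * (stepLen j : ℝ) ≤ ε := by
  have h1 : Tendsto (fun j => C * Real.sqrt (stepLen j : ℝ)) atTop (𝓝 0) := by
    simpa using tendsto_sqrt_stepLen.const_mul C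
  have h2 : Tendsto (fun j => C * (stepLen j : ℝ)) atTop (𝓝 0) := by
    have h : Tendsto (fun j => (stepLen j : ℝ)) atTop (𝓝 0) := by
      simp only [stepLen_coe]
      exact tendsto_pow_atTop_nhds_zero_of_lt_one (by norm_num) (by norm_num)
    simpa using h.const_mul C
  exact (h1.eventually (eventually_le_nhds hε)).and (h2.eventually (eventually_le_nhds hε))

theorem eventually_fine (hβ : 0 ≤ β) (D : Finset V) :
    ∀ᶠ j in atTop, 8 * (stepLen j : ℝ) * β * (dirE G D).card ≤ 1 := by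
  filter_upwards [eventually_small (8 * β * (dirE G D).card) one_pos] with j hj
  linarith [hj.2]

theorem card_near_le (hG : G.IsTree) (hd : 3 ≤ d) (hreg : ∀ v, (G.neighborSet v).ncard = d)
    (D : Finset V) (v : V) (R : ℕ) :
    (((dirE G D).filter fun e => ¬ R < G.dist v e.1).card : ℝ) ≤
      d * (ballSet hG hd hreg v R).card := by
  have h := sum_dirE_fst_le hd hreg D (g := fun u => if ¬ R < G.dist v u then (1 : ℝ) else 0)
    fun u => by split_ifs <;> norm_num
  rw [Finset.sum_boole, Finset.sum_boole] at h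
  refine h.trans (mul_le_mul_of_nonneg_left ?_ (Nat.cast_nonneg d))
  exact_mod_cast Finset.card_le_card fun u hu => by
    rw [mem_ballSet]; exact not_lt.mp (Finset.mem_filter.mp hu).2

/-- Stability in the volume. -/
theorem exists_stab (hG : G.IsTree) (hd : 3 ≤ d) (hreg : ∀ v, (G.neighborSet v).ncard = d)
    (hbt : ((d : ℝ) - 1) * t ^ 2 = 1) (hβ : 0 ≤ β) (hlt : Real.tanh β < t)
    {μ : Measure (V → Bool)} (hμ : IsFreeIsing G (Real.tanh β) μ) (v : V) {ε : ℝ} (hε : 0 < ε) :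
    ∃ n₀ : ℕ, ∀ D D' : Finset V, IsVol G D → IsVol G D' → ballSet hG hd hreg v n₀ ⊆ D →
      ∀ hsub : D ⊆ D', ∀ᶠ j in atTop,
        ∫ x, (finalT G β (stepLen j) D (2 ^ j) v (fun q => x (resIdx hsub q)) -
          finalT G β (stepLen j) D' (2 ^ j) v x) ^ 2
            ∂gaussPi (CIdx G D' (2 ^ j)) (stepLen j) ≤ ε := by
  have h0 := tanh_nonneg' hβ
  obtain ⟨a, y, cs, wt⟩ := exists_weights hG hd hreg hbt h0 hlt
  set CF := ((1 + lipC d β a cs) * chLam β * (1 + 1 / a)) ^ 2 * d *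
        (1 + d * y / (1 - ((d : ℝ) - 1) * y)) with hCF
  have hy0 : 0 < y := (sq_nonneg a).trans_lt wt.sq_lt
  have hrho : Tendsto (fun R : ℕ => 6 * CF * (a ^ 2 / y) ^ R) atTop (𝓝 0) := by
    simpa using (tendsto_pow_atTop_nhds_zero_of_lt_one (by positivity)
      ((div_lt_one hy0).mpr wt.sq_lt)).const_mul (6 * CF)
  obtain ⟨R, hR⟩ := (hrho.eventually (eventually_le_nhds (show (0:ℝ) < ε / 3 by positivity))).exists
  set M := (d : ℝ) * (ballSet hG hd hreg v R).card with hM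
  set L2 := ((1 + lipC d β a cs) * (2 * chLam β) * chLam β) ^ 2 with hL2
  set ε' := ε / 3 / (3 * (L2 * (M * 2) * (M * 2)) + 1) with hε'def
  have hε' : 0 < ε' := by positivity
  choose nw jw hw using fun w : V => exists_sq_close hG hd hreg h0 hβ hμ w hε'
  set B1 := ballSet hG hd hreg v (R + 1) with hB1
  refine ⟨B1.sup (fun w => nw w + (R + 1)) + (R + 1), fun D D' vD vD' hball hsub => ?_⟩
  have hone := sum_freeWeight_eq_one h0 (Real.tanh_lt_one β) hμ vD.conn
  have hone' := sum_freeWeight_eq_one h0 (Real.tanh_lt_one β) hμ vD'.conn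
  obtain ⟨C, hC, htr⟩ := exists_transfer (G := G) (D := D) hβ hone
  obtain ⟨C', hC', htr'⟩ := exists_transfer (G := G) (D := D') hβ hone'
  filter_upwards [eventually_small (68 * C' + 51 * C) (show (0:ℝ) < ε / 3 by positivity),
    eventually_fine (G := G) hβ D, eventually_fine (G := G) hβ D',
    eventually_ge_atTop (B1.sup jw)] with j hj hf hf' hjw
  have ok := chOk_stepLen hβ j (K := 2 ^ j) le_rfl
  have lp := wt.lipPar_zero hG hd hreg ok
  have hvD : v ∈ D := hball (mem_ballSet.mpr (by simp))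
  have hnb : ∀ u, G.Adj v u → u ∈ D := fun u hu => hball (mem_ballSet.mpr (by
    rw [SimpleGraph.dist_eq_one_iff_adj.mpr hu]; omega))
  refine (stab_core lp h0 hμ vD vD' hsub ok hf hf' (htr _ _ ok hf) (htr' _ _ ok hf') hvD hnb R).trans ?_
  have h1 : 6 * blockVar (stepLen j) (farSet G D (2 ^ j) 0 v R)
      (finalT G β (stepLen j) D (2 ^ j) v) ≤ ε / 3 := by
    refine (mul_le_mul_of_nonneg_left (far_blockVar_le lp vD.convex hvD wt.sq_lt wt.y_lt R)
      (by norm_num)).trans (le_of_eq_of_le ?_ hR)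
    rw [hCF]; ring
  set E := (dirE G D).filter fun e => ¬ R < G.dist v e.1 with hE
  have hEc : (E.card : ℝ) ≤ M := card_near_le hG hd hreg D v R
  have hterm : ∀ w ∈ B1, ∑ i ∈ Finset.range (2 ^ j), (stepLen j : ℝ) *
      obsExp G β (stepLen j) D' (2 ^ j) (fun b => (obsMagn G β (stepLen j) D' w i b -
        obsMagn G β (stepLen j) D w i b) ^ 2) ≤ ε' := by
    intro w hwB
    have hsup : nw w + (R + 1) ≤ B1.sup (fun w => nw w + (R + 1)) :=
      Finset.le_sup (f := fun w => nw w + (R + 1)) hwB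
    have hdist := mem_ballSet.mp hwB
    have hb : ballSet hG hd hreg w (nw w) ⊆ D := fun x hx => hball (mem_ballSet.mpr (by
      have h3 := mem_ballSet.mp hx
      have h4 := hG.connected.dist_triangle (u := v) (v := w) (w := x)
      omega))
    rw [sum_magn_diff h0 hβ hμ hsub vD.conn vD'.conn j (hb (mem_ballSet.mpr (by simp)))]
    exact hw w D D' vD vD' hb hsub j ((Finset.le_sup hwB).trans hjw)
  have hEm : ∀ e ∈ E, e.1 ∈ B1 ∧ e.2 ∈ B1 := by
    intro e he
    obtain ⟨he1, he2⟩ := Finset.mem_filter.mp he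
    obtain ⟨-, -, hadj⟩ := mem_dirE.mp he1
    have h4 := hG.connected.dist_triangle (u := v) (v := e.1) (w := e.2)
    rw [SimpleGraph.dist_eq_one_iff_adj.mpr hadj] at h4
    simp only [hB1, mem_ballSet]
    omega
  set S := ∑ e ∈ E,
      (∑ i ∈ Finset.range (2 ^ j), (stepLen j : ℝ) * obsExp G β (stepLen j) D' (2 ^ j)
          (fun b => (obsMagn G β (stepLen j) D' e.1 i b - obsMagn G β (stepLen j) D e.1 i b) ^ 2) +
        ∑ i ∈ Finset.range (2 ^ j), (stepLen j : ℝ) * obsExp G β (stepLen j) D' (2 ^ j)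
          (fun b => (obsMagn G β (stepLen j) D' e.2 i b - obsMagn G β (stepLen j) D e.2 i b) ^ 2))
  have hS : S ≤ M * 2 * ε' := by
    refine (Finset.sum_le_sum fun e he => add_le_add (hterm _ (hEm e he).1)
      (hterm _ (hEm e he).2)).trans ?_
    rw [Finset.sum_const, nsmul_eq_mul]
    linarith [mul_le_mul_of_nonneg_right hEc hε'.le]
  have h2 : 3 * (L2 * ((E.card : ℝ) * 2) * S) ≤ ε / 3 := by
    have hbig : L2 * ((E.card : ℝ) * 2) * S ≤ L2 * (M * 2) * (M * 2 * ε') :=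
      (mul_le_mul_of_nonneg_left hS (by positivity)).trans (mul_le_mul_of_nonneg_right
        (mul_le_mul_of_nonneg_left (by linarith) (sq_nonneg _)) (by positivity))
    have he : ε' * (3 * (L2 * (M * 2) * (M * 2)) + 1) = ε / 3 := by
      rw [hε'def]; exact div_mul_cancel₀ _ (by positivity)
    have : L2 * (M * 2) * (M * 2 * ε') = ε' * (L2 * (M * 2) * (M * 2)) := by ring
    linarith
  linarith [hj.1]

end Vale.Agent.P161
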